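import Mathlib.RingTheory.PowerSeries.Restricted
import Mathlib.RingTheory.PowerSeries.Substitution
import Mathlib.RingTheory.PowerSeries.Derivative
import Mathlib.RingTheory.PowerSeries.Trunc
import Mathlib.Analysis.Normed.Group.Ultra
import Mathlib.Analysis.Normed.Field.Ultra
import Mathlib.Analysis.SpecificLimits.Basic
import Mathlib.Topology.Algebra.InfiniteSum.Nonarchimedean

/-!
# P022K, block FI, row AN4: bounds for power series and composition of convergent series
-/

set_option linter.all false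

noncomputable section

namespace Vale.Agent.P022K.FI.An4

open PowerSeries Filter Topology

variable {C : Type*} [NormedField C] [IsUltrametricDist C]

/-- the Gauss norm of radius `r` is at most `B` -/
def Bnd (r B : ℝ) (f : C⟦X⟧) : Prop := ∀ n, ‖coeff n f‖ * r ^ n ≤ B

/-- the same for the coefficients of index `< N` -/
def BndT (r B : ℝ) (N : ℕ) (f : C⟦X⟧) : Prop := ∀ n < N, ‖coeff n f‖ * r ^ n ≤ B

section bnd

variable {r B B' : ℝ} {N : ℕ} {f g : C⟦X⟧}

omit [IsUltrametricDist C] in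
theorem Bnd.nonneg (h : Bnd r B f) : 0 ≤ B := by
  have := h 0
  rw [pow_zero, mul_one] at this
  exact (norm_nonneg _).trans this

omit [IsUltrametricDist C] in
theorem Bnd.t (h : Bnd r B f) (N : ℕ) : BndT r B N f := fun n _ => h n

omit [IsUltrametricDist C] in
theorem bnd_iff : Bnd r B f ↔ ∀ N, BndT r B N f :=
  ⟨fun h N => h.t N, fun h n => h (n + 1) n n.lt_succ_self⟩

omit [IsUltrametricDist C] in
theorem Bnd.mono (h : Bnd r B f) (hB : B ≤ B') : Bnd r B' f := fun n => (h n).trans hB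

omit [IsUltrametricDist C] in
theorem Bnd.anti {r' : ℝ} (h : Bnd r B f) (h0 : 0 ≤ r') (hr : r' ≤ r) : Bnd r' B f := fun n =>
  le_trans (by gcongr) (h n)

theorem norm_sum_mul_le {ι : Type*} (s : Finset ι) (a : ι → C) {c B : ℝ} (hc : 0 ≤ c) (hB : 0 ≤ B)
    (h : ∀ i ∈ s, ‖a i‖ * c ≤ B) : ‖∑ i ∈ s, a i‖ * c ≤ B := by
  rcases hc.eq_or_lt with rfl | hc
  · simpa using hB
  rw [← le_div_iff₀ hc]
  exact IsUltrametricDist.norm_sum_le_of_forall_le_of_nonneg (by positivity)
    fun i hi => (le_div_iff₀ hc).2 (h i hi)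

theorem norm_add_mul_le (a b : C) {c B : ℝ} (hc : 0 ≤ c) (ha : ‖a‖ * c ≤ B) (hb : ‖b‖ * c ≤ B) :
    ‖a + b‖ * c ≤ B := by
  refine le_trans (mul_le_mul_of_nonneg_right (IsUltrametricDist.norm_add_le_max a b) hc) ?_
  rcases max_choice ‖a‖ ‖b‖ with h | h <;> rw [h] <;> assumption

theorem BndT.mul (hr : 0 ≤ r) (hB : 0 ≤ B) (hB' : 0 ≤ B') (hf : BndT r B N f)
    (hg : BndT r B' N g) : BndT r (B * B') N (f * g) := by
  intro n hn
  rw [coeff_mul]
  refine norm_sum_mul_le _ _ (by positivity) (by positivity) ?_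
  rintro ⟨u, v⟩ huv
  have huv : u + v = n := Finset.HasAntidiagonal.mem_antidiagonal.1 huv
  rw [norm_mul, ← huv, pow_add, mul_mul_mul_comm]
  exact mul_le_mul (hf u (by omega)) (hg v (by omega)) (by positivity) hB

omit [IsUltrametricDist C] in
theorem bnd_C (r : ℝ) (c : C) : Bnd r ‖c‖ (PowerSeries.C c) := by
  intro n
  rw [coeff_C]
  split_ifs with h
  · rw [h, pow_zero, mul_one]
  · simp

omit [IsUltrametricDist C] in
theorem bnd_one (r : ℝ) : Bnd r 1 (1 : C⟦X⟧) := by simpa using bnd_C r (1 : C)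

omit [IsUltrametricDist C] in
theorem bnd_zero (r : ℝ) (hB : 0 ≤ B) : Bnd r B (0 : C⟦X⟧) := fun n => by simpa using hB

omit [IsUltrametricDist C] in
theorem bnd_X (hr : 0 ≤ r) : Bnd r r (X : C⟦X⟧) := by
  intro n
  rw [coeff_X]
  split_ifs with h
  · rw [h]; simp
  · simpa using hr

theorem BndT.pow (hr : 0 ≤ r) (hB : 0 ≤ B) (hf : BndT r B N f) (d : ℕ) :
    BndT r (B ^ d) N (f ^ d) := by
  induction d with
  | zero => rw [pow_zero, pow_zero]; exact (bnd_one r).t N
  | succ d ih => rw [pow_succ, pow_succ]; exact ih.mul hr (by positivity) hB hf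

theorem Bnd.mul (hr : 0 ≤ r) (hf : Bnd r B f) (hg : Bnd r B' g) : Bnd r (B * B') (f * g) :=
  bnd_iff.2 fun N => (hf.t N).mul hr hf.nonneg hg.nonneg (hg.t N)

theorem Bnd.pow (hr : 0 ≤ r) (hf : Bnd r B f) (d : ℕ) : Bnd r (B ^ d) (f ^ d) :=
  bnd_iff.2 fun N => (hf.t N).pow hr hf.nonneg d

theorem Bnd.add (hr : 0 ≤ r) (hf : Bnd r B f) (hg : Bnd r B g) : Bnd r B (f + g) := fun n => by
  rw [map_add]
  exact norm_add_mul_le _ _ (by positivity) (hf n) (hg n)

omit [IsUltrametricDist C] in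
theorem Bnd.neg (hf : Bnd r B f) : Bnd r B (-f) := fun n => by
  rw [map_neg, norm_neg]
  exact hf n

theorem Bnd.sub (hr : 0 ≤ r) (hf : Bnd r B f) (hg : Bnd r B g) : Bnd r B (f - g) := by
  rw [sub_eq_add_neg]
  exact hf.add hr hg.neg

theorem Bnd.sum {ι : Type*} (hr : 0 ≤ r) (hB : 0 ≤ B) (s : Finset ι) {f : ι → C⟦X⟧}
    (h : ∀ i ∈ s, Bnd r B (f i)) : Bnd r B (∑ i ∈ s, f i) := fun n => by
  rw [map_sum]
  exact norm_sum_mul_le _ _ (by positivity) hB fun i hi => h i hi n

omit [IsUltrametricDist C] in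
theorem Bnd.eq_zero (hr : 0 < r) (h : ∀ ε, 0 < ε → Bnd r ε f) : f = 0 := by
  ext n
  have h1 : ‖coeff n f‖ * r ^ n ≤ 0 := le_of_forall_pos_le_add fun ε hε => by
    rw [zero_add]; exact h ε hε n
  have h2 : 0 < r ^ n := by positivity
  have h3 : ‖coeff n f‖ ≤ 0 := by
    by_contra h4
    exact absurd (mul_pos (not_le.1 h4) h2) (not_lt.2 h1)
  rw [map_zero]
  exact norm_le_zero_iff.1 h3

omit [IsUltrametricDist C] in
/-- a restricted series is bounded -/
theorem exists_bnd (hf : IsRestricted r f) : ∃ B, 0 < B ∧ Bnd r B f := by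
  obtain ⟨B, hB⟩ := ((isRestricted_iff' r f).1 hf).bddAbove_range
  refine ⟨max B 1, by positivity, fun n => le_trans (hB ⟨n, rfl⟩) (le_max_left _ _)⟩

omit [IsUltrametricDist C] in
/-- bounded at radius `r` gives restricted at every smaller radius -/
theorem Bnd.res {r' : ℝ} (h : Bnd r B f) (h0 : 0 ≤ r') (hr : r' < r) : IsRestricted r' f := by
  rw [isRestricted_iff']
  have hr0 : 0 < r := h0.trans_lt hr
  have h1 : Tendsto (fun n : ℕ => B * (r' / r) ^ n) atTop (𝓝 0) := by
    simpa using (tendsto_pow_atTop_nhds_zero_of_lt_one (by positivity)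
      ((div_lt_one hr0).2 hr)).const_mul B
  refine squeeze_zero (fun n => by positivity) (fun n => ?_) h1
  have e : ‖coeff n f‖ * r' ^ n = ‖coeff n f‖ * r ^ n * (r' / r) ^ n := by
    rw [div_pow]; field_simp
  rw [e]
  exact mul_le_mul_of_nonneg_right (h n) (by positivity)

omit [IsUltrametricDist C] in
theorem res_anti {r' : ℝ} (h : IsRestricted r f) (h0 : 0 ≤ r') (hr : r' ≤ r) :
    IsRestricted r' f := by
  rw [isRestricted_iff'] at h ⊢
  exact squeeze_zero (fun n => by positivity) (fun n => by gcongr) h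

omit [IsUltrametricDist C] in
theorem res_poly (r : ℝ) (p : Polynomial C) : IsRestricted r (p : C⟦X⟧) := by
  rw [isRestricted_iff']
  refine tendsto_const_nhds.congr' ?_
  filter_upwards [eventually_gt_atTop p.natDegree] with n hn
  rw [Polynomial.coeff_coe, Polynomial.coeff_eq_zero_of_natDegree_lt hn, norm_zero, zero_mul]

omit [IsUltrametricDist C] in
theorem res_X (r : ℝ) : IsRestricted r (X : C⟦X⟧) := by
  simpa using res_poly r (Polynomial.X : Polynomial C)

omit [IsUltrametricDist C] in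
theorem res_sub (hf : IsRestricted r f) (hg : IsRestricted r g) : IsRestricted r (f - g) := by
  rw [sub_eq_add_neg]
  exact isRestricted.add r hf (isRestricted.neg r hg)

theorem res_pow (hf : IsRestricted r f) (d : ℕ) : IsRestricted r (f ^ d) := by
  induction d with
  | zero => rw [pow_zero]; exact isRestricted_one r
  | succ d ih => rw [pow_succ]; exact isRestricted.mul r ih hf

omit [IsUltrametricDist C] in
/-- approximation by the truncations -/
theorem exists_trunc (hf : IsRestricted r f) {ε : ℝ} (hε : 0 < ε) :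
    ∃ N, ∀ M, N ≤ M → Bnd r ε (f - ((trunc M f : Polynomial C) : C⟦X⟧)) := by
  obtain ⟨N, hN⟩ := eventually_atTop.1 (((isRestricted_iff' r f).1 hf).eventually_le_const hε)
  refine ⟨N, fun M hM n => ?_⟩
  rw [map_sub, Polynomial.coeff_coe, coeff_trunc]
  split_ifs with h
  · simpa using hε.le
  · rw [sub_zero]
    exact hN n (by omega)

omit [IsUltrametricDist C] in
theorem Bnd.trunc (hf : Bnd r B f) (M : ℕ) : Bnd r B ((trunc M f : Polynomial C) : C⟦X⟧) := by
  intro n
  rw [Polynomial.coeff_coe, coeff_trunc]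
  split_ifs with h
  · exact hf n
  · simpa using hf.nonneg

/-- a limit of restricted series is restricted -/
theorem res_of_approx (hr : 0 ≤ r) (h : ∀ ε, 0 < ε → ∃ g, IsRestricted r g ∧ Bnd r ε (f - g)) :
    IsRestricted r f := by
  rw [isRestricted_iff', Metric.tendsto_atTop]
  intro ε hε
  obtain ⟨g, hg, hb⟩ := h (ε / 2) (by positivity)
  obtain ⟨N, hN⟩ := eventually_atTop.1
    (((isRestricted_iff' r g).1 hg).eventually_le_const (show 0 < ε / 2 by positivity))
  refine ⟨N, fun n hn => ?_⟩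
  rw [Real.dist_0_eq_abs, abs_of_nonneg (by positivity)]
  have e : coeff n f = coeff n (f - g) + coeff n g := by rw [map_sub, sub_add_cancel]
  rw [e]
  exact (norm_add_mul_le _ _ (by positivity) (hb n) (hN n hn)).trans_lt (by linarith)

/-- continuity principle: an additive bounded map which kills polynomials kills everything -/
theorem ext_poly {ρ c : ℝ} (hr : 0 < r) (hc : 0 < c) (T : C⟦X⟧ → C⟦X⟧)
    (hadd : ∀ f g, IsRestricted ρ f → IsRestricted ρ g → T (f + g) = T f + T g)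
    (hb : ∀ f B, IsRestricted ρ f → Bnd ρ B f → Bnd r (c * B) (T f))
    (hp : ∀ p : Polynomial C, T p = 0) (hf : IsRestricted ρ f) : T f = 0 := by
  refine Bnd.eq_zero hr fun ε hε => ?_
  obtain ⟨N, hN⟩ := exists_trunc hf (show 0 < ε / c by positivity)
  have h1 := res_sub hf (res_poly ρ (trunc N f))
  have h2 := hadd _ _ h1 (res_poly ρ (trunc N f))
  rw [sub_add_cancel, hp, add_zero] at h2
  have h3 := hb _ _ h1 (hN N le_rfl)
  rwa [← h2, mul_div_cancel₀ _ hc.ne'] at h3

end bnd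

section cmp

/-- composition `f (φ)` of convergent series (the constant term of `φ` may be non zero) -/
def cmp (φ f : C⟦X⟧) : C⟦X⟧ := PowerSeries.mk fun n => ∑' d, coeff d f * coeff n (φ ^ d)

/-- value of a convergent series -/
def ev (a : C) (f : C⟦X⟧) : C := ∑' n, coeff n f * a ^ n

variable {r ρ s B : ℝ} {φ ψ f g : C⟦X⟧}

omit [IsUltrametricDist C] in
theorem coeff_cmp (φ f : C⟦X⟧) (n : ℕ) :
    coeff n (cmp φ f) = ∑' d, coeff d f * coeff n (φ ^ d) := coeff_mk _ _

theorem term_le (hr : 0 ≤ r) (hφ : Bnd r ρ φ) (f : C⟦X⟧) (n d : ℕ) :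
    ‖coeff d f * coeff n (φ ^ d)‖ * r ^ n ≤ ‖coeff d f‖ * ρ ^ d := by
  rw [norm_mul, mul_assoc]
  exact mul_le_mul_of_nonneg_left (hφ.pow hr d n) (norm_nonneg _)

theorem Bnd.cmp (hr : 0 < r) (hφ : Bnd r ρ φ) (hf : Bnd ρ B f) : Bnd r B (cmp φ f) := by
  intro n
  have h0 : 0 < r ^ n := by positivity
  rw [coeff_cmp, ← le_div_iff₀ h0]
  refine IsUltrametricDist.norm_tsum_le_of_forall_le_of_nonneg
    (div_nonneg hf.nonneg h0.le) fun d => ?_
  rw [le_div_iff₀ h0]
  exact (term_le hr.le hφ f n d).trans (hf d)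

omit [IsUltrametricDist C] in
theorem cmp_poly (φ : C⟦X⟧) (p : Polynomial C) : cmp φ p = Polynomial.aeval φ p := by
  ext n
  rw [coeff_cmp, tsum_eq_sum (s := Finset.range (p.natDegree + 1)),
    Polynomial.aeval_eq_sum_range, map_sum]
  · refine Finset.sum_congr rfl fun d _ => ?_
    rw [Polynomial.coeff_coe, coeff_smul, smul_eq_mul]
  · intro d hd
    rw [Polynomial.coeff_coe, Polynomial.coeff_eq_zero_of_natDegree_lt (by simpa using hd),
      zero_mul]

omit [IsUltrametricDist C] in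
theorem cmp_C (φ : C⟦X⟧) (c : C) : cmp φ (PowerSeries.C c) = PowerSeries.C c := by
  have := cmp_poly φ (Polynomial.C c)
  rwa [Polynomial.coe_C, Polynomial.aeval_C] at this

omit [IsUltrametricDist C] in
theorem cmp_one (φ : C⟦X⟧) : cmp φ 1 = 1 := by simpa using cmp_C φ 1

omit [IsUltrametricDist C] in
theorem cmp_zero (φ : C⟦X⟧) : cmp φ 0 = 0 := by simpa using cmp_C φ 0

omit [IsUltrametricDist C] in
theorem cmp_X (φ : C⟦X⟧) : cmp φ X = φ := by
  have := cmp_poly φ Polynomial.X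
  rwa [Polynomial.coe_X, Polynomial.aeval_X] at this

omit [IsUltrametricDist C] in
/-- for zero constant term, `cmp` is the formal substitution -/
theorem cmp_eq_subst (h0 : constantCoeff φ = 0) (f : C⟦X⟧) : cmp φ f = f.subst φ := by
  have h := HasSubst.of_constantCoeff_zero' h0
  ext n
  rw [coeff_cmp, coeff_subst' h]
  exact tsum_eq_finsum (coeff_subst_finite' h f n)

omit [IsUltrametricDist C] in
theorem X_cmp (f : C⟦X⟧) : cmp X f = f := by
  rw [cmp_eq_subst constantCoeff_X, X_subst]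

omit [IsUltrametricDist C] in
theorem constantCoeff_cmp (φ f : C⟦X⟧) : constantCoeff (cmp φ f) = ev (constantCoeff φ) f := by
  rw [← coeff_zero_eq_constantCoeff_apply, coeff_cmp, ev]
  simp only [coeff_zero_eq_constantCoeff, map_pow]

omit [IsUltrametricDist C] in
theorem C_cmp (a : C) (f : C⟦X⟧) : cmp (PowerSeries.C a) f = PowerSeries.C (ev a f) := by
  ext n
  rw [coeff_cmp, coeff_C]
  split_ifs with h
  · simp only [h, ← map_pow, coeff_zero_C, ev]
  · simp only [← map_pow, coeff_C, if_neg h, mul_zero, tsum_zero]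

omit [IsUltrametricDist C] in
theorem ev_zero (f : C⟦X⟧) : ev 0 f = constantCoeff f := by
  rw [ev, tsum_eq_single 0 fun n hn => by rw [zero_pow hn, mul_zero]]
  simp

omit [IsUltrametricDist C] in
theorem ev_poly (a : C) (p : Polynomial C) : ev a p = p.eval a := by
  have h := C_cmp a (p : C⟦X⟧)
  rw [cmp_poly, C_eq_algebraMap, Polynomial.aeval_algebraMap_apply_eq_algebraMap_eval,
    ← C_eq_algebraMap] at h
  exact (C_injective h).symm

theorem Bnd.ev {a : C} (hf : Bnd r B f) (ha : ‖a‖ ≤ r) : ‖ev a f‖ ≤ B := by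
  refine IsUltrametricDist.norm_tsum_le_of_forall_le_of_nonneg hf.nonneg fun d => ?_
  rw [norm_mul, norm_pow]
  exact le_trans (by gcongr) (hf d)

variable [CompleteSpace C]

theorem summable_cmp (hr : 0 < r) (hφ : Bnd r ρ φ) (hf : IsRestricted ρ f) (n : ℕ) :
    Summable fun d => coeff d f * coeff n (φ ^ d) := by
  refine NonarchimedeanAddGroup.summable_of_tendsto_cofinite_zero ?_
  rw [Nat.cofinite_eq_atTop, tendsto_zero_iff_norm_tendsto_zero]
  have h0 : 0 < r ^ n := by positivity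
  have h1 := ((isRestricted_iff' ρ f).1 hf).div_const (r ^ n)
  rw [zero_div] at h1
  exact squeeze_zero (fun _ => norm_nonneg _)
    (fun d => (le_div_iff₀ h0).2 (term_le hr.le hφ f n d)) h1

theorem cmp_add (hr : 0 < r) (hφ : Bnd r ρ φ) (hf : IsRestricted ρ f) (hg : IsRestricted ρ g) :
    cmp φ (f + g) = cmp φ f + cmp φ g := by
  ext n
  rw [map_add, coeff_cmp, coeff_cmp, coeff_cmp,
    ← (summable_cmp hr hφ hf n).tsum_add (summable_cmp hr hφ hg n)]
  simp only [map_add, add_mul]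

theorem cmp_sub (hr : 0 < r) (hφ : Bnd r ρ φ) (hf : IsRestricted ρ f) (hg : IsRestricted ρ g) :
    cmp φ (f - g) = cmp φ f - cmp φ g := by
  have := cmp_add hr hφ (res_sub hf hg) hg
  rw [sub_add_cancel] at this
  rw [this, add_sub_cancel_right]

theorem cmp_neg (hr : 0 < r) (hφ : Bnd r ρ φ) (hf : IsRestricted ρ f) :
    cmp φ (-f) = -cmp φ f := by
  have := cmp_sub hr hφ (isRestricted_zero ρ) hf
  rwa [zero_sub, cmp_zero, zero_sub] at this

theorem cmp_mul (hr : 0 < r) (hφ : Bnd r ρ φ) (hf : IsRestricted ρ f) (hg : IsRestricted ρ g) :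
    cmp φ (f * g) = cmp φ f * cmp φ g := by
  have hρ := hφ.nonneg
  have key : ∀ {g : C⟦X⟧}, IsRestricted ρ g → (∀ p : Polynomial C,
      cmp φ (p * g) = cmp φ p * cmp φ g) → ∀ {f : C⟦X⟧}, IsRestricted ρ f →
      cmp φ (f * g) = cmp φ f * cmp φ g := by
    intro g hg hp f hf
    obtain ⟨c, hc, hb⟩ := exists_bnd hg
    refine sub_eq_zero.1 (ext_poly hr hc (fun f => cmp φ (f * g) - cmp φ f * cmp φ g)
      (fun f f' hf hf' => ?_) (fun f B hf hB => ?_) (fun p => sub_eq_zero.2 (hp p)) hf)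
    · rw [add_mul, cmp_add hr hφ (isRestricted.mul ρ hf hg) (isRestricted.mul ρ hf' hg),
        cmp_add hr hφ hf hf']
      ring
    · rw [mul_comm c]
      exact (hφ.cmp hr (hB.mul hρ hb)).sub hr.le ((hφ.cmp hr hB).mul hr.le (hφ.cmp hr hb))
  refine key hg (fun p => ?_) hf
  rw [mul_comm, mul_comm (cmp φ p)]
  refine key (res_poly ρ p) (fun q => ?_) hg
  rw [← Polynomial.coe_mul, cmp_poly, cmp_poly, cmp_poly, map_mul]

theorem cmp_pow (hr : 0 < r) (hφ : Bnd r ρ φ) (hf : IsRestricted ρ f) (d : ℕ) :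
    cmp φ (f ^ d) = cmp φ f ^ d := by
  induction d with
  | zero => rw [pow_zero, pow_zero, cmp_one]
  | succ d ih => rw [pow_succ, pow_succ, cmp_mul hr hφ (res_pow hf d) hf, ih]

omit [CompleteSpace C] in
theorem res_aeval (hφ : IsRestricted r φ) (p : Polynomial C) :
    IsRestricted r (Polynomial.aeval φ p) := by
  induction p using Polynomial.induction_on' with
  | add p q hp hq => rw [map_add]; exact isRestricted.add r hp hq
  | monomial n a =>
    rw [Polynomial.aeval_monomial]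
    exact isRestricted.mul r (isRestricted_C r a) (res_pow hφ n)

theorem cmp_res (hr : 0 < r) (hφ : Bnd r ρ φ) (hφ' : IsRestricted r φ) (hf : IsRestricted ρ f) :
    IsRestricted r (cmp φ f) := by
  refine res_of_approx hr.le fun ε hε => ?_
  obtain ⟨N, hN⟩ := exists_trunc hf hε
  refine ⟨_, res_aeval hφ' (trunc N f), ?_⟩
  rw [← cmp_poly, ← cmp_sub hr hφ hf (res_poly ρ _)]
  exact hφ.cmp hr (hN N le_rfl)

theorem cmp_aeval (hs : 0 < s) (hψ : Bnd s r ψ) (hφ : IsRestricted r φ) (p : Polynomial C) :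
    cmp ψ (Polynomial.aeval φ p) = Polynomial.aeval (cmp ψ φ) p := by
  induction p using Polynomial.induction_on' with
  | add p q hp hq =>
    rw [map_add, map_add, cmp_add hs hψ (res_aeval hφ p) (res_aeval hφ q), hp, hq]
  | monomial n a =>
    rw [Polynomial.aeval_monomial, Polynomial.aeval_monomial, ← C_eq_algebraMap,
      cmp_mul hs hψ (isRestricted_C r a) (res_pow hφ n), cmp_C, cmp_pow hs hψ hφ]

/-- associativity of the composition -/
theorem cmp_cmp (hs : 0 < s) (hr : 0 < r) (hψ : Bnd s r ψ) (hφ : Bnd r ρ φ)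
    (hφ' : IsRestricted r φ) (hf : IsRestricted ρ f) :
    cmp ψ (cmp φ f) = cmp (cmp ψ φ) f := by
  have h1 := hψ.cmp hs hφ
  refine sub_eq_zero.1 (ext_poly hs one_pos (fun f => cmp ψ (cmp φ f) - cmp (cmp ψ φ) f)
    (fun f f' hf hf' => ?_) (fun f B hf hB => ?_) (fun p => ?_) hf)
  · rw [cmp_add hr hφ hf hf', cmp_add hs hψ (cmp_res hr hφ hφ' hf) (cmp_res hr hφ hφ' hf'),
      cmp_add hs h1 hf hf']
    ring
  · rw [one_mul]
    exact (hψ.cmp hs (hφ.cmp hr hB)).sub hs.le (h1.cmp hs hB)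
  · rw [cmp_poly, cmp_poly, cmp_aeval hs hψ hφ', sub_self]

variable {a : C}

omit [IsUltrametricDist C] [CompleteSpace C] in
theorem bnd_C_le (s : ℝ) (ha : ‖a‖ ≤ r) : Bnd s r (PowerSeries.C a) := (bnd_C s a).mono ha

theorem ev_add (ha : ‖a‖ ≤ r) (hf : IsRestricted r f) (hg : IsRestricted r g) :
    ev a (f + g) = ev a f + ev a g := by
  have := cmp_add one_pos (bnd_C_le 1 ha) hf hg
  rw [C_cmp, C_cmp, C_cmp, ← map_add] at this
  exact C_injective this

theorem ev_sub (ha : ‖a‖ ≤ r) (hf : IsRestricted r f) (hg : IsRestricted r g) :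
    ev a (f - g) = ev a f - ev a g := by
  have := cmp_sub one_pos (bnd_C_le 1 ha) hf hg
  rw [C_cmp, C_cmp, C_cmp, ← map_sub] at this
  exact C_injective this

theorem ev_mul (ha : ‖a‖ ≤ r) (hf : IsRestricted r f) (hg : IsRestricted r g) :
    ev a (f * g) = ev a f * ev a g := by
  have := cmp_mul one_pos (bnd_C_le 1 ha) hf hg
  rw [C_cmp, C_cmp, C_cmp, ← map_mul] at this
  exact C_injective this

theorem ev_pow (ha : ‖a‖ ≤ r) (hf : IsRestricted r f) (d : ℕ) : ev a (f ^ d) = ev a f ^ d := by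
  have := cmp_pow one_pos (bnd_C_le 1 ha) hf d
  rw [C_cmp, C_cmp, ← map_pow] at this
  exact C_injective this

omit [IsUltrametricDist C] [CompleteSpace C] in
theorem ev_C (a c : C) : ev a (PowerSeries.C c) = c := by
  simpa using ev_poly a (Polynomial.C c)

omit [IsUltrametricDist C] [CompleteSpace C] in
theorem ev_X (a : C) : ev a (X : C⟦X⟧) = a := by
  simpa using ev_poly a Polynomial.X

/-- value of a composition -/
theorem ev_cmp (hr : 0 < r) (ha : ‖a‖ ≤ r) (hφ : Bnd r ρ φ) (hφ' : IsRestricted r φ)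
    (hf : IsRestricted ρ f) : ev a (cmp φ f) = ev (ev a φ) f := by
  have := cmp_cmp one_pos hr (bnd_C_le 1 ha) hφ hφ' hf
  rw [C_cmp, C_cmp, C_cmp] at this
  exact C_injective this

omit [CompleteSpace C] in
theorem Bnd.deriv (hr : 0 < r) (hf : Bnd r B f) : Bnd r (r⁻¹ * B) (d⁄dX C f) := by
  intro n
  rw [coeff_derivative, norm_mul, le_inv_mul_iff₀ hr]
  have h1 : ‖((n : C) + 1)‖ ≤ 1 := by
    simpa using IsUltrametricDist.norm_natCast_le_one C (n + 1)
  refine le_trans ?_ (hf (n + 1))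
  rw [pow_succ]
  have h2 : 0 ≤ ‖coeff (n + 1) f‖ * (r ^ n * r) := by positivity
  nlinarith

omit [CompleteSpace C] in
theorem res_deriv (hr : 0 < r) (hf : IsRestricted r f) : IsRestricted r (d⁄dX C f) := by
  refine res_of_approx hr.le fun ε hε => ?_
  obtain ⟨N, hN⟩ := exists_trunc hf (show 0 < r * ε by positivity)
  refine ⟨_, res_poly r (trunc N f).derivative, ?_⟩
  have := (hN N le_rfl).deriv hr
  rwa [inv_mul_cancel_left₀ hr.ne', map_sub, derivative_coe] at this

/-- chain rule -/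
theorem deriv_cmp (hr : 0 < r) (hρ : 0 < ρ) (hφ : Bnd r ρ φ) (hf : IsRestricted ρ f) :
    d⁄dX C (cmp φ f) = cmp φ (d⁄dX C f) * d⁄dX C φ := by
  refine sub_eq_zero.1 (ext_poly hr (inv_pos.2 hr)
    (fun f => d⁄dX C (cmp φ f) - cmp φ (d⁄dX C f) * d⁄dX C φ)
    (fun f f' hf hf' => ?_) (fun f B hf hB => ?_) (fun p => ?_) hf)
  · rw [cmp_add hr hφ hf hf', map_add, map_add,
      cmp_add hr hφ (res_deriv hρ hf) (res_deriv hρ hf')]
    ring
  · refine ((hφ.cmp hr hB).deriv hr).sub hr.le ?_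
    have := (hφ.cmp hr (hB.deriv hρ)).mul hr.le (hφ.deriv hr)
    convert this using 1
    field_simp
  · rw [derivative_coe, cmp_poly, cmp_poly, Derivation.map_aeval, smul_eq_mul, sub_self]

end cmp

end Vale.Agent.P022K.FI.An4
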