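import Mathlib.RingTheory.PowerSeries.Exp
import Mathlib.RingTheory.PowerSeries.Inverse
import Mathlib.NumberTheory.LegendreSymbol.AddCharacter
import Mathlib.NumberTheory.Padics.PadicVal.Basic
import Mathlib.Analysis.Normed.Ring.Ultra
import Mathlib.Analysis.Normed.Field.Ultra
import Mathlib.Analysis.SpecificLimits.Normed
import Mathlib.FieldTheory.IsAlgClosed.Basic

/-!
# FI, row AN2, part a: formal exponentials, growth, stability, finite Fourier
-/

set_option linter.unusedSectionVars false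

noncomputable section

open PowerSeries Filter Topology

namespace Vale.Agent.P022K.FI

section formal

variable {C : Type} [Field C] [CharZero C]

/-- the formal exponential of a series without constant term -/
def ex (z : C⟦X⟧) : C⟦X⟧ := (PowerSeries.exp C).subst z

theorem hs {z : C⟦X⟧} (hz : constantCoeff z = 0) : HasSubst z :=
  HasSubst.of_constantCoeff_zero' hz

theorem cc_subst {g : C⟦X⟧} (hg : constantCoeff g = 0) (f : C⟦X⟧) :
    constantCoeff (f.subst g : C⟦X⟧) = constantCoeff f := by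
  rw [← coeff_zero_eq_constantCoeff_apply, coeff_subst' (hs hg), finsum_eq_single _ 0]
  · simp
  · intro d hd
    simp [hg, hd]

theorem cc_ex {z : C⟦X⟧} (hz : constantCoeff z = 0) : constantCoeff (ex z) = 1 := by
  rw [ex, cc_subst hz, constantCoeff_exp]

theorem d_ex {z : C⟦X⟧} (hz : constantCoeff z = 0) : d⁄dX C (ex z) = d⁄dX C z * ex z := by
  rw [ex, derivative_subst (hs hz), derivative_exp, mul_comm]

theorem ex_ne {z : C⟦X⟧} (hz : constantCoeff z = 0) : ex z ≠ 0 := fun h => by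
  have := cc_ex hz
  rw [h, map_zero] at this
  exact zero_ne_one this

theorem ode_rec {w y : C⟦X⟧} (h : d⁄dX C y = w * y) (n : ℕ) :
    coeff (n + 1) y * ((n : C) + 1) =
      ∑ ij ∈ Finset.antidiagonal n, coeff ij.1 w * coeff ij.2 y := by
  rw [← coeff_derivative, h, coeff_mul]

theorem ode_uniq {w y y' : C⟦X⟧} (h : d⁄dX C y = w * y) (h' : d⁄dX C y' = w * y')
    (h0 : constantCoeff y = constantCoeff y') : y = y' := by
  ext n
  induction n using Nat.strong_induction_on with
  | _ n ih =>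
    cases n with
    | zero => simpa using h0
    | succ n =>
      have e : coeff (n + 1) y * ((n : C) + 1) = coeff (n + 1) y' * ((n : C) + 1) := by
        rw [ode_rec h, ode_rec h']
        refine Finset.sum_congr rfl fun ij hij => ?_
        rw [ih ij.2 (by have := Finset.mem_antidiagonal.1 hij; omega)]
      exact mul_right_cancel₀ (Nat.cast_add_one_ne_zero n) e

theorem ex_add {z w : C⟦X⟧} (hz : constantCoeff z = 0) (hw : constantCoeff w = 0) :
    ex (z + w) = ex z * ex w := by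
  have h0 : constantCoeff (z + w) = 0 := by rw [map_add, hz, hw, add_zero]
  refine ode_uniq (w := d⁄dX C (z + w)) (d_ex h0) ?_ ?_
  · rw [Derivation.leibniz, d_ex hz, d_ex hw, map_add, smul_eq_mul, smul_eq_mul]
    ring
  · rw [cc_ex h0, map_mul, cc_ex hz, cc_ex hw, mul_one]

theorem ex_zero : ex (0 : C⟦X⟧) = 1 := by
  refine ode_uniq (w := 0) ?_ ?_ ?_
  · rw [d_ex (map_zero _), map_zero]
  · simp
  · rw [cc_ex (map_zero _), map_one]

theorem ex_neg_mul {z : C⟦X⟧} (hz : constantCoeff z = 0) : ex (-z) * ex z = 1 := by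
  rw [← ex_add (by rw [map_neg, hz, neg_zero]) hz, neg_add_cancel, ex_zero]

theorem ex_subst {z g : C⟦X⟧} (hz : constantCoeff z = 0) (hg : constantCoeff g = 0) :
    ((ex z).subst g : C⟦X⟧) = ex (z.subst g) :=
  subst_comp_subst_apply (hs hz) (hs hg) _

/-- the antiderivative -/
def itg (w : C⟦X⟧) : C⟦X⟧ := mk fun n => if n = 0 then 0 else coeff (n - 1) w / (n : C)

theorem cc_itg (w : C⟦X⟧) : constantCoeff (itg w) = 0 := by
  rw [← coeff_zero_eq_constantCoeff_apply, itg, coeff_mk, if_pos rfl]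

theorem coeff_itg (w : C⟦X⟧) (n : ℕ) : coeff (n + 1) (itg w) = coeff n w / ((n : C) + 1) := by
  rw [itg, coeff_mk, if_neg (Nat.succ_ne_zero n), Nat.add_sub_cancel, Nat.cast_succ]

theorem d_itg (w : C⟦X⟧) : d⁄dX C (itg w) = w := by
  ext n
  rw [coeff_derivative, coeff_itg, div_mul_cancel₀ _ (Nat.cast_add_one_ne_zero n)]

theorem itg_add (w v : C⟦X⟧) : itg (w + v) = itg w + itg v :=
  derivative.ext (by rw [map_add, d_itg, d_itg, d_itg]) (by
    rw [map_add, cc_itg, cc_itg, cc_itg, add_zero])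

theorem itg_zero : itg (0 : C⟦X⟧) = 0 :=
  derivative.ext (by rw [d_itg, map_zero]) (by rw [cc_itg, map_zero])

end formal

section norms

variable {C : Type} [NontriviallyNormedField C] [IsUltrametricDist C] [CharZero C] {p : ℕ}

theorem norm_cop (hp1 : ‖(p : C)‖ < 1) {m : ℕ} (hm : Nat.Coprime m p) : ‖(m : C)‖ = 1 := by
  refine (IsUltrametricDist.norm_natCast_le_one C m).eq_of_not_lt fun h => ?_
  obtain ⟨a, b, hab⟩ := Nat.isCoprime_iff_coprime.2 hm
  have e : (a : C) * m + b * p = 1 := by exact_mod_cast congrArg (Int.cast : ℤ → C) hab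
  have h1 := IsUltrametricDist.norm_add_le_max ((a : C) * m) (b * p)
  rw [e, norm_one, norm_mul, norm_mul] at h1
  have a1 := IsUltrametricDist.norm_intCast_le_one C a
  have b1 := IsUltrametricDist.norm_intCast_le_one C b
  have a2 : ‖(a : C)‖ * ‖(m : C)‖ < 1 := mul_lt_one_of_nonneg_of_lt_one_right a1 (norm_nonneg _) h
  have b2 : ‖(b : C)‖ * ‖(p : C)‖ < 1 :=
    mul_lt_one_of_nonneg_of_lt_one_right b1 (norm_nonneg _) hp1
  exact absurd h1 (not_le.2 (max_lt a2 b2))

theorem norm_fac (hp : p.Prime) (hp1 : ‖(p : C)‖ < 1) (n : ℕ) :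
    ‖(p : C)‖ ^ n ≤ ‖(n.factorial : C)‖ := by
  have := Fact.mk hp
  have h0 := n.factorial_ne_zero
  have e := Nat.ordProj_mul_ordCompl_eq_self n.factorial p
  have h1 : n.factorial.factorization p ≤ n := by
    rw [Nat.factorization_def _ hp]; exact padicValNat_factorial_le p n
  rw [← e, Nat.cast_mul, norm_mul, norm_cop hp1 (Nat.coprime_ordCompl hp h0).symm, mul_one,
    Nat.cast_pow, norm_pow]
  exact pow_le_pow_of_le_one (norm_nonneg _) hp1.le h1

theorem fac_anti {j n : ℕ} (h : j ≤ n) : ‖(n.factorial : C)‖ ≤ ‖(j.factorial : C)‖ := by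
  obtain ⟨k, hk⟩ := Nat.factorial_dvd_factorial h
  rw [hk, Nat.cast_mul, norm_mul]
  exact mul_le_of_le_one_right (norm_nonneg _) (IsUltrametricDist.norm_natCast_le_one C k)

theorem norm_succ (hp : p.Prime) (hp1 : ‖(p : C)‖ < 1) (n : ℕ) :
    ‖(p : C)‖ ^ (n + 1) ≤ ‖(n : C) + 1‖ := by
  refine (norm_fac hp hp1 (n + 1)).trans ?_
  rw [Nat.factorial_succ, Nat.cast_mul, norm_mul, Nat.cast_succ]
  exact mul_le_of_le_one_right (norm_nonneg _) (IsUltrametricDist.norm_natCast_le_one C _)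

/-- growth of the solution of `y' = w y` -/
theorem ode_bd {w y : C⟦X⟧} {r : ℝ} (hr : 0 < r) (h : d⁄dX C y = w * y)
    (h0 : ‖constantCoeff y‖ ≤ 1) (hw : ∀ n, ‖coeff n w‖ * r ^ (n + 1) ≤ 1) (n : ℕ) :
    ‖(n.factorial : C)‖ * ‖coeff n y‖ * r ^ n ≤ 1 := by
  induction n using Nat.strong_induction_on with
  | _ n ih =>
    cases n with
    | zero => simpa using h0
    | succ n =>
      have e : ((n + 1).factorial : C) * coeff (n + 1) y = ∑ ij ∈ Finset.antidiagonal n,
          (n.factorial : C) * (coeff ij.1 w * coeff ij.2 y) := by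
        rw [← Finset.mul_sum, ← ode_rec h, Nat.factorial_succ]
        push_cast
        ring
      rw [← norm_mul, e, ← le_div_iff₀ (pow_pos hr _)]
      refine IsUltrametricDist.norm_sum_le_of_forall_le_of_nonneg (by positivity) fun ij hij => ?_
      have hn := Finset.mem_antidiagonal.1 hij
      have a1 := hw ij.1
      have a2 := ih ij.2 (by omega)
      have a3 := fac_anti (C := C) (show ij.2 ≤ n by omega)
      rw [le_div_iff₀ (pow_pos hr _), norm_mul, norm_mul,
        show n + 1 = (ij.1 + 1) + ij.2 by omega, pow_add]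
      calc _ = (‖coeff ij.1 w‖ * r ^ (ij.1 + 1)) * (‖(n.factorial : C)‖ * ‖coeff ij.2 y‖ *
            r ^ ij.2) := by ring
        _ ≤ 1 * (‖(ij.2.factorial : C)‖ * ‖coeff ij.2 y‖ * r ^ ij.2) := by gcongr
        _ ≤ 1 := by rw [one_mul]; exact a2

theorem ode_le (hp : p.Prime) (hp1 : ‖(p : C)‖ < 1) {w y : C⟦X⟧} {r : ℝ} (hr : 0 < r)
    (h : d⁄dX C y = w * y) (h0 : ‖constantCoeff y‖ ≤ 1)
    (hw : ∀ n, ‖coeff n w‖ * r ^ (n + 1) ≤ 1) (n : ℕ) :
    ‖coeff n y‖ * (‖(p : C)‖ * r) ^ n ≤ 1 := by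
  refine le_trans ?_ (ode_bd hr h h0 hw n)
  have := norm_fac hp hp1 n
  rw [mul_pow]
  calc _ = ‖(p : C)‖ ^ n * ‖coeff n y‖ * r ^ n := by ring
    _ ≤ _ := by gcongr

theorem itg_le (hp : p.Prime) (hp1 : ‖(p : C)‖ < 1) {w : C⟦X⟧} {r M : ℝ} (hr : 0 < r)
    (hM : 0 ≤ M) (hw : ∀ n, ‖coeff n w‖ * r ^ (n + 1) ≤ M) (n : ℕ) :
    ‖coeff n (itg w)‖ * (‖(p : C)‖ * r) ^ n ≤ M := by
  cases n with
  | zero => simpa [cc_itg] using hM
  | succ n =>
    have a1 := norm_succ hp hp1 n
    have a2 : 0 < ‖(n : C) + 1‖ := norm_pos_iff.2 (Nat.cast_add_one_ne_zero n)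
    refine le_trans ?_ (hw n)
    rw [coeff_itg, norm_div, mul_pow, div_mul_eq_mul_div, div_le_iff₀ a2]
    calc _ = ‖coeff n w‖ * r ^ (n + 1) * ‖(p : C)‖ ^ (n + 1) := by ring
      _ ≤ _ := by gcongr

theorem tend_of_le {a : ℕ → ℝ} {R ρ M : ℝ} (ha : ∀ n, 0 ≤ a n) (hρ : 0 < ρ) (hR : ρ < R)
    (h : ∀ n, a n * R ^ n ≤ M) : Tendsto (fun n => a n * ρ ^ n) atTop (𝓝 0) := by
  have R0 : 0 < R := hρ.trans hR
  have h1 : Tendsto (fun n => M * (ρ / R) ^ n) atTop (𝓝 0) := by
    simpa using (tendsto_pow_atTop_nhds_zero_of_lt_one (by positivity)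
      ((div_lt_one R0).2 hR)).const_mul M
  refine squeeze_zero (fun n => mul_nonneg (ha n) (by positivity)) (fun n => ?_) h1
  have e : a n * ρ ^ n = a n * R ^ n * (ρ / R) ^ n := by rw [div_pow]; field_simp
  rw [e]
  exact mul_le_mul_of_nonneg_right (h n) (by positivity)

theorem zero_of_bd (hp : p ≠ 0) (hp1 : ‖(p : C)‖ < 1) {K E : Type} [Field K] [CharZero K]
    [NormedAddCommGroup E] [NormedSpace C E] (D : K →+ E) {M : ℝ} (c : K)
    (h : ∀ n : ℕ, ‖D (c / (p : K) ^ n)‖ ≤ M) : D c = 0 := by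
  have h1 : ∀ n : ℕ, ‖D c‖ ≤ M * ‖(p : C)‖ ^ n := fun n => by
    have e : D c = ((p : C) ^ n) • D (c / (p : K) ^ n) := by
      rw [← Nat.cast_pow, Nat.cast_smul_eq_nsmul, ← map_nsmul, nsmul_eq_mul, Nat.cast_pow,
        mul_div_cancel₀ _ (pow_ne_zero _ (Nat.cast_ne_zero.2 hp))]
    rw [e, norm_smul, norm_pow, mul_comm]
    exact mul_le_mul_of_nonneg_right (h n) (by positivity)
  have h2 : Tendsto (fun n => M * ‖(p : C)‖ ^ n) atTop (𝓝 0) := by
    simpa using (tendsto_pow_atTop_nhds_zero_of_lt_one (norm_nonneg _) hp1).const_mul M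
  exact norm_le_zero_iff.1 (ge_of_tendsto' h2 h1)

/-- an almost additive map is at bounded distance from an additive one -/
theorem hyers (hp : p ≠ 0) (hp1 : ‖(p : C)‖ < 1) {K E : Type} [Field K] [CharZero K]
    [NormedAddCommGroup E] [NormedSpace C E] [IsUltrametricDist E] [CompleteSpace E]
    (D : K → E) {M : ℝ} (h : ∀ a b, ‖D (a + b) - D a - D b‖ ≤ M) :
    ∃ T : K →+ E, ∀ c, ‖T c - D c‖ ≤ M := by
  have M0 : 0 ≤ M := (norm_nonneg _).trans (h 0 0)
  have hn : ∀ (n : ℕ) (x : K), ‖D ((n : K) * x) - (n : C) • D x‖ ≤ M := by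
    intro n x
    induction n with
    | zero => simpa using h 0 0
    | succ n ih =>
      have e : D (((n + 1 : ℕ) : K) * x) - ((n + 1 : ℕ) : C) • D x =
          (D (n * x + x) - D (n * x) - D x) + (D (n * x) - (n : C) • D x) := by
        rw [Nat.cast_succ, Nat.cast_succ, add_mul, one_mul, add_smul, one_smul]
        abel
      rw [e]
      exact (IsUltrametricDist.norm_add_le_max _ _).trans (max_le (h _ _) ih)
  have p0 : (p : K) ≠ 0 := Nat.cast_ne_zero.2 hp
  let s : K → ℕ → E := fun c n => ((p : C) ^ n) • D (c / (p : K) ^ n)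
  have hs1 : ∀ c n, ‖s c n - s c (n + 1)‖ ≤ M * ‖(p : C)‖ ^ n := fun c n => by
    have e : s c n - s c (n + 1) = ((p : C) ^ n) • (D ((p : K) * (c / (p : K) ^ (n + 1))) -
        (p : C) • D (c / (p : K) ^ (n + 1))) := by
      have e1 : (p : K) * (c / (p : K) ^ (n + 1)) = c / (p : K) ^ n := by
        rw [pow_succ]; field_simp
      rw [e1, smul_sub, smul_smul, ← pow_succ]
    rw [e, norm_smul, norm_pow, mul_comm]
    exact mul_le_mul_of_nonneg_right (hn _ _) (by positivity)
  have hc : ∀ c, ∃ l, Tendsto (s c) atTop (𝓝 l) := fun c =>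
    cauchySeq_tendsto_of_complete (cauchySeq_of_le_geometric _ M hp1 fun n => by
      rw [dist_eq_norm]; exact hs1 c n)
  choose T hT using hc
  have h2 : Tendsto (fun n => M * ‖(p : C)‖ ^ n) atTop (𝓝 0) := by
    simpa using (tendsto_pow_atTop_nhds_zero_of_lt_one (norm_nonneg _) hp1).const_mul M
  refine ⟨AddMonoidHom.mk' T fun a b => ?_, fun c => ?_⟩
  · have h3 : Tendsto (fun n => s (a + b) n - s a n - s b n) atTop (𝓝 0) := by
      refine squeeze_zero_norm (fun n => ?_) h2
      simp only [s]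
      rw [← smul_sub, ← smul_sub, norm_smul, norm_pow, mul_comm, add_div]
      exact mul_le_mul_of_nonneg_right (h _ _) (by positivity)
    have h4 := tendsto_nhds_unique (((hT (a + b)).sub (hT a)).sub (hT b)) h3
    rw [sub_sub, sub_eq_zero] at h4
    exact h4
  · have h3 : ∀ n, ‖s c n - D c‖ ≤ M := by
      intro n
      induction n with
      | zero => simpa [s] using M0
      | succ n ih =>
        have e : s c (n + 1) - D c = -(s c n - s c (n + 1)) + (s c n - D c) := by abel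
        rw [e]
        refine (IsUltrametricDist.norm_add_le_max _ _).trans (max_le ?_ ih)
        rw [norm_neg]
        exact (hs1 c n).trans (mul_le_of_le_one_right M0 (pow_le_one₀ (norm_nonneg _) hp1.le))
    exact le_of_tendsto' ((hT c).sub_const (D c)).norm h3

end norms

section fourier

variable {C R V : Type} [Field C] [CharZero C] [CommRing R] [Fintype R] [AddCommGroup V]
  [Module C V]

/-- the component of `f` for the character `θ (q ·)` -/
def fo (θ : AddChar R C) (f : R → V) (q : R) : V :=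
  (Fintype.card R : C)⁻¹ • ∑ a, θ (-(a * q)) • f a

theorem fo_inv {θ : AddChar R C} (hθ : θ.IsPrimitive) (f : R → V) (a : R) :
    f a = ∑ q, θ (a * q) • fo θ f q := by
  classical
  have c0 : (Fintype.card R : C) ≠ 0 := Nat.cast_ne_zero.2 Fintype.card_ne_zero
  have e : ∀ q, θ (a * q) • fo θ f q =
      ∑ b, ((Fintype.card R : C)⁻¹ * θ (q * (a - b))) • f b := fun q => by
    rw [fo, Finset.smul_sum, Finset.smul_sum]
    refine Finset.sum_congr rfl fun b _ => ?_
    rw [smul_smul, smul_smul, show q * (a - b) = a * q + -(b * q) by ring, AddChar.map_add_eq_mul]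
    congr 1
    ring
  simp only [e]
  rw [Finset.sum_comm, Finset.sum_eq_single a]
  · rw [← Finset.sum_smul, ← Finset.mul_sum, AddChar.sum_mulShift _ hθ, if_pos (sub_self a),
      inv_mul_cancel₀ c0, one_smul]
  · intro b _ hb
    rw [← Finset.sum_smul, ← Finset.mul_sum, AddChar.sum_mulShift _ hθ,
      if_neg (sub_ne_zero.2 hb.symm), Nat.cast_zero, mul_zero, zero_smul]
  · intro h
    exact absurd (Finset.mem_univ _) h

theorem fo_eig (θ : AddChar R C) (f : R → V) (q b : R) (T : V →ₗ[C] V)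
    (hT : ∀ a, T (f a) = f (b + a)) : T (fo θ f q) = θ (b * q) • fo θ f q := by
  rw [fo, map_smul, map_sum, smul_comm]
  congr 1
  rw [Finset.smul_sum, ← Equiv.sum_comp (Equiv.addLeft b) fun a => θ (b * q) • θ (-(a * q)) • f a]
  refine Finset.sum_congr rfl fun a _ => ?_
  rw [map_smul, hT, smul_smul, ← AddChar.map_add_eq_mul, Equiv.coe_addLeft]
  congr 2
  ring

end fourier

end Vale.Agent.P022K.FI
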