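import Vale.Agent.P025.R2.H746.Defs

/-!
# P022 block FI, row AN1: power series converging on a closed disc

`gn r f` sup norm on the disc of radius `r`, `Cv r f` convergence, `wd r f` Weierstrass degree,
`TA C r` the Tate algebra, `ev` evaluation in a Banach algebra, `cmp` composition,
Weierstrass division and preparation.
-/

set_option linter.all false

noncomputable section

open PowerSeries Filter Topology

namespace Vale.Agent.P022K.FI

section base

variable {C : Type} [NontriviallyNormedField C]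

/-- sup norm on the disc of radius `r` -/
def gn (r : ℝ) (f : C⟦X⟧) : ℝ := ⨆ n, ‖coeff n f‖ * r ^ n

/-- convergence on the closed disc of radius `r` -/
def Cv (r : ℝ) (f : C⟦X⟧) : Prop := Tendsto (fun n => ‖coeff n f‖ * r ^ n) atTop (𝓝 0)

/-- Weierstrass degree -/
def wd (r : ℝ) (f : C⟦X⟧) : ℕ := sSup {n | ‖coeff n f‖ * r ^ n = gn r f}

variable {r : ℝ} {f g : C⟦X⟧}

theorem Cv.bdd (h : Cv r f) : BddAbove (Set.range fun n => ‖coeff n f‖ * r ^ n) :=
  Tendsto.bddAbove_range h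

theorem le_gn (h : Cv r f) (n : ℕ) : ‖coeff n f‖ * r ^ n ≤ gn r f := le_ciSup h.bdd n

theorem gn_le {M : ℝ} (h : ∀ n, ‖coeff n f‖ * r ^ n ≤ M) : gn r f ≤ M := ciSup_le h

theorem gn_nonneg (hr : 0 < r) (f : C⟦X⟧) : 0 ≤ gn r f :=
  Real.iSup_nonneg fun n => by positivity

@[simp] theorem gn_zero (r : ℝ) : gn r (0 : C⟦X⟧) = 0 := by simp [gn]

theorem gn_eq_zero (hr : 0 < r) (h : Cv r f) : gn r f = 0 ↔ f = 0 := by
  refine ⟨fun e => ?_, fun e => by rw [e, gn_zero]⟩
  ext n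
  have h1 := le_gn h n
  rw [e] at h1
  have h2 : 0 < r ^ n := pow_pos hr n
  have h3 : ‖coeff n f‖ ≤ 0 := by
    by_contra h4
    exact absurd h1 (not_le.2 (mul_pos (not_le.1 h4) h2))
  simpa using h3

theorem gn_pos (hr : 0 < r) (h : Cv r f) (h0 : f ≠ 0) : 0 < gn r f :=
  lt_of_le_of_ne (gn_nonneg hr f) fun e => h0 ((gn_eq_zero hr h).1 e.symm)

theorem gn_neg (r : ℝ) (f : C⟦X⟧) : gn r (-f) = gn r f := by simp [gn]

theorem gn_smul (hr : 0 < r) (c : C) (f : C⟦X⟧) : gn r (c • f) = ‖c‖ * gn r f := by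
  unfold gn
  rw [Real.mul_iSup_of_nonneg (norm_nonneg c)]
  simp [mul_assoc]

theorem gn_monomial (hr : 0 < r) (n : ℕ) (c : C) : gn r (monomial n c) = ‖c‖ * r ^ n := by
  have h : ∀ m, ‖coeff m (monomial n c)‖ * r ^ m ≤ ‖c‖ * r ^ n := fun m => by
    rw [coeff_monomial]
    split_ifs with e
    · rw [e]
    · simp; positivity
  refine le_antisymm (gn_le h) ?_
  have := le_ciSup (f := fun m => ‖coeff m (monomial n c)‖ * r ^ m) ⟨_, by
    rintro _ ⟨m, rfl⟩; exact h m⟩ n
  simpa [gn] using this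

theorem gn_C (hr : 0 < r) (c : C) : gn r (PowerSeries.C c) = ‖c‖ := by
  simpa using gn_monomial hr 0 c

theorem gn_one (hr : 0 < r) : gn r (1 : C⟦X⟧) = 1 := by simpa using gn_C hr (1 : C)

theorem gn_X (hr : 0 < r) : gn r (X : C⟦X⟧) = r := by
  simpa [X_eq] using gn_monomial hr 1 (1 : C)

theorem Cv.of_le (hr : 0 < r) {a : ℕ → ℝ} (ha : Tendsto a atTop (𝓝 0))
    (h : ∀ n, ‖coeff n f‖ * r ^ n ≤ a n) : Cv r f :=
  squeeze_zero (fun n => by positivity) h ha

theorem Cv.mono (h : Cv r f) {s : ℝ} (hs : 0 < s) (hsr : s ≤ r) : Cv s f :=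
  Cv.of_le hs h fun n => by gcongr

theorem gn_mono (h : Cv r f) {s : ℝ} (hs : 0 < s) (hsr : s ≤ r) : gn s f ≤ gn r f :=
  gn_le fun n => le_trans (by gcongr) (le_gn h n)

/-- bounded on radius `r` gives convergence on every smaller radius -/
theorem Cv.of_bdd {M s : ℝ} (hs : 0 < s) (hsr : s < r) (h : ∀ n, ‖coeff n f‖ * r ^ n ≤ M) :
    Cv s f := by
  have hr : 0 < r := hs.trans hsr
  have h1 : Tendsto (fun n : ℕ => M * (s / r) ^ n) atTop (𝓝 0) := by
    simpa using (tendsto_pow_atTop_nhds_zero_of_lt_one (div_pos hs hr).le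
      ((div_lt_one hr).2 hsr)).const_mul M
  refine Cv.of_le hs h1 fun n => ?_
  have h2 : s ^ n = r ^ n * (s / r) ^ n := by rw [← mul_pow, mul_div_cancel₀ _ hr.ne']
  rw [h2, ← mul_assoc]
  exact mul_le_mul_of_nonneg_right (h n) (by positivity)

theorem Cv.of_fin (r : ℝ) {N : ℕ} (h : ∀ n, N ≤ n → coeff n f = 0) : Cv r f :=
  tendsto_const_nhds.congr' (eventually_atTop.2 ⟨N, fun n hn => by simp [h n hn]⟩)

theorem cv_poly (r : ℝ) (P : Polynomial C) : Cv r (P : C⟦X⟧) :=
  Cv.of_fin r (N := P.natDegree + 1) fun n hn => by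
    rw [Polynomial.coeff_coe]; exact Polynomial.coeff_eq_zero_of_natDegree_lt hn

theorem cv_monomial (r : ℝ) (n : ℕ) (c : C) : Cv r (monomial n c) :=
  Cv.of_fin r (N := n + 1) fun m hm => by rw [coeff_monomial, if_neg (by omega)]

theorem cv_C (r : ℝ) (c : C) : Cv r (PowerSeries.C c) := by simpa using cv_monomial r 0 c

theorem cv_X (r : ℝ) : Cv r (X : C⟦X⟧) := cv_monomial r 1 1

theorem cv_zero (r : ℝ) : Cv r (0 : C⟦X⟧) := by simpa using cv_C r (0 : C)

theorem cv_one (r : ℝ) : Cv r (1 : C⟦X⟧) := by simpa using cv_C r (1 : C)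

theorem Cv.neg (h : Cv r f) : Cv r (-f) := by simpa [Cv] using h

theorem Cv.smul (h : Cv r f) (c : C) : Cv r (c • f) := by
  have := Tendsto.const_mul ‖c‖ h
  simpa [Cv, mul_assoc] using this

theorem cv_iff (r : ℝ) (f : C⟦X⟧) : Cv r f ↔ IsRestricted r f := (isRestricted_iff' r f).symm

theorem Cv.add (hf : Cv r f) (hg : Cv r g) : Cv r (f + g) :=
  (cv_iff _ _).2 (isRestricted.add r ((cv_iff _ _).1 hf) ((cv_iff _ _).1 hg))

theorem Cv.sub (hf : Cv r f) (hg : Cv r g) : Cv r (f - g) := by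
  rw [sub_eq_add_neg]; exact hf.add hg.neg

theorem wd_fin (hr : 0 < r) (h : Cv r f) (h0 : f ≠ 0) :
    {n | ‖coeff n f‖ * r ^ n = gn r f}.Nonempty ∧
      BddAbove {n | ‖coeff n f‖ * r ^ n = gn r f} := by
  have hp := gn_pos hr h h0
  obtain ⟨N, hN⟩ := eventually_atTop.1 (h.eventually (gt_mem_nhds (half_pos hp)))
  constructor
  · obtain ⟨n, -, hn⟩ := Finset.exists_max_image (Finset.range (N + 1))
      (fun n => ‖coeff n f‖ * r ^ n) ⟨0, by simp⟩
    refine ⟨n, le_antisymm (le_gn h n) ?_⟩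
    by_contra h1
    have h2 : gn r f ≤ max (‖coeff n f‖ * r ^ n) (gn r f / 2) := gn_le fun m => by
      rcases le_total m N with e | e
      · exact le_max_of_le_left (hn m (by simp; omega))
      · exact le_max_of_le_right (hN m e).le
    rcases le_max_iff.1 h2 with e | e
    · exact h1 e
    · linarith
  · refine ⟨N, fun n hn => ?_⟩
    by_contra h1
    have := hN n (not_le.1 h1).le
    rw [show ‖coeff n f‖ * r ^ n = gn r f from hn] at this
    linarith

theorem wd_zero (r : ℝ) : wd r (0 : C⟦X⟧) = 0 := by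
  have : {n : ℕ | ‖coeff n (0 : C⟦X⟧)‖ * r ^ n = gn r (0 : C⟦X⟧)} = Set.univ := by
    ext n; simp
  rw [wd, this, Set.Infinite.Nat.sSup_eq_zero Set.infinite_univ]

theorem coeff_wd (hr : 0 < r) (h : Cv r f) : ‖coeff (wd r f) f‖ * r ^ wd r f = gn r f := by
  by_cases h0 : f = 0
  · simp [h0]
  · exact Nat.sSup_mem (wd_fin hr h h0).1 (wd_fin hr h h0).2

theorem lt_gn (hr : 0 < r) (h : Cv r f) (h0 : f ≠ 0) {n : ℕ} (hn : wd r f < n) :
    ‖coeff n f‖ * r ^ n < gn r f :=
  lt_of_le_of_ne (le_gn h n) fun e => absurd (le_csSup (wd_fin hr h h0).2 e) (not_le.2 hn)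

theorem le_wd (hr : 0 < r) (h : Cv r f) (h0 : f ≠ 0) {n : ℕ}
    (hn : gn r f ≤ ‖coeff n f‖ * r ^ n) : n ≤ wd r f :=
  not_lt.1 fun e => absurd (lt_gn hr h h0 e) (not_lt.2 hn)

/-- recognising the norm and the degree -/
theorem gn_wd_of {M : ℝ} {N : ℕ} (h1 : ∀ n, ‖coeff n f‖ * r ^ n ≤ M)
    (h2 : ‖coeff N f‖ * r ^ N = M) (h3 : ∀ n, N < n → ‖coeff n f‖ * r ^ n < M) :
    gn r f = M ∧ wd r f = N := by
  have h4 : gn r f = M := le_antisymm (gn_le h1) (h2 ▸ le_ciSup
    (f := fun m => ‖coeff m f‖ * r ^ m) ⟨M, by rintro _ ⟨m, rfl⟩; exact h1 m⟩ N)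
  refine ⟨h4, IsGreatest.csSup_eq ⟨h2.trans h4.symm, fun n hn => ?_⟩⟩
  by_contra h5
  exact (h3 n (not_le.1 h5)).ne (hn.trans h4)

theorem coeff_wd_ne (hr : 0 < r) (h : Cv r f) (h0 : f ≠ 0) : coeff (wd r f) f ≠ 0 := fun e => by
  have := coeff_wd hr h
  rw [e, norm_zero, zero_mul] at this
  exact (gn_pos hr h h0).ne this

/-- the tail beyond the Weierstrass degree is uniformly smaller -/
theorem exists_tail (hr : 0 < r) (h : Cv r f) (h0 : f ≠ 0) :
    ∃ θ : ℝ, 0 < θ ∧ θ < 1 ∧ ∀ n, wd r f < n → ‖coeff n f‖ * r ^ n ≤ θ * gn r f := by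
  have hp := gn_pos hr h h0
  obtain ⟨N, hN⟩ := eventually_atTop.1 (h.eventually (gt_mem_nhds (half_pos hp)))
  have key : ∀ M : ℕ, ∃ θ : ℝ, 1 / 2 ≤ θ ∧ θ < 1 ∧
      ∀ n, wd r f < n → n < M → ‖coeff n f‖ * r ^ n ≤ θ * gn r f := by
    intro M
    induction M with
    | zero => exact ⟨1 / 2, le_rfl, by norm_num, fun n _ hn => absurd hn (by omega)⟩
    | succ M ih =>
      obtain ⟨θ, h1, h2, h3⟩ := ih
      by_cases hM : wd r f < M
      · refine ⟨max θ (‖coeff M f‖ * r ^ M / gn r f), le_max_of_le_left h1,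
          max_lt h2 ((div_lt_one hp).2 (lt_gn hr h h0 hM)), fun n hn hn' => ?_⟩
        rcases Nat.lt_succ_iff_lt_or_eq.1 hn' with e | e
        · exact (h3 n hn e).trans (by gcongr; exact le_max_left _ _)
        · rw [e]; exact (div_le_iff₀ hp).1 (le_max_right _ _)
      · exact ⟨θ, h1, h2, fun n hn hn' => h3 n hn (by omega)⟩
  obtain ⟨θ, h1, h2, h3⟩ := key N
  refine ⟨θ, by linarith, h2, fun n hn => ?_⟩
  rcases lt_or_ge n N with e | e
  · exact h3 n hn e
  · have := hN n e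
    nlinarith

variable [IsUltrametricDist C]

theorem Cv.mul (hf : Cv r f) (hg : Cv r g) : Cv r (f * g) :=
  (cv_iff _ _).2 (isRestricted.mul r ((cv_iff _ _).1 hf) ((cv_iff _ _).1 hg))

theorem Cv.pow (hf : Cv r f) (n : ℕ) : Cv r (f ^ n) := by
  induction n with
  | zero => simpa using cv_one r
  | succ n ih => rw [pow_succ]; exact ih.mul hf

theorem coeff_add_le (hr : 0 < r) (f g : C⟦X⟧) (n : ℕ) :
    ‖coeff n (f + g)‖ * r ^ n ≤ max (‖coeff n f‖ * r ^ n) (‖coeff n g‖ * r ^ n) := by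
  rw [map_add, ← max_mul_of_nonneg _ _ (pow_pos hr n).le]
  exact mul_le_mul_of_nonneg_right (IsUltrametricDist.norm_add_le_max _ _) (pow_pos hr n).le

theorem gn_add_le (hr : 0 < r) (hf : Cv r f) (hg : Cv r g) :
    gn r (f + g) ≤ max (gn r f) (gn r g) :=
  gn_le fun n => (coeff_add_le hr f g n).trans (max_le_max (le_gn hf n) (le_gn hg n))

theorem gn_sub_le (hr : 0 < r) (hf : Cv r f) (hg : Cv r g) :
    gn r (f - g) ≤ max (gn r f) (gn r g) := by
  rw [sub_eq_add_neg, ← gn_neg r g]; exact gn_add_le hr hf hg.neg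

theorem norm_sum_lt {ι : Type} (s : Finset ι) (a : ι → C) {M : ℝ} (hM : 0 < M)
    (h : ∀ i ∈ s, ‖a i‖ < M) : ‖∑ i ∈ s, a i‖ < M := by
  classical
  induction s using Finset.induction_on with
  | empty => simpa using hM
  | insert i s hi ih =>
    rw [Finset.sum_insert hi]
    exact (IsUltrametricDist.norm_add_le_max _ _).trans_lt
      (max_lt (h i (by simp)) (ih fun j hj => h j (by simp [hj])))

theorem coeff_mul_le (hr : 0 < r) {A B : ℝ} (hf : ∀ n, ‖coeff n f‖ * r ^ n ≤ A)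
    (hg : ∀ n, ‖coeff n g‖ * r ^ n ≤ B) (n : ℕ) : ‖coeff n (f * g)‖ * r ^ n ≤ A * B := by
  have hA : 0 ≤ A := le_trans (by positivity) (hf 0)
  have hB : 0 ≤ B := le_trans (by positivity) (hg 0)
  rw [← le_div_iff₀ (pow_pos hr n), coeff_mul]
  refine IsUltrametricDist.norm_sum_le_of_forall_le_of_nonneg (by positivity) fun p hp => ?_
  rw [le_div_iff₀ (pow_pos hr n), ← Finset.HasAntidiagonal.mem_antidiagonal.1 hp, norm_mul, pow_add,
    mul_mul_mul_comm]
  exact mul_le_mul (hf _) (hg _) (by positivity) hA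

theorem coeff_mul_lt (hr : 0 < r) (hf : Cv r f) (hg : Cv r g) (f0 : f ≠ 0) (g0 : g ≠ 0)
    {i j : ℕ} (h : wd r f < i ∨ wd r g < j) :
    ‖coeff i f * coeff j g‖ < gn r f * gn r g / r ^ (i + j) := by
  rw [lt_div_iff₀ (pow_pos hr _), norm_mul, pow_add, mul_mul_mul_comm]
  rcases h with h | h
  · exact mul_lt_mul_of_lt_of_le_of_nonneg_of_pos (lt_gn hr hf f0 h) (le_gn hg j)
      (by positivity) (gn_pos hr hg g0)
  · exact mul_lt_mul' (le_gn hf i) (lt_gn hr hg g0 h) (by positivity) (gn_pos hr hf f0)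

theorem gn_wd_mul (hr : 0 < r) (hf : Cv r f) (hg : Cv r g) (f0 : f ≠ 0) (g0 : g ≠ 0) :
    gn r (f * g) = gn r f * gn r g ∧ wd r (f * g) = wd r f + wd r g := by
  have hp : ∀ n : ℕ, 0 < gn r f * gn r g / r ^ n := fun n =>
    div_pos (mul_pos (gn_pos hr hf f0) (gn_pos hr hg g0)) (pow_pos hr n)
  refine gn_wd_of (coeff_mul_le hr (le_gn hf) (le_gn hg)) ?_ fun n hn => ?_
  · have hm : (wd r f, wd r g) ∈ Finset.HasAntidiagonal.antidiagonal (wd r f + wd r g) := by simp
    have h1 : ‖coeff (wd r f) f * coeff (wd r g) g‖ = gn r f * gn r g / r ^ (wd r f + wd r g) := by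
      rw [eq_div_iff (pow_pos hr _).ne', norm_mul, pow_add, mul_mul_mul_comm, coeff_wd hr hf,
        coeff_wd hr hg]
    have h2 := norm_sum_lt ((Finset.HasAntidiagonal.antidiagonal (wd r f + wd r g)).erase (wd r f, wd r g))
      (fun p => coeff p.1 f * coeff p.2 g) (hp (wd r f + wd r g)) fun p hp => by
        obtain ⟨a1, a2⟩ := Finset.mem_erase.1 hp
        have a3 := Finset.HasAntidiagonal.mem_antidiagonal.1 a2
        rw [← a3]
        refine coeff_mul_lt hr hf hg f0 g0 ?_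
        by_contra a4
        exact a1 (Prod.ext (by simp only; omega) (by simp only; omega))
    rw [coeff_mul, ← Finset.add_sum_erase _ _ hm,
      IsUltrametricDist.norm_add_eq_max_of_norm_ne_norm (by rw [h1]; exact h2.ne'), h1,
      max_eq_left h2.le, div_mul_cancel₀ _ (pow_pos hr _).ne']
  · rw [← lt_div_iff₀ (pow_pos hr n), coeff_mul]
    refine norm_sum_lt _ _ (hp n) fun p hp => ?_
    have a3 := Finset.HasAntidiagonal.mem_antidiagonal.1 hp
    rw [← a3]
    exact coeff_mul_lt hr hf hg f0 g0 (by omega)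

theorem gn_mul (hr : 0 < r) (hf : Cv r f) (hg : Cv r g) : gn r (f * g) = gn r f * gn r g := by
  by_cases f0 : f = 0
  · simp [f0]
  by_cases g0 : g = 0
  · simp [g0]
  exact (gn_wd_mul hr hf hg f0 g0).1

theorem wd_mul (hr : 0 < r) (hf : Cv r f) (hg : Cv r g) (f0 : f ≠ 0) (g0 : g ≠ 0) :
    wd r (f * g) = wd r f + wd r g := (gn_wd_mul hr hf hg f0 g0).2

theorem gn_pow (hr : 0 < r) (hf : Cv r f) (n : ℕ) : gn r (f ^ n) = gn r f ^ n := by
  induction n with
  | zero => simpa using gn_one hr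
  | succ n ih => rw [pow_succ, gn_mul hr (hf.pow n) hf, ih, pow_succ]

theorem wd_C (hr : 0 < r) (c : C) : wd r (PowerSeries.C c) = 0 := by
  by_cases hc : c = 0
  · rw [hc, map_zero, wd_zero]
  refine (gn_wd_of (M := ‖c‖) (fun n => ?_) (by simp) fun n hn => ?_).2
  · exact (le_gn (cv_C r c) n).trans (gn_C hr c).le
  · rw [coeff_C, if_neg hn.ne']; simpa using hc

theorem wd_one (hr : 0 < r) : wd r (1 : C⟦X⟧) = 0 := by simpa using wd_C hr (1 : C)

theorem wd_pow (hr : 0 < r) (hf : Cv r f) (f0 : f ≠ 0) (n : ℕ) : wd r (f ^ n) = n * wd r f := by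
  induction n with
  | zero => simpa using wd_one hr
  | succ n ih => rw [pow_succ, wd_mul hr (hf.pow n) hf (pow_ne_zero n f0) f0, ih]; ring

/-- a small perturbation changes neither the norm nor the degree -/
theorem gn_wd_add (hr : 0 < r) (hf : Cv r f) (hg : Cv r g) (h : gn r g < gn r f) :
    gn r (f + g) = gn r f ∧ wd r (f + g) = wd r f := by
  have f0 : f ≠ 0 := fun e => by
    rw [e, gn_zero] at h; exact absurd h (not_lt.2 (gn_nonneg hr g))
  refine gn_wd_of (fun n => (coeff_add_le hr f g n).trans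
    (max_le (le_gn hf n) ((le_gn hg n).trans h.le))) ?_ fun n hn =>
      (coeff_add_le hr f g n).trans_lt (max_lt (lt_gn hr hf f0 hn) ((le_gn hg n).trans_lt h))
  have h1 : ‖coeff (wd r f) g‖ < ‖coeff (wd r f) f‖ := by
    have := (le_gn hg (wd r f)).trans_lt h
    rw [← coeff_wd hr hf] at this
    exact lt_of_mul_lt_mul_right this (pow_pos hr _).le
  rw [map_add, IsUltrametricDist.norm_add_eq_max_of_norm_ne_norm h1.ne', max_eq_left h1.le,
    coeff_wd hr hf]

theorem gn_X_sub_C (hr : 0 < r) (a : C) : gn r (X - PowerSeries.C a) = max r ‖a‖ ∧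
    wd r (X - PowerSeries.C a) = if ‖a‖ ≤ r then 1 else 0 := by
  have h : ∀ n, ‖coeff n (X - PowerSeries.C a : C⟦X⟧)‖ * r ^ n =
      if n = 0 then ‖a‖ else if n = 1 then r else 0 := fun n => by
    rcases n with _ | _ | n <;> simp [coeff_X, coeff_C]
  have hm : 0 < max r ‖a‖ := lt_max_of_lt_left hr
  refine gn_wd_of (fun n => ?_) ?_ fun n hn => ?_
  · rw [h]; split_ifs <;> simp [hr.le]
  · rw [h]; split_ifs with h1 h2 h3 h4 h5 <;> simp_all [le_of_lt]
  · rw [h]; split_ifs <;> simp_all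

theorem cv_deriv (hr : 0 < r) (hf : Cv r f) (n : ℕ) :
    ‖coeff n (d⁄dX C f)‖ * r ^ n ≤ ‖coeff (n + 1) f‖ * r ^ (n + 1) / r := by
  rw [coeff_derivative, le_div_iff₀ hr, norm_mul, mul_assoc, mul_assoc, ← pow_succ]
  refine mul_le_mul_of_nonneg_left (mul_le_of_le_one_left (by positivity) ?_) (norm_nonneg _)
  exact_mod_cast IsUltrametricDist.norm_natCast_le_one C (n + 1)

theorem Cv.deriv (hr : 0 < r) (hf : Cv r f) : Cv r (d⁄dX C f) :=
  Cv.of_le hr (by simpa using ((tendsto_add_atTop_iff_nat 1).2 hf).div_const r) (cv_deriv hr hf)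

theorem gn_deriv (hr : 0 < r) (hf : Cv r f) : gn r (d⁄dX C f) ≤ gn r f / r :=
  gn_le fun n => (cv_deriv hr hf n).trans (by gcongr; exact le_gn hf _)

variable (C) in
/-- the Tate algebra of the closed disc of radius `r` -/
def TA (r : ℝ) : Subalgebra C C⟦X⟧ where
  carrier := {f | Cv r f}
  mul_mem' := Cv.mul
  add_mem' := Cv.add
  algebraMap_mem' := cv_C r

theorem mem_TA : f ∈ TA C r ↔ Cv r f := Iff.rfl

end base

section banach

variable {C : Type} [NontriviallyNormedField C] [IsUltrametricDist C] {r : ℝ}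

/-- the norm on the Tate algebra -/
def rn (hr : 0 < r) : RingNorm (TA C r) where
  toFun f := gn r (f : C⟦X⟧)
  map_zero' := gn_zero r
  add_le' f g := (gn_add_le hr f.2 g.2).trans
    (max_le_add_of_nonneg (gn_nonneg hr _) (gn_nonneg hr _))
  neg' f := gn_neg r (f : C⟦X⟧)
  mul_le' f g := (gn_mul hr f.2 g.2).le
  eq_zero_of_map_eq_zero' f h := Subtype.ext ((gn_eq_zero hr f.2).1 h)

variable [hr : Fact (0 < r)]

instance : NormedCommRing (TA C r) :=
  { (rn (C := C) hr.out).toNormedRing with mul_comm := mul_comm }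

theorem norm_TA (f : TA C r) : ‖f‖ = gn r (f : C⟦X⟧) := rfl

instance : NormedAlgebra C (TA C r) where
  norm_smul_le c f := (gn_smul hr.out c (f : C⟦X⟧)).le

instance : NormOneClass (TA C r) := ⟨gn_one hr.out⟩

instance : NormMulClass (TA C r) := ⟨fun f g => gn_mul hr.out f.2 g.2⟩

instance : IsUltrametricDist (TA C r) :=
  IsUltrametricDist.isUltrametricDist_of_forall_norm_add_le_max_norm fun f g =>
    gn_add_le hr.out f.2 g.2

variable (C r) in
/-- the coefficients are continuous -/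
def cf (n : ℕ) : TA C r →L[C] C :=
  LinearMap.mkContinuous ((coeff n).comp (TA C r).val.toLinearMap) (r ^ n)⁻¹ fun f => by
    rw [inv_mul_eq_div, le_div_iff₀ (pow_pos hr.out n)]
    exact le_gn f.2 n

theorem cf_apply (n : ℕ) (f : TA C r) : cf C r n f = coeff n (f : C⟦X⟧) := rfl

instance [CompleteSpace C] : CompleteSpace (TA C r) := by
  refine Metric.complete_of_cauchySeq_tendsto fun u hu => ?_
  choose a ha using fun n => cauchySeq_tendsto_of_complete
    ((cf C r n).uniformContinuous.comp_cauchySeq hu)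
  have key : ∀ ε > 0, ∃ N, ∀ m, N ≤ m → ∀ n, ‖coeff n ((u m : C⟦X⟧) - mk a)‖ * r ^ n ≤ ε := by
    intro ε hε
    obtain ⟨N, hN⟩ := Metric.cauchySeq_iff.1 hu ε hε
    refine ⟨N, fun m hm n => ?_⟩
    have h1 : Tendsto (fun k => ‖coeff n (u m : C⟦X⟧) - cf C r n (u k)‖ * r ^ n) atTop
        (𝓝 (‖coeff n (u m : C⟦X⟧) - a n‖ * r ^ n)) :=
      ((ha n).const_sub _).norm.mul_const _
    rw [map_sub, coeff_mk]
    refine le_of_tendsto h1 (eventually_atTop.2 ⟨N, fun k hk => ?_⟩)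
    have h2 := hN m hm k hk
    rw [dist_eq_norm, norm_TA] at h2
    exact (le_gn (u m - u k).2 n).trans h2.le
  have hc : Cv r (mk a) := by
    refine Metric.tendsto_atTop.2 fun ε hε => ?_
    obtain ⟨N, hN⟩ := key (ε / 2) (half_pos hε)
    obtain ⟨M, hM⟩ := Metric.tendsto_atTop.1 (u N).2 ε hε
    refine ⟨M, fun n hn => ?_⟩
    have h0 := pow_pos hr.out n
    have h1 := hM n hn
    rw [Real.dist_0_eq_abs, abs_of_nonneg (by positivity)] at h1 ⊢
    have h2 := coeff_add_le hr.out (u N : C⟦X⟧) (-((u N : C⟦X⟧) - mk a)) n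
    rw [neg_sub, add_sub_cancel, ← neg_sub, map_neg, norm_neg] at h2
    exact h2.trans_lt (max_lt h1 ((hN N le_rfl n).trans_lt (half_lt_self hε)))
  refine ⟨⟨mk a, hc⟩, Metric.tendsto_atTop.2 fun ε hε => ?_⟩
  obtain ⟨N, hN⟩ := key (ε / 2) (half_pos hε)
  refine ⟨N, fun m hm => ?_⟩
  rw [dist_eq_norm, norm_TA]
  exact (gn_le (hN m hm)).trans_lt (half_lt_self hε)

variable (r) in
/-- polynomials in the Tate algebra -/
def pl : Polynomial C →ₐ[C] TA C r :=
  (Polynomial.coeToPowerSeries.algHom C).codRestrict (TA C r) fun P => by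
    simpa [Polynomial.coeToPowerSeries.algHom_apply, mem_TA] using cv_poly r P

theorem pl_coe (P : Polynomial C) : (pl r P : C⟦X⟧) = P := by
  simp [pl, Polynomial.coeToPowerSeries.algHom_apply]

theorem tendsto_trunc (f : TA C r) : Tendsto (fun n => pl r (trunc n (f : C⟦X⟧))) atTop (𝓝 f) := by
  refine Metric.tendsto_atTop.2 fun ε hε => ?_
  obtain ⟨N, hN⟩ := eventually_atTop.1 (f.2.eventually (gt_mem_nhds (half_pos hε)))
  refine ⟨N, fun m hm => ?_⟩
  rw [dist_eq_norm, norm_TA]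
  refine (gn_le fun n => ?_).trans_lt (half_lt_self hε)
  rw [Subalgebra.coe_sub, pl_coe, map_sub, Polynomial.coeff_coe, coeff_trunc]
  split_ifs with h
  · simp; positivity
  · rw [zero_sub, norm_neg]; exact (hN n (by omega)).le

theorem dense_pl : DenseRange (pl (C := C) r) := fun f =>
  mem_closure_of_tendsto (tendsto_trunc f) (Eventually.of_forall fun n => ⟨_, rfl⟩)

variable (r) in
/-- the variable -/
def xT : TA C r := ⟨X, cv_X r⟩

theorem pl_X : pl r (Polynomial.X : Polynomial C) = xT r := Subtype.ext (by simp [pl_coe, xT])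

theorem pl_eq (P : Polynomial C) : pl r P = Polynomial.aeval (xT r) P := by
  have : pl (C := C) r = Polynomial.aeval (xT r) := Polynomial.algHom_ext (by simp [pl_X])
  rw [this]

theorem norm_xT : ‖(xT r : TA C r)‖ = r := gn_X hr.out

/-- continuous homomorphisms are determined by the image of the variable -/
theorem hom_ext {A : Type} [CommRing A] [Algebra C A] [TopologicalSpace A] [T2Space A]
    {φ ψ : TA C r →ₐ[C] A} (h1 : Continuous φ) (h2 : Continuous ψ) (h : φ (xT r) = ψ (xT r)) :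
    φ = ψ := by
  refine AlgHom.ext (congrFun (dense_pl.equalizer h1 h2 (funext fun P => ?_)))
  simp only [Function.comp, pl_eq, ← Polynomial.aeval_algHom_apply, h]

end banach

section ev

variable {C : Type} [NontriviallyNormedField C]
variable {A : Type} [NormedCommRing A] [NormedAlgebra C A]

/-- evaluation in a Banach algebra -/
def ev (g : A) (f : C⟦X⟧) : A := ∑' n, coeff n f • g ^ n

variable [NormOneClass A] {r : ℝ} {f : C⟦X⟧} {g : A}

theorem ev_term_le (hg : ‖g‖ ≤ r) (f : C⟦X⟧) (n : ℕ) : ‖coeff n f • g ^ n‖ ≤ ‖coeff n f‖ * r ^ n := by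
  rw [norm_smul]
  exact mul_le_mul_of_nonneg_left ((norm_pow_le g n).trans (by gcongr)) (norm_nonneg _)

theorem ev_poly (g : A) (P : Polynomial C) : ev g (P : C⟦X⟧) = Polynomial.aeval g P := by
  rw [ev, Polynomial.aeval_eq_sum_range, tsum_eq_sum (s := Finset.range (P.natDegree + 1))]
  · simp [Polynomial.coeff_coe]
  · intro n hn
    rw [Polynomial.coeff_coe, Polynomial.coeff_eq_zero_of_natDegree_lt (by simpa using hn),
      zero_smul]

theorem ev_X (g : A) : ev g (X : C⟦X⟧) = g := by simpa using ev_poly g Polynomial.X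

theorem ev_C (g : A) (c : C) : ev g (PowerSeries.C c) = algebraMap C A c := by
  simpa using ev_poly g (Polynomial.C c)

theorem ev_zero_left (f : C⟦X⟧) : ev (0 : A) f = algebraMap C A (constantCoeff f) := by
  rw [ev, tsum_eq_single 0 fun n hn => by simp [hn]]
  simp [Algebra.algebraMap_eq_smul_one]

variable [IsUltrametricDist A]

theorem norm_ev_le (hr : 0 < r) (hg : ‖g‖ ≤ r) (hf : Cv r f) : ‖ev g f‖ ≤ gn r f :=
  IsUltrametricDist.norm_tsum_le_of_forall_le_of_nonneg (gn_nonneg hr f) fun n =>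
    (ev_term_le hg f n).trans (le_gn hf n)

variable [CompleteSpace A]

theorem ev_summable (hg : ‖g‖ ≤ r) (hf : Cv r f) : Summable fun n => coeff n f • g ^ n := by
  refine NonarchimedeanAddGroup.summable_of_tendsto_cofinite_zero ?_
  rw [Nat.cofinite_eq_atTop]
  exact squeeze_zero_norm (ev_term_le hg f) hf

variable [IsUltrametricDist C]

variable (r g) in
/-- evaluation as a linear map -/
def evL (hg : ‖g‖ ≤ r) : TA C r →ₗ[C] A where
  toFun f := ev g (f : C⟦X⟧)
  map_add' a b := by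
    simp only [ev, Subalgebra.coe_add, map_add, add_smul]
    exact (ev_summable hg a.2).tsum_add (ev_summable hg b.2)
  map_smul' c a := by
    simp only [ev, SetLike.val_smul, map_smul, smul_eq_mul, mul_smul, RingHom.id_apply]
    exact (ev_summable hg a.2).tsum_const_smul c

variable [hr : Fact (0 < r)]

theorem evL_cont (hg : ‖g‖ ≤ r) : Continuous (evL (C := C) r g hg) :=
  AddMonoidHomClass.continuous_of_bound _ 1 fun f => by
    rw [one_mul]; exact norm_ev_le hr.out hg f.2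

theorem evL_pl (hg : ‖g‖ ≤ r) (P : Polynomial C) : evL r g hg (pl r P) = Polynomial.aeval g P := by
  change ev g (pl r P : C⟦X⟧) = _
  rw [pl_coe, ev_poly]

variable (r g) in
/-- evaluation as an algebra homomorphism -/
def evH (hg : ‖g‖ ≤ r) : TA C r →ₐ[C] A :=
  AlgHom.ofLinearMap (evL r g hg) (by simpa using evL_pl (C := C) hg 1) fun a b => by
    refine dense_pl.induction_on₂ (p := fun a b => evL r g hg (a * b) = evL r g hg a * evL r g hg b)
      (isClosed_eq ((evL_cont hg).comp continuous_mul)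
        (((evL_cont hg).comp continuous_fst).mul ((evL_cont hg).comp continuous_snd)))
      (fun P Q => ?_) a b
    rw [← map_mul, evL_pl, evL_pl, evL_pl, map_mul]

theorem evH_apply (hg : ‖g‖ ≤ r) (f : TA C r) : evH r g hg f = ev g (f : C⟦X⟧) := rfl

theorem evH_cont (hg : ‖g‖ ≤ r) : Continuous (evH (C := C) r g hg) := evL_cont hg

theorem evH_xT (hg : ‖g‖ ≤ r) : evH (C := C) r g hg (xT r) = g := ev_X g

theorem norm_evH_le (hg : ‖g‖ ≤ r) (f : TA C r) : ‖evH r g hg f‖ ≤ ‖f‖ := norm_ev_le hr.out hg f.2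

/-- a continuous homomorphism is an evaluation -/
theorem hom_eq_ev (φ : TA C r →ₐ[C] A) (h : Continuous φ) (hg : ‖φ (xT r)‖ ≤ r) (f : TA C r) :
    φ f = ev (φ (xT r)) (f : C⟦X⟧) :=
  DFunLike.congr_fun (hom_ext h (evH_cont hg) (evH_xT hg).symm) f

end ev

section evp

variable {C : Type} [NontriviallyNormedField C] [IsUltrametricDist C]
variable {A : Type} [NormedCommRing A] [NormedAlgebra C A] [NormOneClass A] [IsUltrametricDist A]
  [CompleteSpace A] {r : ℝ} {f f' : C⟦X⟧} {g : A}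

theorem ev_add (hg : ‖g‖ ≤ r) (hf : Cv r f) (hf' : Cv r f') : ev g (f + f') = ev g f + ev g f' :=
  (evL r g hg).map_add ⟨f, hf⟩ ⟨f', hf'⟩

theorem ev_sub (hg : ‖g‖ ≤ r) (hf : Cv r f) (hf' : Cv r f') : ev g (f - f') = ev g f - ev g f' :=
  map_sub (evL r g hg) (⟨f, hf⟩ : TA C r) ⟨f', hf'⟩

theorem ev_smul (hg : ‖g‖ ≤ r) (hf : Cv r f) (c : C) : ev g (c • f) = c • ev g f :=
  (evL r g hg).map_smul c ⟨f, hf⟩

theorem ev_mul (hr : 0 < r) (hg : ‖g‖ ≤ r) (hf : Cv r f) (hf' : Cv r f') :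
    ev g (f * f') = ev g f * ev g f' :=
  haveI := Fact.mk hr
  map_mul (evH r g hg) ⟨f, hf⟩ ⟨f', hf'⟩

theorem ev_pow (hr : 0 < r) (hg : ‖g‖ ≤ r) (hf : Cv r f) (n : ℕ) : ev g (f ^ n) = ev g f ^ n :=
  haveI := Fact.mk hr
  map_pow (evH r g hg) ⟨f, hf⟩ n

theorem ev_one (g : A) : ev g (1 : C⟦X⟧) = 1 := by simpa using ev_C (C := C) g 1

end evp

end Vale.Agent.P022K.FI
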