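import Vale.Agent.P022K.FI.Fac

/-!
# P022K, block FI: row FCS (substitution in factorisations)
-/

set_option linter.all false

noncomputable section

open PowerSeries Filter Topology LaurentSeries P025H746

namespace Vale.Agent.P022K.FI

variable {C : Type} [NontriviallyNormedField C] [IsUltrametricDist C]
  {Φ P Q u : C⟦X⟧} {e : ℕ} {x y x' y' : C⸨X⸩} {c a : C} {D : C →₀ ℤ} {r : ℝ}

/-- a map of degree `e` from the open disc to itself -/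
structure Dg (Φ : C⟦X⟧) (e : ℕ) : Prop where
  ig : Ig Φ
  pos : 0 < e
  lt : ∀ n < e, ‖coeff n Φ‖ < 1
  eq : ‖coeff e Φ‖ = 1

theorem sb_iff_sub {k : Type} [Field k] {φ : k⟦X⟧} (h0 : constantCoeff φ = 0) (h1 : φ ≠ 0)
    {x y : k⸨X⸩} : (∀ P Q : k⟦X⟧, x * am k Q = am k P →
      y * am k (Q.subst φ) = am k (P.subst φ)) ↔ y = sub φ x := by
  constructor
  · intro h
    obtain ⟨a, b, hb, rfl⟩ := exists_div x
    rw [sub_div h0 h1, eq_div_iff (am_ne (subst_ne h0 h1 hb))]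
    exact h a b (div_mul_cancel₀ _ (am_ne hb))
  · rintro rfl P Q h
    rw [← sub_am h0 h1, ← sub_am h0 h1, ← map_mul, h]

omit [IsUltrametricDist C] in
theorem sb_eq_sub (h0 : constantCoeff Φ = 0) (h1 : Φ ≠ 0) : Sb Φ x y ↔ y = sub Φ x := sb_iff_sub h0 h1

namespace Dg

omit [IsUltrametricDist C] in
theorem nc (h : Dg Φ e) (c : C) : Φ ≠ PowerSeries.C c := fun h1 => by
  have := h.eq
  rw [h1, coeff_C, if_neg h.pos.ne', norm_zero] at this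
  exact zero_ne_one this

omit [IsUltrametricDist C] in
theorem ne (h : Dg Φ e) : Φ ≠ 0 := by simpa using h.nc 0

omit [IsUltrametricDist C] in
theorem cc (h : Dg Φ e) : ‖constantCoeff Φ‖ < 1 := by simpa using h.lt 0 h.pos

theorem sub_C (h : Dg Φ e) (ha : ‖a‖ < 1) : Dg (Φ - PowerSeries.C a) e := by
  refine ⟨h.ig.sub (ig_C ha.le), h.pos, fun n hn => ?_, ?_⟩
  · rw [map_sub, coeff_C]
    split_ifs
    · rw [sub_eq_add_neg]
      exact (IsUltrametricDist.norm_add_le_max _ _).trans_lt (max_lt (h.lt n hn) (by rwa [norm_neg]))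
    · simpa using h.lt n hn
  · rw [map_sub, coeff_C, if_neg h.pos.ne', sub_zero, h.eq]

/-- the discs near the boundary are preserved -/
theorem mp (h : Dg Φ e) : ∃ r₀, 0 < r₀ ∧ r₀ < 1 ∧ ∀ r, r₀ ≤ r → r < 1 → Mp r r Φ := by
  obtain ⟨r₀, a1, a2, a3⟩ := near_bd h.ig h.lt h.eq
  refine ⟨r₀, a1, a2, fun r b1 b2 => ?_⟩
  have hr := a1.trans_le b1
  exact ⟨hr, hr, h.ig.cv hr b2, (a3 r b1 b2).1.trans_le
    (pow_le_of_le_one hr.le b2.le h.pos.ne'), h.nc⟩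

theorem mp' (h : Dg Φ e) (ha : ‖a‖ < 1) : ∃ r, r < 1 ∧ ‖a‖ ≤ r ∧ Mp r r Φ := by
  obtain ⟨r₀, -, a2, a3⟩ := h.mp
  obtain ⟨r, -, b2, b3, b4⟩ := exists_r ha a2
  exact ⟨r, b2, b3, a3 r b4 b2⟩

theorem norm_ev_lt (h : Dg Φ e) (ha : ‖a‖ < 1) : ‖ev a Φ‖ < 1 := by
  obtain ⟨r, a1, a2, H⟩ := h.mp' ha
  exact ((norm_ev_le H.hρ a2 H.cv).trans H.le).trans_lt a1

variable [CompleteSpace C]

theorem ig_cmp (h : Dg Φ e) (hu : Ig u) : Ig (cmp Φ u) := by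
  obtain ⟨r₀, a1, a2, a3⟩ := h.mp
  refine ig_of_near a2 fun r b1 b2 n => ?_
  have H := a3 r b1.le b2
  exact (le_gn (Cv.cmp H.hr H.cv H.le (hu.cv H.hr b2)) n).trans
    ((gn_cmp_le H.hr H.hr H.cv H.le (hu.cv H.hr b2)).trans (hu.gn_le H.hr b2.le))

theorem un_cmp (h : Dg Φ e) (hu : Un u) : Un (cmp Φ u) :=
  ⟨h.ig_cmp hu.1, by
    rw [coeff_zero_eq_constantCoeff_apply, constantCoeff_cmp, hu.norm_ev h.cc]⟩

theorem ev_cmp (h : Dg Φ e) (hu : Ig u) (ha : ‖a‖ < 1) : ev a (cmp Φ u) = ev (ev a Φ) u := by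
  obtain ⟨r, a1, a2, H⟩ := h.mp' ha
  exact FI.ev_cmp H.hr H.hr a2 H.cv H.le (hu.cv H.hr a1)

theorem cmp_mul (h : Dg Φ e) (hP : Ig P) (hQ : Ig Q) : cmp Φ (P * Q) = cmp Φ P * cmp Φ Q := by
  obtain ⟨r, a1, -, H⟩ := h.mp' h.cc
  exact FI.cmp_mul H.hr H.hr H.cv H.le (hP.cv H.hr a1) (hQ.cv H.hr a1)

theorem cmp_add (h : Dg Φ e) (hP : Ig P) (hQ : Ig Q) : cmp Φ (P + Q) = cmp Φ P + cmp Φ Q := by
  obtain ⟨r, a1, -, H⟩ := h.mp' h.cc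
  exact FI.cmp_add H.hr H.hr H.cv H.le (hP.cv H.hr a1) (hQ.cv H.hr a1)

theorem cmp_sub (h : Dg Φ e) (hP : Ig P) (hQ : Ig Q) : cmp Φ (P - Q) = cmp Φ P - cmp Φ Q := by
  obtain ⟨r, a1, -, H⟩ := h.mp' h.cc
  exact FI.cmp_sub H.hr H.hr H.cv H.le (hP.cv H.hr a1) (hQ.cv H.hr a1)

variable [IsAlgClosed C]

theorem cmp_ne (h : Dg Φ e) (hP : Ig P) (h0 : P ≠ 0) : cmp Φ P ≠ 0 := by
  obtain ⟨r, a1, -, H⟩ := h.mp' h.cc
  exact cmp_ne_zero H.hr H.hr H.cv H.le H.nc (hP.cv H.hr a1) h0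

theorem fac (h : Dg Φ e) : ∃ D, Fac (am C Φ) 1 D ∧ 0 ≤ D ∧ dgD D = e := h.ig.fac h.lt h.eq

end Dg

variable [CompleteSpace C] [IsAlgClosed C]

/-- analytic substitution is composition -/
theorem cm_iff (H : Mp r r Φ) (h1 : r < 1)
    (hx : ∃ P Q, Ig P ∧ Ig Q ∧ Q ≠ 0 ∧ x * am C Q = am C P) : Cm Φ x y ↔ y = cmF r Φ x := by
  obtain ⟨P, Q, a1, a2, a3, a4⟩ := hx
  have hx : x ∈ MM C r :=
    ⟨P, Q, a1.cv H.hr h1, a2.cv H.hr h1, a3, eq_div_of_mul_eq (am_ne a3) a4⟩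
  have key : ∀ P Q, Ig P → Ig Q → x * am C Q = am C P →
      cmF r Φ x * am C (cmp Φ Q) = am C (cmp Φ P) := fun P Q b1 b2 b3 => by
    rw [← H.am (b1.cv H.hr h1), ← H.am (b2.cv H.hr h1), ← H.map_mul hx (b2.cv H.hr h1).mem, b3]
  refine ⟨fun h => mul_right_cancel₀
    (am_ne (cmp_ne_zero H.hr H.hr H.cv H.le H.nc (a2.cv H.hr h1) a3))
    ((h P Q a1 a2 a4).trans (key P Q a1 a2 a4).symm), ?_⟩
  rintro rfl
  exact key

theorem fac_cmF (h : Dg Φ e) (H : Mp r r Φ) (h1 : r < 1) (hx : Fac x c D) :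
    ∃ D', Fac (cmF r Φ x) c D' ∧ dgD D' = e * dgD D := by
  have key : ∀ D : C →₀ ℤ, (∀ a ∈ D.support, ‖a‖ < 1) →
      ∃ D', Fac (cmF r Φ (pr D)) 1 D' ∧ dgD D' = e * dgD D := by
    intro D
    induction D using Finsupp.induction with
    | zero => exact fun _ => ⟨0, by rw [pr_zero, H.map_one]; exact fac_one, by simp [dgD_zero]⟩
    | single_add a n D a1 a2 ih =>
      intro hD
      classical
      rw [Finsupp.support_single_add a1 a2] at hD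
      obtain ⟨E, e1, e2⟩ := ih fun b hb => hD b (Finset.mem_cons_of_mem hb)
      obtain ⟨F, f1, -, f2⟩ := (h.sub_C (hD a (Finset.mem_cons_self _ _))).fac
      have b1 := (cv_X r).sub (cv_C r a)
      refine ⟨n • F + E, ?_, by rw [dgD_add, dgD_add, dgD_zsmul, dgD_single, e2, f2]; ring⟩
      rw [pr_add, H.map_mul (pr_mem r _) (pr_mem r _), pr_single, H.map_zpow b1.mem, H.am b1,
        cmp_sub H.hr H.hr H.cv H.le (cv_X r) (cv_C r a), cmp_X, cmp_C]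
      simpa using (f1.zpow n).mul e1
  obtain ⟨c0, hD, u, hu, rfl⟩ := fac_iff.1 hx
  obtain ⟨E, e1, e2⟩ := key D hD
  have a1 := IntermediateField.algebraMap_mem (MM C r) c
  have a2 := hu.1.cv H.hr h1
  refine ⟨E, ?_, e2⟩
  rw [H.map_mul (mul_mem a1 a2.mem) (pr_mem r D), H.map_mul a1 a2.mem, H.map_const, H.am a2]
  simpa using ((h.un_cmp hu).fac.smul c0).mul e1

namespace Dg

theorem cm_ex (h : Dg Φ e) (hx : Fac x c D) : ∃! y, Cm Φ x y := by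
  obtain ⟨r, a1, -, H⟩ := h.mp' h.cc
  exact ⟨_, (cm_iff H a1 hx.ex_ig).2 rfl, fun y hy => (cm_iff H a1 hx.ex_ig).1 hy⟩

theorem sb_iff_cm (h : Dg Φ e) (h0 : constantCoeff Φ = 0) (hx : Fac x c D) :
    Sb Φ x y ↔ Cm Φ x y := by
  obtain ⟨r, a1, -, H⟩ := h.mp' h.cc
  rw [sb_eq_sub h0 h.ne, cm_iff H a1 hx.ex_ig, cmF_eq_sub h0 h.ne (hx.mem H.hr a1)]

theorem cm_fac (h : Dg Φ e) (hx : Fac x c D) (hy : Cm Φ x y) :
    ∃ D', Fac y c D' ∧ dgD D' = e * dgD D := by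
  obtain ⟨r, a1, -, H⟩ := h.mp' h.cc
  rw [(cm_iff H a1 hx.ex_ig).1 hy]
  exact fac_cmF h H a1 hx

/-- the ramification index at a point does not depend on the function -/
theorem cm_od (h : Dg Φ e) (ha : ‖a‖ < 1) : ∃ m : ℕ, 0 < m ∧ (ev a (d⁄dX C Φ) ≠ 0 → m = 1) ∧
    (∀ E, Fac (am C (Φ - PowerSeries.C (ev a Φ))) 1 E → E a = m) ∧
    ∀ (x y : C⸨X⸩) c D c' D', Fac x c D → Cm Φ x y → Fac y c' D' → D' a = m * D (ev a Φ) := by
  obtain ⟨r, a1, a2, H⟩ := h.mp' ha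
  have b1 := H.cv.sub (cv_C r (ev a Φ))
  have b2 : 0 < od r a (am C (Φ - PowerSeries.C (ev a Φ))) :=
    od_am_pos H.hr a2 b1 (sub_ne_zero.2 (h.nc _)) (by
      rw [ev_sub a2 H.cv (cv_C r _), ev_C]; simp)
  obtain ⟨m, hm⟩ := Int.eq_ofNat_of_zero_le b2.le
  refine ⟨m, by omega, fun h1 => ?_, fun E hE => by rw [← hE.od H.hr a1 a2, hm],
    fun x y c D c' D' hx hy hy' => ?_⟩
  · have := od_le_one H.hr a2 b1 (by rwa [map_sub, derivative_C, sub_zero])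
    omega
  · rw [← hy'.od H.hr a1 a2, (cm_iff H a1 hx.ex_ig).1 hy, H.od_cmF a2 (hx.mem H.hr a1), hm,
      hx.od H.hr a1 ((norm_ev_le H.hr a2 H.cv).trans H.le)]

end Dg

/-- **FCS** -/
theorem fcs [CharZero C] : FCS C := by
  intro Φ e h1 h2 h3 h4 x c D hx
  have h : Dg Φ e := ⟨h1, h2, h3, h4⟩
  refine ⟨fun h0 y => h.sb_iff_cm h0 hx, h.cm_ex hx, fun y hy => ?_⟩
  obtain ⟨E, e1, e2⟩ := h.cm_fac hx hy
  refine ⟨c, E, e1, rfl, e2, fun a ha => ⟨h.norm_ev_lt ha, ?_⟩⟩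
  obtain ⟨m, m1, m2, -, m3⟩ := h.cm_od ha
  exact ⟨m, m1, m3 x y c D c E hx hy e1, m2⟩

end Vale.Agent.P022K.FI
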