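import Vale.Agent.P022K.F0.St

/-!
# P022K, block FI: ordinary points of a tower at a place (definitions, first properties)
-/

set_option autoImplicit false
set_option linter.unusedSectionVars false

open UpperHalfPlane
open scoped MatrixGroups

noncomputable section

namespace Vale.Agent.P022K.FI

open Vale.Agent.P022K.Sh

/-- the derivative of `g` at `τ` -/
def mu (g : GP) (τ : ℍ) : ℂ :=
  ((g : GL (Fin 2) ℝ).det.val : ℂ) / denom (g : GL (Fin 2) ℝ) τ ^ 2

theorem mu_ne (g : GP) (τ : ℍ) : mu g τ ≠ 0 :=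
  div_ne_zero (by exact_mod_cast (g : GL (Fin 2) ℝ).det.ne_zero) (pow_ne_zero _ (denom_ne_zero _ _))

theorem mu_mul (g h : GP) (τ : ℍ) : mu (g * h) τ = mu g (h • τ) * mu h τ := by
  have hh : 0 < (h : GL (Fin 2) ℝ).det.val := h.2
  have e := denom_cocycle_σ (g : GL (Fin 2) ℝ) (h : GL (Fin 2) ℝ) τ
  simp only [σ, if_pos hh, ContinuousAlgEquiv.refl_apply] at e
  simp only [mu, Subgroup.coe_mul, map_mul, Units.val_mul, e, Subgroup.smul_def]
  push_cast
  have h1 := denom_ne_zero (g : GL (Fin 2) ℝ) ((h : GL (Fin 2) ℝ) • τ)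
  have h2 := denom_ne_zero (h : GL (Fin 2) ℝ) τ
  field_simp

theorem mu_one (τ : ℍ) : mu 1 τ = 1 := by simp [mu]

theorem mu_inv {g : GP} {τ : ℍ} (h : g • τ = τ) : mu g⁻¹ τ = (mu g τ)⁻¹ := by
  have e := mu_mul g⁻¹ g τ
  rw [inv_mul_cancel, mu_one, h] at e
  exact eq_inv_of_mul_eq_one_left e.symm

theorem mu_conj (g h : GP) {τ : ℍ} (hg : g • τ = τ) : mu (h * g * h⁻¹) (h • τ) = mu g τ := by
  have e := mu_mul h h⁻¹ (h • τ)
  rw [mul_inv_cancel, mu_one, inv_smul_smul] at e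
  rw [mu_mul, mu_mul, inv_smul_smul, hg]
  linear_combination (-mu g τ) * e

theorem fix_of_mu {g : GP} {τ : ℍ} (h : g • τ = τ) (h1 : mu g τ = 1) (τ' : ℍ) : g • τ' = τ' := by
  have hg : 0 < (g : GL (Fin 2) ℝ).det.val := g.2
  have hd := denom_ne_zero (g : GL (Fin 2) ℝ) τ
  have hd' := denom_ne_zero (g : GL (Fin 2) ℝ) τ'
  have e := congrArg (fun z : ℍ => (z : ℂ)) h
  simp only [Subgroup.smul_def, coe_smul_of_det_pos hg] at e
  rw [div_eq_iff hd] at e
  rw [mu, div_eq_one_iff_eq (pow_ne_zero _ hd)] at h1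
  rw [Matrix.GeneralLinearGroup.val_det_apply, Matrix.det_fin_two] at h1
  apply UpperHalfPlane.ext
  simp only [Subgroup.smul_def, coe_smul_of_det_pos hg]
  rw [div_eq_iff hd']
  simp only [num, denom] at *
  set a := (g : GL (Fin 2) ℝ) 0 0
  set b := (g : GL (Fin 2) ℝ) 0 1
  set c := (g : GL (Fin 2) ℝ) 1 0
  set d := (g : GL (Fin 2) ℝ) 1 1
  push_cast at h1
  have e1 : ((c : ℂ) * τ + d) * (a - d - 2 * c * τ) = 0 := by
    linear_combination h1 + c * e
  have e2 : (a : ℂ) - d - 2 * c * τ = 0 := (mul_eq_zero.1 e1).resolve_left hd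
  have hc : c = 0 := by
    have := congrArg Complex.im e2
    simp at this
    exact this.resolve_right τ.im_pos.ne'
  have had : (a : ℂ) = d := by
    rw [hc, Complex.ofReal_zero] at e2
    linear_combination e2
  have hb : (b : ℂ) = 0 := by
    rw [hc, had, Complex.ofReal_zero] at e
    linear_combination e
  rw [hc, had, hb]
  simp [mul_comm]

variable {G0 G : Type} [Group G0] [Group G] (T : Tw G0 G)

theorem mu_eq (γ : G0) (τ : ℍ) : T.mu γ τ = mu (T.r γ) τ := rfl

/-- the element of `G` by which `γ` acts at `x` -/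
def lc (x : G) (γ : G0) : G := x⁻¹ * T.j γ * x

theorem lc_mul (x : G) (γ δ : G0) : lc T x (γ * δ) = lc T x γ * lc T x δ := by
  simp only [lc, map_mul]; group

theorem lc_inv (x : G) (γ : G0) : lc T x γ⁻¹ = (lc T x γ)⁻¹ := by
  simp only [lc, map_inv]; group

theorem lc_one (x : G) : lc T x 1 = 1 := by simp [lc]

theorem lc_right (x g : G) (γ : G0) : lc T (x * g) γ = g⁻¹ * lc T x γ * g := by
  simp only [lc]; group

theorem lc_left (x : G) (γ δ : G0) : lc T (T.j δ * x) (δ * γ * δ⁻¹) = lc T x γ := by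
  simp only [lc, map_mul, map_inv]; group

theorem mem_Z0 {γ : G0} : γ ∈ T.Z0 ↔ ∀ τ : ℍ, T.r γ • τ = τ := by
  simp only [Tw.Z0, MonoidHom.mem_ker, MonoidHom.comp_apply, Equiv.ext_iff,
    MulAction.toPermHom_apply, MulAction.toPerm_apply, Equiv.Perm.coe_one, id]

/-- the stabiliser of a point is commutative modulo `Z0` -/
theorem comm_Z0 {γ δ : G0} {τ : ℍ} (h : T.r γ • τ = τ) (h' : T.r δ • τ = τ) :
    γ * δ * γ⁻¹ * δ⁻¹ ∈ T.Z0 := by
  have hi : (T.r γ)⁻¹ • τ = τ := inv_smul_eq_iff.2 h.symm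
  have hi' : (T.r δ)⁻¹ • τ = τ := inv_smul_eq_iff.2 h'.symm
  refine (mem_Z0 T).2 (fix_of_mu (τ := τ) ?_ ?_)
  · simp only [map_mul, map_inv, mul_smul, h, h', hi, hi']
  · simp only [map_mul, map_inv, mu_mul, hi, hi', h', mu_inv h, mu_inv h']
    have := mu_ne (T.r γ) τ
    have := mu_ne (T.r δ) τ
    field_simp

/-- the same point of level `U` -/
def EqU (U : Subgroup G) (p p' : ℍ × G) : Prop :=
  ∃ γ, ∃ u ∈ U, p'.1 = T.r γ • p.1 ∧ p'.2 = T.j γ * p.2 * u

/-- the relation `EqU` -/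
def stU (U : Subgroup G) : Setoid (ℍ × G) where
  r := EqU T U
  iseqv :=
    { refl := fun p => ⟨1, 1, one_mem _, by simp, by simp⟩
      symm := by
        rintro p p' ⟨γ, u, hu, h1, h2⟩
        exact ⟨γ⁻¹, u⁻¹, inv_mem hu, by rw [h1, map_inv, inv_smul_smul],
          by rw [h2, map_inv]; group⟩
      trans := by
        rintro p p' p'' ⟨γ, u, hu, h1, h2⟩ ⟨δ, v, hv, h3, h4⟩
        exact ⟨δ * γ, u * v, mul_mem hu hv, by rw [h3, h1, map_mul, mul_smul],
          by rw [h4, h2, map_mul]; group⟩ }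

/-- the points of level `U` -/
def PU (U : Subgroup G) : Type := Quotient (stU T U)

/-- the class of a point -/
def pm (U : Subgroup G) (τ : ℍ) (x : G) : PU T U := Quotient.mk (stU T U) (τ, x)

variable {T} in
theorem pm_eq {U : Subgroup G} {τ τ' : ℍ} {x x' : G} : pm T U τ x = pm T U τ' x' ↔
    ∃ γ, ∃ u ∈ U, τ' = T.r γ • τ ∧ x' = T.j γ * x * u := Quotient.eq (r := stU T U)

/-- the components of level `U` -/
abbrev Cp (U : Subgroup G) : Type := DoubleCoset.Quotient (T.j.range : Set G) (U : Set G)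

/-- the component of `x` -/
def cm (U : Subgroup G) (x : G) : Cp T U := DoubleCoset.mk T.j.range U x

variable {T} in
theorem cm_eq {U : Subgroup G} {x x' : G} : cm T U x = cm T U x' ↔
    ∃ γ, ∃ u ∈ U, x' = T.j γ * x * u := by
  rw [cm, cm, DoubleCoset.eq]
  constructor
  · rintro ⟨_, ⟨γ, rfl⟩, u, hu, h⟩
    exact ⟨γ, u, hu, h⟩
  · rintro ⟨γ, u, hu, h⟩
    exact ⟨_, ⟨γ, rfl⟩, u, hu, h⟩

/-- the component of a point -/
def PU.cp {U : Subgroup G} (c : PU T U) : Cp T U :=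
  Quotient.lift (s := stU T U) (fun p => cm T U p.2)
    (fun _ _ ⟨γ, u, hu, _, h⟩ => cm_eq.2 ⟨γ, u, hu, h⟩) c

theorem PU.cp_pm (U : Subgroup G) (τ : ℍ) (x : G) : PU.cp T (pm T U τ x) = cm T U x := rfl

section loc

variable {K : Type} [Field K]

/-- `diag (a, d)` -/
def d2 (a d : Kˣ) : GL (Fin 2) K :=
  Matrix.GeneralLinearGroup.mkOfDetNeZero !![(a : K), 0; 0, d] (by simp [Matrix.det_fin_two])

theorem d2_val (a d : Kˣ) : (d2 a d : Matrix (Fin 2) (Fin 2) K) = !![(a : K), 0; 0, d] := rfl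

theorem d2_mul (a d a' d' : Kˣ) : d2 a d * d2 a' d' = d2 (a * a') (d * d') := by
  ext i j
  fin_cases i <;> fin_cases j <;> simp [d2_val, Matrix.mul_apply, Fin.sum_univ_two]

theorem d2_one : d2 (1 : Kˣ) 1 = 1 := by
  ext i j
  fin_cases i <;> fin_cases j <;> simp [d2_val]

theorem d2_inv (a d : Kˣ) : (d2 a d)⁻¹ = d2 a⁻¹ d⁻¹ :=
  inv_eq_of_mul_eq_one_right (by rw [d2_mul, mul_inv_cancel, mul_inv_cancel, d2_one])

theorem d2_pow (a d : Kˣ) (n : ℕ) : d2 a d ^ n = d2 (a ^ n) (d ^ n) := by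
  induction n with
  | zero => simp [d2_one]
  | succ n ih => rw [pow_succ, ih, d2_mul, pow_succ, pow_succ]

theorem d2_comm (a d a' d' : Kˣ) : Commute (d2 a d) (d2 a' d') := by
  rw [Commute, SemiconjBy, d2_mul, d2_mul, mul_comm a, mul_comm d]

theorem d2_inj {a d a' d' : Kˣ} (h : d2 a d = d2 a' d') : a = a' ∧ d = d' := by
  have h0 := congrArg (fun g : GL (Fin 2) K => (g : Matrix (Fin 2) (Fin 2) K) 0 0) h
  have h1 := congrArg (fun g : GL (Fin 2) K => (g : Matrix (Fin 2) (Fin 2) K) 1 1) h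
  simp only [d2_val] at h0 h1
  exact ⟨Units.ext (by simpa using h0), Units.ext (by simpa using h1)⟩

theorem eq_d2 {g : GL (Fin 2) K} (h1 : (g : Matrix (Fin 2) (Fin 2) K) 0 1 = 0)
    (h2 : (g : Matrix (Fin 2) (Fin 2) K) 1 0 = 0) : ∃ a d, g = d2 a d := by
  have hd := g.det.ne_zero
  rw [Matrix.GeneralLinearGroup.val_det_apply, Matrix.det_fin_two, h1, zero_mul, sub_zero] at hd
  refine ⟨Units.mk0 _ (left_ne_zero_of_mul hd), Units.mk0 _ (right_ne_zero_of_mul hd), ?_⟩
  ext i j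
  fin_cases i <;> fin_cases j <;> simp [d2_val, h1, h2]

theorem mem_Zl {g : GL (Fin 2) K} : g ∈ Zl K ↔ ∃ c, g = d2 c c := by
  constructor
  · intro h
    obtain ⟨c, hc⟩ := Matrix.GeneralLinearGroup.mem_center_iff_val_mem_range_scalar.1 h
    have h01 : (g : Matrix (Fin 2) (Fin 2) K) 0 1 = 0 := by rw [← hc]; simp
    have h10 : (g : Matrix (Fin 2) (Fin 2) K) 1 0 = 0 := by rw [← hc]; simp
    obtain ⟨a, d, rfl⟩ := eq_d2 h01 h10
    have h0 := congrFun (congrFun hc 0) 0
    have h1 := congrFun (congrFun hc 1) 1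
    simp [d2_val] at h0 h1
    exact ⟨a, by rw [show d = a from Units.ext (h1.symm.trans h0)]⟩
  · rintro ⟨c, rfl⟩
    refine Matrix.GeneralLinearGroup.mem_center_iff_val_mem_range_scalar.2 ⟨c, ?_⟩
    ext i j
    fin_cases i <;> fin_cases j <;> simp [d2_val]

/-- a matrix commuting up to a scalar with a regular diagonal matrix is diagonal -/
theorem diag_of_comm {a d : Kˣ} (had : (d : K) ^ 2 ≠ (a : K) ^ 2) {g : GL (Fin 2) K}
    (h : d2 a d * g * (d2 a d)⁻¹ * g⁻¹ ∈ Zl K) : ∃ a' d', g = d2 a' d' := by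
  obtain ⟨z, hz⟩ := mem_Zl.1 h
  have e : d2 a d * g = d2 z z * g * d2 a d := by rw [← hz]; group
  have e' := congrArg (fun g : GL (Fin 2) K => (g : Matrix (Fin 2) (Fin 2) K)) e
  have h00 := congrFun (congrFun e' 0) 0
  have h01 := congrFun (congrFun e' 0) 1
  have h10 := congrFun (congrFun e' 1) 0
  have h11 := congrFun (congrFun e' 1) 1
  simp [d2_val, Matrix.mul_apply, Fin.sum_univ_two, Matrix.vecMul, dotProduct] at h00 h01 h10 h11
  have hd := g.det.ne_zero
  rw [Matrix.GeneralLinearGroup.val_det_apply, Matrix.det_fin_two] at hd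
  have ha := a.ne_zero
  have hd0 := d.ne_zero
  by_cases hz1 : (z : K) = 1
  · rw [hz1] at h01 h10
    have hne : (a : K) - d ≠ 0 := fun h => had (by rw [sub_eq_zero.1 h])
    refine eq_d2 ((mul_eq_zero.1 ?_).resolve_left hne) ((mul_eq_zero.1 ?_).resolve_left hne)
    · linear_combination h01
    · linear_combination -h10
  · exfalso
    have hz' : (1 : K) - z ≠ 0 := fun h => hz1 (sub_eq_zero.1 h).symm
    have g0 : (g : Matrix (Fin 2) (Fin 2) K) 0 0 = 0 :=
      (mul_eq_zero.1 (show ((a : K) * (1 - z)) * _ = 0 by linear_combination h00)).resolve_left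
        (mul_ne_zero ha hz')
    rw [g0, zero_mul, zero_sub, neg_ne_zero] at hd
    have k1 : (a : K) = z * d := mul_right_cancel₀ (left_ne_zero_of_mul hd) (by
      linear_combination h01)
    have k2 : (d : K) = z * a := mul_right_cancel₀ (right_ne_zero_of_mul hd) (by
      linear_combination h10)
    exact had (by linear_combination (d : K) * k2 - (a : K) * k1)

variable (O : Type) [CommRing O] [IsDomain O] [IsDiscreteValuationRing O] [Algebra O K]

/-- integral elements -/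
def ig (c : K) : Prop := c ∈ (algebraMap O K).range

/-- elements of the maximal ideal -/
def sm (c : K) : Prop := ∃ y ∈ IsLocalRing.maximalIdeal O, algebraMap O K y = c

variable {O} {T} (w : T.Lc O K) (e : K →+* ℂ)

/-- the forward step `diag (1, ϖ)` -/
def tt : GL (Fin 2) K := d2 1 w.ϖ

/-- eigenvalue ratios at `w` are multipliers -/
def Cmp : Prop := ∀ (γ : G0) (τ : ℍ) (x : G), T.r γ • τ = τ →
  e ((w.π (lc T x γ) : Matrix (Fin 2) (Fin 2) K).trace ^ 2 /
    (w.π (lc T x γ) : Matrix (Fin 2) (Fin 2) K).det) = mu (T.r γ) τ + (mu (T.r γ) τ)⁻¹ + 2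

/-- ordinary points: right translation by `lc x γ` fixes the point, has the multiplier
`e (d / a)`, and `d / a` is small -/
def Ord (τ : ℍ) (x : G) : Prop := ∃ (γ : G0) (a d : Kˣ), T.r γ • τ = τ ∧
  w.π (lc T x γ) = d2 a d ∧ sm O ((d : K) / a) ∧ mu (T.r γ) τ * e ((d : K) / a) = 1

/-- the ordinary points of level `U` -/
def OP (U : Subgroup G) : Type := {c : PU T U // ∃ τ x, c = pm T U τ x ∧ Ord w e τ x}

/-- the level `Γ₀(w)` -/
def U0 (U : Subgroup G) : Subgroup G := U ⊓ cj (w.ι (tt w)) U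

include w in
theorem sm_sq_ne {c : K} (hc : sm O c) : c ^ 2 ≠ 1 := by
  obtain ⟨y, hy, rfl⟩ := hc
  intro h
  have := w.fr
  have : y ^ 2 = 1 := IsFractionRing.injective O K (by simpa using h)
  exact (IsLocalRing.mem_maximalIdeal y).1 hy (IsUnit.of_pow_eq_one this two_ne_zero)

theorem comm_iota {u : G} {g : GL (Fin 2) K} (h : Commute (w.π u) g) : Commute u (w.ι g) := by
  have e : u = w.ι (w.π u) * ((w.ι (w.π u))⁻¹ * u) := by group
  rw [e]
  refine Commute.mul_left (h.map w.ι) (w.com g _ ?_).symm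
  rw [map_mul, map_inv, w.πι, inv_mul_cancel]

variable {w e}

theorem Ord.left {τ : ℍ} {x : G} (h : Ord w e τ x) (δ : G0) :
    Ord w e (T.r δ • τ) (T.j δ * x) := by
  obtain ⟨γ, a, d, h1, h2, h3, h4⟩ := h
  refine ⟨δ * γ * δ⁻¹, a, d, ?_, by rw [lc_left, h2], h3, ?_⟩
  · simp only [map_mul, map_inv, mul_smul, inv_smul_smul, h1]
  · rw [map_mul, map_mul, map_inv, mu_conj _ _ h1, h4]

theorem Ord.right {τ : ℍ} {x g : G} (h : Ord w e τ x) {a' d' : Kˣ} (hg : w.π g = d2 a' d') :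
    Ord w e τ (x * g) := by
  obtain ⟨γ, a, d, h1, h2, h3, h4⟩ := h
  refine ⟨γ, a, d, h1, ?_, h3, h4⟩
  rw [lc_right, map_mul, map_mul, map_inv, h2, hg, mul_assoc, (d2_comm a d a' d').eq]
  group

theorem Ord.step {τ : ℍ} {x : G} (h : Ord w e τ x) : Ord w e τ (x * w.ι (tt w)) :=
  h.right (w.πι _)

/-- at an ordinary point the whole stabiliser is diagonal, with the same orientation -/
theorem Ord.all (hT : T.Ok) (hc : Cmp w e) {τ : ℍ} {x : G} (h : Ord w e τ x) {γ : G0}
    (hγ : T.r γ • τ = τ) :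
    ∃ a d : Kˣ, w.π (lc T x γ) = d2 a d ∧ mu (T.r γ) τ * e ((d : K) / a) = 1 := by
  obtain ⟨δ, a, d, h1, h2, h3, h4⟩ := h
  have h5 := sm_sq_ne w h3
  have had : (d : K) ^ 2 ≠ (a : K) ^ 2 := fun h => h5 (by
    rw [div_pow, h, div_self (pow_ne_zero _ a.ne_zero)])
  have hz := (hT.z0 _).1 (comm_Z0 T h1 hγ)
  have hz' : lc T x (δ * γ * δ⁻¹ * γ⁻¹) ∈ T.Z := by
    have := Subgroup.mem_center_iff.1 (hT.zc hz) x⁻¹
    rw [lc, this, inv_mul_cancel_right]
    exact hz
  have hz2 := w.cen' _ hz'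
  simp only [lc_mul, lc_inv, map_mul, map_inv, h2] at hz2
  obtain ⟨a', d', h6⟩ := diag_of_comm had hz2
  refine ⟨a', d', h6, ?_⟩
  have key : ∀ (β : G0) (a d : Kˣ), T.r β • τ = τ → w.π (lc T x β) = d2 a d →
      mu (T.r β) τ * e ((d : K) / a) = 1 ∨ mu (T.r β) τ = e ((d : K) / a) := by
    intro β a d hβ hd
    have k := hc β τ x hβ
    have hm := mu_ne (T.r β) τ
    have ha := a.ne_zero
    have hd0 := d.ne_zero
    have he : e ((d : K) / a) ≠ 0 := (map_ne_zero e).2 (div_ne_zero hd0 ha)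
    have k2 : ((d2 a d : GL (Fin 2) K) : Matrix (Fin 2) (Fin 2) K).trace ^ 2 /
        ((d2 a d : GL (Fin 2) K) : Matrix (Fin 2) (Fin 2) K).det =
          (d : K) / a + ((d : K) / a)⁻¹ + 2 := by
      simp only [d2_val, Matrix.trace_fin_two_of, Matrix.det_fin_two_of]
      field_simp
      ring
    rw [hd, k2, map_add, map_add, map_inv₀, map_ofNat] at k
    generalize e ((d : K) / a) = y at *
    generalize mu (T.r β) τ = m at *
    have : (m * y - 1) * (m - y) = 0 := by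
      field_simp at k
      linear_combination -k
    exact (mul_eq_zero.1 this).imp sub_eq_zero.1 sub_eq_zero.1
  rcases key γ a' d' hγ h6 with k | k
  · exact k
  have hf : T.r (γ * δ) • τ = τ := by rw [map_mul, mul_smul, h1, hγ]
  have hp : w.π (lc T x (γ * δ)) = d2 (a' * a) (d' * d) := by
    rw [lc_mul, map_mul, h6, h2, d2_mul]
  have hq : (((d' * d : Kˣ) : K) / (a' * a : Kˣ)) = (d' : K) / a' * ((d : K) / a) := by
    simp only [Units.val_mul]; rw [div_mul_div_comm]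
  have hm := mu_ne (T.r γ) τ
  rcases key _ _ _ hf hp with k' | k' <;> rw [map_mul, mu_mul, h1, hq, map_mul] at k'
  · linear_combination k' - mu (T.r γ) τ * e ((d' : K) / a') * h4
  · exfalso
    rw [← k] at k'
    have k3 := mul_left_cancel₀ hm k'
    rw [k3, ← map_mul, ← sq, ← map_one e] at h4
    exact h5 (e.injective h4)

/-- two ordinary representatives with the same point of `ℍ` differ by a diagonal matrix at `w` -/
theorem Ord.diag (hT : T.Ok) (hc : Cmp w e) {τ : ℍ} {x u : G} (h : Ord w e τ x)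
    (h' : Ord w e τ (x * u)) : ∃ a d, w.π u = d2 a d := by
  obtain ⟨γ, a', d', h1, h2, h3, h4⟩ := h'
  obtain ⟨a, d, h5, h6⟩ := h.all hT hc h1
  have hq : (d : K) / a = d' / a' :=
    e.injective (mul_left_cancel₀ (mu_ne (T.r γ) τ) (h6.trans h4.symm))
  rw [lc_right, map_mul, map_mul, map_inv, h5] at h2
  have h7 := sm_sq_ne w h3
  have had : (d : K) ^ 2 ≠ (a : K) ^ 2 := fun h => h7 (by
    rw [← hq, div_pow, h, div_self (pow_ne_zero _ a.ne_zero)])
  have hd : d = a / a' * d' := Units.ext (by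
    have := a.ne_zero
    have := a'.ne_zero
    rw [div_eq_div_iff a.ne_zero a'.ne_zero] at hq
    simp only [Units.val_mul, Units.val_div_eq_div_val]
    field_simp
    linear_combination hq)
  have e1 : d2 a d = d2 (a / a') (a / a') * d2 a' d' := by rw [d2_mul, ← hd, div_mul_cancel]
  have hZ : d2 (a / a') (a / a') ∈ Zl K := mem_Zl.2 ⟨a / a', rfl⟩
  refine diag_of_comm had ?_
  generalize d2 (a / a') (a / a') = z at *
  generalize d2 a d = D at *
  have hz := Subgroup.mem_center_iff.1 hZ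
  have e2 : d2 a' d' = z⁻¹ * D := by rw [e1]; group
  have e3 : D * w.π u = w.π u * (z⁻¹ * D) := by rw [← e2, ← h2]; group
  have e4 : D * w.π u * D⁻¹ * (w.π u)⁻¹ = z⁻¹ := by
    rw [e3, mul_assoc (w.π u), mul_inv_cancel_right,
      Subgroup.mem_center_iff.1 (inv_mem hZ) (w.π u), mul_inv_cancel_right]
  rw [e4]
  exact inv_mem hZ

/-- translation by a diagonal matrix at `w` is well defined on ordinary points of any level -/
theorem Ord.pm_d2 (hT : T.Ok) (hc : Cmp w e) {U : Subgroup G} {τ τ' : ℍ} {x x' : G}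
    (h : Ord w e τ x) (h' : Ord w e τ' x') (hp : pm T U τ x = pm T U τ' x') (a d : Kˣ) :
    pm T U τ (x * w.ι (d2 a d)) = pm T U τ' (x' * w.ι (d2 a d)) := by
  obtain ⟨γ, u, hu, rfl, rfl⟩ := pm_eq.1 hp
  obtain ⟨a', d', hd⟩ := (h.left γ).diag hT hc h'
  have hcm := comm_iota w (u := u) (g := d2 a d) (hd ▸ d2_comm _ _ _ _)
  exact pm_eq.2 ⟨γ, u, hu, rfl, by rw [mul_assoc _ u, hcm.eq]; group⟩

variable (w e)

/-- the class of an ordinary point -/
def om (U : Subgroup G) {τ : ℍ} {x : G} (h : Ord w e τ x) : OP w e U := ⟨pm T U τ x, τ, x, rfl, h⟩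

/-- a representative -/
def OP.t {U : Subgroup G} (c : OP w e U) : ℍ := c.2.choose

/-- a representative -/
def OP.x {U : Subgroup G} (c : OP w e U) : G := c.2.choose_spec.choose

theorem OP.ord {U : Subgroup G} (c : OP w e U) : Ord w e (c.t w e) (c.x w e) :=
  c.2.choose_spec.choose_spec.2

theorem OP.eq {U : Subgroup G} (c : OP w e U) : c.1 = pm T U (c.t w e) (c.x w e) :=
  c.2.choose_spec.choose_spec.1

theorem OP.om_eq {U : Subgroup G} (c : OP w e U) : om w e U (c.ord w e) = c :=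
  Subtype.ext (c.eq w e).symm

/-- the forward step -/
def fw (U : Subgroup G) (c : OP w e U) : OP w e U := om w e U (c.ord w e).step

variable {w e}

theorem OP.ind {U : Subgroup G} {P : OP w e U → Prop}
    (h : ∀ τ x (h : Ord w e τ x), P (om w e U h)) (c : OP w e U) : P c :=
  c.om_eq w e ▸ h _ _ _

theorem fw_om (hT : T.Ok) (hc : Cmp w e) (U : Subgroup G) {τ : ℍ} {x : G} (h : Ord w e τ x) :
    fw w e U (om w e U h) = om w e U h.step :=
  Subtype.ext (((om w e U h).ord w e).pm_d2 hT hc h ((om w e U h).eq w e).symm 1 w.ϖ)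

theorem Ord.steps {τ : ℍ} {x : G} (h : Ord w e τ x) (n : ℕ) : Ord w e τ (x * w.ι (tt w ^ n)) :=
  h.right (by rw [w.πι, tt, d2_pow])

theorem fw_iter (hT : T.Ok) (hc : Cmp w e) (U : Subgroup G) {τ : ℍ} {x : G} (h : Ord w e τ x)
    (n : ℕ) : (fw w e U)^[n] (om w e U h) = om w e U (h.steps n) := by
  induction n with
  | zero => exact Subtype.ext (by simp only [om, pow_zero, map_one, mul_one]; rfl)
  | succ n ih =>
    rw [Function.iterate_succ_apply', ih, fw_om hT hc]
    exact Subtype.ext (by simp only [om, pow_succ, map_mul, mul_assoc])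

theorem fw_inj (hT : T.Ok) (hc : Cmp w e) (U : Subgroup G) : Function.Injective (fw w e U) := by
  intro c c'
  induction c using OP.ind with | _ τ x h => ?_
  induction c' using OP.ind with | _ τ' x' h' => ?_
  rw [fw_om hT hc, fw_om hT hc]
  intro k
  have := h.step.pm_d2 hT hc h'.step (congrArg Subtype.val k) 1⁻¹ w.ϖ⁻¹
  rw [← d2_inv] at this
  exact Subtype.ext (by simpa only [om, tt, map_inv, mul_inv_cancel_right] using this)

end loc

/-- an element commuting modulo `Z` with the group of a component lies in `Z` -/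
def CEN : Prop := ∀ U ∈ T.Lev, ∀ x g : G,
  (∀ γ ∈ T.Gam U x, g * lc T x γ * g⁻¹ * (lc T x γ)⁻¹ ∈ T.Z) → g ∈ T.Z

end Vale.Agent.P022K.FI
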