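import Vale.Agent.P022K.FI.St
import Vale.Agent.P022K.FI.Pt

/-!
# P022K, block FI, rows GNN and GN2: the groups `Nn` and the fields `Ln`
-/

set_option autoImplicit false
set_option linter.unusedSectionVars false

open PowerSeries Vale.Agent.P019P P025H746
open scoped MatrixGroups LaurentSeries Pointwise

noncomputable section

namespace Vale.Agent.P022K.FI

open Vale.Agent.P022K.Sh

namespace Gn

section mat

variable {O E : Type} [CommRing O] [IsDomain O] [IsDiscreteValuationRing O] [Field E]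
  [Algebra O E]

theorem zl_comm {z : GL (Fin 2) E} (hz : z ∈ Zl E) (k : GL (Fin 2) E) : k * z = z * k :=
  Subgroup.mem_center_iff.1 hz k

theorem zl_conj {z : GL (Fin 2) E} (hz : z ∈ Zl E) (k : GL (Fin 2) E) : k⁻¹ * z * k = z := by
  rw [mul_assoc, ← zl_comm hz, inv_mul_cancel_left]

theorem zl_conj' {z : GL (Fin 2) E} (hz : z ∈ Zl E) (k : GL (Fin 2) E) : k * z * k⁻¹ = z := by
  rw [zl_comm hz, mul_inv_cancel_right]

theorem mem_sup_zl {V : Subgroup (GL (Fin 2) E)} {k : GL (Fin 2) E} :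
    k ∈ V ⊔ Zl E ↔ ∃ a ∈ V, a⁻¹ * k ∈ Zl E := by
  constructor
  · intro h
    have h' : k ∈ ((V ⊔ Zl E : Subgroup _) : Set (GL (Fin 2) E)) := h
    rw [Subgroup.mul_normal] at h'
    obtain ⟨a, ha, z, hz, rfl⟩ := h'
    exact ⟨a, ha, by simpa using hz⟩
  · rintro ⟨a, ha, hz⟩
    have := mul_mem (Subgroup.mem_sup_left (T := Zl E) ha) (Subgroup.mem_sup_right (S := V) hz)
    simpa using this

theorem dg_eq (μ : Eˣ) : dg μ = d2 μ 1 := by
  ext i l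
  fin_cases i <;> fin_cases l <;> simp [d2_val, Sh.dg]

theorem dg_val (μ : Eˣ) : (dg μ : Matrix (Fin 2) (Fin 2) E) = !![(μ : E), 0; 0, 1] := rfl

theorem dg_mul (μ ν : Eˣ) : dg (μ * ν) = dg μ * dg ν := by
  rw [dg_eq, dg_eq, dg_eq, d2_mul, mul_one]

theorem dg_one : dg (1 : Eˣ) = 1 := by rw [dg_eq, d2_one]

theorem dg_inv (μ : Eˣ) : dg μ⁻¹ = (dg μ)⁻¹ := by rw [dg_eq, dg_eq, d2_inv, inv_one]

theorem dg_un (μ : Eˣ) (c : E) : dg μ * un c = un (μ * c) * dg μ := by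
  ext i l
  fin_cases i <;> fin_cases l <;> simp [dg_val, un_val, Matrix.mul_apply, Fin.sum_univ_two]

theorem dg_un' (μ : Eˣ) (c : E) : dg μ * un c * (dg μ)⁻¹ = un (μ * c) := by
  rw [dg_un, mul_inv_cancel_right]

theorem un_dg (μ : Eˣ) (c : E) : (dg μ)⁻¹ * un c * dg μ = un (c / μ) := by
  have := dg_un' μ⁻¹ c
  rw [dg_inv, inv_inv] at this
  rw [this, Units.val_inv_eq_inv_val, div_eq_inv_mul]

theorem un_comm (c d : E) : un c * un d = un d * un c := by rw [← un_add, ← un_add, add_comm]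

theorem fm_iff {g k k₀ : GL (Fin 2) E} : Fm g k k₀ ↔ ∃ z ∈ Zl E, k = g * k₀ * g⁻¹ * z := by
  constructor
  · intro h
    refine ⟨_, h, ?_⟩
    rw [mul_assoc (g * k₀), zl_comm h]
    group
  · rintro ⟨z, hz, rfl⟩
    have : k₀⁻¹ * (g⁻¹ * (g * k₀ * g⁻¹ * z) * g) = g⁻¹ * z * g := by group
    rw [Fm, this, zl_conj hz]
    exact hz

theorem fm_mul {g k k₀ k' k₀' : GL (Fin 2) E} (h : Fm g k k₀) (h' : Fm g k' k₀') :
    Fm g (k * k') (k₀ * k₀') := by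
  obtain ⟨z, hz, rfl⟩ := fm_iff.1 h
  obtain ⟨z', hz', rfl⟩ := fm_iff.1 h'
  refine fm_iff.2 ⟨z * z', mul_mem hz hz', ?_⟩
  have e := zl_comm hz (g * k₀' * g⁻¹)
  calc g * k₀ * g⁻¹ * z * (g * k₀' * g⁻¹ * z') = g * k₀ * g⁻¹ * (z * (g * k₀' * g⁻¹)) * z' := by
        group
    _ = _ := by rw [← e]; group

theorem fm_inv {g k k₀ : GL (Fin 2) E} (h : Fm g k k₀) : Fm g k⁻¹ k₀⁻¹ := by
  obtain ⟨z, hz, rfl⟩ := fm_iff.1 h
  refine fm_iff.2 ⟨z⁻¹, inv_mem hz, ?_⟩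
  rw [zl_comm (inv_mem hz)]
  group

theorem fm_self (g k₀ : GL (Fin 2) E) : Fm g (g * k₀ * g⁻¹) k₀ :=
  fm_iff.2 ⟨1, one_mem _, by rw [mul_one]⟩

theorem fm_zl {g z : GL (Fin 2) E} (hz : z ∈ Zl E) : Fm g z 1 :=
  fm_iff.2 ⟨z, hz, by group⟩

theorem fm_frame {g k k₀ : GL (Fin 2) E} (a : GL (Fin 2) E) :
    Fm (g * a) k k₀ ↔ Fm g k (a * k₀ * a⁻¹) := by
  rw [fm_iff, fm_iff]
  refine exists_congr fun z => and_congr_right fun _ => ?_
  rw [show g * a * k₀ * (g * a)⁻¹ = g * (a * k₀ * a⁻¹) * g⁻¹ by group]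

theorem fm_conj {g k k₀ : GL (Fin 2) E} (a : GL (Fin 2) E) :
    Fm (a * g) (a * k * a⁻¹) k₀ ↔ Fm g k k₀ := by
  rw [Fm, Fm, show (a * g)⁻¹ * (a * k * a⁻¹) * (a * g) = g⁻¹ * k * g by group]

theorem io_mul {x y : E} (hx : Io O x) (hy : Io O y) : Io O (x * y) := mul_mem hx hy

theorem io_add {x y : E} (hx : Io O x) (hy : Io O y) : Io O (x + y) := add_mem hx hy

theorem io_sub {x y : E} (hx : Io O x) (hy : Io O y) : Io O (x - y) := sub_mem hx hy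

theorem io_neg {x : E} (hx : Io O x) : Io O (-x) := neg_mem hx

theorem io_alg (o : O) : Io O (algebraMap O E o) := ⟨o, rfl⟩

theorem io_zero : Io O (0 : E) := zero_mem _

theorem io_one : Io O (1 : E) := one_mem _

theorem io_pow {x : E} (hx : Io O x) (n : ℕ) : Io O (x ^ n) := pow_mem hx n

theorem io_unit (o : Oˣ) (x : E) : Io O (x * algebraMap O E o) ↔ Io O x := by
  refine ⟨fun h => ?_, fun h => io_mul h (io_alg _)⟩
  have := io_mul h (io_alg ((o⁻¹ : Oˣ) : O))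
  rwa [mul_assoc, ← map_mul, Units.mul_inv, map_one, mul_one] at this

theorem km_conj {m : ℕ} {a y : GL (Fin 2) E} (ha : a ∈ KK O E) (hy : y ∈ Km O E m) :
    a * y * a⁻¹ ∈ Km O E m := by
  obtain ⟨a, rfl⟩ := ha
  obtain ⟨y, hy, rfl⟩ := hy
  exact ⟨a * y * a⁻¹, (MonoidHom.normal_ker _).conj_mem y hy a, by rw [map_mul, map_mul, map_inv]⟩

theorem un_mem_KK {c : E} (hc : Io O c) : un c ∈ KK O E := by
  obtain ⟨o, rfl⟩ := hc
  refine ⟨⟨!![1, o; 0, 1], !![1, -o; 0, 1], ?_, ?_⟩, ?_⟩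
  · ext i l
    fin_cases i <;> fin_cases l <;> simp [Matrix.mul_apply, Fin.sum_univ_two]
  · ext i l
    fin_cases i <;> fin_cases l <;> simp [Matrix.mul_apply, Fin.sum_univ_two]
  · ext i l
    fin_cases i <;> fin_cases l <;> simp [un_val]

theorem inv_val (k : GL (Fin 2) E) : ((k⁻¹ : GL (Fin 2) E) : Matrix (Fin 2) (Fin 2) E) =
    (k.det.val)⁻¹ • !![k 1 1, -k 0 1; -k 1 0, k 0 0] := by
  rw [Matrix.coe_units_inv, Matrix.inv_def, Matrix.adjugate_fin_two, Ring.inverse_eq_inv']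
  rfl

/-- products of two entries over the determinant are integral -/
theorem kz_ent {k : GL (Fin 2) E} (hk : k ∈ KZ O E) (i l i' l' : Fin 2) :
    Io O (k i l * (k⁻¹ : GL (Fin 2) E) i' l') := by
  obtain ⟨a, ⟨a, rfl⟩, hz⟩ := mem_sup_zl.1 hk
  obtain ⟨c, hc⟩ := mem_Zl.1 hz
  have e : k = Matrix.GeneralLinearGroup.map (algebraMap O E) a * d2 c c := by
    rw [← hc]; group
  have e' : k⁻¹ = d2 c⁻¹ c⁻¹ * Matrix.GeneralLinearGroup.map (algebraMap O E) a⁻¹ := by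
    rw [e, mul_inv_rev, d2_inv, map_inv]
  have h1 : k i l = algebraMap O E (a i l) * c := by
    rw [e]
    fin_cases i <;> fin_cases l <;> simp [d2_val, Matrix.mul_apply, Fin.sum_univ_two]
  have h2 : (k⁻¹ : GL (Fin 2) E) i' l' = (c : E)⁻¹ * algebraMap O E ((a⁻¹ : GL (Fin 2) O) i' l') := by
    rw [e']
    generalize a⁻¹ = b
    fin_cases i' <;> fin_cases l' <;> simp [d2_val, Matrix.mul_apply, Fin.sum_univ_two]
  rw [h1, h2, mul_assoc, mul_inv_cancel_left₀ c.ne_zero]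
  exact io_mul (io_alg _) (io_alg _)

theorem cj_cj {G : Type} [Group G] (x y : G) (V : Subgroup G) : cj x (cj y V) = cj (x * y) V := by
  ext z
  simp only [mem_cj, mul_inv_rev, mul_assoc]

theorem zl_le_cj (g : GL (Fin 2) E) {V : Subgroup (GL (Fin 2) E)} (h : Zl E ≤ V) : Zl E ≤ cj g V :=
  fun z hz => mem_cj.2 (by rw [zl_conj hz]; exact h hz)

theorem un_mem_Vx (g : GL (Fin 2) E) (c' : E) (s : Eˣ) {c : E} (hc : Io O (c / s)) :
    g * un c * g⁻¹ ∈ Vx O (g * un c' * dg s) := by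
  refine mem_cj.2 ?_
  have : (g * un c' * dg s)⁻¹ * (g * un c * g⁻¹) * (g * un c' * dg s) =
      (dg s)⁻¹ * ((un c')⁻¹ * (un c * un c')) * dg s := by group
  rw [this, un_comm, inv_mul_cancel_left, un_dg]
  exact Subgroup.mem_sup_left (un_mem_KK hc)

end mat

variable {C L Γ O E : Type} [NontriviallyNormedField C] [IsUltrametricDist C] [CompleteSpace C]
  [IsAlgClosed C] [CharZero C] [Field L] [Algebra C L] [Group Γ] [CommRing O] [IsDomain O]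
  [IsDiscreteValuationRing O] [Field E] [Algebra O E] [Algebra E C] {A : AT C L Γ O E}

theorem io_pi {ϖ : Eˣ} (h : LF O C ϖ) : Io O (ϖ : E) := by
  obtain ⟨p, -, e⟩ := h.irr
  exact ⟨p, e⟩

theorem norm_pi_lt {ϖ : Eˣ} (h : LF O C ϖ) : ‖algebraMap E C ϖ‖ < 1 := by
  obtain ⟨p, hp, e⟩ := h.irr
  have := h.fr
  by_contra hn
  have h1 : ‖algebraMap E C ((ϖ : E)⁻¹)‖ ≤ 1 := by
    rw [map_inv₀, norm_inv]
    exact inv_le_one_of_one_le₀ (not_lt.1 hn)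
  obtain ⟨o, ho⟩ := (h.nrm _).1 h1
  refine hp.not_isUnit (IsUnit.of_mul_eq_one o (IsFractionRing.injective O E ?_))
  rw [map_mul, e, ho, map_one, mul_inv_cancel₀ ϖ.ne_zero]

theorem norm_pi_pos (ϖ : Eˣ) : 0 < ‖algebraMap E C ϖ‖ :=
  norm_pos_iff.2 ((map_ne_zero _).2 ϖ.ne_zero)

theorem io_zpow {ϖ : Eˣ} (h : LF O C ϖ) {n : ℤ} (hn : 0 ≤ n) : Io O ((ϖ : E) ^ n) := by
  obtain ⟨m, rfl⟩ := Int.eq_ofNat_of_zero_le hn
  rw [zpow_natCast]
  exact io_pow (io_pi h) m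

theorem io_mono {ϖ : Eˣ} (h : LF O C ϖ) {m n : ℤ} (hmn : m ≤ n) {c : E}
    (hc : Io O (c / (ϖ ^ n : Eˣ))) : Io O (c / (ϖ ^ m : Eˣ)) := by
  have := io_mul hc (io_zpow h (sub_nonneg.2 hmn))
  rwa [Units.val_zpow_eq_zpow_val, zpow_sub₀ ϖ.ne_zero, div_mul_div_cancel₀
    (zpow_ne_zero _ ϖ.ne_zero), ← Units.val_zpow_eq_zpow_val] at this

/-- an element all of whose multiples by powers of `ϖ⁻¹` are integral vanishes -/
theorem eq_zero_of_io {ϖ : Eˣ} (h : LF O C ϖ) {x : E} (hx : ∀ m : ℕ, Io O (x / (ϖ : E) ^ m)) :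
    x = 0 := by
  have h1 : ∀ m : ℕ, ‖algebraMap E C x‖ ≤ ‖algebraMap E C ϖ‖ ^ m := fun m => by
    have := (h.nrm _).2 (hx m)
    rwa [map_div₀, map_pow, norm_div, norm_pow, div_le_one (pow_pos (norm_pi_pos ϖ) m)] at this
  have h2 := ge_of_tendsto' (tendsto_pow_atTop_nhds_zero_of_lt_one (norm_nonneg _) (norm_pi_lt h)) h1
  exact (_root_.map_eq_zero _).1 (norm_le_zero_iff.1 h2)

theorem exists_io {ϖ : Eˣ} (h : LF O C ϖ) (x : E) : ∃ m : ℕ, Io O (x * (ϖ : E) ^ m) := by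
  have t := (tendsto_pow_atTop_nhds_zero_of_lt_one (norm_nonneg _) (norm_pi_lt h)).const_mul
    ‖algebraMap E C x‖
  rw [mul_zero] at t
  obtain ⟨m, hm⟩ := (t.eventually (ge_mem_nhds one_pos)).exists
  exact ⟨m, (h.nrm _).1 (by rwa [map_mul, map_pow, norm_mul, norm_pow])⟩

theorem mem_U {W : Subgroup Γ} {V : Subgroup (GL (Fin 2) E)} {γ : Γ} :
    γ ∈ A.U W V ↔ γ ∈ W ∧ A.π γ ∈ V := Iff.rfl

theorem mem_H {γ : Γ} : γ ∈ A.H ↔ ∀ W ∈ A.Wl, γ ∈ W := Subgroup.mem_sInf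

theorem K_anti {S S' : Subgroup Γ} (h : S ≤ S') : A.K S' ≤ A.K S := fun _ hx =>
  A.mem_K.2 fun γ hγ => A.mem_K.1 hx γ (h hγ)

theorem exists_W (hA : A.Ok) : ∃ W, W ∈ A.Wl := by
  obtain ⟨x, W, hW, -⟩ := hA.ex
  exact ⟨W, hW⟩

theorem H_conj (hA : A.Ok) {γ : Γ} (h : γ ∈ A.H) (δ : Γ) : δ⁻¹ * γ * δ ∈ A.H :=
  mem_H.2 fun W hW => mem_cj.1 (mem_H.1 h _ (hA.conj W hW δ))

theorem H_conj' (hA : A.Ok) {γ : Γ} (h : γ ∈ A.H) (δ : Γ) : δ * γ * δ⁻¹ ∈ A.H := by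
  simpa using H_conj hA h δ⁻¹

theorem ker_le_H (hA : A.Ok) : A.act.ker ≤ A.H := fun _ h => mem_H.2 fun W hW => hA.zw W hW h

theorem mem_Nn {g : GL (Fin 2) E} {n : ℤ} {γ : Γ} : γ ∈ A.Nn g n ↔
    γ ∈ A.H ∧ ∃ c : E, Io O (c / (A.ϖ ^ n : Eˣ)) ∧ Fm g (A.π γ) (un c) := by
  rw [AT.Nn, mem_U]
  refine and_congr_right fun _ => ?_
  rw [mem_cj, mem_sup_zl]
  constructor
  · rintro ⟨_, ⟨c, hc, rfl⟩, h⟩
    exact ⟨c, hc, h⟩
  · rintro ⟨c, hc, h⟩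
    exact ⟨_, ⟨c, hc, rfl⟩, h⟩

theorem le_Ln {g : GL (Fin 2) E} {n : ℤ} {W : Subgroup Γ} (hW : W ∈ A.Wl)
    {V : Subgroup (GL (Fin 2) E)} (hz : Zl E ≤ V)
    (h : ∀ c : E, Io O (c / (A.ϖ ^ n : Eˣ)) → g * un c * g⁻¹ ∈ V) : A.K (A.U W V) ≤ A.Ln g n := by
  refine K_anti fun γ hγ => ?_
  obtain ⟨h1, c, hc, h2⟩ := mem_Nn.1 hγ
  obtain ⟨z, hz', e⟩ := fm_iff.1 h2
  exact ⟨mem_H.1 h1 W hW, show A.π γ ∈ V from e ▸ mul_mem (h c hc) (hz hz')⟩

theorem Ln_mono (hA : A.Ok) (g : GL (Fin 2) E) : Monotone (A.Ln g) := fun m n hmn =>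
  K_anti fun γ hγ => by
    obtain ⟨h1, c, hc, h2⟩ := mem_Nn.1 hγ
    exact mem_Nn.2 ⟨h1, c, io_mono hA.lf hmn hc, h2⟩

theorem mem_K_conj {S S' : Subgroup Γ} {γ : Γ} (h : ∀ δ, δ ∈ S' ↔ γ⁻¹ * δ * γ ∈ S) (x : L) :
    x ∈ A.K S ↔ A.act γ x ∈ A.K S' := by
  rw [A.mem_K, A.mem_K]
  constructor
  · intro hx δ hδ
    have := hx _ ((h δ).1 hδ)
    rw [A.act_mul, A.act_mul] at this
    conv_rhs => rw [← this, A.act_inv']
  · intro hx δ hδ
    have := hx (γ * δ * γ⁻¹) ((h _).2 (by simpa [mul_assoc] using hδ))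
    rw [A.act_mul, A.act_mul, A.act_inv] at this
    exact (A.act γ).injective this

theorem Ln_act (hA : A.Ok) (g : GL (Fin 2) E) (n : ℤ) (γ : Γ) (h : L) :
    h ∈ A.Ln g n ↔ A.act γ h ∈ A.Ln (A.π γ * g) n := by
  refine mem_K_conj (fun δ => ?_) h
  rw [mem_Nn, mem_Nn]
  refine and_congr ⟨fun h => H_conj hA h γ, fun h => by simpa [mul_assoc] using H_conj' hA h γ⟩
    (exists_congr fun c => and_congr_right fun _ => ?_)
  rw [← fm_conj (A.π γ) (g := g), map_mul, map_mul, map_inv]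
  simp only [mul_assoc, mul_inv_cancel_left, mul_inv_cancel, mul_one]

theorem Nn_frame (g : GL (Fin 2) E) (n : ℤ) (c : E) (μ : Eˣ) (m : ℤ) (o : Oˣ)
    (e : (μ : E) = A.ϖ ^ m * algebraMap O E o) {z : GL (Fin 2) E} (hz : z ∈ Zl E) :
    A.Nn (g * un c * dg μ * z) n = A.Nn g (n + m) := by
  ext γ
  rw [mem_Nn, mem_Nn]
  refine and_congr_right fun _ => ?_
  have key : ∀ d, Fm (g * un c * dg μ * z) (A.π γ) (un d) ↔ Fm g (A.π γ) (un (μ * d)) := fun d => by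
    rw [fm_frame, ← zl_comm hz, mul_inv_cancel_right, fm_frame, dg_un', fm_frame, un_comm,
      mul_inv_cancel_right]
  have k2 : ∀ d : E, Io O (μ * d / (A.ϖ ^ (n + m) : Eˣ)) ↔ Io O (d / (A.ϖ ^ n : Eˣ)) := fun d => by
    rw [← io_unit o (d / _), e]
    have h0 := A.ϖ.ne_zero
    congr! 1
    simp only [Units.val_zpow_eq_zpow_val, zpow_add₀ h0]
    field_simp
  constructor
  · rintro ⟨d, hd, h⟩
    exact ⟨_, (k2 d).2 hd, (key d).1 h⟩
  · rintro ⟨d, hd, h⟩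
    have : d = μ * (d / μ) := by field_simp
    exact ⟨d / μ, (k2 _).1 (this ▸ hd), (key _).2 (this ▸ h)⟩

theorem Ln_frame (g : GL (Fin 2) E) (n : ℤ) (c : E) (μ : Eˣ) (m : ℤ) (o : Oˣ)
    (e : (μ : E) = A.ϖ ^ m * algebraMap O E o) {z : GL (Fin 2) E} (hz : z ∈ Zl E) :
    A.Ln (g * un c * dg μ * z) n = A.Ln g (n + m) := congrArg A.K (Nn_frame g n c μ m o e hz)

theorem Ln_dg (g : GL (Fin 2) E) (n m : ℤ) : A.Ln (g * dg (A.ϖ ^ m)) n = A.Ln g (n + m) := by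
  have := Ln_frame (A := A) g n 0 (A.ϖ ^ m) m 1 (by simp) (one_mem _)
  rwa [un_zero, mul_one, mul_one] at this

theorem exists_Ln (hA : A.Ok) (hM : A.MAT) (g : GL (Fin 2) E) (h : L) : ∃ m, h ∈ A.Ln g m := by
  obtain ⟨W, hW, m, hm⟩ := hA.smo h
  obtain ⟨-, h2, -, h4, -, h6, -⟩ := hM
  obtain ⟨m', hm'⟩ := (h4 _ g⁻¹ (h2 m)).op
  refine ⟨m', le_Ln hW le_sup_right (fun c hc => ?_) hm⟩
  have hc' : Io O (c / A.ϖ ^ m') := by simpa using hc
  have hc0 : Io O c := by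
    have := io_mul hc' (io_pow (io_pi hA.lf) m')
    rwa [div_mul_cancel₀ _ (pow_ne_zero _ A.ϖ.ne_zero)] at this
  have : un c ∈ Km O E m' := (h6 m' _).2 fun i l => by
    rw [← un_neg]
    fin_cases i <;> fin_cases l <;>
      simp [un_val, io_one, io_zero, hc0, hc', io_neg hc0]
  simpa using mem_cj.1 (hm' this)

theorem mem_Nn_of_fix (hA : A.Ok) (hM : A.MAT) (hG : A.GAL0) (g : GL (Fin 2) E) (n : ℤ) (γ : Γ)
    (hγ : ∀ h ∈ A.Ln g n, A.act γ h = h) : γ ∈ A.Nn g n := by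
  have key : ∀ W ∈ A.Wl, ∀ (c' : E) (m : ℤ), m ≤ n →
      γ ∈ A.U W (Vx O (g * un c' * dg (A.ϖ ^ m))) := fun W hW c' m hm =>
    (hG W hW _ (hM.1 _)).2.1 γ fun h hh => hγ h (le_Ln hW (hM.1 _).z
      (fun c hc => un_mem_Vx g c' _ (io_mono hA.lf hm hc)) hh)
  obtain ⟨W, hW⟩ := exists_W hA
  refine mem_Nn.2 ⟨mem_H.2 fun W hW => (key W hW 0 n le_rfl).1, ?_⟩
  obtain ⟨k, hk⟩ : ∃ k, k = g⁻¹ * A.π γ * g := ⟨_, rfl⟩
  have h0 := A.ϖ.ne_zero
  have k2 : ∀ (c' : E) (m : ℤ), m ≤ n →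
      (dg (A.ϖ ^ m))⁻¹ * ((un c')⁻¹ * k * un c') * dg (A.ϖ ^ m) ∈ KZ O E := fun c' m hm => by
    have := mem_cj.1 (mem_U.1 (key W hW c' m hm)).2
    convert this using 1
    rw [hk]
    group
  have ent : ∀ (k' : GL (Fin 2) E) (s : Eˣ), ((dg s)⁻¹ * k' * dg s : GL (Fin 2) E) 0 0 = k' 0 0 ∧
      ((dg s)⁻¹ * k' * dg s : GL (Fin 2) E) 0 1 = k' 0 1 / s ∧
      ((dg s)⁻¹ * k' * dg s : GL (Fin 2) E) 1 0 = k' 1 0 * s ∧
      ((dg s)⁻¹ * k' * dg s : GL (Fin 2) E) 1 1 = k' 1 1 := fun k' s => by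
    have := s.ne_zero
    rw [← dg_inv]
    refine ⟨?_, ?_, ?_, ?_⟩
    · simp [dg_val, Matrix.mul_apply, Fin.sum_univ_two, Matrix.vecMul, dotProduct]
      field_simp
    · simp [dg_val, Matrix.mul_apply, Fin.sum_univ_two, Matrix.vecMul, dotProduct]
      field_simp
    · simp [dg_val, Matrix.mul_apply, Fin.sum_univ_two, Matrix.vecMul, dotProduct]
    · simp [dg_val, Matrix.mul_apply, Fin.sum_univ_two, Matrix.vecMul, dotProduct]
  have hd := k.det.ne_zero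
  have h10 : k 1 0 = 0 := by
    have : k 1 0 * k 1 0 * (A.ϖ : E) ^ n * A.ϖ ^ n / k.det.val = 0 := by
      refine eq_zero_of_io hA.lf fun m => ?_
      have h1 := k2 0 (n - m) (by omega)
      rw [un_zero, inv_one, one_mul, mul_one] at h1
      have h2 := io_neg (kz_ent h1 1 0 1 0)
      rw [show ((dg (A.ϖ ^ (n - m)))⁻¹ * k * dg (A.ϖ ^ (n - m)))⁻¹ =
        (dg (A.ϖ ^ (n - m)))⁻¹ * k⁻¹ * dg (A.ϖ ^ (n - m)) by group] at h2
      rw [(ent _ _).2.2.1, (ent _ _).2.2.1, inv_val] at h2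
      have h3 := io_mul h2 (io_pow (io_pi hA.lf) m)
      convert h3 using 1
      simp only [Units.val_zpow_eq_zpow_val, zpow_sub₀ h0, zpow_natCast]
      simp
      field_simp
    have hz : (A.ϖ : E) ^ n ≠ 0 := zpow_ne_zero _ h0
    rw [div_eq_zero_iff, or_iff_left hd, mul_eq_zero, or_iff_left hz, mul_eq_zero,
      or_iff_left hz, mul_self_eq_zero] at this
    exact this
  have hdet : k.det.val = k 0 0 * k 1 1 := by
    rw [Matrix.GeneralLinearGroup.val_det_apply, Matrix.det_fin_two, h10, mul_zero, sub_zero]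
  have h00 : k 0 0 ≠ 0 := left_ne_zero_of_mul (hdet ▸ hd)
  have h11 : k 1 1 ≠ 0 := right_ne_zero_of_mul (hdet ▸ hd)
  have k3 : ∀ c' : E, Io O (((k 0 0 - k 1 1) * c' + k 0 1) / k 1 1 / (A.ϖ ^ n : Eˣ)) := fun c' => by
    have h2 := kz_ent (k2 c' n le_rfl) 0 1 1 1
    rw [show ((dg (A.ϖ ^ n))⁻¹ * ((un c')⁻¹ * k * un c') * dg (A.ϖ ^ n))⁻¹ =
        (dg (A.ϖ ^ n))⁻¹ * ((un c')⁻¹ * k⁻¹ * un c') * dg (A.ϖ ^ n) by group] at h2
    rw [(ent _ _).2.1, (ent _ _).2.2.2, ← un_neg] at h2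
    convert h2 using 1
    simp only [Units.val_mul, inv_val, un_val, hdet]
    simp [Matrix.mul_apply, Fin.sum_univ_two, h10, Matrix.vecMul, dotProduct]
    field_simp
    ring
  have had : k 0 0 = k 1 1 := by
    have : (k 0 0 - k 1 1) / k 1 1 / (A.ϖ ^ n : Eˣ) = 0 := by
      refine eq_zero_of_io hA.lf fun m => ?_
      convert io_sub (k3 (((A.ϖ : E) ^ m)⁻¹)) (k3 0) using 1
      field_simp
      ring
    have h1 := (A.ϖ ^ n).ne_zero
    rw [div_eq_zero_iff, or_iff_left h1, div_eq_zero_iff, or_iff_left h11, sub_eq_zero] at this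
    exact this
  refine ⟨k 0 1 / k 1 1, ?_, ?_⟩
  · have := k3 0
    rwa [mul_zero, zero_add] at this
  rw [Fm, ← hk, ← un_neg]
  refine mem_Zl.2 ⟨Units.mk0 _ h11, ?_⟩
  ext i l
  fin_cases i <;> fin_cases l <;>
    simp [un_val, d2_val, Matrix.mul_apply, Fin.sum_univ_two, h10, had]
  field_simp
  ring

end Gn

open Gn

variable {C L Γ O E : Type} [NontriviallyNormedField C] [IsUltrametricDist C] [CompleteSpace C]
  [IsAlgClosed C] [CharZero C] [Field L] [Algebra C L] [Group Γ] [CommRing O] [IsDomain O]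
  [IsDiscreteValuationRing O] [Field E] [Algebra O E] [Algebra E C] {A : AT C L Γ O E}

/-- **GNN** -/
theorem gnn (hA : A.Ok) (hM : A.MAT) (hG : A.GAL0) : A.GNN := fun g n =>
  ⟨fun _ => mem_Nn, mem_Nn_of_fix hA hM hG g n,
    fun _ hW _ hV hN => le_Ln hW hV.z fun c hc => (hN c).2 hc, exists_Ln hA hM g, Ln_mono hA g,
    Ln_act hA g n, fun c μ m o e _ hz => Ln_frame g n c μ m o e hz⟩

/-- **GN2** -/
theorem gn2 (hA : A.Ok) (hM : A.MAT) (hS : A.SA) : A.GN2 := by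
  classical
  intro g n s hs
  obtain ⟨g', hg'⟩ : ∃ g', g' = g * dg (A.ϖ ^ n) := ⟨_, rfl⟩
  have h1 : ∀ s : Finset L, ∃ W ∈ A.Wl, ∃ M, ∀ h ∈ s, h ∈ A.K (A.U W (cj g' (Km O E M ⊔ Zl E))) := by
    have anti : ∀ M M' : ℕ, M ≤ M' → Km O E M' ≤ Km O E M := fun M M' hM' k hk =>
      (hM.2.2.2.2.2.1 M k).2 fun i l => by
        obtain ⟨a, b, c⟩ := (hM.2.2.2.2.2.1 M' k).1 hk i l
        refine ⟨a, ?_, c⟩
        have := io_mono hA.lf (m := M) (n := M') (by exact_mod_cast hM') (by simpa using b)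
        simpa using this
    intro s
    induction s using Finset.induction_on with
    | empty =>
      obtain ⟨W, hW⟩ := exists_W hA
      exact ⟨W, hW, 0, by simp⟩
    | insert h s _ ih =>
      obtain ⟨W, hW, M, hM'⟩ := ih
      obtain ⟨W', hW', m, hm⟩ := hA.smo h
      obtain ⟨m', hm'⟩ := (hM.2.2.2.1 _ g'⁻¹ (hM.2.1 m)).op
      refine ⟨W ⊓ W', hA.inf W hW W' hW', max M m', fun x hx => ?_⟩
      rcases Finset.mem_insert.1 hx with rfl | hx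
      · refine K_anti (fun γ hγ => mem_U.2 ⟨(Subgroup.mem_inf.1 (mem_U.1 hγ).1).2, ?_⟩) hm
        have h2 : cj g' (Km O E (max M m') ⊔ Zl E) ≤ Km O E m ⊔ Zl E := fun k hk => by
          have : Km O E (max M m') ⊔ Zl E ≤ cj g'⁻¹ (Km O E m ⊔ Zl E) :=
            sup_le ((anti _ _ (le_max_right _ _)).trans hm') (zl_le_cj _ le_sup_right)
          simpa [mul_assoc] using mem_cj.1 (this (mem_cj.1 hk))
        exact h2 (mem_U.1 hγ).2
      · refine K_anti (fun γ hγ => mem_U.2 ⟨(Subgroup.mem_inf.1 (mem_U.1 hγ).1).1, ?_⟩) (hM' x hx)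
        exact mem_cj.2 (sup_le_sup_right (anti _ _ (le_max_left _ _)) _ (mem_cj.1 (mem_U.1 hγ).2))
  obtain ⟨W, hW, M, hM'⟩ := h1 s
  let V₀ : Subgroup (GL (Fin 2) E) :=
    { carrier := {k | ∃ c : E, Io O c ∧ (un c)⁻¹ * k ∈ Km O E M ⊔ Zl E}
      one_mem' := ⟨0, io_zero, by rw [un_zero, inv_one, one_mul]; exact one_mem _⟩
      mul_mem' := by
        rintro k k' ⟨c, hc, h⟩ ⟨c', hc', h'⟩
        refine ⟨c + c', io_add hc hc', ?_⟩
        obtain ⟨a, ha, hz⟩ := mem_sup_zl.1 h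
        have e : (un (c + c'))⁻¹ * (k * k') = ((un c')⁻¹ * a * (un c')⁻¹⁻¹) *
            ((un c')⁻¹ * (a⁻¹ * ((un c)⁻¹ * k)) * un c') * ((un c')⁻¹ * k') := by
          rw [un_add]
          group
        rw [e, zl_conj hz]
        exact mul_mem (mul_mem (Subgroup.mem_sup_left (km_conj (inv_mem (un_mem_KK hc')) ha))
          (Subgroup.mem_sup_right hz)) h'
      inv_mem' := by
        rintro k ⟨c, hc, h⟩
        refine ⟨-c, io_neg hc, ?_⟩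
        obtain ⟨a, ha, hz⟩ := mem_sup_zl.1 h
        have e : (un (-c))⁻¹ * k⁻¹ = (un c * (a⁻¹ * ((un c)⁻¹ * k))⁻¹ * (un c)⁻¹) *
            (un c * a⁻¹ * (un c)⁻¹) := by
          rw [un_neg]
          group
        rw [e, zl_conj' (inv_mem hz)]
        exact mul_mem (Subgroup.mem_sup_right (inv_mem hz))
          (Subgroup.mem_sup_left (km_conj (un_mem_KK hc) (inv_mem ha))) }
  have b0 : Km O E M ⊔ Zl E ≤ V₀ := fun k hk =>
    ⟨0, io_zero, by rwa [un_zero, inv_one, one_mul]⟩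
  have b1 : V₀ ≤ KZ O E := by
    rintro k ⟨c, hc, h⟩
    have h2 : Km O E M ⊔ Zl E ≤ KZ O E := sup_le_sup_right (Subgroup.map_le_range _ _) _
    have h3 := mul_mem (Subgroup.mem_sup_left (un_mem_KK hc) : un c ∈ KZ O E) (h2 h)
    rwa [mul_inv_cancel_left] at h3
  have l0 : Ll O V₀ := ⟨le_sup_right.trans b0, ⟨M, le_sup_left.trans b0⟩, 1, fun k hk =>
    mem_cj.2 (by simpa using b1 hk)⟩
  have cv : ∀ c : E, g'⁻¹ * (g * un c * g⁻¹) * g' = un (c / (A.ϖ ^ n : Eˣ)) := fun c => by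
    rw [← un_dg, hg']
    group
  refine ⟨W, hW, cj g' V₀, hM.2.2.2.1 _ _ l0, fun c => ⟨fun h => ?_, fun h => ?_⟩, fun h hh => ?_⟩
  · refine (hM.2.2.2.2.2.2.1 g n n le_rfl c).1 ?_
    rw [inf_idem, ← hg']
    exact mem_cj.2 (b1 (mem_cj.1 h))
  · rw [mem_cj, cv]
    exact ⟨_, h, by rw [inv_mul_cancel]; exact one_mem _⟩
  · refine A.mem_K.2 fun γ hγ => ?_
    obtain ⟨c, hc, h2⟩ := mem_cj.1 (mem_U.1 hγ).2
    obtain ⟨δ, hδ, e⟩ := hS.1 (g' * un c * g'⁻¹) (by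
      rw [map_mul, map_mul, map_inv, mul_comm g'.det, mul_inv_cancel_right]
      ext
      simp [un_val, Matrix.det_fin_two])
    have h3 : δ ∈ A.Nn g n := by
      have := Nn_frame (A := A) g 0 0 (A.ϖ ^ n) n 1 (by simp) (one_mem _)
      rw [un_zero, mul_one, mul_one, zero_add, ← hg'] at this
      rw [← this]
      exact mem_Nn.2 ⟨hδ, c, by simpa using hc, e ▸ fm_self _ _⟩
    have h4 : δ⁻¹ * γ ∈ A.U W (cj g' (Km O E M ⊔ Zl E)) :=
      mem_U.2 ⟨mul_mem (inv_mem (mem_H.1 hδ W hW)) (mem_U.1 hγ).1, mem_cj.2 (by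
        rw [map_mul, map_inv, e]
        convert h2 using 1
        group)⟩
    have h5 := A.mem_K.1 (hM' h hh) _ h4
    have h6 := A.mem_K.1 (hs h hh) _ h3
    rw [A.act_mul] at h5
    conv_rhs => rw [← h6, ← h5, A.act_inv']

end Vale.Agent.P022K.FI
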