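import Vale.Agent.P022K.FI.St

/-!
# P022 block FI: matrices over a local field (membership in the standard subgroups by norms)
-/

set_option linter.all false

open scoped MatrixGroups

noncomputable section

namespace Vale.Agent.P022K.FI

open Vale.Agent.P022K.Sh

namespace Mx

section alg

variable {E : Type} [Field E]

/-- scalar matrices -/
abbrev sc (c : Eˣ) : GL (Fin 2) E := Matrix.GeneralLinearGroup.scalar (Fin 2) c

theorem sc_val (c : Eˣ) : (sc c : Matrix (Fin 2) (Fin 2) E) = !![(c : E), 0; 0, c] := by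
  ext i j
  fin_cases i <;> fin_cases j <;> simp [Matrix.GeneralLinearGroup.scalar]

theorem mem_Z {k : GL (Fin 2) E} : k ∈ Zl E ↔ ∃ c, sc c = k := by
  rw [Zl, Matrix.GeneralLinearGroup.center_eq_range_scalar]; rfl

theorem sc_mem (c : Eˣ) : sc c ∈ Zl E := mem_Z.2 ⟨c, rfl⟩

theorem mul_sc (k : GL (Fin 2) E) (c : Eˣ) (i j : Fin 2) : (k * sc c) i j = k i j * c := by
  fin_cases j <;> simp [sc_val, Matrix.mul_apply, Fin.sum_univ_two]

theorem mem_supZ {V : Subgroup (GL (Fin 2) E)} {k : GL (Fin 2) E} :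
    k ∈ V ⊔ Zl E ↔ ∃ v ∈ V, ∃ c : Eˣ, v * sc c = k := by
  rw [Subgroup.mem_sup_of_normal_right]
  constructor
  · rintro ⟨v, hv, z, hz, e⟩
    obtain ⟨c, rfl⟩ := mem_Z.1 hz
    exact ⟨v, hv, c, e⟩
  · rintro ⟨v, hv, c, e⟩
    exact ⟨v, hv, _, sc_mem c, e⟩

theorem mem_Z_iff {k : GL (Fin 2) E} : k ∈ Zl E ↔ k 0 1 = 0 ∧ k 1 0 = 0 ∧ k 0 0 = k 1 1 := by
  rw [Matrix.GeneralLinearGroup.mem_center_iff_val_mem_range_scalar]
  constructor
  · rintro ⟨c, hc⟩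
    simp [← hc]
  · rintro ⟨h1, h2, h3⟩
    refine ⟨k 1 1, ?_⟩
    ext i j
    fin_cases i <;> fin_cases j <;> simp [h1, h2, h3]

theorem dg_val (c : Eˣ) : (dg c : Matrix (Fin 2) (Fin 2) E) = !![(c : E), 0; 0, 1] := rfl

theorem dg_mul (c d : Eˣ) : dg (c * d) = dg c * dg d := by
  ext i k
  fin_cases i <;> fin_cases k <;> simp [dg_val, Matrix.mul_apply, Fin.sum_univ_two]

theorem dg_one : dg (1 : Eˣ) = 1 := by
  ext i k
  fin_cases i <;> fin_cases k <;> simp [dg_val]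

/-- `dg` as a homomorphism -/
def dgH : Eˣ →* GL (Fin 2) E := ⟨⟨dg, dg_one⟩, dg_mul⟩

theorem dg_inv (c : Eˣ) : dg c⁻¹ = (dg c)⁻¹ := map_inv dgH c

theorem dg_zpow (c : Eˣ) (n : ℤ) : dg (c ^ n) = dg c ^ n := map_zpow dgH c n

theorem dg_pow (c : Eˣ) (n : ℕ) : dg (c ^ n) = dg c ^ n := map_pow dgH c n

theorem dg_un (a : Eˣ) (c : E) : dg a * un c * (dg a)⁻¹ = un (a * c) := by
  rw [mul_inv_eq_iff_eq_mul]
  ext i k
  fin_cases i <;> fin_cases k <;> simp [dg_val, un_val, Matrix.mul_apply, Fin.sum_univ_two]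

theorem dg_conj (a : Eˣ) (k : GL (Fin 2) E) :
    (dg a * k * (dg a)⁻¹ : GL (Fin 2) E) 0 0 = k 0 0 ∧
    (dg a * k * (dg a)⁻¹ : GL (Fin 2) E) 0 1 = a * k 0 1 ∧
    (dg a * k * (dg a)⁻¹ : GL (Fin 2) E) 1 0 = k 1 0 / a ∧
    (dg a * k * (dg a)⁻¹ : GL (Fin 2) E) 1 1 = k 1 1 := by
  rw [← dg_inv]
  simp only [Units.val_mul, dg_val, Matrix.mul_apply, Fin.sum_univ_two]
  simp [div_eq_mul_inv, mul_comm, mul_left_comm]

theorem det_ne (k : GL (Fin 2) E) : k 0 0 * k 1 1 - k 0 1 * k 1 0 ≠ 0 := by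
  have := k.det.ne_zero
  rwa [Matrix.GeneralLinearGroup.val_det_apply, Matrix.det_fin_two] at this

theorem det_eq (k : GL (Fin 2) E) : (k.det : E) = k 0 0 * k 1 1 - k 0 1 * k 1 0 := by
  rw [Matrix.GeneralLinearGroup.val_det_apply, Matrix.det_fin_two]

theorem un_inj {c d : E} (h : (un c)⁻¹ * un d ∈ Zl E) : c = d := by
  rw [← un_neg, ← un_add] at h
  have := (mem_Z_iff.1 h).1
  simp only [un_val] at this
  exact neg_add_eq_zero.1 (by simpa using this)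

theorem dg_inj {c d : Eˣ} (h : (dg c)⁻¹ * dg d ∈ Zl E) : c = d := by
  rw [← dg_inv, ← dg_mul] at h
  have := (mem_Z_iff.1 h).2.2
  simp only [dg_val] at this
  exact inv_mul_eq_one.1 (Units.ext (by simpa using this))

/-- upper triangular with equal diagonal entries -/
theorem eq_un {k : GL (Fin 2) E} (h1 : k 1 0 = 0) (h2 : k 0 0 = k 1 1) :
    (un (k 0 1 / k 1 1))⁻¹ * k ∈ Zl E := by
  have h3 : k 1 1 ≠ 0 := fun e => det_ne k (by simp [h1, e])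
  rw [← un_neg, mem_Z_iff]
  simp [un_val, Matrix.mul_apply, Fin.sum_univ_two, h1, h2, h3]

/-- upper triangular matrices -/
theorem eq_un_dg {k : GL (Fin 2) E} (h1 : k 1 0 = 0) :
    ∃ (c : E) (a : Eˣ), (un c * dg a)⁻¹ * k ∈ Zl E := by
  have h3 : k 1 1 ≠ 0 := fun e => det_ne k (by simp [h1, e])
  have h4 : k 0 0 ≠ 0 := fun e => det_ne k (by simp [h1, e])
  refine ⟨k 0 1 / k 1 1, Units.mk0 _ (div_ne_zero h4 h3), ?_⟩
  rw [mul_inv_rev, ← un_neg, ← dg_inv, mem_Z_iff]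
  simp [un_val, dg_val, Matrix.mul_apply, Fin.sum_univ_two, h1, h3, h4]
  ring

variable {g k k' k₀ k₁ : GL (Fin 2) E}

theorem fm_iff : Fm g k k₀ ↔ ∃ c, k = g * k₀ * g⁻¹ * sc c := by
  rw [Fm, mem_Z]
  refine exists_congr fun c => ?_
  have h := Subgroup.mem_center_iff.1 (sc_mem c) g⁻¹
  constructor
  · intro e
    rw [mul_assoc, h, e]; group
  · intro e
    rw [e, mul_assoc (g * k₀), h]; group

theorem _root_.Vale.Agent.P022K.FI.Fm.mul (h : Fm g k k₀) (h' : Fm g k' k₁) :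
    Fm g (k * k') (k₀ * k₁) := by
  obtain ⟨c, rfl⟩ := fm_iff.1 h
  obtain ⟨d, rfl⟩ := fm_iff.1 h'
  refine fm_iff.2 ⟨c * d, ?_⟩
  have h := Subgroup.mem_center_iff.1 (sc_mem c) (g * k₁ * g⁻¹)
  rw [show sc (c * d) = sc c * sc d from map_mul _ c d, mul_assoc _ (sc c), ← mul_assoc (sc c), ← h]
  group

theorem fm_one (g : GL (Fin 2) E) : Fm g 1 1 := by simp [Fm]

theorem _root_.Vale.Agent.P022K.FI.Fm.inv (h : Fm g k k₀) : Fm g k⁻¹ k₀⁻¹ := by
  obtain ⟨c, rfl⟩ := fm_iff.1 h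
  refine fm_iff.2 ⟨c⁻¹, ?_⟩
  have h := Subgroup.mem_center_iff.1 (sc_mem c⁻¹) (g * k₀⁻¹ * g⁻¹)
  rw [h, show sc c⁻¹ = (sc c)⁻¹ from map_inv _ c]
  group

theorem _root_.Vale.Agent.P022K.FI.Fm.pow (h : Fm g k k₀) (n : ℕ) : Fm g (k ^ n) (k₀ ^ n) := by
  induction n with
  | zero => simpa using fm_one g
  | succ n ih => rw [pow_succ, pow_succ]; exact ih.mul h

theorem _root_.Vale.Agent.P022K.FI.Fm.uniq (h : Fm g k k₀) (h' : Fm g k k₁) :
    k₀⁻¹ * k₁ ∈ Zl E := by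
  have := mul_mem h (inv_mem h')
  simpa [mul_assoc] using this

theorem fm_self (g k₀ : GL (Fin 2) E) : Fm g (g * k₀ * g⁻¹) k₀ := fm_iff.2 ⟨1, by simp⟩

theorem fm_self' (g k : GL (Fin 2) E) : Fm g k (g⁻¹ * k * g) := by
  rw [Fm, inv_mul_cancel]; exact one_mem _

theorem fm_one_iff : Fm g k 1 ↔ k ∈ Zl E := by
  rw [fm_iff, mem_Z]
  simp [eq_comm]

theorem _root_.Vale.Agent.P022K.FI.Fm.congr (h : Fm g k k₀) (h' : k₁⁻¹ * k₀ ∈ Zl E) :
    Fm g k k₁ := by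
  have := mul_mem h' h
  simpa [Fm, mul_assoc] using this

/-- membership in a conjugate of a group containing the centre -/
theorem _root_.Vale.Agent.P022K.FI.Fm.mem_cj (h : Fm g k k₀) {V : Subgroup (GL (Fin 2) E)}
    (hV : Zl E ≤ V) : k ∈ cj g V ↔ k₀ ∈ V := by
  rw [Sh.mem_cj]
  have := hV h
  constructor
  · intro e
    have := mul_mem e (inv_mem this)
    rwa [mul_inv_rev, mul_inv_cancel_left, inv_inv] at this
  · intro e
    simpa using mul_mem e this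

theorem _root_.Vale.Agent.P022K.FI.Fm.frame (h : Fm g k k₀) (a : GL (Fin 2) E) :
    Fm (g * a) k (a⁻¹ * k₀ * a) := by
  obtain ⟨c, rfl⟩ := fm_iff.1 h
  exact fm_iff.2 ⟨c, by group⟩

theorem Z_le_cj (g : GL (Fin 2) E) {V : Subgroup (GL (Fin 2) E)} (hV : Zl E ≤ V) :
    Zl E ≤ cj g V := fun k hk => ((fm_one_iff.2 hk).mem_cj hV).2 V.one_mem

end alg

section nrm

variable {O E : Type} [CommRing O] [IsDomain O] [IsDiscreteValuationRing O] [Field E] [Algebra O E]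
variable (C : Type) [NontriviallyNormedField C] [IsUltrametricDist C] [Algebra E C]

/-- the absolute value of `E` -/
abbrev nn (c : E) : ℝ := ‖algebraMap E C c‖

variable {C} {ϖ : Eˣ}

theorem nn_mul (a b : E) : nn C (a * b) = nn C a * nn C b := by simp [nn]

theorem nn_div (a b : E) : nn C (a / b) = nn C a / nn C b := by simp [nn]

theorem nn_pos {a : E} (h : a ≠ 0) : 0 < nn C a := by simpa [nn] using h

theorem nn_add (a b : E) : nn C (a + b) ≤ max (nn C a) (nn C b) := by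
  rw [nn, map_add]; exact IsUltrametricDist.norm_add_le_max _ _

theorem nn_sub (a b : E) : nn C (a - b) ≤ max (nn C a) (nn C b) := by
  simpa [sub_eq_add_neg, nn] using nn_add (C := C) a (-b)

theorem nn_upos (a : Eˣ) : 0 < nn C (a : E) := nn_pos a.ne_zero

theorem nn_one_add {a : E} (h : nn C a < 1) : nn C (1 + a) = 1 := by
  rw [nn, map_add, map_one, IsUltrametricDist.norm_add_eq_max_of_norm_ne_norm (by
    rw [norm_one]; exact h.ne'), norm_one, max_eq_left h.le]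

theorem nn_eq_one {a : E} (h : nn C (a - 1) < 1) : nn C a = 1 := by
  simpa using nn_one_add h

variable (hF : LF O C ϖ)
include hF

theorem io_iff {c : E} : Io O c ↔ nn C c ≤ 1 := (hF.nrm c).symm

theorem io_div {c : E} {s : E} (hs : s ≠ 0) : Io O (c / s) ↔ nn C c ≤ nn C s := by
  rw [io_iff hF, nn_div, div_le_one (nn_pos hs)]

theorem inj : Function.Injective (algebraMap O E) :=
  haveI := hF.fr
  IsFractionRing.injective O E

theorem nn_O (a : O) : nn C (algebraMap O E a) ≤ 1 := (io_iff hF).1 ⟨a, rfl⟩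

theorem unit_iff {a : O} : IsUnit a ↔ nn C (algebraMap O E a) = 1 := by
  constructor
  · rintro ⟨u, rfl⟩
    have h1 := nn_O hF (u : O)
    have h2 := nn_O hF ((u⁻¹ : Oˣ) : O)
    have h3 : nn C (algebraMap O E u) * nn C (algebraMap O E ((u⁻¹ : Oˣ) : O)) = 1 := by
      rw [← nn_mul, ← map_mul]; simp [nn]
    by_contra h
    have := mul_lt_one_of_nonneg_of_lt_one_left (norm_nonneg _) (lt_of_le_of_ne h1 h) h2
    exact this.ne h3
  · intro h
    have h0 : algebraMap O E a ≠ 0 := fun e => by simp [e, nn] at h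
    obtain ⟨b, hb⟩ := (io_div hF (c := 1) h0).2 (by rw [h]; simp [nn])
    exact IsUnit.of_mul_eq_one b (inj hF (by rw [map_mul, hb, map_one, mul_one_div_cancel h0]))

theorem nn_pi_lt : nn C (ϖ : E) < 1 := by
  obtain ⟨p, hp, e⟩ := hF.irr
  rw [← e]
  exact lt_of_le_of_ne (nn_O hF p) fun h => hp.not_isUnit ((unit_iff hF).2 h)

theorem exists_zpow {c : E} (hc : c ≠ 0) : ∃ n : ℤ, nn C c = nn C (ϖ : E) ^ n := by
  haveI := hF.fr
  obtain ⟨p, hp, e⟩ := hF.irr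
  have key : ∀ a : O, a ≠ 0 → ∃ n : ℕ, nn C (algebraMap O E a) = nn C (ϖ : E) ^ n := fun a ha => by
    obtain ⟨n, u, rfl⟩ := IsDiscreteValuationRing.eq_unit_mul_pow_irreducible ha hp
    exact ⟨n, by rw [map_mul, nn_mul, (unit_iff hF).1 u.isUnit, map_pow, e]; simp [nn]⟩
  obtain ⟨a, b, hb, rfl⟩ := IsFractionRing.div_surjective (A := O) c
  obtain ⟨n, hn⟩ := key a fun h => hc (by simp [h])
  obtain ⟨m, hm⟩ := key b (nonZeroDivisors.ne_zero hb)
  exact ⟨n - m, by rw [nn_div, hn, hm, zpow_sub₀ (nn_upos ϖ).ne']; simp⟩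

/-- discreteness -/
theorem le_of_lt {c d : E} (h : nn C c < nn C d) : nn C c ≤ nn C d * nn C (ϖ : E) := by
  by_cases hc : c = 0
  · simp only [hc, nn, map_zero, norm_zero]; positivity
  have hd : d ≠ 0 := fun e => by
    simp only [e, nn, map_zero, norm_zero] at h; exact absurd h (not_lt.2 (norm_nonneg _))
  obtain ⟨n, hn⟩ := exists_zpow hF hc
  obtain ⟨m, hm⟩ := exists_zpow hF hd
  rw [hn, hm, zpow_lt_zpow_iff_right_of_lt_one₀ (nn_upos ϖ) (nn_pi_lt hF)] at h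
  rw [hn, hm, ← zpow_add_one₀ (nn_upos ϖ).ne']
  exact zpow_le_zpow_right_of_le_one₀ (nn_upos ϖ) (nn_pi_lt hF).le h

theorem exists_pow_lt {e : ℝ} (he : 0 < e) : ∃ m : ℕ, nn C (ϖ : E) ^ m < e :=
  exists_pow_lt_of_lt_one he (nn_pi_lt hF)

theorem eq_zero_of_le {c : E} {M : ℝ} (h : ∀ m : ℕ, 1 ≤ m → nn C c ≤ M * nn C (ϖ : E) ^ m) :
    c = 0 := by
  by_contra hc
  have hp := nn_pos (C := C) hc
  have hM : 0 < M := by
    by_contra h1
    have := (h 1 le_rfl).trans (mul_nonpos_of_nonpos_of_nonneg (not_lt.1 h1) (by positivity))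
    linarith
  obtain ⟨m, hm⟩ := exists_pow_lt hF (div_pos hp hM)
  have h2 := h (m + 1) (by omega)
  have h3 : nn C (ϖ : E) ^ (m + 1) ≤ nn C (ϖ : E) ^ m :=
    pow_le_pow_of_le_one (norm_nonneg _) (nn_pi_lt hF).le (by omega)
  rw [lt_div_iff₀' hM] at hm
  nlinarith

theorem mem_pow_iff (m : ℕ) (a : O) :
    a ∈ IsLocalRing.maximalIdeal O ^ m ↔ nn C (algebraMap O E a) ≤ nn C (ϖ : E) ^ m := by
  obtain ⟨p, hp, e⟩ := hF.irr
  rw [hp.maximalIdeal_eq, Ideal.span_singleton_pow, Ideal.mem_span_singleton']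
  have h1 : nn C (ϖ : E) ^ m = nn C ((ϖ : E) ^ m) := by simp [nn]
  rw [h1, ← io_div hF (pow_ne_zero _ ϖ.ne_zero)]
  constructor
  · rintro ⟨b, rfl⟩
    exact ⟨b, by rw [map_mul, map_pow, e, mul_div_cancel_right₀ _ (pow_ne_zero _ ϖ.ne_zero)]⟩
  · rintro ⟨b, hb⟩
    exact ⟨b, inj hF (by rw [map_mul, map_pow, e, hb, div_mul_cancel₀ _ (pow_ne_zero _ ϖ.ne_zero)])⟩

theorem mem_KK {k : GL (Fin 2) E} : k ∈ KK O E ↔ (∀ i j, nn C (k i j) ≤ 1) ∧ nn C (k.det : E) = 1 := by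
  constructor
  · rintro ⟨v, rfl⟩
    refine ⟨fun i j => nn_O hF _, ?_⟩
    rw [Matrix.GeneralLinearGroup.map_det]
    exact (unit_iff hF).1 (Units.isUnit _)
  · rintro ⟨h1, h2⟩
    choose a ha using fun i j => (io_iff hF).2 (h1 i j)
    have h3 : (Matrix.of a).map (algebraMap O E) = k := by ext i j; exact ha i j
    have h4 : IsUnit (Matrix.of a).det := (unit_iff hF).2 (by
      rw [RingHom.map_det, RingHom.mapMatrix_apply, h3]; exact h2)
    obtain ⟨v, hv⟩ := (Matrix.isUnit_iff_isUnit_det _).2 h4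
    exact ⟨v, Units.ext (by rw [← h3, ← hv]; rfl)⟩

theorem mem_Km {m : ℕ} {k : GL (Fin 2) E} : k ∈ Km O E m ↔
    k ∈ KK O E ∧ ∀ i j, nn C (k i j - (1 : Matrix (Fin 2) (Fin 2) E) i j) ≤ nn C (ϖ : E) ^ m := by
  have key : ∀ v : GL (Fin 2) O, v ∈ (Matrix.GeneralLinearGroup.map (n := Fin 2)
      (Ideal.Quotient.mk (IsLocalRing.maximalIdeal O ^ m))).ker ↔ ∀ i j,
      nn C ((Matrix.GeneralLinearGroup.map (algebraMap O E) v) i j -
        (1 : Matrix (Fin 2) (Fin 2) E) i j) ≤ nn C (ϖ : E) ^ m := fun v => by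
    rw [MonoidHom.mem_ker, Matrix.GeneralLinearGroup.ext_iff]
    refine forall₂_congr fun i j => ?_
    have h1 : (Matrix.GeneralLinearGroup.map (algebraMap O E) v) i j -
        (1 : Matrix (Fin 2) (Fin 2) E) i j =
        algebraMap O E (v i j - (1 : Matrix (Fin 2) (Fin 2) O) i j) := by
      simp [Matrix.one_apply, apply_ite (algebraMap O E)]
    rw [h1, ← mem_pow_iff hF, ← Ideal.Quotient.eq]
    simp [Matrix.one_apply, apply_ite (Ideal.Quotient.mk _)]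
  constructor
  · rintro ⟨v, hv, rfl⟩
    exact ⟨⟨v, rfl⟩, (key v).1 hv⟩
  · rintro ⟨⟨v, rfl⟩, h⟩
    exact ⟨v, (key v).2 h, rfl⟩

omit hF in
theorem det_sc (k : GL (Fin 2) E) (c : Eˣ) : nn C ((k * sc c).det : E) = nn C (k.det : E) * nn C (c : E) ^ 2 := by
  rw [det_eq, det_eq, mul_sc, mul_sc, mul_sc, mul_sc, show nn C (c : E) ^ 2 = nn C ((c : E) ^ 2) by
    simp [nn], ← nn_mul]
  congr 1; ring

theorem mem_KZ {k : GL (Fin 2) E} : k ∈ KZ O E ↔ ∀ i j, nn C (k i j) ^ 2 ≤ nn C (k.det : E) := by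
  rw [KZ, mem_supZ]
  constructor
  · rintro ⟨v, hv, c, rfl⟩ i j
    obtain ⟨h1, h2⟩ := (mem_KK hF).1 hv
    rw [det_sc, h2, mul_sc, nn_mul, mul_pow]
    exact mul_le_mul_of_nonneg_right (pow_le_one₀ (norm_nonneg _) (h1 i j)) (by positivity)
  · intro h
    obtain ⟨p, -, hp⟩ := Finset.exists_max_image Finset.univ
      (fun p : Fin 2 × Fin 2 => nn C (k p.1 p.2)) Finset.univ_nonempty
    have h1 : ∀ i j, nn C (k i j) ≤ nn C (k p.1 p.2) := fun i j => hp (i, j) (by simp)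
    have h2 : nn C (k.det : E) ≤ nn C (k p.1 p.2) ^ 2 := by
      rw [det_eq, sq]
      refine (nn_sub _ _).trans (max_le ?_ ?_) <;> rw [nn_mul] <;>
        exact mul_le_mul (h1 _ _) (h1 _ _) (norm_nonneg _) (norm_nonneg _)
    have h3 : k p.1 p.2 ≠ 0 := fun e => by
      rw [e] at h2
      exact absurd h2 (not_le.2 (by simpa [nn] using nn_upos (C := C) k.det))
    have h4 := nn_pos (C := C) h3
    refine ⟨k * sc (Units.mk0 _ h3)⁻¹, (mem_KK hF).2 ⟨fun i j => ?_, ?_⟩, Units.mk0 _ h3, by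
      rw [mul_assoc, ← map_mul, inv_mul_cancel, map_one, mul_one]⟩
    · rw [mul_sc, Units.val_inv_eq_inv_val, Units.val_mk0, ← div_eq_mul_inv, nn_div, div_le_one h4]
      exact h1 i j
    · rw [det_sc, le_antisymm h2 (h _ _), Units.val_inv_eq_inv_val, Units.val_mk0, ← mul_pow,
        ← nn_mul, mul_inv_cancel₀ h3]
      simp [nn]

theorem mem_KmZ {m : ℕ} (hm : 1 ≤ m) {k : GL (Fin 2) E} : k ∈ Km O E m ⊔ Zl E ↔
    k 1 1 ≠ 0 ∧ nn C (k 0 0 / k 1 1 - 1) ≤ nn C (ϖ : E) ^ m ∧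
      nn C (k 0 1 / k 1 1) ≤ nn C (ϖ : E) ^ m ∧ nn C (k 1 0 / k 1 1) ≤ nn C (ϖ : E) ^ m := by
  have hlt : nn C (ϖ : E) ^ m < 1 := pow_lt_one₀ (norm_nonneg _) (nn_pi_lt hF) (by omega)
  rw [mem_supZ]
  constructor
  · rintro ⟨v, hv, c, rfl⟩
    have h := ((mem_Km hF).1 hv).2
    have h00 := h 0 0
    have h01 := h 0 1
    have h10 := h 1 0
    have h11 := h 1 1
    simp only [Matrix.one_apply_eq, Matrix.one_apply_ne (show (0 : Fin 2) ≠ 1 by decide),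
      Matrix.one_apply_ne (show (1 : Fin 2) ≠ 0 by decide), sub_zero] at h00 h01 h10 h11
    have h1 : nn C (v 1 1) = 1 := nn_eq_one (h11.trans_lt hlt)
    have h2 : v 1 1 ≠ 0 := fun e => by simp [e, nn] at h1
    simp only [mul_sc, mul_div_mul_right _ _ c.ne_zero]
    refine ⟨mul_ne_zero h2 c.ne_zero, ?_, by rwa [nn_div, h1, div_one], by rwa [nn_div, h1, div_one]⟩
    rw [div_sub_one h2, nn_div, h1, div_one, ← sub_sub_sub_cancel_right _ _ 1]
    exact (nn_sub _ _).trans (max_le h00 h11)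
  · rintro ⟨h0, h1, h2, h3⟩
    have h4 : ∀ i j, (k * sc (Units.mk0 _ h0)⁻¹) i j = k i j / k 1 1 := fun i j => by
      rw [mul_sc, Units.val_inv_eq_inv_val, Units.val_mk0, div_eq_mul_inv]
    have h5 := nn_eq_one (h1.trans_lt hlt)
    refine ⟨k * sc (Units.mk0 _ h0)⁻¹, (mem_Km hF).2 ⟨(mem_KK hF).2 ⟨fun i j => ?_, ?_⟩,
      fun i j => ?_⟩, Units.mk0 _ h0, by
        rw [mul_assoc, ← map_mul, inv_mul_cancel, map_one, mul_one]⟩
    · rw [h4]
      fin_cases i <;> fin_cases j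
      · exact h5.le
      · exact h2.trans hlt.le
      · exact h3.trans hlt.le
      · simp [h0, nn]
    · rw [det_eq, h4, h4, h4, h4, div_self h0, mul_one]
      refine nn_eq_one ?_
      rw [sub_right_comm]
      refine (nn_sub _ _).trans_lt (max_lt (h1.trans_lt hlt) ?_)
      rw [nn_mul]
      exact mul_lt_one_of_nonneg_of_lt_one_left (norm_nonneg _) (h2.trans_lt hlt) (h3.trans hlt.le)
    · rw [h4]
      fin_cases i <;> fin_cases j
      · exact h1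
      · simpa using h2
      · simpa using h3
      · simp [h0, nn]

theorem un_mem_KZ {c : E} : un c ∈ KZ O E ↔ nn C c ≤ 1 := by
  have h : ((un c).det : E) = 1 := by rw [det_eq]; simp [un_val]
  rw [mem_KZ hF, h]
  constructor
  · intro H
    have := H 0 1
    simp only [un_val, nn, map_one, norm_one] at this
    exact (sq_le_one_iff₀ (norm_nonneg _)).1 (by simpa using this)
  · intro H i j
    fin_cases i <;> fin_cases j <;> simp [un_val, nn]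
    exact H

theorem un_mem_KmZ {m : ℕ} (hm : 1 ≤ m) {c : E} :
    un c ∈ Km O E m ⊔ Zl E ↔ nn C c ≤ nn C (ϖ : E) ^ m := by
  rw [mem_KmZ hF hm]
  simp [un_val, nn]

theorem dg_mem_KZ {a : Eˣ} : dg a ∈ KZ O E ↔ nn C (a : E) = 1 := by
  have h : ((dg a).det : E) = a := by rw [det_eq]; simp [dg_val]
  rw [mem_KZ hF, h]
  constructor
  · intro H
    have h0 := H 0 0
    have h1 := H 1 1
    have hp := nn_upos (C := C) a
    simp only [dg_val, nn] at h0 h1 hp ⊢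
    simp at h0 h1
    nlinarith
  · intro H i j
    fin_cases i <;> fin_cases j <;> simp [dg_val, nn] <;> simp [H]

theorem dg_mem_KmZ {m : ℕ} (hm : 1 ≤ m) {a : Eˣ} :
    dg a ∈ Km O E m ⊔ Zl E ↔ nn C ((a : E) - 1) ≤ nn C (ϖ : E) ^ m := by
  rw [mem_KmZ hF hm]
  simp [dg_val, nn]

omit hF in
theorem Km_le (m : ℕ) : Km O E m ≤ KK O E := by
  rintro _ ⟨v, -, rfl⟩
  exact ⟨v, rfl⟩

theorem Km_anti {m n : ℕ} (h : m ≤ n) : Km O E n ≤ Km O E m := fun k hk =>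
  (mem_Km hF).2 ⟨((mem_Km hF).1 hk).1, fun i j => (((mem_Km hF).1 hk).2 i j).trans
    (pow_le_pow_of_le_one (norm_nonneg _) (nn_pi_lt hF).le h)⟩

omit hF in
theorem KmZ_le (m : ℕ) : Km O E m ⊔ Zl E ≤ KZ O E := sup_le_sup_right (Km_le m) _

omit hF in
theorem conj_Km {m : ℕ} {k v : GL (Fin 2) E} (hk : k ∈ KZ O E) (hv : v ∈ Km O E m ⊔ Zl E) :
    k⁻¹ * v * k ∈ Km O E m ⊔ Zl E := by
  obtain ⟨_, ⟨k, rfl⟩, c, rfl⟩ := mem_supZ.1 hk
  obtain ⟨_, ⟨v, hw, rfl⟩, d, rfl⟩ := mem_supZ.1 hv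
  refine mem_supZ.2 ⟨_, ⟨k⁻¹ * v * k, ?_, rfl⟩, d, ?_⟩
  · simpa using (MonoidHom.normal_ker _).conj_mem v hw k⁻¹
  · have h1 := Subgroup.mem_center_iff.1 (sc_mem c)
    have h2 := Subgroup.mem_center_iff.1 (sc_mem d)
    rw [map_mul, map_mul, map_inv, mul_inv_rev, ← mul_assoc _ _ (sc c), h1, ← mul_assoc (sc c),
      ← mul_assoc (sc c), mul_inv_cancel_left, mul_assoc _ _ (sc d), h2]
    group

/-- conjugates of congruence subgroups are open -/
theorem exists_Km_le (g : GL (Fin 2) E) (m : ℕ) : ∃ n, 1 ≤ n ∧ Km O E n ≤ cj g (Km O E m) := by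
  obtain ⟨p, -, hp⟩ := Finset.exists_max_image Finset.univ
    (fun p : (Fin 2 × Fin 2) × Fin 2 × Fin 2 => nn C (g⁻¹ p.1.1 p.1.2) * nn C (g p.2.1 p.2.2))
    Finset.univ_nonempty
  set M := nn C (g⁻¹ p.1.1 p.1.2) * nn C (g p.2.1 p.2.2) + 1 with hM
  have hM0 : 0 < M := by positivity
  obtain ⟨n, hn⟩ := exists_pow_lt hF (div_pos (pow_pos (nn_upos (C := C) ϖ) (m + 1)) hM0)
  rw [lt_div_iff₀ hM0] at hn
  refine ⟨n + 1, by omega, fun k hk => mem_cj.2 ?_⟩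
  have h0 := ((mem_Km hF).1 (Km_anti hF (Nat.le_succ n) hk)).2
  have h1 : ∀ i j, nn C ((g⁻¹ * k * g) i j - (1 : Matrix (Fin 2) (Fin 2) E) i j) ≤
      nn C (ϖ : E) ^ (m + 1) := fun i j => by
    have e : (g⁻¹ * k * g) i j - (1 : Matrix (Fin 2) (Fin 2) E) i j =
        (((g⁻¹ : GL (Fin 2) E) : Matrix (Fin 2) (Fin 2) E) * ((k : Matrix (Fin 2) (Fin 2) E) - 1) *
          (g : Matrix (Fin 2) (Fin 2) E)) i j := by
      rw [mul_sub, sub_mul, mul_one, Units.inv_mul]; rfl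
    have a : ∀ s t, nn C (g⁻¹ i s * ((k : Matrix (Fin 2) (Fin 2) E) - 1) s t * g t j) ≤
        nn C (ϖ : E) ^ (m + 1) := fun s t => by
      rw [mul_right_comm, nn_mul, nn_mul, mul_comm]
      exact (mul_le_mul (h0 s t) ((hp ((i, s), t, j) (by simp)).trans (le_add_of_nonneg_right
        zero_le_one)) (by positivity) (by positivity)).trans hn.le
    rw [e, Matrix.mul_apply, Fin.sum_univ_two, Matrix.mul_apply, Matrix.mul_apply,
      Fin.sum_univ_two, Fin.sum_univ_two, add_mul, add_mul]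
    exact (nn_add _ _).trans (max_le ((nn_add _ _).trans (max_le (a _ _) (a _ _)))
      ((nn_add _ _).trans (max_le (a _ _) (a _ _))))
  have hlt : nn C (ϖ : E) ^ (m + 1) < 1 := pow_lt_one₀ (norm_nonneg _) (nn_pi_lt hF) (by omega)
  refine Km_anti hF (Nat.le_succ m) ((mem_Km hF).2 ⟨(mem_KK hF).2 ⟨fun i j => ?_, ?_⟩, h1⟩)
  · rw [← sub_add_cancel ((g⁻¹ * k * g) i j) ((1 : Matrix (Fin 2) (Fin 2) E) i j)]
    refine (nn_add _ _).trans (max_le ((h1 i j).trans hlt.le) ?_)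
    rw [Matrix.one_apply]
    split_ifs <;> simp [nn]
  · have := ((mem_KK hF).1 (Km_le _ hk)).2
    rwa [map_mul, map_mul, map_inv, mul_right_comm, inv_mul_cancel, one_mul]

/-- the basic local levels in the frame `g` -/
theorem ll_cj (g : GL (Fin 2) E) (m : ℕ) : Ll O (cj g (Km O E m ⊔ Zl E)) := by
  obtain ⟨n, -, hn⟩ := exists_Km_le hF g m
  exact ⟨Z_le_cj g le_sup_right, ⟨n, hn.trans (Subgroup.comap_mono le_sup_left)⟩,
    g, Subgroup.comap_mono (KmZ_le m)⟩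

theorem ll_Vx (g : GL (Fin 2) E) : Ll O (Vx O g) := by
  obtain ⟨n, -, hn⟩ := exists_Km_le hF g 0
  exact ⟨Z_le_cj g le_sup_right, ⟨n, hn.trans (Subgroup.comap_mono ((Km_le 0).trans le_sup_left))⟩,
    g, le_rfl⟩

/-- every local level contains a basic level in the frame `g` -/
theorem exists_cj_le {V : Subgroup (GL (Fin 2) E)} (hV : Ll O V) (g : GL (Fin 2) E) :
    ∃ n, 1 ≤ n ∧ cj g (Km O E n ⊔ Zl E) ≤ V := by
  obtain ⟨m, hm⟩ := hV.op
  obtain ⟨n, h1, hn⟩ := exists_Km_le hF g⁻¹ m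
  refine ⟨n, h1, fun k hk => ?_⟩
  obtain ⟨v, hv, c, e⟩ := mem_supZ.1 (mem_cj.1 hk)
  have h2 := hm (mem_cj.1 (hn hv))
  have h3 : k = g⁻¹⁻¹ * v * g⁻¹ * sc c := by
    rw [mul_assoc, Subgroup.mem_center_iff.1 (sc_mem c) g⁻¹, inv_inv, mul_assoc, ← mul_assoc v, e]
    group
  rw [h3]
  exact mul_mem h2 (hV.z (sc_mem c))

omit hF in
theorem nn_det_le {k : GL (Fin 2) E} (h : ∀ i j, nn C (k i j) ≤ 1) : nn C (k.det : E) ≤ 1 := by
  rw [det_eq]
  refine (nn_sub _ _).trans (max_le ?_ ?_) <;> rw [nn_mul] <;>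
    exact mul_le_one₀ (h _ _) (norm_nonneg _) (h _ _)

theorem mem_KK' {k : GL (Fin 2) E} : k ∈ KK O E ↔
    (∀ i j, nn C (k i j) ≤ 1) ∧ ∀ i j, nn C ((k⁻¹ : GL (Fin 2) E) i j) ≤ 1 := by
  refine ⟨fun h => ⟨((mem_KK hF).1 h).1, ((mem_KK hF).1 (inv_mem h)).1⟩,
    fun h => (mem_KK hF).2 ⟨h.1, le_antisymm (nn_det_le h.1) ?_⟩⟩
  have h1 := nn_det_le h.2
  rw [map_inv, Units.val_inv_eq_inv_val, nn, map_inv₀, norm_inv] at h1
  exact (inv_le_one₀ (nn_upos _)).1 h1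

omit hF in
theorem relIndex_cj {G : Type} [Group G] (x : G) (H K : Subgroup G) :
    (cj x H).relIndex (cj x K) = H.relIndex K := by
  rw [cj, cj, Subgroup.relIndex_comap, Subgroup.map_comap_eq_self_of_surjective
    (MulAut.conj x⁻¹).surjective]

omit hF in
theorem relIndex_Z (H K : Subgroup (GL (Fin 2) E)) :
    (H ⊔ Zl E).relIndex (K ⊔ Zl E) = (H ⊔ Zl E).relIndex K := by
  have h := QuotientGroup.ker_mk' (Zl E)
  rw [← h, ← Subgroup.relIndex_map_map, ← Subgroup.relIndex_comap, Subgroup.comap_map_eq]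

theorem relIndex_Km (m : ℕ) : (Km O E m).relIndex (KK O E) ≠ 0 := by
  haveI : Finite (O ⧸ IsLocalRing.maximalIdeal O) := hF.fin
  haveI := Ideal.finite_quotient_pow (IsNoetherian.noetherian (IsLocalRing.maximalIdeal O)) m
  rw [KK, MonoidHom.range_eq_map, Km, ← Subgroup.relIndex_comap, Subgroup.relIndex_top_right]
  refine fun e => ?_
  have := Subgroup.index_dvd_of_le (Subgroup.le_comap_map (Matrix.GeneralLinearGroup.map
    (n := Fin 2) (algebraMap O E)) (Matrix.GeneralLinearGroup.map (n := Fin 2)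
    (Ideal.Quotient.mk (IsLocalRing.maximalIdeal O ^ m))).ker)
  rw [e, zero_dvd_iff, Subgroup.index_ker] at this
  exact Nat.card_pos.ne' this

theorem ll_relIndex {V V' : Subgroup (GL (Fin 2) E)} (hV : Ll O V) (hV' : Ll O V') :
    V.relIndex V' ≠ 0 := by
  obtain ⟨g, hg⟩ := hV'.vx
  obtain ⟨n, -, hn⟩ := exists_cj_le hF hV g
  refine fun e => ?_
  have := Subgroup.relIndex_eq_zero_of_le_left hn (Subgroup.relIndex_eq_zero_of_le_right hg e)
  rw [Vx, relIndex_cj, KZ, relIndex_Z] at this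
  exact relIndex_Km hF n (Subgroup.relIndex_eq_zero_of_le_left le_sup_left this)

omit hF in
theorem cj_cj {G : Type} [Group G] (x y : G) (V : Subgroup G) : cj x (cj y V) = cj (x * y) V := by
  ext z
  simp only [mem_cj, mul_inv_rev, mul_assoc]

theorem ll_conj {V : Subgroup (GL (Fin 2) E)} (hV : Ll O V) (g : GL (Fin 2) E) : Ll O (cj g V) := by
  obtain ⟨m, hm⟩ := hV.op
  obtain ⟨g', hg⟩ := hV.vx
  obtain ⟨n, -, hn⟩ := exists_Km_le hF g m
  exact ⟨Z_le_cj g hV.z, ⟨n, hn.trans (Subgroup.comap_mono hm)⟩, g * g', by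
    rw [Vx, ← cj_cj]; exact Subgroup.comap_mono hg⟩

theorem ll_inf {V V' : Subgroup (GL (Fin 2) E)} (h : Ll O V) (h' : Ll O V') : Ll O (V ⊓ V') := by
  obtain ⟨m, hm⟩ := h.op
  obtain ⟨n, hn⟩ := h'.op
  obtain ⟨g, hg⟩ := h.vx
  exact ⟨le_inf h.z h'.z, ⟨max m n, le_inf ((Km_anti hF (le_max_left _ _)).trans hm)
    ((Km_anti hF (le_max_right _ _)).trans hn)⟩, g, inf_le_left.trans hg⟩

omit hF in
theorem un_conj (s : Eˣ) (c : E) : (dg s)⁻¹ * un c * dg s = un (c / s) := by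
  have := dg_un s⁻¹ c
  rwa [dg_inv, inv_inv, Units.val_inv_eq_inv_val, ← div_eq_inv_mul] at this

theorem un_mem_Vx {g : GL (Fin 2) E} {s : Eˣ} {c : E} :
    g * un c * g⁻¹ ∈ Vx O (g * dg s) ↔ nn C c ≤ nn C (s : E) := by
  rw [Vx, mem_cj, show (g * dg s)⁻¹ * (g * un c * g⁻¹) * (g * dg s) = (dg s)⁻¹ * un c * dg s by
    group, un_conj, un_mem_KZ hF, nn_div, div_le_one (nn_upos s)]

omit hF in
theorem nn_zpow (a : Eˣ) (n : ℤ) : nn C ((a ^ n : Eˣ) : E) = nn C (a : E) ^ n := by simp [nn]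

theorem pi_anti {m n : ℤ} (h : m ≤ n) : nn C (ϖ : E) ^ n ≤ nn C (ϖ : E) ^ m :=
  zpow_le_zpow_right_of_le_one₀ (nn_upos ϖ) (nn_pi_lt hF).le h

omit hF in
theorem Vx_eq {g g' : GL (Fin 2) E} (h : g⁻¹ * g' ∈ KZ O E) : Vx O g' = Vx O g := by
  ext k
  rw [Vx, Vx, mem_cj, mem_cj, show g'⁻¹ * k * g' = (g⁻¹ * g')⁻¹ * (g⁻¹ * k * g) * (g⁻¹ * g') by
    group, Subgroup.mul_mem_cancel_right _ h, Subgroup.mul_mem_cancel_left _ (inv_mem h)]

theorem iwasawa (g : GL (Fin 2) E) : ∃ k ∈ KK O E, (g * k : GL (Fin 2) E) 1 0 = 0 := by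
  by_cases h : nn C (g 1 0) ≤ nn C (g 1 1)
  · have h0 : g 1 1 ≠ 0 := fun e => det_ne g (by
      rw [e, nn, nn, map_zero, norm_zero, norm_le_zero_iff, map_eq_zero] at h
      simp [e, h])
    refine ⟨Matrix.GeneralLinearGroup.mkOfDetNeZero !![1, 0; -(g 1 0 / g 1 1), 1]
      (by simp [Matrix.det_fin_two]), (mem_KK hF).2 ⟨fun i j => ?_, by simp [det_eq, nn]⟩, ?_⟩
    · fin_cases i <;> fin_cases j <;> simp [nn]
      exact div_le_one_of_le₀ h (norm_nonneg _)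
    · simp [Matrix.mul_apply, Fin.sum_univ_two]
      field_simp
      ring
  · have h0 : g 1 0 ≠ 0 := fun e => h (by rw [e, nn, map_zero, norm_zero]; exact norm_nonneg _)
    refine ⟨Matrix.GeneralLinearGroup.mkOfDetNeZero !![-(g 1 1 / g 1 0), 1; 1, 0]
      (by simp [Matrix.det_fin_two]), (mem_KK hF).2 ⟨fun i j => ?_, by simp [det_eq, nn]⟩, ?_⟩
    · fin_cases i <;> fin_cases j <;> simp [nn]
      exact div_le_one_of_le₀ (not_le.1 h).le (norm_nonneg _)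
    · simp [Matrix.mul_apply, Fin.sum_univ_two]
      field_simp
      ring

theorem exists_unit (μ : Eˣ) : ∃ (m : ℤ) (o : Oˣ), (μ : E) = ϖ ^ m * algebraMap O E o := by
  obtain ⟨m, hm⟩ := exists_zpow hF μ.ne_zero
  have h0 : (ϖ : E) ^ m ≠ 0 := zpow_ne_zero _ ϖ.ne_zero
  have h1 : nn C ((μ : E) / ϖ ^ m) = 1 := by
    rw [nn_div, hm, ← Units.val_zpow_eq_zpow_val, nn_zpow, div_self (zpow_pos (nn_upos ϖ) m).ne']
  obtain ⟨a, ha⟩ := (io_iff hF).2 h1.le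
  obtain ⟨o, rfl⟩ := (unit_iff hF).2 (ha ▸ h1)
  exact ⟨m, o, by rw [ha, mul_div_cancel₀ _ h0]⟩

theorem mem_KZ' {k : GL (Fin 2) E} : k ∈ KZ O E ↔ ∃ c : Eˣ, (∀ i l, Io O (c * k i l)) ∧
    ∀ i l, Io O ((c⁻¹ : Eˣ) * (k⁻¹ : GL (Fin 2) E) i l) := by
  have key : ∀ c : Eˣ, k * sc c ∈ KK O E ↔ (∀ i l, Io O (c * k i l)) ∧
      ∀ i l, Io O ((c⁻¹ : Eˣ) * (k⁻¹ : GL (Fin 2) E) i l) := fun c => by
    rw [mem_KK' hF, mul_inv_rev, show (sc c)⁻¹ = sc c⁻¹ from (map_inv _ c).symm,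
      ← Subgroup.mem_center_iff.1 (sc_mem c⁻¹)]
    simp only [mul_sc, io_iff hF, mul_comm]
  rw [KZ, mem_supZ]
  constructor
  · rintro ⟨v, hv, c, e⟩
    exact ⟨c⁻¹, (key _).1 (by
      rwa [← e, mul_assoc, ← map_mul, mul_inv_cancel, map_one, mul_one])⟩
  · rintro ⟨c, h⟩
    exact ⟨_, (key c).2 h, c⁻¹, by rw [mul_assoc, ← map_mul, mul_inv_cancel, map_one, mul_one]⟩

theorem mem_Km' {m : ℕ} {k : GL (Fin 2) E} : k ∈ Km O E m ↔
    ∀ i l, Io O (k i l) ∧ Io O ((k i l - (1 : Matrix (Fin 2) (Fin 2) E) i l) / ϖ ^ m) ∧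
      Io O ((k⁻¹ : GL (Fin 2) E) i l) := by
  have h : nn C ((ϖ : E) ^ m) = nn C (ϖ : E) ^ m := by simp [nn]
  simp only [mem_Km hF, mem_KK' hF, io_div hF (pow_ne_zero m ϖ.ne_zero), h]
  simp only [io_iff hF]
  exact ⟨fun h i l => ⟨h.1.1 i l, h.2 i l, h.1.2 i l⟩,
    fun h => ⟨⟨fun i l => (h i l).1, fun i l => (h i l).2.2⟩, fun i l => (h i l).2.1⟩⟩

theorem np_Vx (g : GL (Fin 2) E) {m n : ℤ} (h : m ≤ n) :
    Np O g (ϖ ^ n) (Vx O (g * dg (ϖ ^ m)) ⊓ Vx O (g * dg (ϖ ^ n))) := fun c => by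
  rw [Subgroup.mem_inf, un_mem_Vx hF, un_mem_Vx hF, io_div hF (ϖ ^ n).ne_zero, nn_zpow, nn_zpow]
  exact and_iff_right_of_imp fun e => e.trans (pi_anti hF h)

end nrm

end Mx

variable {C L Γ O E : Type} [NontriviallyNormedField C] [IsUltrametricDist C] [CompleteSpace C]
  [IsAlgClosed C] [CharZero C] [Field L] [Algebra C L] [Group Γ] [CommRing O] [IsDomain O]
  [IsDiscreteValuationRing O] [Field E] [Algebra O E] [Algebra E C] {A : AT C L Γ O E}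

open Mx in
/-- **MAT** -/
theorem mat (hA : A.Ok) : A.MAT :=
  ⟨ll_Vx hA.lf, fun m => ⟨le_sup_right, ⟨m, le_sup_left⟩, 1, fun k hk => mem_cj.2 (by
      simpa using KmZ_le m hk)⟩,
    fun _ _ h h' => ⟨ll_inf hA.lf h h', ll_relIndex hA.lf h h'⟩, fun _ g h => ll_conj hA.lf h g,
    fun _ => mem_KZ' hA.lf, fun _ _ => mem_Km' hA.lf, fun g _ _ h => np_Vx hA.lf g h,
    fun _ _ => Vx_eq, iwasawa hA.lf, exists_unit hA.lf⟩

end Vale.Agent.P022K.FI
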