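import Vale.Agent.P022K.FI.Gal0
import Vale.Agent.P025.R2.H746.Pair

/-!
# P022K, block FI, row TWR: conjugacy of places and of norms in infinite Galois extensions
-/

set_option linter.all false

noncomputable section

namespace Vale.Agent.P022K.FI.An4

open P025H552 P025H492 P025H746 Vale.Agent.P019P IntermediateField

section pl

variable {k K L : Type*} [Field k] [Field K] [Field L] [Algebra k K] [Algebra k L] [Algebra K L]
  [IsScalarTower k K L]

/-- places which agree on `M` are conjugate over `M` -/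
theorem exists_conj_over [CFF k K] [IsGalois K L] (M : IntermediateField K L) {y y' : Plk k L}
    (h : ∀ x ∈ M, x ∈ y.1 ↔ x ∈ y'.1) :
    ∃ σ : L ≃ₐ[K] L, ∀ x, (x ∈ M → σ x = x) ∧ (σ x ∈ y.1 ↔ x ∈ y'.1) := by
  classical
  refine exists_of_finite (K := K) (fun x : L => x)
    (fun x z => (x ∈ M → z = x) ∧ (z ∈ y.1 ↔ x ∈ y'.1)) fun s => ?_
  let M' := adjoin K ((s.filter (· ∈ M) : Finset L) : Set L)
  have h1 : M' ≤ M := adjoin_le_iff.2 fun x hx => (Finset.mem_filter.1 hx).2
  have h2 : FiniteDimensional K M' :=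
    finiteDimensional_adjoin fun x _ => Algebra.IsIntegral.isIntegral x
  have h3 : CFF k M' := cff_of_finite (K := K)
  have h4 : IsGalois M' L := IsGalois.tower_top_intermediateField M'
  obtain ⟨σ, hσ⟩ := exists_conj' (K := M') (y := y') (y' := y)
    (Subtype.ext (ValuationSubring.ext _ _ fun z : M' => (h z (h1 z.2)).symm))
  refine ⟨σ.restrictScalars K, fun x hx => ⟨fun hm => ?_, ?_⟩⟩
  · exact σ.commutes ⟨x, subset_adjoin K _ (Finset.mem_filter.2 ⟨hx, hm⟩)⟩
  · rw [← hσ, mem_conj]
    exact Iff.of_eq (congrArg (· ∈ y'.1) (σ.symm_apply_apply x))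

/-- the degree of a finite subextension is an index -/
theorem finrank_eq_index [IsGalois K L] {G : Type*} [Group G] (φ : G →* (L ≃ₐ[K] L))
    (hφ : Function.Surjective φ) (M : IntermediateField K L) (H : Subgroup G)
    (h : ∀ g, g ∈ H ↔ ∀ x ∈ M, φ g x = x) : Module.finrank K M = H.index := by
  have e : H = M.fixingSubgroup.comap φ := by
    ext g
    rw [h, Subgroup.mem_comap, IntermediateField.mem_fixingSubgroup_iff]
  rw [e, Subgroup.index_comap_of_surjective _ hφ, finrank_eq_fixingSubgroup_index]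

end pl

section nv

variable {C K W : Type*} [NontriviallyNormedField C] [IsUltrametricDist C] [Field K] [Algebra C K]
  [Field W] [Algebra C W] [Algebra K W] [IsScalarTower C K W]

theorem nv_conj_fin [FiniteDimensional K W] [IsGalois K W] (v v' : NV C W)
    (h : ∀ x : K, v (algebraMap K W x) = v' (algebraMap K W x)) :
    ∃ σ : W ≃ₐ[K] W, v.twist σ = v' := by
  classical
  by_contra hne
  push Not at hne
  let S : Set (NV C W) := (Set.range fun σ : W ≃ₐ[K] W => v.twist σ) ∪
    Set.range fun σ : W ≃ₐ[K] W => v'.twist σ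
  have hS : Finite S := (Set.finite_range _).union (Set.finite_range _)
  obtain ⟨e, h0, -, h2⟩ := P025H458.exists_idem (fun u : S => u.1.av) (fun u => u.1.na)
    (fun u => u.1.ext') (fun u u' h => Subtype.ext (NV.ext h)) ⟨v', Or.inr ⟨1, rfl⟩⟩
  have h3 : ∀ u : S, u.1 ≠ v' → u.1 (e - 1) = 1 := fun u hu => by
    have h4 : u.1.av e < 1 := h2 u fun e1 => hu (congrArg Subtype.val e1)
    have h5 : u.1.av e ≠ u.1.av (-1) := by rw [AbsoluteValue.map_neg, map_one]; exact h4.ne
    have := u.1.na.add_eq_max_of_ne h5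
    rw [AbsoluteValue.map_neg, map_one, max_eq_right h4.le] at this
    rw [sub_eq_add_neg]
    exact this
  have h4 : v (algebraMap K W (Algebra.norm K (e - 1))) = 1 := by
    rw [Algebra.norm_eq_prod_automorphisms, map_prod]
    exact Finset.prod_eq_one fun σ _ => h3 ⟨v.twist σ, Or.inl ⟨σ, rfl⟩⟩ (hne σ)
  have h5 : v' (algebraMap K W (Algebra.norm K (e - 1))) < 1 := by
    rw [Algebra.norm_eq_prod_automorphisms, map_prod,
      ← Finset.mul_prod_erase _ _ (Finset.mem_univ (1 : W ≃ₐ[K] W))]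
    refine mul_lt_one_of_nonneg_of_lt_one_left (v'.av.nonneg _) h0
      (Finset.prod_le_one (fun σ _ => v'.av.nonneg _) fun σ _ => ?_)
    by_cases e1 : v'.twist σ = v'
    · exact (NV.congr e1 _).le.trans h0.le
    · exact (h3 ⟨v'.twist σ, Or.inr ⟨σ, rfl⟩⟩ e1).le
  rw [← h, h4] at h5
  exact lt_irrefl _ h5

/-- norms which agree on the base are conjugate -/
theorem nv_conj [IsGalois K W] (v v' : NV C W)
    (h : ∀ x : K, v (algebraMap K W x) = v' (algebraMap K W x)) :
    ∃ σ : W ≃ₐ[K] W, ∀ x, v (σ x) = v' x := by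
  refine exists_of_finite (K := K) (fun x : W => x) (fun x z => v z = v' x) fun s => ?_
  obtain ⟨K', _, _, hs⟩ := exists_fin_gal (K := K) s
  obtain ⟨τ, hτ⟩ := nv_conj_fin (K := K) (v.comap K') (v'.comap K') h
  refine ⟨τ.liftNormal W, fun x hx => ?_⟩
  have h1 := τ.liftNormal_commutes W ⟨x, hs x hx⟩
  exact (congrArg v h1).trans (NV.congr hτ ⟨x, hs x hx⟩)

end nv

end Vale.Agent.P022K.FI.An4
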