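import Vale.Agent.P022K.FI.Exp2
import Vale.Agent.P025.R2.H492.Ext5
import Mathlib.FieldTheory.Extension

/-!
# P022K, block FI, row AN4: expansions extend to unramified extensions
-/

set_option linter.all false

noncomputable section

namespace Vale.Agent.P022K.FI.An4

open PowerSeries LaurentSeries P025H552 P025H492 Vale.Agent.P019P IntermediateField

section lift

variable {k K L A B : Type*} [Field k] [Field K] [Field L] [Field A] [Field B] [Algebra k K]
  [Algebra k L] [Algebra k A] [Algebra k B] [Algebra K L] [IsScalarTower k K L]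

/-- a homomorphism on `M` extends to the compositum of `M` with the image of `L` -/
theorem exists_lift (th : L →ₐ[k] A) (M : IntermediateField k A) (τ : M →ₐ[k] B) (j : K →+* B)
    (hM : ∀ x : K, th (algebraMap K L x) ∈ M) (hj : ∀ x, τ ⟨th (algebraMap K L x), hM x⟩ = j x)
    (hs : ∀ y : L, IsIntegral K y ∧ ((minpoly K y).map j).Splits) :
    ∃ (N : IntermediateField k A) (T : N →ₐ[k] B), (∀ y, th y ∈ N) ∧
      ∃ h : M ≤ N, ∀ z : M, T (inclusion h z) = τ z := by
  let i : K →+* M := ((th : L →+* A).comp (algebraMap K L)).codRestrict M hM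
  have hi : τ.toRingHom.comp i = j := RingHom.ext hj
  obtain ⟨T, hT⟩ := exists_algHom_adjoin_of_splits' (S := Set.range th) τ (by
    rintro _ ⟨y, rfl⟩
    obtain ⟨h1, h2⟩ := hs y
    have h3 : Polynomial.aeval (th y) ((minpoly K y).map i) = 0 := by
      have := Polynomial.hom_eval₂ (minpoly K y) (algebraMap K L) (th : L →+* A) y
      rw [← Polynomial.aeval_def, minpoly.aeval, map_zero] at this
      rw [Polynomial.aeval_def, Polynomial.eval₂_map]
      exact this.symm
    have h4 := (minpoly.monic h1).map i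
    refine ⟨⟨_, h4, h3⟩, Polynomial.Splits.of_dvd h2 ((minpoly.monic h1).map j).ne_zero ?_⟩
    rw [← hi, ← Polynomial.map_map]
    exact Polynomial.map_dvd _ (minpoly.dvd M _ h3))
  refine ⟨(adjoin M (Set.range th)).restrictScalars k, T, fun y => subset_adjoin M _ ⟨y, rfl⟩,
    fun z hz => (adjoin M (Set.range th)).algebraMap_mem ⟨z, hz⟩, fun z => ?_⟩
  rw [← hT]
  rfl

theorem exists_lift' (th : L →ₐ[k] A) (M : IntermediateField k A) (τ : M →ₐ[k] B) (j : K →+* B)
    (hM : ∀ x : K, th (algebraMap K L x) ∈ M) (hj : ∀ x, τ ⟨th (algebraMap K L x), hM x⟩ = j x)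
    (hs : ∀ y : L, IsIntegral K y ∧ ((minpoly K y).map j).Splits) :
    ∃ E : L →ₐ[k] B, ∀ y (h : th y ∈ M), E y = τ ⟨th y, h⟩ := by
  obtain ⟨N, T, h1, h2, h3⟩ := exists_lift th M τ j hM hj hs
  exact ⟨T.comp (th.codRestrict N.toSubalgebra h1), fun y h => h3 ⟨th y, h⟩⟩

omit [IsScalarTower k K L] in
theorem splits_of_ext [Normal K L] (j : K →+* B) (E : L →+* B)
    (h : ∀ x, E (algebraMap K L x) = j x) (y : L) : ((minpoly K y).map j).Splits := by
  have e : E.comp (algebraMap K L) = j := RingHom.ext h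
  rw [← e, ← Polynomial.map_map]
  exact (Normal.splits inferInstance y).map E

end lift

section unr

variable {k K L : Type*} [Field k] [Field K] [Field L] [Algebra k K] [Algebra k L] [Algebra K L]
  [IsScalarTower k K L]

theorem At.down [Algebra.IsAlgebraic K L] {E : L →ₐ[k] k⸨X⸩} {P : Plk k L} (h : At E P) :
    At (E.comp (IsScalarTower.toAlgHom k K L)) (down K P) := fun y => h _

/-- an expansion extends to an unramified place above -/
theorem exists_ext [CFF k K] [CFF k L] [Algebra.IsAlgebraic K L] (j : K →ₐ[k] k⸨X⸩)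
    (P : Plk k L) (hP : At j (down K P)) (hr : ram K P = 1) :
    ∃ E : L →ₐ[k] k⸨X⸩, (∀ x, E (algebraMap K L x) = j x) ∧ At E P := by
  obtain ⟨u, u0, hu⟩ := exists_unif (down K P)
  have h1 : ord P (algebraMap K L u) = 1 := by rw [ord_algebraMap, hr, hu]; rfl
  obtain ⟨E, e1, e2, -⟩ := exists_exp P h1
  have h2 : 0 < (j u).order := (hP.ord_pos_iff u).1 (by omega)
  obtain ⟨φ, e⟩ := reg_iff.2 h2.le
  have h3 : φ ≠ 0 := fun e3 => u0 (by rwa [e3, map_zero, _root_.map_eq_zero] at e)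
  have h0 := (order_pos_iff h3).1 (e ▸ h2)
  obtain ⟨S, hS⟩ := exists_isSub h0 h3
  refine ⟨S.comp E, fun x => (lau_factor (E.comp (IsScalarTower.toAlgHom k K L)) j e1 e h0
    (fun y hy => (hP y).1 ((e2.down y).2 hy)) hS x).symm, e2.sub hS h0⟩

/-- `L` is a union of finite normal unramified extensions of `K` -/
def UnrT (k K L : Type*) [Field k] [Field K] [Field L] [Algebra k K] [Algebra k L] [Algebra K L]
    [IsScalarTower k K L] [CFF k K] : Prop :=
  ∀ y : L, ∃ K' : IntermediateField K L, y ∈ K' ∧ ∃ (_ : FiniteDimensional K K') (_ : CFF k K'),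
    Normal K K' ∧ IsUnr k K K'

theorem UnrT.splits [CFF k K] (h : UnrT k K L) (j : K →ₐ[k] k⸨X⸩) (y : L) :
    IsIntegral K y ∧ ((minpoly K y).map (j : K →+* k⸨X⸩)).Splits := by
  obtain ⟨K', hy, _, _, _, hu⟩ := h y
  obtain ⟨P, hP⟩ := exists_at_cff j
  obtain ⟨P', rfl⟩ := exists_over (L := K') P
  obtain ⟨E, hE, -⟩ := exists_ext j P' hP (hu P')
  have h1 := splits_of_ext (j : K →+* k⸨X⸩) (E : K' →+* k⸨X⸩) hE ⟨y, hy⟩
  rw [IntermediateField.minpoly_eq] at h1
  exact ⟨(IsIntegral.of_finite K (⟨y, hy⟩ : K')).map K'.val, h1⟩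

/-- every expansion of `K` extends to the unramified tower -/
theorem UnrT.exists_ext [CFF k K] (h : UnrT k K L) (j : K →ₐ[k] k⸨X⸩) :
    ∃ E : L →ₐ[k] k⸨X⸩, ∀ x, E (algebraMap K L x) = j x := by
  obtain ⟨E, hE⟩ := exists_algHom_of_splits' j (h.splits j)
  exact ⟨E, fun x => DFunLike.congr_fun hE x⟩

/-- **UNR**: a point of the disc (`τ` = translation to the point) lifts to the tower -/
theorem UnrT.exists_lift [CFF k K] (h : UnrT k K L) {A : Type*} [Field A] [Algebra k A]
    (th : L →ₐ[k] A) (M : IntermediateField k A) (τ : M →ₐ[k] k⸨X⸩)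
    (hM : ∀ x : K, th (algebraMap K L x) ∈ M) :
    ∃ (N : IntermediateField k A) (T : N →ₐ[k] k⸨X⸩), (∀ y, th y ∈ N) ∧
      ∃ h : M ≤ N, ∀ z : M, T (inclusion h z) = τ z :=
  An4.exists_lift th M τ (τ.comp ((th.comp (IsScalarTower.toAlgHom k K L)).codRestrict
    M.toSubalgebra hM) : K →ₐ[k] k⸨X⸩) hM (fun x => rfl) (h.splits _)

theorem UnrT.exists_lift' [CFF k K] (h : UnrT k K L) {A : Type*} [Field A] [Algebra k A]
    (th : L →ₐ[k] A) (M : IntermediateField k A) (τ : M →ₐ[k] k⸨X⸩)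
    (hM : ∀ x : K, th (algebraMap K L x) ∈ M) :
    ∃ E : L →ₐ[k] k⸨X⸩, ∀ y (h : th y ∈ M), E y = τ ⟨th y, h⟩ :=
  An4.exists_lift' th M τ (τ.comp ((th.comp (IsScalarTower.toAlgHom k K L)).codRestrict
    M.toSubalgebra hM) : K →ₐ[k] k⸨X⸩) hM (fun x => rfl) (h.splits _)

theorem order_pow' (z : k⸨X⸩) (n : ℕ) : (z ^ n).order = n * z.order := by
  by_cases hz : z = 0
  · rcases n with _ | n <;> simp [hz]
  · exact ((hasOrd_order hz).pow n).order_eq

/-- the hypothesis (unr) of the Kummer step -/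
theorem UnrT.dvd_order [CFF k K] (h : UnrT k K L) {A : Type*} [Field A] [Algebra k A]
    (th : L →ₐ[k] A) (M : IntermediateField k A) (τ : M →ₐ[k] k⸨X⸩)
    (hM : ∀ x : K, th (algebraMap K L x) ∈ M) (y : L) (n : ℕ) (hy : th y ^ n ∈ M) :
    (n : ℤ) ∣ (τ ⟨th y ^ n, hy⟩).order := by
  obtain ⟨E, hE⟩ := h.exists_lift' th M τ hM
  have h1 := hE (y ^ n) (by rwa [map_pow])
  simp only [map_pow] at h1
  rw [← h1, order_pow']
  exact dvd_mul_right _ _

/-- in an unramified tower every expansion has a local parameter from below -/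
theorem UnrT.order_eq [CFF k K] (h : UnrT k K L) (E : L →ₐ[k] k⸨X⸩) (y : L) :
    ∃ x : K, (E y).order = (E (algebraMap K L x)).order := by
  obtain ⟨K', hy, _, _, _, hu⟩ := h y
  obtain ⟨P, hP⟩ := exists_at_cff (E.comp (K'.val.restrictScalars k))
  obtain ⟨e, -, he⟩ := hP.exists_ram
  obtain ⟨u, u0, hu1⟩ := exists_unif (down K P)
  refine ⟨u ^ ord P ⟨y, hy⟩, (he ⟨y, hy⟩).trans (Eq.trans ?_ (he (algebraMap K K' _)).symm)⟩
  rw [hu.ord_algebraMap, ord_zpow, hu1, mul_one]

end unr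

end Vale.Agent.P022K.FI.An4
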