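import Vale.Agent.P022K.FI.AnM
import Vale.Agent.P022K.FI.Exp3

/-!
# P022K, block FI, row AN4: glue between `An4` and the fields `MM`; places of the points of a disc
-/

set_option linter.all false

noncomputable section

namespace Vale.Agent.P022K.FI

open PowerSeries Filter Topology LaurentSeries P025H552 P025H492 Vale.Agent.P019P An4

section formal

variable {C : Type} [Field C] {φ : C⟦X⟧}

theorem ofPS_eq (f : C⟦X⟧) : ofPS f = am C f := rfl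

theorem LX_eq : (LX : C⸨X⸩) = am C X := ofPS_X.symm

theorem isSub_sub (h0 : constantCoeff φ = 0) (h1 : φ ≠ 0) : IsSub φ (sub φ) := sub_am h0 h1

theorem cx_zero (a : C) : constantCoeff (PowerSeries.C a * X : C⟦X⟧) = 0 := by simp

theorem cx_one (a : C) : coeff 1 (PowerSeries.C a * X : C⟦X⟧) = a := by simp

theorem cx_ne {a : C} (ha : a ≠ 0) : (PowerSeries.C a * X : C⟦X⟧) ≠ 0 := fun e =>
  ha (by rw [← cx_one a, e, map_zero])

theorem coeff_sub_cx {a : C} (ha : a ≠ 0) (x : C⸨X⸩) (n : ℤ) :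
    (sub (PowerSeries.C a * X) x).coeff n = a ^ n * x.coeff n :=
  (isSub_sub (cx_zero a) (cx_ne ha)).coeff_rescale x n

/-- recognising a rescaling -/
theorem eq_sub_cx {μ : C} (hμ : μ ≠ 0) {x y : C⸨X⸩} (h : ∀ n : ℤ, y.coeff n * μ ^ n = x.coeff n) :
    y = sub (PowerSeries.C μ⁻¹ * X) x := by
  ext n
  rw [coeff_sub_cx (inv_ne_zero hμ), ← h, inv_zpow, mul_comm, mul_inv_cancel_right₀
    (zpow_ne_zero n hμ)]

theorem sub_cx_cx {a b : C} (ha : a ≠ 0) (hb : b ≠ 0) (x : C⸨X⸩) :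
    sub (PowerSeries.C a * X) (sub (PowerSeries.C b * X) x) = sub (PowerSeries.C (a * b) * X) x := by
  ext n
  rw [coeff_sub_cx ha, coeff_sub_cx hb, coeff_sub_cx (mul_ne_zero ha hb), mul_zpow, mul_assoc]

theorem exists_sub_inv (h0 : constantCoeff φ = 0) (h1 : coeff 1 φ ≠ 0) :
    ∃ ψ : C⟦X⟧, constantCoeff ψ = 0 ∧ coeff 1 ψ ≠ 0 ∧ φ.subst ψ = (X : C⟦X⟧) ∧
      ψ.subst φ = (X : C⟦X⟧) ∧ (∀ x, sub ψ (sub φ x) = x) ∧ ∀ x, sub φ (sub ψ x) = x := by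
  have hu : IsUnit (coeff 1 φ) := h1.isUnit
  have g0 := constantCoeff_substInvOfIsUnit φ hu
  have g1 : coeff 1 (φ.substInvOfIsUnit hu) ≠ 0 := by
    rw [coeff_one_substInvOfIsUnit]; exact Units.ne_zero _
  have a : φ ≠ 0 := fun e => h1 (by rw [e, map_zero])
  have b : φ.substInvOfIsUnit hu ≠ 0 := fun e => g1 (by rw [e, map_zero])
  refine ⟨_, g0, g1, subst_substInvOfIsUnit_right φ h0 hu, subst_substInvOfIsUnit_left φ h0 hu,
    fun x => ?_, fun x => ?_⟩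
  · rw [sub_sub h0 a g0 b, subst_substInvOfIsUnit_right φ h0 hu, sub_X]
  · rw [sub_sub g0 b h0 a, subst_substInvOfIsUnit_left φ h0 hu, sub_X]

end formal

section an

variable {C : Type} [NontriviallyNormedField C] [IsUltrametricDist C] {r r₀ B : ℝ}
  {f φ : C⟦X⟧} {x : C⸨X⸩} {a : C}

omit [IsUltrametricDist C] in
theorem cmp4_eq (g f : C⟦X⟧) : An4.cmp g f = FI.cmp g f := rfl

omit [IsUltrametricDist C] in
theorem ev4_eq (a : C) (f : C⟦X⟧) : An4.ev a f = FI.ev a f := rfl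

omit [IsUltrametricDist C] in
theorem An4.Bnd.gn_le (h : Bnd r B f) : gn r f ≤ B := FI.gn_le h

omit [IsUltrametricDist C] in
theorem Cv.bnd (h : Cv r f) (hB : gn r f ≤ B) : Bnd r B f := fun n => (le_gn h n).trans hB

omit [IsUltrametricDist C] in
theorem An4.Bnd.cv {r' : ℝ} (h : Bnd r B f) (h0 : 0 < r') (hr : r' < r) : Cv r' f :=
  Cv.of_bdd h0 hr h

omit [IsUltrametricDist C] in
theorem conv_iff : Conv f ↔ ∃ r, 0 < r ∧ Cv r f := by simp only [Conv, cv_iff]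

theorem mem_MM' : x ∈ MM C r ↔
    ∃ f g : C⟦X⟧, Cv r f ∧ Cv r g ∧ g ≠ 0 ∧ x * am C g = am C f := by
  rw [mem_MM]
  refine exists₂_congr fun f g => and_congr_right fun _ => and_congr_right fun _ =>
    and_congr_right fun h => eq_div_iff (am_ne h)

theorem An4.Mer.ev (h : Mer x) : ∀ᶠ r in 𝓝[>] (0 : ℝ), x ∈ MM C r := by
  obtain ⟨a, b, ha, hb, h0, e⟩ := h
  filter_upwards [ha.ev, hb.ev] with r h1 h2
  exact mem_MM'.2 ⟨a, b, (cv_iff _ _).2 h1, (cv_iff _ _).2 h2, h0, e⟩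

theorem mer_of_mem (hr : 0 < r) (h : x ∈ MM C r) : Mer x := by
  obtain ⟨a, b, ha, hb, h0, e⟩ := mem_MM'.1 h
  exact ⟨a, b, conv_iff.2 ⟨r, hr, ha⟩, conv_iff.2 ⟨r, hr, hb⟩, h0, e⟩

theorem mer_iff : Mer x ↔ ∃ r, 0 < r ∧ x ∈ MM C r :=
  ⟨fun h => (h.ev.and self_mem_nhdsWithin).exists.imp fun _ h => ⟨h.2, h.1⟩,
    fun ⟨_, hr, h⟩ => mer_of_mem hr h⟩

omit [IsUltrametricDist C] in
theorem exists_of_ev {p : ℝ → Prop} (h : ∀ᶠ r in 𝓝[>] (0 : ℝ), p r) :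
    ∃ r₀, 0 < r₀ ∧ ∀ r, 0 < r → r < r₀ → p r := by
  obtain ⟨u, hu, h⟩ := mem_nhdsGT_iff_exists_Ioo_subset.1 h
  exact ⟨u, hu, fun r h1 h2 => h ⟨h1, h2⟩⟩

/-- a function field embeds in the meromorphic functions on a small disc -/
theorem exists_rad {K : Type} [Field K] [Algebra C K] [CFF C K] (j : K →ₐ[C] C⸨X⸩)
    (h : ∀ y, Mer (j y)) : ∃ r, 0 < r ∧ ∀ y, j y ∈ MM C r := by
  have := cff_ess (k := C) (K := K)
  obtain ⟨r, h1, h2⟩ :=
    ((eventually_all j (MM C) fun y => (h y).ev).and self_mem_nhdsWithin).exists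
  exact ⟨r, h2, h1⟩

omit [IsUltrametricDist C] in
theorem lin_cx (hr : 0 < r) (ha : a ≠ 0) : Lin r (PowerSeries.C a * X) := by
  refine ⟨hr, cx_zero a, by rwa [cx_one], fun n => ?_⟩
  rw [cx_one, coeff_C_mul, coeff_X]
  split_ifs with h
  · rw [h, mul_one, pow_one]
  · rw [mul_zero, norm_zero, zero_mul]; positivity

omit [IsUltrametricDist C] in
theorem An4.Lin.cv (h : Lin r₀ φ) (hr : 0 < r) (h1 : r < r₀) : Cv r φ := h.bnd.cv hr h1

omit [IsUltrametricDist C] in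
theorem An4.Lin.coeff_lt (h : Lin r₀ φ) (hr : 0 < r) (h1 : r < r₀) {n : ℕ} (hn : 1 < n) :
    ‖coeff n φ‖ * r ^ n < ‖coeff 1 φ‖ * r := by
  obtain ⟨m, rfl⟩ : ∃ m, n = m + 1 + 1 := ⟨n - 2, by omega⟩
  have h0 := h.pos
  have h2 : (r / r₀) ^ (m + 1) < 1 :=
    pow_lt_one₀ (by positivity) ((div_lt_one h0).2 h1) m.succ_ne_zero
  have e : ‖coeff (m + 1 + 1) φ‖ * r ^ (m + 1 + 1) =
      ‖coeff (m + 1 + 1) φ‖ * r₀ ^ (m + 1 + 1) * (r / r₀) * (r / r₀) ^ (m + 1) := by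
    rw [div_pow]; field_simp; ring
  have h3 : ‖coeff (m + 1 + 1) φ‖ * r₀ ^ (m + 1 + 1) * (r / r₀) ≤ ‖coeff 1 φ‖ * r := by
    refine (mul_le_mul_of_nonneg_right (h.bnd _) (by positivity)).trans_eq ?_
    field_simp
  have h4 := (h.anti hr h1.le).rad_pos
  rw [e]
  exact (mul_le_mul_of_nonneg_right h3 (by positivity)).trans_lt (mul_lt_of_lt_one_right h4 h2)

omit [IsUltrametricDist C] in
/-- norm and degree of `φ - c` -/
theorem An4.Lin.gn_wd_sub (h : Lin r₀ φ) (hr : 0 < r) (h1 : r < r₀) {c : C}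
    (hc : ‖c‖ ≤ ‖coeff 1 φ‖ * r) : gn r (φ - PowerSeries.C c) = ‖coeff 1 φ‖ * r ∧
      wd r (φ - PowerSeries.C c) = 1 := by
  refine gn_wd_of (fun n => ?_) (by simp [coeff_C]) fun n hn => ?_
  · rw [map_sub, coeff_C]
    split_ifs with e
    · rw [e, coeff_zero_eq_constantCoeff, h.zero, zero_sub, norm_neg, pow_zero, mul_one]
      exact hc
    · rw [sub_zero]; exact (h.anti hr h1.le).bnd n
  · rw [map_sub, coeff_C, if_neg (by omega), sub_zero]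
    exact h.coeff_lt hr h1 hn

omit [IsUltrametricDist C] in
theorem An4.Lin.gn_wd (h : Lin r₀ φ) (hr : 0 < r) (h1 : r < r₀) :
    gn r φ = ‖coeff 1 φ‖ * r ∧ wd r φ = 1 := by
  simpa using h.gn_wd_sub hr h1 (c := 0) (by simpa using (h.anti hr h1.le).rad_pos.le)

theorem An4.Lin.mp (h : Lin r₀ φ) (hr : 0 < r) (h1 : r < r₀) : Mp r (‖coeff 1 φ‖ * r) φ :=
  ⟨hr, (h.anti hr h1.le).rad_pos, h.cv hr h1, (h.gn_wd hr h1).1.le,
    fun c e => h.one (by rw [e, coeff_C, if_neg one_ne_zero])⟩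

variable [CompleteSpace C] [IsAlgClosed C]

/-- **transport of the fields** `MM` under `φ = λ X + ...` -/
theorem An4.Lin.mem_iff (h : Lin r₀ φ) (hr : 0 < r) (h1 : r < r₀) (x : C⸨X⸩) :
    sub φ x ∈ MM C r ↔ x ∈ MM C (‖coeff 1 φ‖ * r) := by
  refine ⟨fun hx => ?_, (h.mp hr h1).sub_mem h.zero⟩
  obtain ⟨ψ, g0, g1, e1, -, e3, -⟩ := exists_sub_inv h.zero h.one
  obtain ⟨a1, -, a3⟩ := h.inv g0 (by rw [An4.cmp_eq_subst g0, e1])
  have a4 := a3.mp (h.anti hr h1.le).rad_pos (mul_lt_mul_of_pos_left h1 (norm_pos_iff.2 h.one))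
  rw [← mul_assoc, ← norm_mul, mul_comm (coeff 1 ψ), a1, norm_one, one_mul] at a4
  exact e3 x ▸ a4.sub_mem g0 hx

theorem An4.Lin.nm_sub (h : Lin r₀ φ) (hr : 0 < r) (h1 : r < r₀)
    (hx : x ∈ MM C (‖coeff 1 φ‖ * r)) : nm r (sub φ x) = nm (‖coeff 1 φ‖ * r) x := by
  rw [← cmF_eq_sub h.zero h.ne_zero hx]
  exact (h.mp hr h1).nm_eq (h.gn_wd hr h1).1 (by rw [(h.gn_wd hr h1).2]; exact one_ne_zero) hx

theorem mem_sub_cx (hr : 0 < r) (ha : a ≠ 0) (x : C⸨X⸩) :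
    sub (PowerSeries.C a * X) x ∈ MM C r ↔ x ∈ MM C (‖a‖ * r) := by
  have := (lin_cx (r := r + 1) (by positivity) ha).mem_iff hr (lt_add_one r) x
  rwa [cx_one] at this

theorem nm_sub_cx (hr : 0 < r) (ha : a ≠ 0) (hx : x ∈ MM C (‖a‖ * r)) :
    nm r (sub (PowerSeries.C a * X) x) = nm (‖a‖ * r) x := by
  have := (lin_cx (r := r + 1) (by positivity) ha).nm_sub hr (lt_add_one r) (x := x)
  rw [cx_one] at this
  exact this hx

/-- a series of degree one has one simple zero -/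
theorem od_of_wd_one (hr : 0 < r) (hf : Cv r f) (h : wd r f = 1) :
    ∃ b : C, ‖b‖ ≤ r ∧ od r b (am C f) = 1 ∧ ∀ c, ‖c‖ ≤ r → c ≠ b → od r c (am C f) = 0 := by
  have f0 : f ≠ 0 := fun e => by rw [e, wd_zero] at h; exact zero_ne_one h
  obtain ⟨u, s, h1, h2, h3, h4, h5, h6⟩ := roots hr hf f0
  obtain ⟨b, rfl⟩ := Multiset.card_eq_one.1 (h5.trans h)
  have key : ∀ c, ‖c‖ ≤ r → od r c (am C f) = od r c (am C (X - PowerSeries.C b)) := by
    intro c hc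
    rw [h6, Multiset.map_singleton, Multiset.prod_singleton, map_mul,
      od_mul hr hc h1.mem ((cv_X r).sub (cv_C r b)).mem (am_ne h2) (am_ne (X_sub_C_ne b)),
      od_unit hr hc h1 h2 h3, zero_add]
  have hb := h4 b (Multiset.mem_singleton_self b)
  refine ⟨b, hb, by rw [key b hb, od_lin hr hb, if_pos rfl], fun c hc hcb => ?_⟩
  rw [key c hc, od_lin hr hc, if_neg hcb.symm]

theorem An4.Lin.norm_ev_le (h : Lin r₀ φ) (hr : 0 < r) (h1 : r < r₀) (ha : ‖a‖ ≤ r) :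
    ‖FI.ev a φ‖ ≤ ‖coeff 1 φ‖ * r := (FI.norm_ev_le hr ha (h.cv hr h1)).trans (h.gn_wd hr h1).1.le

theorem An4.Lin.od_sub (h : Lin r₀ φ) (hr : 0 < r) (h1 : r < r₀) (ha : ‖a‖ ≤ r) :
    od r a (am C (φ - PowerSeries.C (FI.ev a φ))) = 1 ∧ ∀ c, ‖c‖ ≤ r → c ≠ a →
      od r c (am C (φ - PowerSeries.C (FI.ev a φ))) = 0 := by
  have hc := (h.cv hr h1).sub (cv_C r (FI.ev a φ))
  have hw := (h.gn_wd_sub hr h1 (h.norm_ev_le hr h1 ha)).2
  obtain ⟨b, -, h2, h3⟩ := od_of_wd_one hr hc hw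
  have f0 : φ - PowerSeries.C (FI.ev a φ) ≠ 0 := fun e => by
    rw [e, wd_zero] at hw; exact zero_ne_one hw
  have h4 := od_am_pos hr ha hc f0 (by rw [FI.ev_sub ha (h.cv hr h1) (cv_C r _), FI.ev_C]; simp)
  obtain rfl : a = b := by
    by_contra e
    exact h4.ne' (h3 a ha e)
  exact ⟨h2, h3⟩

/-- `φ` is a bijection of discs -/
theorem An4.Lin.inj (h : Lin r₀ φ) (hr : 0 < r) (h1 : r < r₀) (ha : ‖a‖ ≤ r) {c : C}
    (hc : ‖c‖ ≤ r) (e : FI.ev c φ = FI.ev a φ) : c = a := by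
  by_contra hne
  have h2 := (h.od_sub hr h1 ha).2 c hc hne
  rw [← e, (h.od_sub hr h1 hc).1] at h2
  exact one_ne_zero h2

theorem An4.Lin.surj (h : Lin r₀ φ) (hr : 0 < r) (h1 : r < r₀) {c : C}
    (hc : ‖c‖ ≤ ‖coeff 1 φ‖ * r) : ∃ a : C, ‖a‖ ≤ r ∧ FI.ev a φ = c := by
  obtain ⟨a, ha, e⟩ := exists_zero hr ((h.cv hr h1).sub (cv_C r c))
    (by rw [(h.gn_wd_sub hr h1 hc).2]; exact one_ne_zero)
  rw [FI.ev_sub ha (h.cv hr h1) (cv_C r _), FI.ev_C] at e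
  exact ⟨a, ha, sub_eq_zero.1 e⟩

theorem An4.Lin.od_sub_eq (h : Lin r₀ φ) (hr : 0 < r) (h1 : r < r₀) (ha : ‖a‖ ≤ r)
    (hx : x ∈ MM C (‖coeff 1 φ‖ * r)) :
    od r a (sub φ x) = od (‖coeff 1 φ‖ * r) (FI.ev a φ) x := by
  rw [← cmF_eq_sub h.zero h.ne_zero hx, (h.mp hr h1).od_cmF ha hx, (h.od_sub hr h1 ha).1, one_mul]

/-! ## points of a disc and places -/

variable {K : Type} [Field K] [Algebra C K]

/-- the expansion at the point `a` of the disc -/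
def tl (hr : 0 < r) (ha : ‖a‖ ≤ r) (j : K →ₐ[C] C⸨X⸩) (hj : ∀ y, j y ∈ MM C r) :
    K →ₐ[C] C⸨X⸩ := (mp_add hr ha).cmL.comp (j.codRestrict (MM C r).toSubalgebra hj)

theorem tl_apply (hr : 0 < r) (ha : ‖a‖ ≤ r) (j : K →ₐ[C] C⸨X⸩) (hj : ∀ y, j y ∈ MM C r)
    (y : K) : tl hr ha j hj y = cmF r (X + PowerSeries.C a) (j y) := rfl

theorem order_tl (hr : 0 < r) (ha : ‖a‖ ≤ r) (j : K →ₐ[C] C⸨X⸩) (hj : ∀ y, j y ∈ MM C r)
    (y : K) : (tl hr ha j hj y).order = od r a (j y) := rfl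

/-- the place `P` is the image of the point `a` -/
def PtD (r : ℝ) (j : K →ₐ[C] C⸨X⸩) (a : C) (P : Plk C K) : Prop :=
  ∀ y, y ∈ P.1 ↔ 0 ≤ od r a (j y)

variable {j : K →ₐ[C] C⸨X⸩} {P Q : Plk C K}

theorem ptD_iff (hr : 0 < r) (ha : ‖a‖ ≤ r) (hj : ∀ y, j y ∈ MM C r) :
    PtD r j a P ↔ At (tl hr ha j hj) P := forall_congr' fun y => by rw [reg_iff, order_tl]

omit [CompleteSpace C] [IsAlgClosed C] in
theorem PtD.unique (h : PtD r j a P) (h' : PtD r j a Q) : P = Q :=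
  Subtype.ext (SetLike.ext fun y => (h y).trans (h' y).symm)

omit [CompleteSpace C] [IsAlgClosed C] in
theorem ptD_zero (hj : ∀ y, j y ∈ MM C r) : PtD r j 0 P ↔ At j P :=
  forall_congr' fun y => by rw [reg_iff, od_at_zero (hj y)]

theorem ptD_rad {r' : ℝ} (hr : 0 < r) (ha : ‖a‖ ≤ r) (h : r ≤ r') (hj : ∀ y, j y ∈ MM C r') :
    PtD r j a P ↔ PtD r' j a P := forall_congr' fun y => by rw [od_rad hr ha h (hj y)]

variable [CFF C K]

theorem exists_ptD (hr : 0 < r) (ha : ‖a‖ ≤ r) (hj : ∀ y, j y ∈ MM C r) : ∃ P, PtD r j a P :=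
  (exists_at_cff (tl hr ha j hj)).imp fun _ => (ptD_iff hr ha hj).2

theorem PtD.exists_ram (h : PtD r j a P) (hr : 0 < r) (ha : ‖a‖ ≤ r) (hj : ∀ y, j y ∈ MM C r) :
    ∃ e : ℕ, 0 < e ∧ ∀ y, od r a (j y) = e * ord P y := ((ptD_iff hr ha hj).1 h).exists_ram

theorem PtD.ord_eq (h : PtD r j a P) (hr : 0 < r) (ha : ‖a‖ ≤ r) (hj : ∀ y, j y ∈ MM C r) {s : K}
    (hs : od r a (j s) = 1) (y : K) : ord P y = od r a (j y) :=
  ((ptD_iff hr ha hj).1 h).ord_eq (s := s) hs y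

theorem PtD.vl_eq (h : PtD r j a P) (hr : 0 < r) (ha : ‖a‖ ≤ r) (hj : ∀ y, j y ∈ MM C r) {y : K}
    (hy : y ∈ P.1) : vl P y = va r a (j y) := by
  have h1 := (ptD_iff hr ha hj).1 h
  obtain ⟨g, e⟩ := (h1 y).1 hy
  rw [h1.vl_eq e, va, ← tl_apply hr ha j hj, e, ← coeff_zero_eq_constantCoeff_apply]
  exact (coeff_ofPS g 0).symm

/-- near a point where a local parameter has order one, the disc embeds in the curve -/
theorem PtD.ord_of_lin (h : PtD r j a P) (hr : 0 < r) (ha : ‖a‖ ≤ r) (hj : ∀ y, j y ∈ MM C r)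
    {s : K} (hs : j s = am C φ) (hφ : Lin r₀ φ) (h1 : r < r₀) (y : K) :
    ord P y = od r a (j y) := by
  refine h.ord_eq hr ha hj (s := s - algebraMap C K (FI.ev a φ)) ?_ y
  rw [map_sub, hs, AlgHom.commutes, ← am_C, ← map_sub, (hφ.od_sub hr h1 ha).1]

theorem PtD.inj_of_lin {b : C} (h : PtD r j a P) (h' : PtD r j b P) (hr : 0 < r) (ha : ‖a‖ ≤ r)
    (hb : ‖b‖ ≤ r) (hj : ∀ y, j y ∈ MM C r) {s : K} (hs : j s = am C φ) (hφ : Lin r₀ φ)
    (h1 : r < r₀) : b = a := by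
  by_contra hne
  have e := (h.ord_of_lin hr ha hj hs hφ h1 (s - algebraMap C K (FI.ev a φ))).symm.trans
    (h'.ord_of_lin hr hb hj hs hφ h1 _)
  rw [map_sub, hs, AlgHom.commutes, ← am_C, ← map_sub, (hφ.od_sub hr h1 ha).1,
    (hφ.od_sub hr h1 ha).2 b hb hne] at e
  exact one_ne_zero e

/-! ## unramified towers over a disc -/

variable {L : Type} [Field L] [Algebra C L] [Algebra K L] [IsScalarTower C K L]

/-- a point of the disc lifts to an expansion of the whole tower -/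
theorem An4.UnrT.exists_tl (h : UnrT C K L) (θ : L →ₐ[C] C⸨X⸩) (hr : 0 < r) (ha : ‖a‖ ≤ r)
    (hK : ∀ y : K, θ (algebraMap K L y) ∈ MM C r) : ∃ E : L →ₐ[C] C⸨X⸩,
      ∀ y, θ y ∈ MM C r → E y = cmF r (X + PowerSeries.C a) (θ y) :=
  h.exists_lift' θ (MM C r) (mp_add hr ha).cmL hK

/-- the hypothesis (unr) of the Kummer step -/
theorem An4.UnrT.dvd_od (h : UnrT C K L) (θ : L →ₐ[C] C⸨X⸩) (hr : 0 < r) (ha : ‖a‖ ≤ r)
    (hK : ∀ y : K, θ (algebraMap K L y) ∈ MM C r) (y : L) (n : ℕ) (hy : θ y ^ n ∈ MM C r) :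
    (n : ℤ) ∣ od r a (θ y ^ n) := h.dvd_order θ (MM C r) (mp_add hr ha).cmL hK y n hy

end an

end Vale.Agent.P022K.FI
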