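import Vale.Agent.P022K.FI.St
import Vale.Agent.P022K.FI.Mg
import Vale.Agent.P022K.FI.Gal1

/-!
# P022K, block FI, rows GAL0, TRV, UNR, CONV
-/

set_option linter.all false

noncomputable section

open PowerSeries Filter Topology Vale.Agent.P019P P025H746 P025H492 P025H552 Module
open scoped MatrixGroups LaurentSeries

namespace Vale.Agent.P022K.FI

open Vale.Agent.P022K.Sh An4

section dict

variable {C : Type} [NontriviallyNormedField C] [IsUltrametricDist C] [CompleteSpace C]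

theorem mr_iff {r : ℝ} {x : C⸨X⸩} : Mr r x ↔ x ∈ MM C r := mem_MM'.symm

omit [CompleteSpace C] in
theorem sb_sub {φ : C⟦X⟧} (h0 : constantCoeff φ = 0) (h1 : φ ≠ 0) (x : C⸨X⸩) :
    Sb φ x (sub φ x) := fun P Q e => by
  have e1 : x * am C Q = am C P := e
  have h2 := congrArg (sub φ) e1
  rw [map_mul, sub_am h0 h1, sub_am h0 h1] at h2
  exact h2

omit [CompleteSpace C] in
theorem sb_iff {φ : C⟦X⟧} (h0 : constantCoeff φ = 0) (h1 : φ ≠ 0) {x y : C⸨X⸩} :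
    Sb φ x y ↔ y = sub φ x := by
  refine ⟨fun h => ?_, fun e => e ▸ sb_sub h0 h1 x⟩
  obtain ⟨P, Q, hQ, e⟩ := IsFractionRing.div_surjective (A := C⟦X⟧) x
  have Q0 : Q ≠ 0 := nonZeroDivisors.ne_zero hQ
  have e1 : x * (Q : C⸨X⸩) = (P : C⸨X⸩) := by
    rw [← e]
    exact div_mul_cancel₀ _ (ofPS_ne Q0)
  exact mul_right_cancel₀ (ofPS_ne (subst_ne_zero h0 h1 Q0))
    ((h P Q e1).trans (sb_sub h0 h1 x P Q e1).symm)

end dict

namespace Twr

variable {O E : Type} [CommRing O] [IsDomain O] [IsDiscreteValuationRing O] [Field E]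
  [Algebra O E]

theorem km_anti {m n : ℕ} (h : m ≤ n) : Km O E n ≤ Km O E m := by
  refine Subgroup.map_mono fun k hk => ?_
  rw [MonoidHom.mem_ker] at hk ⊢
  ext i l
  have h1 := congrArg (fun z => z i l) (congrArg Units.val hk)
  have h2 := congrArg (Ideal.Quotient.factor (Ideal.pow_le_pow_right
    (I := IsLocalRing.maximalIdeal O) h)) h1
  by_cases e : i = l <;> simpa [Matrix.one_apply, e] using h2

theorem ll_km (m : ℕ) : Ll O (Km O E m ⊔ Zl E) :=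
  ⟨le_sup_right, ⟨m, le_sup_left⟩, 1, fun k hk => mem_cj.2 (by
    rw [inv_one, one_mul, mul_one]
    exact sup_le_sup_right (Subgroup.map_le_range _ _) _ hk)⟩

theorem ll_inf {V V' : Subgroup (GL (Fin 2) E)} (h : Ll O V) (h' : Ll O V') : Ll O (V ⊓ V') := by
  obtain ⟨m, hm⟩ := h.op
  obtain ⟨n, hn⟩ := h'.op
  obtain ⟨g, hg⟩ := h.vx
  exact ⟨le_inf h.z h'.z, ⟨max m n, le_inf ((km_anti (le_max_left _ _)).trans hm)
    ((km_anti (le_max_right _ _)).trans hn)⟩, g, inf_le_left.trans hg⟩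

theorem fm_dg {g k : GL (Fin 2) E} {μ μ' : Eˣ} (h : Fm g k (dg μ)) (h' : Fm g k (dg μ')) :
    μ = μ' := by
  have h1 : (dg μ)⁻¹ * dg μ' ∈ Zl E := by
    have := mul_mem h (inv_mem h')
    rwa [mul_inv_rev, inv_inv, mul_assoc, mul_inv_cancel_left] at this
  have h2 := Subgroup.mem_center_iff.1 h1 (un 1)
  have h3 : dg μ * un 1 * (dg μ)⁻¹ = dg μ' * un 1 * (dg μ')⁻¹ := by
    calc dg μ * un 1 * (dg μ)⁻¹ = dg μ * (un 1 * ((dg μ)⁻¹ * dg μ')) * (dg μ')⁻¹ := by group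
      _ = _ := by rw [h2]; group
  have h4 : ∀ ν : Eˣ, dg ν * un 1 * (dg ν)⁻¹ = un (ν : E) := fun ν => by
    rw [mul_inv_eq_iff_eq_mul]
    ext i l
    fin_cases i <;> fin_cases l <;> simp [un_val, Sh.dg, Matrix.mul_apply, Fin.sum_univ_two]
  rw [h4, h4] at h3
  have h5 := congrArg (fun z : GL (Fin 2) E => z 0 1) h3
  exact Units.ext (by simpa [un_val] using h5)

variable {C : Type} [NontriviallyNormedField C] [Algebra E C]

theorem norm_lt {ϖ : Eˣ} (h : LF O C ϖ) : ‖algebraMap E C ϖ‖ < 1 := by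
  obtain ⟨p, hp, e⟩ := h.irr
  have := h.fr
  by_contra hn
  have h1 : ‖algebraMap E C (ϖ : E)⁻¹‖ ≤ 1 := by
    rw [map_inv₀, norm_inv]
    exact inv_le_one_of_one_le₀ (not_lt.1 hn)
  obtain ⟨o, ho⟩ := (h.nrm _).1 h1
  refine hp.not_isUnit (IsUnit.of_mul_eq_one o (IsFractionRing.injective O E ?_))
  rw [map_mul, e, ho, map_one, mul_inv_cancel₀ ϖ.ne_zero]

end Twr

section tower

variable {C L Γ O E : Type} [NontriviallyNormedField C] [IsUltrametricDist C] [CompleteSpace C]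
  [IsAlgClosed C] [CharZero C] [Field L] [Algebra C L] [Group Γ] [CommRing O] [IsDomain O]
  [IsDiscreteValuationRing O] [Field E] [Algebra O E] [Algebra E C]

namespace AT

variable {A : AT C L Γ O E} {S S' : Subgroup Γ}

variable (A) in
/-- the levels -/
def Lv (S : Subgroup Γ) : Prop := ∃ W ∈ A.Wl, ∃ V, Ll O V ∧ S = A.U W V

theorem lv_U {W : Subgroup Γ} (hW : W ∈ A.Wl) {V : Subgroup (GL (Fin 2) E)} (hV : Ll O V) :
    A.Lv (A.U W V) := ⟨W, hW, V, hV, rfl⟩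

theorem K_anti (h : S ≤ S') : A.K S' ≤ A.K S := fun x hx =>
  A.mem_K.2 fun γ hγ => A.mem_K.1 hx γ (h hγ)

theorem mem_K_cj (γ : Γ) {x : L} : A.act γ x ∈ A.K (cj γ S) ↔ x ∈ A.K S := by
  rw [mem_K, mem_K]
  refine ⟨fun h u hu => (A.act γ).injective ?_, fun h u hu => (A.act γ⁻¹).injective ?_⟩
  · rw [← h (γ * u * γ⁻¹) (mem_cj.2 (by simpa [mul_assoc] using hu)), act_mul, act_mul, act_inv]
  · rw [← act_mul, ← act_mul, act_inv, h _ (mem_cj.1 hu)]

theorem ly_iff {M : IntermediateField C L} [Algebra.IsAlgebraic M L] {y : Plk C L}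
    {P : Plk C M} : Ly y P ↔ down M y = P :=
  ⟨fun h => Subtype.ext (ValuationSubring.ext _ _ fun z => (h z).symm), fun e z => e ▸ Iff.rfl⟩

theorem Ly.unique {M : IntermediateField C L} {y : Plk C L} {P Q : Plk C M} (h : Ly y P)
    (h' : Ly y Q) : P = Q :=
  Subtype.ext (ValuationSubring.ext _ _ fun z => (h z).trans (h' z).symm)

theorem at_sm {E : L →ₐ[C] C⸨X⸩} {y : Plk C L} (h : An4.At E y) (γ : Γ) :
    An4.At (E.comp (A.act γ⁻¹ : L →ₐ[C] L)) (A.sm γ y) := fun z => h _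

theorem CM.at {x : Plk C L} {θ : L →ₐ[C] C⸨X⸩} {g : GL (Fin 2) E} (h : A.CM x θ g) :
    An4.At θ x := fun z => (h.pl z).trans reg_iff.symm

variable (hA : A.Ok)
include hA

theorem Lv.inf (h : A.Lv S) (h' : A.Lv S') : A.Lv (S ⊓ S') := by
  obtain ⟨W, hW, V, hV, rfl⟩ := h
  obtain ⟨W', hW', V', hV', rfl⟩ := h'
  refine ⟨W ⊓ W', hA.inf W hW W' hW', V ⊓ V', Twr.ll_inf hV hV', ?_⟩
  rw [U, U, U, Subgroup.comap_inf, inf_inf_inf_comm]

theorem Lv.cff (h : A.Lv S) : CFF C (A.K S) := by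
  obtain ⟨W, hW, V, hV, rfl⟩ := h
  exact hA.cff W hW V hV

theorem Lv.ker_le (h : A.Lv S) : A.act.ker ≤ S := by
  obtain ⟨W, hW, V, hV, rfl⟩ := h
  exact fun z hz => ⟨hA.zw W hW hz, hV.z (hA.zs z hz)⟩

theorem Lv.gal (h : A.Lv S) (σ : L ≃ₐ[C] L) (hσ : ∀ x ∈ A.K S, σ x = x) :
    ∃ u ∈ S, A.act u = σ := by
  obtain ⟨W, hW, V, hV, rfl⟩ := h
  exact hA.gal W hW V hV σ hσ

theorem Lv.neat (h : A.Lv S) {γ : Γ} (hγ : γ ∈ S) {y : Plk C L} (hy : A.sm γ y = y) :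
    γ ∈ A.act.ker := by
  obtain ⟨W, hW, V, hV, rfl⟩ := h
  obtain ⟨g, hg⟩ := hV.vx
  exact hA.neat W hW g γ ⟨hγ.1, hg hγ.2⟩ y hy

theorem Lv.mem_of_fix (h : A.Lv S) {γ : Γ} (hγ : ∀ x ∈ A.K S, A.act γ x = x) : γ ∈ S := by
  obtain ⟨u, hu, e⟩ := h.gal hA _ hγ
  have h1 : u⁻¹ * γ ∈ A.act.ker := by rw [MonoidHom.mem_ker, map_mul, map_inv, e, inv_mul_cancel]
  have := mul_mem hu (h.ker_le hA h1)
  rwa [mul_inv_cancel_left] at this

theorem exists_lv (x : L) : ∃ S, A.Lv S ∧ x ∈ A.K S := by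
  obtain ⟨W, hW, m, h⟩ := hA.smo x
  exact ⟨_, lv_U hW (Twr.ll_km m), h⟩

/-- finite sets lie in a function field of small level -/
theorem Lv.exists_le (h : A.Lv S) (s : Finset L) :
    ∃ S', A.Lv S' ∧ S' ≤ S ∧ ∀ x ∈ s, x ∈ A.K S' := by
  classical
  induction s using Finset.induction_on with
  | empty => exact ⟨S, h, le_rfl, by simp⟩
  | insert a s _ ih =>
    obtain ⟨S₁, h1, h2, h3⟩ := ih
    obtain ⟨S₂, h4, h5⟩ := exists_lv hA a
    refine ⟨S₁ ⊓ S₂, h1.inf hA h4, inf_le_left.trans h2, fun x hx => ?_⟩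
    rcases Finset.mem_insert.1 hx with rfl | hx
    · exact K_anti inf_le_right h5
    · exact K_anti inf_le_left (h3 x hx)

theorem exists_lv_fin (s : Finset L) : ∃ S, A.Lv S ∧ ∀ x ∈ s, x ∈ A.K S := by
  obtain ⟨S, h, -⟩ := exists_lv hA 0
  obtain ⟨S', h1, -, h2⟩ := h.exists_le hA s
  exact ⟨S', h1, h2⟩

theorem Lv.fin (h : A.Lv S) (h' : A.Lv S') (hle : A.K S ≤ A.K S') :
    FiniteDimensional (A.K S) (IntermediateField.extendScalars hle) := by
  have h1 := h.cff hA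
  have h2 : CFF C (IntermediateField.extendScalars hle) := h'.cff hA
  obtain ⟨t, ht, -⟩ := CFF.ex (k := C) (F := A.K S)
  exact finite_of_transcendental ht

theorem Lv.alg (h : A.Lv S) : Algebra.IsAlgebraic (A.K S) L := ⟨fun x => by
  obtain ⟨S', h1, h2, h3⟩ := h.exists_le hA {x}
  have := h.fin hA h1 (K_anti h2)
  exact (Algebra.IsAlgebraic.isAlgebraic (⟨x, h3 x (Finset.mem_singleton_self x)⟩ :
    IntermediateField.extendScalars (K_anti (A := A) h2))).algebraMap⟩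

variable (A S) in
omit hA in
/-- the action of a subgroup over its fixed field -/
def ac : S →* (L ≃ₐ[A.K S] L) where
  toFun u := { A.act u with commutes' := fun x => A.mem_K.1 x.2 u u.2 }
  map_one' := AlgEquiv.ext fun x => A.act_one x
  map_mul' u v := AlgEquiv.ext fun x => A.act_mul u v x

omit hA in
theorem ac_apply (u : S) (x : L) : A.ac S u x = A.act u x := rfl

theorem Lv.ac_surj (h : A.Lv S) : Function.Surjective (A.ac S) := fun σ => by
  obtain ⟨u, hu, e⟩ := h.gal hA (σ.restrictScalars C) fun x hx => σ.commutes ⟨x, hx⟩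
  exact ⟨⟨u, hu⟩, AlgEquiv.ext fun x => DFunLike.congr_fun e x⟩

theorem Lv.isGalois (h : A.Lv S) : IsGalois (A.K S) L := by
  have := h.alg hA
  have : CharZero (A.K S) := algebraRat.charZero _
  have : Normal (A.K S) L := normal_of_fixed fun x hx =>
    ⟨⟨x, A.mem_K.2 fun γ hγ => hx (A.ac S ⟨γ, hγ⟩)⟩, rfl⟩
  exact {}

theorem Lv.isGalois' (h : A.Lv S) {M : IntermediateField C L} (hM : A.K S ≤ M) :
    IsGalois M L :=
  have := h.isGalois hA
  IsGalois.tower_top_intermediateField (IntermediateField.extendScalars hM)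

theorem Lv.finrank (h : A.Lv S) (h' : A.Lv S') (hle : S' ≤ S) :
    IntermediateField.relfinrank (A.K S) (A.K S') = S'.relIndex S := by
  have := h.isGalois hA
  rw [IntermediateField.relfinrank_eq_finrank_of_le (K_anti hle)]
  exact finrank_eq_index (A.ac S) (h.ac_surj hA) _ _ fun g =>
    ⟨fun hg x hx => A.mem_K.1 hx g hg, fun hg => h'.mem_of_fix hA hg⟩

theorem Lv.relIndex_ne (h : A.Lv S) (h' : A.Lv S') : S'.relIndex S ≠ 0 := by
  have h1 := h'.inf hA h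
  have := h.fin hA h1 (K_anti inf_le_right)
  rw [← Subgroup.inf_relIndex_right, ← h.finrank hA h1 inf_le_right,
    IntermediateField.relfinrank_eq_finrank_of_le (K_anti inf_le_right)]
  exact Module.finrank_pos.ne'

/-- compactness of a level modulo the kernel -/
theorem Lv.compact (h : A.Lv S) {ι : Type*} (x : ι → L) (p : ι → L → Prop)
    (hf : ∀ s : Finset ι, ∃ u ∈ S, ∀ i ∈ s, p i (A.act u (x i))) :
    ∃ u ∈ S, ∀ i, p i (A.act u (x i)) := by
  have := h.isGalois hA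
  obtain ⟨σ, hσ⟩ := exists_of_finite (K := A.K S) x p fun s =>
    (hf s).elim fun u hu => ⟨A.ac S ⟨u, hu.1⟩, hu.2⟩
  obtain ⟨u, rfl⟩ := h.ac_surj hA σ
  exact ⟨u, u.2, hσ⟩

/-- Galois correspondence: a field above a level is the fixed field of its fixator -/
theorem Lv.mem_of_fixed (h : A.Lv S) {M : IntermediateField C L} (hM : A.K S ≤ M) {x : L}
    (hx : ∀ u ∈ S, (∀ z ∈ M, A.act u z = z) → A.act u x = x) : x ∈ M := by
  have := h.isGalois' hA hM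
  have h1 : x ∈ (⊥ : IntermediateField M L) := by
    rw [← InfiniteGalois.fixedField_fixingSubgroup ⊥, IntermediateField.mem_fixedField_iff]
    intro σ _
    obtain ⟨u, hu, e⟩ := h.gal hA (σ.restrictScalars C) fun x hx => σ.commutes ⟨x, hM hx⟩
    exact (DFunLike.congr_fun e x).symm.trans (hx u hu fun z hz => e ▸ σ.commutes ⟨z, hz⟩)
  obtain ⟨z, rfl⟩ := IntermediateField.mem_bot.1 h1
  exact z.2

theorem gal0 : A.GAL0 := fun W hW V hV =>
  ⟨(lv_U hW hV).isGalois hA, fun γ => (lv_U hW hV).mem_of_fix hA, fun W' hW' V' hV' h =>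
    ⟨(lv_U hW hV).relIndex_ne hA (lv_U hW' hV'), (lv_U hW hV).finrank hA (lv_U hW' hV') h⟩⟩

theorem Lv.over (h : A.Lv S) {M : IntermediateField C L} (hM : A.K S ≤ M) (P : Plk C M) :
    ∃ y : Plk C L, Ly y P := by
  have := h.isGalois' hA hM
  obtain ⟨y, e⟩ := exists_over' (L := L) P
  exact ⟨y, ly_iff.2 e⟩

theorem Lv.under (h : A.Lv S) {M : IntermediateField C L} (hM : A.K S ≤ M) (y : Plk C L) :
    ∃ P : Plk C M, Ly y P :=
  have := h.isGalois' hA hM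
  ⟨down M y, ly_iff.2 rfl⟩

theorem Lv.conj (h : A.Lv S) {M : IntermediateField C L} (hM : A.K S ≤ M) {y y' : Plk C L}
    (e : ∀ x ∈ M, x ∈ y.1 ↔ x ∈ y'.1) :
    ∃ u ∈ S, (∀ x ∈ M, A.act u x = x) ∧ y' = A.sm u y := by
  have := h.isGalois hA
  have := h.cff hA
  obtain ⟨σ, hσ⟩ := exists_conj_over (IntermediateField.extendScalars hM) e
  obtain ⟨u, rfl⟩ := h.ac_surj hA σ
  refine ⟨u⁻¹, inv_mem u.2, fun x hx => ?_, Subtype.ext (SetLike.ext fun x => ?_)⟩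
  · conv_lhs => rw [← (hσ x).1 hx]
    exact A.act_inv u x
  · rw [mem_sm, inv_inv]
    exact (hσ x).2.symm

theorem Lv.conj_nv (h : A.Lv S) {M : IntermediateField C L} (hM : A.K S ≤ M) {ν ν' : NV C L}
    (e : ∀ x ∈ M, ν x = ν' x) :
    ∃ u ∈ S, (∀ x ∈ M, A.act u x = x) ∧ ∀ x, ν' (A.act u x) = ν x := by
  have := h.isGalois' hA hM
  obtain ⟨σ, hσ⟩ := nv_conj (K := M) ν' ν fun x => (e x x.2).symm
  obtain ⟨u, hu, e⟩ := h.gal hA (σ.restrictScalars C) fun x hx => σ.commutes ⟨x, hM hx⟩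
  exact ⟨u, hu, fun x hx => e ▸ σ.commutes ⟨x, hx⟩, fun x => e ▸ hσ x⟩

theorem trv : A.TRV := fun W hW V hV M hM =>
  ⟨(lv_U hW hV).over hA hM, (lv_U hW hV).under hA hM, fun y y' => (lv_U hW hV).conj hA hM,
    fun ν ν' => (lv_U hW hV).conj_nv hA hM⟩

theorem Lv.unrT (h : A.Lv S) [CFF C (A.K S)] : UnrT C (A.K S) L := by
  have := h.isGalois hA
  refine unrT_of_free fun σ y e => ?_
  obtain ⟨u, rfl⟩ := h.ac_surj hA σ
  have h1 : A.act u = 1 := h.neat hA u.2 (y := y) (Eq.trans (Subtype.ext (SetLike.ext fun x => by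
    rw [mem_sm, mem_conj, map_inv]
    rfl)) e)
  exact AlgEquiv.ext fun x => DFunLike.congr_fun h1 x

/-- a chart of the tower is a chart of each curve -/
theorem Lv.exists_uni (h : A.Lv S) {θ : L →ₐ[C] C⸨X⸩} {s : L} (hs : (θ s).order = 1) :
    ∃ s₀ ∈ A.K S, (θ s₀).order = 1 := by
  have := h.cff hA
  obtain ⟨x, hx⟩ := (h.unrT hA).order_eq θ s
  exact ⟨x, x.2, hx.symm.trans hs⟩

theorem Lv.ord_eq (h : A.Lv S) [CFF C (A.K S)] {θ : L →ₐ[C] C⸨X⸩} {y : Plk C L}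
    (hy : An4.At θ y) {s : L} (hs : (θ s).order = 1) {P : Plk C (A.K S)} (hP : Ly y P)
    (x : A.K S) : ord P x = (θ x).order := by
  obtain ⟨s₀, h1, h2⟩ := h.exists_uni hA hs
  have h3 : An4.At (θ.comp (A.K S).val) P := fun z => (hP z).trans (hy z)
  exact h3.ord_eq (s := ⟨s₀, h1⟩) h2 x

/-- every place of the tower has a chart -/
theorem exists_chart (y : Plk C L) :
    ∃ θ : L →ₐ[C] C⸨X⸩, An4.At θ y ∧ ∃ s, θ s = LX := by
  obtain ⟨S, h, -⟩ := exists_lv hA 0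
  have := h.cff hA
  obtain ⟨P, hP⟩ := h.under hA le_rfl y
  obtain ⟨s, -, hs⟩ := exists_unif P
  obtain ⟨j, j1, j2, -⟩ := exists_exp P hs
  obtain ⟨θ, hθ⟩ := (h.unrT hA).exists_ext j
  have h1 : θ s = LX := (hθ s).trans j1
  obtain ⟨y₀, h0⟩ := exists_at θ (nc_of_order (by rw [h1, hasOrd_LX.order_eq]; exact one_ne_zero))
  obtain ⟨u, -, h2, rfl⟩ := h.conj hA le_rfl (y := y₀) (y' := y) fun x hx => by
    rw [h0, ← hP ⟨x, hx⟩, j2, ← hθ]
    rfl
  exact ⟨_, at_sm h0 u, A.act u s, by rw [← h1]; exact congrArg θ (A.act_inv u s)⟩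

theorem Lv.ord_act (h : A.Lv S) (h' : A.Lv S') [CFF C (A.K S)] [CFF C (A.K S')] {y : Plk C L}
    {γ : Γ} {P : Plk C (A.K S)} {P' : Plk C (A.K S')} (hP : Ly y P) (hP' : Ly (A.sm γ y) P')
    {x : A.K S} {x' : A.K S'} (e : (x' : L) = A.act γ x) : ord P' x' = ord P x := by
  obtain ⟨θ, h1, s, hs⟩ := exists_chart hA y
  have h2 : (θ s).order = 1 := by rw [hs, hasOrd_LX.order_eq]
  rw [h.ord_eq hA h1 h2 hP, h'.ord_eq hA (at_sm h1 γ) (s := A.act γ s)
    (by rw [← h2]; exact congrArg (fun z => (θ z).order) (A.act_inv γ s)) hP', e]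
  exact congrArg (fun z => (θ z).order) (A.act_inv γ x)

theorem unr : A.UNR := fun W hW V hV _ =>
  ⟨fun x θ g h P hP z => h.uni.elim fun s hs => (lv_U hW hV).ord_eq hA h.at hs hP z,
    fun W' hW' V' hV' _ y γ P P' hP hP' x x' e =>
      (lv_U hW hV).ord_act hA (lv_U hW' hV') hP hP' e⟩

variable {x : Plk C L} {θ : L →ₐ[C] C⸨X⸩} {g : GL (Fin 2) E}

omit hA in
theorem CM.lin' (h : A.CM x θ g) {t : Γ} (ht : t ∈ A.St x) {μ : Eˣ} (hμ : Fm g (A.π t) (dg μ))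
    (z : L) : θ (A.act t z) = sub (PowerSeries.C (algebraMap E C μ)⁻¹ * X) (θ z) := by
  obtain ⟨μ', h1, h2⟩ := h.lin t ht
  obtain rfl := Twr.fm_dg hμ h1
  exact eq_sub_cx ((map_ne_zero _).2 μ.ne_zero) (h2 z)

theorem CM.exists_attr (h : A.CM x θ g) :
    ∃ t ∈ A.St x, ∃ μ : Eˣ, Fm g (A.π t) (dg μ) ∧ ‖algebraMap E C μ‖ < 1 := by
  obtain ⟨t, ht, μ, h1, h2⟩ := h.den A.ϖ 1 one_pos
  refine ⟨t, ht, μ, h1, ?_⟩
  rw [← sub_add_cancel (algebraMap E C μ) (algebraMap E C A.ϖ)]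
  exact (IsUltrametricDist.norm_add_le_max _ _).trans_lt (max_lt h2 (Twr.norm_lt hA.lf))

theorem CM.mer (h : A.CM x θ g) (z : L) : Mer (θ z) := by
  classical
  obtain ⟨s, hs⟩ := h.uni
  obtain ⟨t, ht, μ, h1, h2⟩ := h.exists_attr hA
  obtain ⟨S, hS, h3⟩ := exists_lv_fin hA {s, A.act t s, z}
  have := hS.cff hA
  have μ0 : algebraMap E C μ ≠ 0 := (map_ne_zero _).2 μ.ne_zero
  have h4 : ((θ.comp (A.K S).val) ⟨s, h3 s (by simp)⟩).order = 1 := hs
  have h5 := cff_alg (nc_of_order (by rw [h4]; exact one_ne_zero))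
  refine mer_of_chart (θ.comp (A.K S).val) (t := ⟨A.act t s, h3 _ (by simp)⟩)
    (y := ⟨z, h3 z (by simp)⟩) h4 (h5 _) (inv_ne_zero μ0)
    (by rw [norm_inv, Ne, inv_eq_one]; exact h2.ne) (fun n => ?_) (h5 _)
  exact (congrArg (fun w : C⸨X⸩ => w.coeff n) (h.lin' ht h1 s)).trans
    (coeff_sub_cx (inv_ne_zero μ0) _ n)

theorem conv : A.CONV := fun x θ g h _ z => by
  simpa only [mr_iff] using mer_iff.1 (h.mer hA z)

/-- one radius for a curve -/
theorem CM.rad (h : A.CM x θ g) (hS : A.Lv S) :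
    ∃ r₀, 0 < r₀ ∧ ∀ r, 0 < r → r ≤ r₀ → ∀ z ∈ A.K S, θ z ∈ MM C r := by
  have := hS.cff hA
  obtain ⟨r₀, h1, h2⟩ := exists_rad (θ.comp (A.K S).val) fun z => h.mer hA z
  exact ⟨r₀, h1, fun r a b z hz => MM_anti a b (h2 ⟨z, hz⟩)⟩

end AT

end tower

end Vale.Agent.P022K.FI
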