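import Vale.Agent.P022K.FI.Ovs
import Vale.Agent.P022K.FI.Twr
import Vale.Agent.P022K.FI.Gnn
import Vale.Agent.P022K.FI.Mx

/-!
# P022K, block FI: the rows OVW and DSW
-/

set_option autoImplicit false
set_option linter.all false

open PowerSeries Vale.Agent.P019P P025H746 P025H492
open scoped MatrixGroups LaurentSeries

noncomputable section

namespace Vale.Agent.P022K.FI

open Vale.Agent.P022K.Sh

namespace Ov

variable {C L Γ O E : Type} [NontriviallyNormedField C] [IsUltrametricDist C] [CompleteSpace C]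
  [IsAlgClosed C] [CharZero C] [Field L] [Algebra C L] [Group Γ] [CommRing O] [IsDomain O]
  [IsDiscreteValuationRing O] [Field E] [Algebra O E] [Algebra E C] {A : AT C L Γ O E}
  {D : LTD C O E} {x y y' : Plk C L} {θ : L →ₐ[C] C⸨X⸩} {g : GL (Fin 2) E} {b a a' : C}
  {ε : ℤ → L →ₐ[C] C⸨X⸩} {n : ℤ} {γ : Γ} {c : E}

theorem ow_congr (h : A.Ow g ε n a y) (e : ∀ s ∈ A.Ln g n, s ∈ y'.1 ↔ s ∈ y.1) :
    A.Ow g ε n a y' := ⟨h.1, fun s hs => (e s hs).trans (h.2 s hs)⟩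

theorem ow_agree (h : A.Ow g ε n a y) (h' : A.Ow g ε n a y') :
    ∀ s ∈ A.Ln g n, s ∈ y.1 ↔ s ∈ y'.1 := fun s hs => (h.2 s hs).trans (h'.2 s hs).symm

theorem sm_inv (γ : Γ) (y : Plk C L) : A.sm γ⁻¹ (A.sm γ y) = y := by
  rw [← A.sm_mul, inv_mul_cancel, A.sm_one]

theorem sm_inv' (γ : Γ) (y : Plk C L) : A.sm γ (A.sm γ⁻¹ y) = y := by
  rw [← A.sm_mul, mul_inv_cancel, A.sm_one]

theorem fm_neg (h : Fm g (A.π γ) (un c)) : Fm g (A.π γ⁻¹) (un (-c)) := by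
  rw [map_inv, un_neg]
  exact h.inv

variable (hA : A.Ok)
include hA

theorem exists_lv (g : GL (Fin 2) E) (n : ℤ) : ∃ S, A.Lv S ∧ A.K S ≤ A.Ln g n := by
  obtain ⟨W, hW⟩ := Gn.exists_W hA
  have h := Mx.ll_inf hA.lf (Mx.ll_Vx hA.lf (g * dg (A.ϖ ^ n))) (Mx.ll_Vx hA.lf (g * dg (A.ϖ ^ n)))
  exact ⟨_, AT.lv_U hW h, Gn.le_Ln hW h.z fun c hc => (Mx.np_Vx hA.lf g le_rfl c).2 hc⟩

/-- places with the same restriction to `L_n` -/
theorem conj_Ln (e : ∀ s ∈ A.Ln g n, s ∈ y.1 ↔ s ∈ y'.1) : ∃ u ∈ A.H, ∃ c : E,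
    Io O (c / (A.ϖ ^ n : Eˣ)) ∧ Fm g (A.π u) (un c) ∧ y' = A.sm u y := by
  obtain ⟨S, h1, h2⟩ := exists_lv hA g n
  obtain ⟨u, -, h3, h4⟩ := h1.conj hA h2 e
  obtain ⟨h5, c, h6, h7⟩ :=
    Gn.mem_Nn.1 (Gn.mem_Nn_of_fix hA (mat hA) (AT.gal0 hA) g n u h3)
  exact ⟨u, h5, c, h6, h7, h4⟩

/-- unipotent elements have no fixed place -/
theorem unip_fix (hγ : γ ∈ A.H) (h : Fm g (A.π γ) (un c)) (e : A.sm γ y = y) : c = 0 := by
  by_contra hc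
  obtain ⟨W, hW⟩ := Gn.exists_W hA
  have h1 : A.π γ ∈ Vx O (g * dg (Units.mk0 c hc)) := by
    obtain ⟨z, hz, e⟩ := Gn.fm_iff.1 h
    rw [e]
    exact mul_mem ((Mx.un_mem_Vx hA.lf).2 le_rfl) ((Mx.ll_Vx hA.lf _).z hz)
  have h2 := hA.zs _ (hA.neat W hW _ γ ⟨Gn.mem_H.1 hγ W hW, h1⟩ y e)
  exact hc (Mx.un_inj (by rw [un_zero]; exact h.uniq (Gn.fm_zl h2)))

theorem Ln_un (h : Fm g (A.π γ) (un c)) {s : L} : s ∈ A.Ln g n ↔ A.act γ s ∈ A.Ln g n := by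
  obtain ⟨z, hz, e⟩ := Gn.fm_iff.1 h
  have := Gn.Ln_frame (A := A) g n c 1 0 1 (by simp) hz
  rw [Gn.Ln_act hA g n γ, e, mul_assoc _ z, ← Gn.zl_comm hz, ← mul_assoc, inv_mul_cancel_right,
    ← mul_one (g * un c), ← Gn.dg_one, this, add_zero]

/-- an element of the stabiliser of a vertex with a diagonal part -/
theorem nn_eq_one {k g' : GL (Fin 2) E} {μ : Eˣ} (hk : k ∈ Vx O g') (h : Fm g k (dg μ * un c)) :
    Mx.nn C (μ : E) = 1 := by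
  obtain ⟨z, rfl⟩ := Mx.fm_iff.1 h
  have h1 := (Mx.mem_KZ hA.lf).1 (mem_cj.1 hk)
  have h2 : Mx.nn C ((g'⁻¹ * (g * (dg μ * un c) * g⁻¹ * Mx.sc z) * g' : GL (Fin 2) E) :
      Matrix (Fin 2) (Fin 2) E).trace ^ 2 ≤
      Mx.nn C ((g'⁻¹ * (g * (dg μ * un c) * g⁻¹ * Mx.sc z) * g').det : E) := by
    rw [Matrix.trace_fin_two]
    refine (pow_le_pow_left₀ (norm_nonneg _) (Mx.nn_add _ _) 2).trans ?_
    exact max_rec' (fun t : ℝ => t ^ 2 ≤ _) (h1 0 0) (h1 1 1)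
  rw [mul_assoc _ g⁻¹, Gn.zl_comm (Mx.sc_mem z), ← mul_assoc _ _ g⁻¹, mul_assoc g,
    Matrix.GeneralLinearGroup.val_det_apply, Units.val_mul, Units.val_mul,
    Matrix.trace_units_conj', Matrix.det_units_conj', Units.val_mul, Units.val_mul,
    Matrix.trace_units_conj, Matrix.det_units_conj] at h2
  have e1 : ((dg μ * un c * Mx.sc z : GL (Fin 2) E) : Matrix (Fin 2) (Fin 2) E).trace =
      (μ + 1) * z := by
    simp [Mx.dg_val, un_val, Mx.sc_val, Matrix.trace_fin_two, add_mul]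
  have e2 : ((dg μ * un c * Mx.sc z : GL (Fin 2) E) : Matrix (Fin 2) (Fin 2) E).det =
      μ * (z * z) := by
    simp [Mx.dg_val, un_val, Mx.sc_val, Matrix.det_fin_two]
    ring
  rw [e1, e2, Mx.nn_mul, Mx.nn_mul, Mx.nn_mul, mul_pow, ← sq,
    mul_le_mul_iff_left₀ (pow_pos (Mx.nn_upos z) 2)] at h2
  have h0 := Mx.nn_upos (C := C) μ
  rcases lt_trichotomy (Mx.nn C (μ : E)) 1 with h3 | h3 | h3
  · rw [add_comm, Mx.nn_one_add h3] at h2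
    linarith
  · exact h3
  · rw [Mx.nn, map_add, map_one, IsUltrametricDist.norm_add_eq_max_of_norm_ne_norm
      (by rw [norm_one]; exact h3.ne'), norm_one, max_eq_left h3.le] at h2
    nlinarith

variable (hB : A.PB D x θ g b ε)
include hB

/-- the expansion of the tower at a point of the disc -/
theorem exists_exp (n : ℤ) (ha : ‖a‖ < 1) : ∃ (F : L →ₐ[C] C⸨X⸩) (y : Plk C L), An4.At F y ∧
    (∀ s ∈ A.Ln g n, (F s).order = o1 a (ε n s)) ∧ A.Ow g ε n a y := by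
  obtain ⟨S, h1, h2⟩ := exists_lv hA g n
  obtain ⟨r0, r1, r2⟩ := rad1 ha
  have := h1.cff hA
  obtain ⟨F, hF⟩ := (h1.unrT hA).exists_tl (ε n) r0 r1 fun s => hB.mer n s (h2 s.2) _ r0 r2
  obtain ⟨t, ht, -⟩ := CFF.ex (k := C) (F := A.K S)
  obtain ⟨y, hy⟩ := An4.exists_at F (x := (t : L)) fun c e =>
    ht ((show t = algebraMap C (A.K S) c from Subtype.ext e) ▸ isAlgebraic_algebraMap c)
  have h3 : ∀ s ∈ A.Ln g n, (F s).order = o1 a (ε n s) := fun s hs => by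
    rw [hF s (hB.mer n s hs _ r0 r2)]
    rfl
  exact ⟨F, y, hy, h3, ha, fun s hs => by rw [hy, An4.reg_iff, h3 s hs]⟩

omit hA in
theorem ow_val (h : A.Ow g ε n a y) {s : L} (hs : s ∈ A.Ln g n) (hy : s ∈ y.1) :
    s = algebraMap C L (v1 a (ε n s)) ∨ (s - algebraMap C L (v1 a (ε n s)))⁻¹ ∉ y.1 := by
  refine or_iff_not_imp_left.2 fun hne hi => ?_
  obtain ⟨r0, r1, r2⟩ := rad1 h.1
  have h1 := sub_mem hs ((A.Ln g n).algebraMap_mem (v1 a (ε n s)))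
  have m1 := hB.mer n _ h1 _ r0 r2
  have m2 := hB.mer n _ hs _ r0 r2
  have h2 := (h.2 _ (inv_mem h1)).1 hi
  obtain ⟨f, hf⟩ := exists_am ((h.2 _ hs).1 hy)
  have H := mp_add r0 r1
  have h3 := H.ne_zero m1 ((map_ne_zero _).2 (sub_ne_zero.2 hne))
  have h4 : v1 a (ε n s) = constantCoeff f := by
    rw [v1, va, hf, ← coeff_zero_eq_constantCoeff_apply, ← coeff_am]
    rfl
  rw [map_inv₀, o1, od_inv r0 r1 m1, od] at h2
  rw [map_sub, AlgHom.commutes, H.map_sub m2 ((MM C _).algebraMap_mem _), H.map_const, hf, h4,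
    ← am_C, ← map_sub] at h2 h3
  have := order_am_pos (f := f - PowerSeries.C (constantCoeff f))
    (fun e => h3 (by rw [e, map_zero])) (by simp)
  omega

variable (hD : D.Ok A.ϖ)
include hD

theorem ow_un (hγ : γ ∈ A.H) (hc : Fm g (A.π γ) (un c)) (h : A.Ow g ε n a y) :
    A.Ow g ε n (ev a (D.tr (c / (A.ϖ ^ n : Eˣ)))) (A.sm γ⁻¹ y) := by
  refine ⟨(sf_tr hD _).norm_lt h.1, fun s hs => ?_⟩
  have h1 := (Ln_un hA hc).1 hs
  obtain ⟨r, r0, e, -⟩ := (sf_tr hD _).o1_cmF (hB.mer n s hs) (hB.mer n _ h1)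
    (hB.trn n c γ hγ hc s hs) h.1
  rw [AT.mem_sm, inv_inv, h.2 _ h1, e, mul_nonneg_iff_of_pos_left r0]

theorem ow_un_iff (hγ : γ ∈ A.H) (hc : Fm g (A.π γ) (un c)) : A.Ow g ε n a (A.sm γ⁻¹ y) ↔
    ∃ a', A.Ow g ε n a' y ∧ a = ev a' (D.tr (c / (A.ϖ ^ n : Eˣ))) := by
  refine ⟨fun h => ⟨_, ?_, (ev_tr_neg hD _ h.1).symm⟩, fun ⟨a', h, e⟩ =>
    e ▸ ow_un hA hB hD hγ hc h⟩
  have := ow_un hA hB hD (inv_mem hγ) (fm_neg hc) h
  rwa [sm_inv, neg_div] at this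

variable (hC : A.CALW)
include hC

theorem o1_up {s : L} (hs : s ∈ A.Ln g n) (ha : ‖a‖ < 1) :
    o1 a (ε (n + 1) s) = o1 (ev a D.f) (ε n s) := by
  obtain ⟨r, -, e, h1⟩ := (sf_f hD hA.lf).o1_sub (f_zero hD hA.lf) (hB.mer n s hs)
    (hB.mer (n + 1) s (Gn.Ln_mono hA g (by omega) hs)) ((hC D hD _ _ _ _ _ hB).1 n s) ha
  rw [e, h1 (ev_deriv_f hD hA.lf ha), one_mul]

theorem ow_down (h : A.Ow g ε (n + 1) a y) : A.Ow g ε n (ev a D.f) y :=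
  ⟨(sf_f hD hA.lf).norm_lt h.1, fun s hs => by
    rw [h.2 s (Gn.Ln_mono hA g (by omega) hs), o1_up hA hB hD hC hs h.1]⟩

theorem o1_tor {t : Γ} (ht : t ∈ A.St x) {m : ℤ} {o : Oˣ} {μ : Eˣ}
    (e : (μ : E) = A.ϖ ^ m * algebraMap O E o) (hμ : Fm g (A.π t) (dg μ)) {s : L}
    (hs : s ∈ A.Ln g (n + m)) (ha : ‖a‖ < 1) : A.act t⁻¹ s ∈ A.Ln g n ∧
      o1 a (ε n (A.act t⁻¹ s)) = o1 (ev a (D.br o)) (ε (n + m) s) := by
  obtain ⟨h1, h2⟩ := (hC D hD _ _ _ _ _ hB).2.2.2 t ht m o μ e hμ n (A.act t⁻¹ s)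
  rw [A.act_inv'] at h1 h2
  obtain ⟨r, -, e, h3⟩ := (sf_br hD (unit_ne hD o)).o1_sub (hD.br0 o) (hB.mer _ s hs)
    (hB.mer n _ (h1.2 hs)) h2 ha
  exact ⟨h1.2 hs, by rw [e, h3 (ev_deriv_br hD (unit_ne hD o) ha), one_mul]⟩

theorem ow_tor {t : Γ} (ht : t ∈ A.St x) {m : ℤ} {o : Oˣ} {μ : Eˣ}
    (e : (μ : E) = A.ϖ ^ m * algebraMap O E o) (hμ : Fm g (A.π t) (dg μ))
    (h : A.Ow g ε n a y) : A.Ow g ε (n + m) (ev a (D.br o)) (A.sm t y) :=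
  ⟨(sf_br hD (unit_ne hD o)).norm_lt h.1, fun s hs => by
    obtain ⟨h1, h2⟩ := o1_tor hA hB hD hC ht e hμ hs h.1
    rw [AT.mem_sm, h.2 _ h1, h2]⟩

/-- a small disc on which a function of level `n` is a coordinate -/
theorem exists_lin (n : ℤ) : ∃ s ∈ A.Ln g n, ∃ (φ : C⟦X⟧) (r r₀ : ℝ), ε n s = am C φ ∧
    An4.Lin r₀ φ ∧ 0 < r ∧ r < r₀ ∧ r < 1 := by
  obtain ⟨S, h1, h2⟩ := exists_lv hA g n
  obtain ⟨s₀, hs₀⟩ := hB.cm.uni
  obtain ⟨s, h3, h4⟩ := h1.exists_uni hA hs₀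
  rw [← (hC D hD _ _ _ _ _ hB).2.1 n] at h4
  obtain ⟨φ, hφ⟩ := exists_am (x := ε n s) (by omega)
  have h5 := An4.order_eq_one_iff.1 ((congrArg HahnSeries.order hφ).symm.trans h4)
  have h6 : An4.Mer (am C φ) := mer_of_mem (r := 1 / 2) (by norm_num)
    (by rw [← hφ]; exact hB.mer n s (h2 h3) _ (by norm_num) (by norm_num))
  obtain ⟨r₀, hr⟩ := (An4.Mer.conv h6).exists_lin h5.1 h5.2
  have := hr.pos
  exact ⟨s, h2 h3, φ, min (r₀ / 2) (1 / 2), r₀, hφ, hr, by positivity,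
    min_lt_of_left_lt (by linarith), min_lt_of_right_lt (by norm_num)⟩

theorem exists_small (n : ℤ) : ∃ r : ℝ, 0 < r ∧ ∀ a : C, ‖a‖ ≤ r → ∃ s ∈ A.Ln g n,
    o1 a (ε n s) = 1 ∧ ∀ a' : C, ‖a'‖ ≤ r → a' ≠ a → o1 a' (ε n s) = 0 := by
  obtain ⟨s, hs, φ, r, r₀, e, h1, h2, h3, h4⟩ := exists_lin hA hB hD hC n
  refine ⟨r, h2, fun a ha => ?_⟩
  have h5 := sub_mem hs ((A.Ln g n).algebraMap_mem (ev a φ))
  have h6 : ε n (s - algebraMap C L (ev a φ)) = am C (φ - PowerSeries.C (ev a φ)) := by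
    rw [map_sub, e, AlgHom.commutes, map_sub, am_C]
  refine ⟨_, h5, ?_, fun a' ha' hne => ?_⟩
  · rw [(hB.mer n _ h5).o1_eq h2 ha h4, h6, (h1.od_sub h2 h3 ha).1]
  · rw [(hB.mer n _ h5).o1_eq h2 ha' h4, h6, (h1.od_sub h2 h3 ha).2 a' ha' hne]

omit hC in
/-- an attracting element -/
theorem exists_attr : ∃ t ∈ A.St x, ∃ (m : ℕ) (o : Oˣ) (μ : Eˣ),
    (μ : E) = A.ϖ ^ ((m + 1 : ℕ) : ℤ) * algebraMap O E o ∧ Fm g (A.π t) (dg μ) ∧ ∀ a : C, ‖a‖ < 1 →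
      ‖ev ((fun z => ev z D.f)^[m + 1] a) (D.br o)‖ ≤ max ‖algebraMap E C A.ϖ‖ ‖a‖ * ‖a‖ := by
  obtain ⟨t, ht, μ, h1, h2⟩ := hB.cm.exists_attr hA
  obtain ⟨m, o, e⟩ := Mx.exists_unit hA.lf μ
  have h3 : 0 < m := by
    by_contra h
    have h4 := Mx.pi_anti hA.lf (not_lt.1 h)
    have h5 := (Mx.unit_iff hA.lf).1 o.isUnit
    rw [e, map_mul, norm_mul, map_zpow₀, norm_zpow] at h2
    rw [zpow_zero] at h4
    rw [show ‖algebraMap E C (algebraMap O E o)‖ = 1 from h5, mul_one] at h2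
    exact absurd h2 (not_lt.2 h4)
  obtain ⟨k, rfl⟩ : ∃ k : ℕ, m = ((k + 1 : ℕ) : ℤ) := ⟨(m - 1).toNat, by omega⟩
  refine ⟨t, ht, k, o, μ, e, h1, fun a ha => ?_⟩
  have l1 : max ‖algebraMap E C A.ϖ‖ ‖a‖ ≤ 1 := max_le (Twr.norm_lt hA.lf).le ha.le
  have key : ∀ j : ℕ, ‖(fun z => ev z D.f)^[j + 1] a‖ ≤ max ‖algebraMap E C A.ϖ‖ ‖a‖ * ‖a‖ := by
    intro j
    induction j with
    | zero => exact norm_f hD hA.lf ha
    | succ j ih =>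
      have h4 := (ih.trans (mul_le_of_le_one_left (norm_nonneg _) l1)).trans_lt ha
      rw [Function.iterate_succ_apply']
      exact (norm_f hD hA.lf h4).trans ((mul_le_of_le_one_left (norm_nonneg _)
        (max_le (Twr.norm_lt hA.lf).le h4.le)).trans ih)
  exact (norm_br hD hA.lf o (((key k).trans (mul_le_of_le_one_left (norm_nonneg _) l1)).trans_lt
    ha)).trans (key k)

omit hB hC in
theorem iter_lt (j : ℕ) (ha : ‖a‖ < 1) : ‖(fun z => ev z D.f)^[j] a‖ < 1 := by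
  induction j with
  | zero => exact ha
  | succ j ih =>
    rw [Function.iterate_succ_apply']
    exact (sf_f hD hA.lf).norm_lt ih

/-- the disc is unramified over the curves -/
theorem exists_one (n : ℤ) (ha : ‖a‖ < 1) : ∃ s ∈ A.Ln g n, o1 a (ε n s) = 1 := by
  obtain ⟨r, r0, hr⟩ := exists_small hA hB hD hC n
  obtain ⟨t, ht, m, o, μ, e, h1, h2⟩ := exists_attr hA hB hD
  have up : ∀ (j : ℕ) (k : ℤ) (a : C), ‖a‖ < 1 → (∃ s ∈ A.Ln g k,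
      o1 ((fun z => ev z D.f)^[j] a) (ε k s) = 1) → ∃ s ∈ A.Ln g (k + j), o1 a (ε (k + j) s) = 1 := by
    intro j
    induction j with
    | zero => exact fun k a _ h => by simpa using h
    | succ j ih =>
      intro k a ha h
      obtain ⟨s, hs, h3⟩ := ih k _ ((sf_f hD hA.lf).norm_lt ha) h
      rw [Nat.cast_succ, ← add_assoc]
      exact ⟨s, Gn.Ln_mono hA g (by omega) hs, by rw [o1_up hA hB hD hC hs ha, h3]⟩
  refine shrink (fun a : C => ‖a‖) (fun a => ev ((fun z => ev z D.f)^[m + 1] a) (D.br o))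
    (fun a => ∃ s ∈ A.Ln g n, o1 a (ε n s) = 1) r0 (Twr.norm_lt hA.lf) norm_nonneg
    (fun a ha => (hr a ha).imp fun s hs => ⟨hs.1, hs.2.1⟩) (fun a ha => ⟨?_, h2 a ha⟩) a ha
  rintro ⟨s, hs, h3⟩
  obtain ⟨k, rfl⟩ : ∃ k, n = k + ((m + 1 : ℕ) : ℤ) := ⟨n - _, (sub_add_cancel _ _).symm⟩
  obtain ⟨h4, h5⟩ := o1_tor hA hB hD hC ht e h1 hs (iter_lt hA hD (m + 1) ha)
  exact up _ k a ha ⟨_, h4, h5.trans h3⟩

variable (hS : A.SRN)
include hS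

theorem inj_step (h : A.Ow g ε n a y) (h' : A.Ow g ε n a' y) (e : ev a D.f = ev a' D.f) :
    a = a' := by
  obtain ⟨z, -, h1⟩ := hD.fib a a' h.1 h'.1 e
  obtain ⟨γ, hγ, h2⟩ := (hS x θ g hB.cm hB.hyp).1 (z * (A.ϖ ^ n : Eˣ))
  have h3 : Fm g (A.π γ) (un (z * (A.ϖ ^ n : Eˣ))) := h2 ▸ Gn.fm_self _ _
  have h4 := ow_un hA hB hD hγ h3 h
  rw [mul_div_cancel_right₀ _ (Units.ne_zero _), ← ev4_eq, ← h1] at h4
  obtain ⟨u, hu, c, h5, h6, h7⟩ := conj_Ln hA (ow_agree h' h4)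
  have h8 := unip_fix hA (y := y) (c := z * (A.ϖ ^ n : Eˣ) + c) (mul_mem hγ hu)
    (by rw [map_mul, un_add]; exact h3.mul h6) (by rw [A.sm_mul, ← h7, sm_inv'])
  have h9 : z = -(c / (A.ϖ ^ n : Eˣ)) := by
    rw [← neg_div, eq_div_iff (Units.ne_zero _)]
    linear_combination h8
  rw [h1, hD.tr_int z (h9 ▸ Gn.io_neg h5), ev4_eq, ev_X]

/-- the points of the disc are separated by `L_n` -/
theorem ow_inj (h : A.Ow g ε n a y) (h' : A.Ow g ε n a' y) : a = a' := by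
  obtain ⟨r, r0, hr⟩ := exists_small hA hB hD hC n
  obtain ⟨t, ht, m, o, μ, e, h1, h2⟩ := exists_attr hA hB hD
  have dn : ∀ (j : ℕ) (k : ℤ) (a a' : C) y, A.Ow g ε (k + j) a y → A.Ow g ε (k + j) a' y →
      A.Ow g ε k ((fun z => ev z D.f)^[j] a) y ∧ A.Ow g ε k ((fun z => ev z D.f)^[j] a') y ∧
      ((fun z => ev z D.f)^[j] a = (fun z => ev z D.f)^[j] a' → a = a') := by
    intro j
    induction j with
    | zero => exact fun k a a' y h h' => ⟨by simpa using h, by simpa using h', id⟩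
    | succ j ih =>
      intro k a a' y h h'
      rw [Nat.cast_succ, ← add_assoc] at h h'
      obtain ⟨h3, h4, h5⟩ := ih k _ _ y (ow_down hA hB hD hC h) (ow_down hA hB hD hC h')
      exact ⟨h3, h4, fun e => inj_step hA hB hD hC hS h h' (h5 e)⟩
  refine shrink (fun p : C × C => max ‖p.1‖ ‖p.2‖) (Prod.map
    (fun a => ev ((fun z => ev z D.f)^[m + 1] a) (D.br o))
    fun a => ev ((fun z => ev z D.f)^[m + 1] a) (D.br o))
    (fun p => ∀ y, A.Ow g ε n p.1 y → A.Ow g ε n p.2 y → p.1 = p.2) r0 (Twr.norm_lt hA.lf)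
    (fun p => le_max_of_le_left (norm_nonneg _)) (fun p hp y h h' => ?_)
    (fun p hp => ⟨fun ih y h h' => ?_, max_le ?_ ?_⟩) (a, a') (max_lt h.1 h'.1) y h h'
  · by_contra hne
    obtain ⟨s, hs, h3, h4⟩ := hr p.1 ((le_max_left _ _).trans hp)
    obtain ⟨r0, r1, r2⟩ := rad1 h.1
    obtain ⟨s0, s1, s2⟩ := rad1 h'.1
    have h5 := (h.2 _ (inv_mem hs)).symm.trans (h'.2 _ (inv_mem hs))
    rw [map_inv₀, o1, o1, od_inv r0 r1 (hB.mer n s hs _ r0 r2), od_inv s0 s1 (hB.mer n s hs _ s0 s2),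
      ← o1, ← o1, h3, h4 p.2 ((le_max_right _ _).trans hp) (Ne.symm hne)] at h5
    simp at h5
  · obtain ⟨k, rfl⟩ : ∃ k, n = k + ((m + 1 : ℕ) : ℤ) := ⟨n - _, (sub_add_cancel _ _).symm⟩
    obtain ⟨h3, h4, h5⟩ := dn _ k _ _ y h h'
    exact h5 (br_inj hD hA.lf o h3.1 h4.1
      (ih _ (ow_tor hA hB hD hC ht e h1 h3) (ow_tor hA hB hD hC ht e h1 h4)))
  · exact (h2 p.1 ((le_max_left _ _).trans_lt hp)).trans (by gcongr <;> exact le_max_left _ _)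
  · exact (h2 p.2 ((le_max_right _ _).trans_lt hp)).trans (by gcongr <;> exact le_max_right _ _)

theorem ow_up (h : A.Ow g ε n a y) : ∃ a₁, ev a₁ D.f = a ∧ A.Ow g ε (n + 1) a₁ y := by
  obtain ⟨a₀, h1, h2⟩ := surj_f hD hA.lf h.1
  obtain ⟨-, y₀, -, -, h3⟩ := exists_exp hA hB (n + 1) h1
  obtain ⟨u, hu, c, -, h4, h5⟩ := conj_Ln hA (ow_agree (h2 ▸ ow_down hA hB hD hC h3) h)
  have h6 := ow_un hA hB hD (inv_mem hu) (fm_neg h4) h3
  rw [inv_inv, ← h5] at h6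
  exact ⟨_, ow_inj hA hB hD hC hS (ow_down hA hB hD hC h6) h, h6⟩

end Ov

open Ov

variable {C L Γ O E : Type} [NontriviallyNormedField C] [IsUltrametricDist C] [CompleteSpace C]
  [IsAlgClosed C] [CharZero C] [Field L] [Algebra C L] [Group Γ] [CommRing O] [IsDomain O]
  [IsDiscreteValuationRing O] [Field E] [Algebra O E] [Algebra E C] {A : AT C L Γ O E}

/-- **OVW** -/
theorem ovw (hA : A.Ok) (hC : A.CALW) (hS : A.SRN) : A.OVW := fun D hD x θ g b ε hB n =>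
  ⟨fun a ha => ⟨(Ov.exists_exp hA hB n ha).elim fun _ h => h.imp fun _ h => h.2.2,
      exists_one hA hB hD hC n ha⟩,
    fun _ _ => ow_down hA hB hD hC, fun _ _ => ow_up hA hB hD hC hS,
    fun _ _ _ => ow_inj hA hB hD hC hS, fun _ hγ _ hc _ _ => ow_un_iff hA hB hD hγ hc,
    fun _ ht _ _ _ e hμ _ _ => ow_tor hA hB hD hC ht e hμ, fun _ _ h _ => ow_val hB h⟩

/-- **DSW** -/
theorem dsw (hA : A.Ok) (hO : A.OVW) (hF : A.FRMW) (hG : A.SG) : A.DSW := by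
  intro D hD x θ g b ε hB n W hW V hV hN _
  have hS := AT.lv_U hW hV
  have hle : A.K (A.U W V) ≤ A.Ln g n := Gn.le_Ln hW hV.z fun c hc => (hN c).2 hc
  obtain ⟨o1', -, -, o4, -⟩ := hO D hD x θ g b ε hB n
  have key : ∀ a : C, ∃ P : Plk C (A.K (A.U W V)), ‖a‖ < 1 →
      (∀ h, ord P h = o1 a (ε n h)) ∧ ∀ y, A.Ow g ε n a y → AT.Ly y P := fun a => by
    by_cases ha : ‖a‖ < 1
    · obtain ⟨F, y, h1, h2, h3⟩ := Ov.exists_exp hA hB n ha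
      obtain ⟨s, hs, h4⟩ := (o1' a ha).2
      obtain ⟨P, hP⟩ := hS.under hA le_rfl y
      exact ⟨P, fun _ => ⟨fun h => (hS.ord_eq hA h1 ((h2 s hs).trans h4) hP h).trans
        (h2 h (hle h.2)), fun y' h5 h => (hP h).trans (ow_agree h3 h5 h (hle h.2))⟩⟩
    · exact (hS.under hA le_rfl x).imp fun _ _ h => absurd h ha
  choose j hj using key
  refine ⟨j, fun a ha a' ha' e => ?_, fun a ha h _ => (hj a ha).1 h, fun a y h => (hj a h.1).2 y h⟩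
  obtain ⟨y, hy⟩ := (o1' a ha).1
  obtain ⟨y', hy'⟩ := (o1' a' ha').1
  obtain ⟨u, hu, -, rfl⟩ := hS.conj hA le_rfl (y := y) (y' := y') fun s hs =>
    ((hj a ha).2 y hy ⟨s, hs⟩).symm.trans (e ▸ (hj a' ha').2 y' hy' ⟨s, hs⟩)
  have h1 := (hF D hD x θ g b ε hB).1 u⁻¹
  obtain ⟨γ, hγ, c, h2, h3⟩ := hG D hD _ _ _ _ _ _ _ _ _ _ hB h1 n a n a' y hy ⟨ha', fun s hs => by
    have h4 : A.act u s ∈ A.Ln g n := by
      rw [Gn.Ln_act hA g n u⁻¹, A.act_inv]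
      exact hs
    have h5 := hy'.2 _ h4
    rw [AT.mem_sm, A.act_inv] at h5
    rw [h5, inv_inv]
    rfl⟩
  have h4 : u * γ ∈ A.St x := by rw [AT.mem_St, A.sm_mul, ← h3, sm_inv']
  obtain ⟨μ, h5, -⟩ := hB.cm.lin _ h4
  obtain ⟨g', hg'⟩ := hV.vx
  have h6 : Fm g (A.π u) (dg μ * un (-c)) := by
    have := h5.mul (fm_neg h2)
    rwa [← map_mul, mul_inv_cancel_right] at this
  have h7 : u * γ ∈ A.act.ker := hA.neat W hW g _ ⟨mul_mem hu.1 (Gn.mem_H.1 hγ W hW),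
    (h5.mem_cj le_sup_right).2 ((Mx.dg_mem_KZ hA.lf).2 (nn_eq_one hA (hg' hu.2) h6))⟩ x h4
  have h8 : A.π γ ∈ V := by
    have := mul_mem (inv_mem (show A.π u ∈ V from hu.2)) (hV.z (hA.zs _ h7))
    rwa [map_mul, inv_mul_cancel_left] at this
  obtain ⟨z, hz, h9⟩ := Gn.fm_iff.1 h2
  have h10 : γ ∈ A.Nn g n := Gn.mem_Nn.2 ⟨hγ, c, (hN c).1 (by
    have := mul_mem h8 (inv_mem (hV.z hz))
    rwa [h9, mul_inv_cancel_right] at this), h2⟩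
  refine o4 a a' y hy (ow_congr hy' fun s hs => ?_)
  have h11 : A.act u s = s := by
    conv_lhs => rw [← A.mem_K.1 hs γ h10, ← A.act_mul, MonoidHom.mem_ker.1 h7]
    rfl
  rw [AT.mem_sm]
  conv_rhs => rw [← h11, A.act_inv]

end Vale.Agent.P022K.FI
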