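import Vale.Agent.P022K.FI.AnW
import Vale.Agent.P022K.FI.An2a

/-!
# P022K / FI / Lt3 : integral series and series on the open unit disc
-/

set_option linter.all false

noncomputable section

open PowerSeries Filter Topology

namespace Vale.Agent.P022K.FI.Lt

variable {C : Type} [NontriviallyNormedField C]

/-- all coefficients are integral -/
def Io (f : C⟦X⟧) : Prop := ∀ n, ‖coeff n f‖ ≤ 1

/-- convergence on the open unit disc -/
def Ou (f : C⟦X⟧) : Prop := ∀ ρ : ℝ, 0 < ρ → ρ < 1 → Cv ρ f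

/-- an integral map of the open unit disc to itself -/
def Sm (g : C⟦X⟧) : Prop := Io g ∧ ‖constantCoeff g‖ < 1

variable {f f' g h : C⟦X⟧} {ρ : ℝ} {a : C}

theorem Io.ou (H : Io f) : Ou f := fun ρ h0 h1 =>
  Cv.of_bdd (r := 1) (M := 1) h0 h1 fun n => by simpa using H n

theorem Sm.ou (H : Sm g) : Ou g := H.1.ou

theorem Io.gn_le (H : Io f) (h0 : 0 < ρ) (h1 : ρ < 1) : gn ρ f ≤ 1 :=
  FI.gn_le fun n => mul_le_one₀ (H n) (by positivity) (pow_le_one₀ h0.le h1.le)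

theorem Io.gn_le' (H : Io f) (h0 : 0 < ρ) (h1 : ρ < 1) (hc : ‖constantCoeff f‖ ≤ ρ) : gn ρ f ≤ ρ :=
  FI.gn_le fun n => by
    cases n with
    | zero => simpa using hc
    | succ n =>
      rw [pow_succ, ← mul_assoc]
      exact mul_le_of_le_one_left h0.le
        (mul_le_one₀ (H _) (by positivity) (pow_le_one₀ h0.le h1.le))

theorem exists_rho {x y : ℝ} (hx : x < 1) (hy : y < 1) : ∃ ρ, 0 < ρ ∧ ρ < 1 ∧ x ≤ ρ ∧ y ≤ ρ :=
  ⟨max (max x y) (1 / 2), lt_max_of_lt_right (by norm_num), max_lt (max_lt hx hy) (by norm_num),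
    le_max_of_le_left (le_max_left _ _), le_max_of_le_left (le_max_right _ _)⟩

theorem Sm.ex (H : Sm g) {x : ℝ} (hx : x < 1) :
    ∃ ρ, 0 < ρ ∧ ρ < 1 ∧ x ≤ ρ ∧ Cv ρ g ∧ gn ρ g ≤ ρ := by
  obtain ⟨ρ, h0, h1, h2, h3⟩ := exists_rho hx H.2
  exact ⟨ρ, h0, h1, h2, H.ou ρ h0 h1, H.1.gn_le' h0 h1 h3⟩

theorem le_of_rho {x ρ₀ : ℝ} {k : ℕ} (h0 : ρ₀ < 1) (h : ∀ ρ, 0 < ρ → ρ₀ ≤ ρ → ρ < 1 → x * ρ ^ k ≤ 1) :
    x ≤ 1 := by
  have h1 : Tendsto (fun ρ : ℝ => x * ρ ^ k) (𝓝[<] 1) (𝓝 (x * 1 ^ k)) :=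
    ((continuous_const.mul (continuous_pow k)).tendsto 1).mono_left nhdsWithin_le_nhds
  rw [one_pow, mul_one] at h1
  refine le_of_tendsto h1 ?_
  filter_upwards [Ioo_mem_nhdsLT (max_lt h0 one_pos)] with ρ hρ
  exact h ρ ((le_max_right _ _).trans_lt hρ.1) ((le_max_left _ _).trans hρ.1.le) hρ.2

theorem io_C (ha : ‖a‖ ≤ 1) : Io (PowerSeries.C a) := fun n => by
  rw [coeff_C]; split_ifs <;> simp [ha]

theorem io_one : Io (1 : C⟦X⟧) := by simpa using io_C (a := (1 : C)) (by simp)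

theorem io_X : Io (X : C⟦X⟧) := fun n => by
  rw [coeff_X]; split_ifs <;> simp

theorem sm_X : Sm (X : C⟦X⟧) := ⟨io_X, by simp⟩

theorem Io.smul (H : Io f) (ha : ‖a‖ ≤ 1) : Io (a • f) := fun n => by
  rw [map_smul, norm_smul]; exact mul_le_one₀ ha (norm_nonneg _) (H n)

theorem Ou.smul (H : Ou f) (a : C) : Ou (a • f) := fun ρ h0 h1 => (H ρ h0 h1).smul a

theorem Ou.add (H : Ou f) (H' : Ou f') : Ou (f + f') := fun ρ h0 h1 => (H ρ h0 h1).add (H' ρ h0 h1)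

theorem Ou.sub (H : Ou f) (H' : Ou f') : Ou (f - f') := fun ρ h0 h1 => (H ρ h0 h1).sub (H' ρ h0 h1)

theorem ou_poly (P : Polynomial C) : Ou (P : C⟦X⟧) := fun ρ _ _ => cv_poly ρ P

theorem ou_C (a : C) : Ou (PowerSeries.C a) := fun ρ _ _ => cv_C ρ a

variable [IsUltrametricDist C]

theorem Io.add (H : Io f) (H' : Io f') : Io (f + f') := fun n => by
  rw [map_add]; exact (IsUltrametricDist.norm_add_le_max _ _).trans (max_le (H n) (H' n))

theorem Io.sub (H : Io f) (H' : Io f') : Io (f - f') := by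
  rw [sub_eq_add_neg]; exact H.add fun n => by simpa using H' n

theorem Io.mul (H : Io f) (H' : Io f') : Io (f * f') := fun n => by
  simpa using coeff_mul_le (r := 1) (A := 1) (B := 1) one_pos (fun m => by simpa using H m)
    (fun m => by simpa using H' m) n

theorem Io.pow (H : Io f) (n : ℕ) : Io (f ^ n) := by
  induction n with
  | zero => simpa using io_one
  | succ n ih => rw [pow_succ]; exact ih.mul H

theorem Io.deriv (H : Io f) : Io (d⁄dX C f) := fun n => by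
  rw [coeff_derivative, norm_mul]
  refine mul_le_one₀ (H _) (norm_nonneg _) ?_
  exact_mod_cast IsUltrametricDist.norm_natCast_le_one C (n + 1)

theorem Ou.mul (H : Ou f) (H' : Ou f') : Ou (f * f') := fun ρ h0 h1 => (H ρ h0 h1).mul (H' ρ h0 h1)

theorem Ou.deriv (H : Ou f) : Ou (d⁄dX C f) := fun ρ h0 h1 => (H ρ h0 h1).deriv h0

theorem Io.norm_ev (H : Io f) (ha : ‖a‖ < 1) : ‖ev a f‖ ≤ 1 := by
  obtain ⟨ρ, h0, h1, h2, -⟩ := exists_rho ha ha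
  exact (norm_ev_le h0 h2 (H.ou ρ h0 h1)).trans (H.gn_le h0 h1)

theorem Sm.norm_ev (H : Sm g) (ha : ‖a‖ < 1) : ‖ev a g‖ < 1 := by
  obtain ⟨ρ, h0, h1, h2, h3, h4⟩ := H.ex ha
  exact ((norm_ev_le h0 h2 h3).trans h4).trans_lt h1

variable [CompleteSpace C]

theorem Ou.ev_add (H : Ou f) (H' : Ou f') (ha : ‖a‖ < 1) : ev a (f + f') = ev a f + ev a f' := by
  obtain ⟨ρ, h0, h1, h2, -⟩ := exists_rho ha ha
  exact FI.ev_add h2 (H ρ h0 h1) (H' ρ h0 h1)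

theorem Ou.ev_sub (H : Ou f) (H' : Ou f') (ha : ‖a‖ < 1) : ev a (f - f') = ev a f - ev a f' := by
  obtain ⟨ρ, h0, h1, h2, -⟩ := exists_rho ha ha
  exact FI.ev_sub h2 (H ρ h0 h1) (H' ρ h0 h1)

theorem Ou.ev_mul (H : Ou f) (H' : Ou f') (ha : ‖a‖ < 1) : ev a (f * f') = ev a f * ev a f' := by
  obtain ⟨ρ, h0, h1, h2, -⟩ := exists_rho ha ha
  exact FI.ev_mul h0 h2 (H ρ h0 h1) (H' ρ h0 h1)

theorem Ou.ev_smul (H : Ou f) (c : C) (ha : ‖a‖ < 1) : ev a (c • f) = c * ev a f := by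
  obtain ⟨ρ, h0, h1, h2, -⟩ := exists_rho ha ha
  exact FI.ev_smul h2 (H ρ h0 h1) c

theorem ev_C' (a c : C) : ev a (PowerSeries.C c) = c := ev_C a c

/-- an integral series with constant term of norm one has values of norm one -/
theorem Io.norm_ev_sub (H : Io f) (ha : ‖a‖ < 1) : ‖ev a f - constantCoeff f‖ ≤ ‖a‖ := by
  rcases eq_or_ne a 0 with rfl | h
  · simp [ev_zero_left]
  have h0 : 0 < ‖a‖ := norm_pos_iff.2 h
  have hc : Io (PowerSeries.C (constantCoeff f)) := io_C (by simpa using H 0)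
  rw [← ev_C' a (constantCoeff f), ← H.ou.ev_sub hc.ou ha]
  exact (norm_ev_le h0 le_rfl ((H.sub hc).ou _ h0 ha)).trans
    ((H.sub hc).gn_le' h0 ha (by simp))

theorem Sm.ou_cmp (H : Sm g) (hf : Ou f) : Ou (cmp g f) := fun ρ h0 h1 => by
  obtain ⟨σ, s0, s1, s2, s3, s4⟩ := H.ex h1
  exact (Cv.cmp s0 s3 s4 (hf σ s0 s1)).mono h0 s2

theorem Sm.io_cmp (H : Sm g) (hf : Io f) : Io (cmp g f) := fun n =>
  le_of_rho (k := n) H.2 fun ρ h0 h1 h2 => by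
    have h3 := H.1.gn_le' h0 h2 h1
    exact (le_gn (H.ou_cmp hf.ou ρ h0 h2) n).trans
      ((gn_cmp_le h0 h0 (H.ou ρ h0 h2) h3 (hf.ou ρ h0 h2)).trans (hf.gn_le h0 h2))

theorem Sm.cmp (H : Sm g) (hf : Sm f) : Sm (cmp g f) :=
  ⟨H.io_cmp hf.1, by rw [constantCoeff_cmp]; exact hf.norm_ev H.2⟩

theorem Sm.ev_cmp (H : Sm g) (hf : Ou f) (ha : ‖a‖ < 1) : ev a (FI.cmp g f) = ev (ev a g) f := by
  obtain ⟨ρ, h0, h1, h2, h3, h4⟩ := H.ex ha
  exact FI.ev_cmp h0 h0 h2 h3 h4 (hf ρ h0 h1)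

theorem Sm.cmp_mul (H : Sm g) (hf : Ou f) (hf' : Ou f') :
    FI.cmp g (f * f') = FI.cmp g f * FI.cmp g f' := by
  obtain ⟨ρ, h0, h1, -, h3, h4⟩ := H.ex one_half_lt_one
  exact FI.cmp_mul h0 h0 h3 h4 (hf ρ h0 h1) (hf' ρ h0 h1)

theorem Sm.cmp_add (H : Sm g) (hf : Ou f) (hf' : Ou f') :
    FI.cmp g (f + f') = FI.cmp g f + FI.cmp g f' := by
  obtain ⟨ρ, h0, h1, -, h3, h4⟩ := H.ex one_half_lt_one
  exact FI.cmp_add h0 h0 h3 h4 (hf ρ h0 h1) (hf' ρ h0 h1)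

theorem Sm.cmp_smul (H : Sm g) (hf : Ou f) (c : C) : FI.cmp g (c • f) = c • FI.cmp g f := by
  obtain ⟨ρ, h0, h1, -, h3, h4⟩ := H.ex one_half_lt_one
  exact FI.cmp_smul h0 h0 h3 h4 (hf ρ h0 h1) c

theorem Sm.cmp_assoc (H : Sm h) (hg : Sm g) (hf : Ou f) :
    FI.cmp h (FI.cmp g f) = FI.cmp (FI.cmp h g) f := by
  obtain ⟨ρ, h0, h1, h2, h3, h4⟩ := H.ex hg.2
  exact FI.cmp_assoc h0 h0 h0 h3 h4 (hg.ou ρ h0 h1) (hg.1.gn_le' h0 h1 h2) (hf ρ h0 h1)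

theorem Sm.deriv_cmp (H : Sm g) (hf : Ou f) :
    d⁄dX C (FI.cmp g f) = FI.cmp g (d⁄dX C f) * d⁄dX C g := by
  obtain ⟨ρ, h0, h1, -, h3, h4⟩ := H.ex one_half_lt_one
  exact FI.deriv_cmp h0 h0 h3 h4 (hf ρ h0 h1)

/-- division by a linear factor -/
theorem Io.div (H : Io f) (ha : ‖a‖ < 1) (h0 : ev a f = 0) :
    ∃ q, Io q ∧ f = q * (X - PowerSeries.C a) := by
  obtain ⟨σ, s0, s1, s2, -⟩ := exists_rho ha ha
  obtain ⟨q, -, hq⟩ := exists_factor s0 (H.ou σ s0 s1) s2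
  rw [h0, map_zero, add_zero] at hq
  refine ⟨q, fun n => le_of_rho (k := n + 1) ha fun ρ r0 r1 r2 => ?_, hq⟩
  obtain ⟨q', h1, h2⟩ := exists_factor r0 (H.ou ρ r0 r2) r1
  rw [h0, map_zero, add_zero] at h2
  obtain rfl : q = q' := mul_right_cancel₀ (X_sub_C_ne a) (hq.symm.trans h2)
  have h3 := H.gn_le r0 r2
  rw [hq, gn_mul r0 h1 ((cv_X ρ).sub (cv_C ρ a)), (gn_X_sub_C r0 a).1, max_eq_left r1] at h3
  rw [pow_succ, ← mul_assoc]
  exact (mul_le_mul_of_nonneg_right (le_gn h1 n) r0.le).trans h3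

theorem Io.div_prod (H : Io f) (s : Finset C) (hs : ∀ a ∈ s, ‖a‖ < 1 ∧ ev a f = 0) :
    ∃ q, Io q ∧ f = q * (s.val.map fun a => X - PowerSeries.C a).prod := by
  classical
  induction s using Finset.induction_on with
  | empty => exact ⟨f, H, by simp⟩
  | insert a s ha ih =>
    obtain ⟨q, h1, h2⟩ := ih fun b hb => hs b (Finset.mem_insert_of_mem hb)
    obtain ⟨a1, a2⟩ := hs a (Finset.mem_insert_self a s)
    rw [h2, h1.ou.ev_mul (fun ρ _ _ => cv_prod ρ _) a1, ev_prod one_pos] at a2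
    have h3 : ev a q = 0 := (mul_eq_zero.1 a2).resolve_right fun e => by
      obtain ⟨b, hb, e'⟩ := Multiset.mem_map.1 (Multiset.prod_eq_zero_iff.1 e)
      exact ha ((sub_eq_zero.1 e' : a = b) ▸ hb)
    obtain ⟨q', h4, h5⟩ := h1.div a1 h3
    refine ⟨q', h4, ?_⟩
    rw [Finset.insert_val_of_notMem ha, Multiset.map_cons, Multiset.prod_cons, ← mul_assoc, ← h5, h2]

/-- the identity theorem -/
theorem zero_of_inf [IsAlgClosed C] (h0 : 0 < ρ) (hf : Cv ρ f)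
    (H : Set.Infinite {a : C | ‖a‖ ≤ ρ ∧ ev a f = 0}) : f = 0 := by
  classical
  by_contra f0
  obtain ⟨u, s, u1, u2, u3, -, -, e⟩ := roots h0 hf f0
  refine H (s.toFinset.finite_toSet.subset fun a ha => ?_)
  have h1 := ha.2
  rw [e, FI.ev_mul h0 ha.1 u1 (cv_prod ρ s), ev_prod one_pos] at h1
  obtain ⟨b, hb, e'⟩ := Multiset.mem_map.1 (Multiset.prod_eq_zero_iff.1
    ((mul_eq_zero.1 h1).resolve_left ((wd_eq_zero_iff h0 u1 u2).1 u3 a ha.1)))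
  simpa [(sub_eq_zero.1 e' : a = b)] using hb

theorem Ou.ext [IsAlgClosed C] (H : Ou f) (H' : Ou f') (e : ∀ a : C, ‖a‖ < 1 → ev a f = ev a f') :
    f = f' := by
  refine sub_eq_zero.1 (zero_of_inf one_half_pos (H.sub H' _ one_half_pos one_half_lt_one) ?_)
  refine (infinite_of_mem_nhds (0 : C) (Metric.closedBall_mem_nhds 0 one_half_pos)).mono
    fun a ha => ?_
  have h1 : ‖a‖ ≤ 1 / 2 := by simpa using ha
  have h2 : ‖a‖ < 1 := h1.trans_lt one_half_lt_one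
  exact ⟨h1, by rw [H.ev_sub H' h2, e a h2, sub_self]⟩

/-- limits of integral series -/
theorem exists_lim (P : ℕ → C⟦X⟧) (hP : ∀ n, Io (P n)) (ε : ℝ → ℕ → ℝ)
    (hε : ∀ ρ, 0 < ρ → ρ < 1 → Tendsto (ε ρ) atTop (𝓝 0))
    (h : ∀ ρ, 0 < ρ → ρ < 1 → ∀ n m, n ≤ m → gn ρ (P m - P n) ≤ ε ρ n) :
    ∃ y : C⟦X⟧, Io y ∧ ∀ a : C, ‖a‖ < 1 → Tendsto (fun n => ev a (P n)) atTop (𝓝 (ev a y)) := by
  have h1 : ∀ ρ, 0 < ρ → ρ < 1 → ∀ k n m, n ≤ m →
      ‖coeff k (P m) - coeff k (P n)‖ * ρ ^ k ≤ ε ρ n := fun ρ r0 r1 k n m hm => by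
    rw [← (coeff k).map_sub (P m) (P n)]
    exact (le_gn (((hP m).sub (hP n)).ou ρ r0 r1) k).trans (h ρ r0 r1 n m hm)
  have h2 : ∀ k, CauchySeq fun n => coeff k (P n) := fun k => by
    refine cauchySeq_of_le_tendsto_0' (fun n => ε (1 / 2) n / (1 / 2) ^ k) (fun n m hm => ?_)
      (by simpa using (hε _ one_half_pos one_half_lt_one).div_const ((1 / 2 : ℝ) ^ k))
    rw [dist_comm, dist_eq_norm, le_div_iff₀ (by positivity)]
    exact h1 _ one_half_pos one_half_lt_one k n m hm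
  choose y hy using fun k => cauchySeq_tendsto_of_complete (h2 k)
  have h3 : Io (mk y) := fun k => by
    rw [coeff_mk]; exact le_of_tendsto' (hy k).norm fun n => hP n k
  refine ⟨mk y, h3, fun a ha => ?_⟩
  obtain ⟨ρ, r0, r1, r2, -⟩ := exists_rho ha ha
  rw [tendsto_iff_norm_sub_tendsto_zero]
  refine squeeze_zero (fun n => norm_nonneg _) (fun n => ?_) (hε ρ r0 r1)
  rw [norm_sub_rev, ← h3.ou.ev_sub (hP n).ou ha]
  refine (norm_ev_le r0 r2 ((h3.sub (hP n)).ou ρ r0 r1)).trans (FI.gn_le fun k => ?_)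
  rw [map_sub, coeff_mk]
  exact le_of_tendsto (((hy k).sub_const _).norm.mul_const _)
    (eventually_atTop.2 ⟨n, fun m hm => h1 ρ r0 r1 k n m hm⟩)

omit [CompleteSpace C] in
/-- integers have inverses of polynomial growth -/
theorem inv_nat_le [CharZero C] : ∃ K : ℕ, ∀ n : ℕ, n ≠ 0 → ‖(n : C)‖⁻¹ ≤ (n : ℝ) ^ K := by
  by_cases hp : ∃ p : ℕ, p.Prime ∧ ‖(p : C)‖ < 1
  · obtain ⟨p, hp, h1⟩ := hp
    have h0 : 0 < ‖(p : C)‖ := norm_pos_iff.2 (Nat.cast_ne_zero.2 hp.ne_zero)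
    obtain ⟨K, hK⟩ := pow_unbounded_of_one_lt ‖(p : C)‖⁻¹ (one_lt_two (α := ℝ))
    refine ⟨K, fun n hn => ?_⟩
    obtain ⟨k, m, hm, rfl⟩ := Nat.exists_eq_pow_mul_and_not_dvd hn p hp.ne_one
    have h2 : ‖(m : C)‖ = 1 := norm_cop h1 ((Nat.Prime.coprime_iff_not_dvd hp).2 hm).symm
    have h3 : (1 : ℝ) ≤ m := by exact_mod_cast Nat.pos_of_ne_zero (right_ne_zero_of_mul hn)
    have h4 : (2 : ℝ) ≤ p := by exact_mod_cast hp.two_le
    push_cast
    rw [norm_mul, h2, mul_one, norm_pow, ← inv_pow]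
    calc ‖(p : C)‖⁻¹ ^ k ≤ (2 ^ K) ^ k := by gcongr
      _ = (2 ^ k * 1) ^ K := by rw [mul_one, ← pow_mul, ← pow_mul, mul_comm]
      _ ≤ _ := by gcongr
  · refine ⟨0, fun n hn => ?_⟩
    have h1 : ‖(n : C)‖ = 1 := by
      induction n using Nat.recOnMul with
      | zero => exact absurd rfl hn
      | one => simp
      | prime p h =>
        exact le_antisymm (IsUltrametricDist.norm_natCast_le_one C p)
          (not_lt.1 fun e => hp ⟨p, h, e⟩)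
      | mul a b ha hb =>
        rw [Nat.cast_mul, norm_mul, ha (left_ne_zero_of_mul hn), hb (right_ne_zero_of_mul hn),
          mul_one]
    simp [h1]

omit [CompleteSpace C] in
theorem Io.ou_itg [CharZero C] (H : Io f) : Ou (itg f) := fun ρ h0 h1 => by
  obtain ⟨K, hK⟩ := inv_nat_le (C := C)
  refine Cv.of_le h0 (tendsto_pow_const_mul_const_pow_of_abs_lt_one K (r := ρ)
    (by rwa [abs_of_pos h0])) fun n => ?_
  cases n with
  | zero => simp [cc_itg]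
  | succ n =>
    refine mul_le_mul_of_nonneg_right ?_ (by positivity)
    rw [coeff_itg, norm_div, div_eq_mul_inv]
    refine (mul_le_of_le_one_left (by positivity) (H n)).trans ?_
    simpa using hK (n + 1) n.succ_ne_zero

end Vale.Agent.P022K.FI.Lt
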