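import Vale.Agent.P022K.FI.Gnn
import Vale.Agent.P022K.FI.Twr
import Vale.Agent.P022K.FI.Lt3

/-!
# P022K, block FI, rows CAL, FRM, NUE, ORB: coordinates of basins, ordinary norms
-/

set_option autoImplicit false
set_option linter.all false

open PowerSeries Vale.Agent.P019P P025H746
open scoped MatrixGroups LaurentSeries

noncomputable section

namespace Vale.Agent.P022K.FI

open Vale.Agent.P022K.Sh Gn

namespace Cl

section ser

variable {C : Type} [NontriviallyNormedField C] [IsUltrametricDist C] {P Q R φ τ : C⟦X⟧}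
  {x y : C⸨X⸩}

theorem norm_sum_lt {ι : Type} (s : Finset ι) (a : ι → C) (h : ∀ i ∈ s, ‖a i‖ < 1) :
    ‖∑ i ∈ s, a i‖ < 1 := by
  classical
  induction s using Finset.induction_on with
  | empty => simp
  | insert i s hi ih =>
    rw [Finset.sum_insert hi]
    exact (IsUltrametricDist.norm_add_le_max _ _).trans_lt (max_lt (h i (by simp))
      (ih fun j hj => h j (by simp [hj])))

theorem sm_ig (h : Sm P) : Ig P := fun n => (h n).le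

theorem sm_zero : Sm (0 : C⟦X⟧) := fun n => by simp

theorem sm_add (h : Sm P) (h' : Sm Q) : Sm (P + Q) := fun n => by
  rw [map_add]
  exact (IsUltrametricDist.norm_add_le_max _ _).trans_lt (max_lt (h n) (h' n))

theorem sm_neg (h : Sm P) : Sm (-P) := fun n => by simpa using h n

theorem sm_sub (h : Sm P) (h' : Sm Q) : Sm (P - Q) := by
  rw [sub_eq_add_neg]
  exact sm_add h (sm_neg h')

theorem sm_mul (h : Sm P) (h' : Ig Q) : Sm (P * Q) := fun n => by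
  rw [coeff_mul]
  refine norm_sum_lt _ _ fun i _ => ?_
  rw [norm_mul]
  exact (mul_le_of_le_one_right (norm_nonneg _) (h' _)).trans_lt (h _)

theorem ig_mul (h : Ig P) (h' : Ig Q) : Ig (P * Q) := Lt.Io.mul h h'

theorem ig_add (h : Ig P) (h' : Ig Q) : Ig (P + Q) := Lt.Io.add h h'

theorem ig_sub (h : Ig P) (h' : Ig Q) : Ig (P - Q) := Lt.Io.sub h h'

theorem ig_pow (h : Ig P) (n : ℕ) : Ig (P ^ n) := Lt.Io.pow h n

theorem ig_X : Ig (X : C⟦X⟧) := Lt.io_X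

theorem ig_smul (h : Ig P) {a : C} (ha : ‖a‖ ≤ 1) : Ig (a • P) := Lt.Io.smul h ha

theorem sm_smul (h : Sm P) {a : C} (ha : ‖a‖ ≤ 1) : Sm (a • P) := fun n => by
  rw [map_smul, norm_smul]
  exact (mul_le_of_le_one_left (norm_nonneg _) ha).trans_lt (h n)

theorem exists_first (h : Ig P) (h' : ¬ Sm P) :
    ∃ e, (∀ n < e, ‖coeff n P‖ < 1) ∧ ‖coeff e P‖ = 1 := by
  classical
  have hex : ∃ n, ¬ ‖coeff n P‖ < 1 := not_forall.1 h'
  exact ⟨Nat.find hex, fun n hn => not_not.1 (Nat.find_min hex hn),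
    le_antisymm (h _) (not_lt.1 (Nat.find_spec hex))⟩

theorem not_sm_mul (hP : Ig P) (hQ : Ig Q) (hP' : ¬ Sm P) (hQ' : ¬ Sm Q) : ¬ Sm (P * Q) := by
  classical
  obtain ⟨e, h1, h2⟩ := exists_first hP hP'
  obtain ⟨e', h3, h4⟩ := exists_first hQ hQ'
  intro h
  have h5 := h (e + e')
  rw [coeff_mul, ← Finset.add_sum_erase _ _ (show (e, e') ∈ Finset.HasAntidiagonal.antidiagonal (e + e') by simp)]
    at h5
  have h6 : ‖∑ p ∈ (Finset.HasAntidiagonal.antidiagonal (e + e')).erase (e, e'), coeff p.1 P * coeff p.2 Q‖ < 1 := by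
    refine norm_sum_lt _ _ fun p hp => ?_
    obtain ⟨n1, n2⟩ := Finset.mem_erase.1 hp
    rw [Finset.HasAntidiagonal.mem_antidiagonal] at n2
    rw [norm_mul]
    rcases lt_trichotomy p.1 e with a | a | a
    · exact (mul_le_of_le_one_right (norm_nonneg _) (hQ _)).trans_lt (h1 _ a)
    · exact absurd (Prod.ext a (by simp; omega)) n1
    · exact (mul_le_of_le_one_left (norm_nonneg _) (hP _)).trans_lt (h3 _ (by omega))
  have h7 := IsUltrametricDist.norm_add_le_max (coeff e P * coeff e' Q +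
    ∑ p ∈ (Finset.HasAntidiagonal.antidiagonal (e + e')).erase (e, e'), coeff p.1 P * coeff p.2 Q)
    (-∑ p ∈ (Finset.HasAntidiagonal.antidiagonal (e + e')).erase (e, e'), coeff p.1 P * coeff p.2 Q)
  rw [add_neg_cancel_right, norm_mul, h2, h4, norm_neg, mul_one] at h7
  exact absurd h7 (not_le.2 (max_lt h5 h6))

theorem near_X (h : Sm (τ - X)) : Ig τ ∧ (∀ n < 1, ‖coeff n τ‖ < 1) ∧ ‖coeff 1 τ‖ = 1 := by
  refine ⟨by simpa using ig_add (sm_ig h) ig_X, fun n hn => ?_, ?_⟩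
  · obtain rfl : n = 0 := by omega
    simpa using h 0
  · have h1 := h 1
    rw [map_sub, coeff_one_X] at h1
    have := IsUltrametricDist.norm_add_eq_max_of_norm_ne_norm (x := coeff 1 τ - 1) (y := 1)
      (by rw [norm_one]; exact h1.ne)
    rwa [sub_add_cancel, norm_one, max_eq_right h1.le] at this

theorem lsm (h : Ig φ) (h0 : ‖coeff 0 φ‖ < 1) : Lt.Sm φ := ⟨h, by simpa using h0⟩

theorem near_sm (h : Sm (τ - X)) : Lt.Sm τ := lsm (near_X h).1 ((near_X h).2.1 0 one_pos)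

theorem sm_pow_sub (h : Sm (τ - X)) (n : ℕ) : Sm (τ ^ n - X ^ n) := by
  induction n with
  | zero => simpa using sm_zero
  | succ n ih =>
    have : τ ^ (n + 1) - X ^ (n + 1) = (τ ^ n - X ^ n) * τ + (τ - X) * X ^ n := by ring
    rw [this]
    exact sm_add (sm_mul ih (near_X h).1) (sm_mul h (ig_pow ig_X n))

theorem coeff_one_subst (h0 : constantCoeff φ = 0) (f : C⟦X⟧) :
    coeff 1 (f.subst φ : C⟦X⟧) = coeff 1 f * coeff 1 φ := by
  have hs := HasSubst.of_constantCoeff_zero' h0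
  obtain ⟨R, hR⟩ : X ^ 2 ∣ f - PowerSeries.C (coeff 0 f) - coeff 1 f • X :=
    X_pow_dvd_iff.2 fun m hm => by
      interval_cases m <;> simp [coeff_X, coeff_C]
  have e : f = PowerSeries.C (coeff 0 f) + coeff 1 f • X + X ^ 2 * R := by rw [← hR]; ring
  obtain ⟨ψ, hψ⟩ := X_dvd_iff.2 h0
  have h2 : coeff 1 (φ ^ 2 * (R.subst φ : C⟦X⟧)) = 0 :=
    X_pow_dvd_iff.1 (⟨ψ ^ 2 * R.subst φ, by rw [← mul_assoc, ← mul_pow, ← hψ]⟩ :
      X ^ 2 ∣ φ ^ 2 * (R.subst φ : C⟦X⟧)) 1 one_lt_two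
  conv_lhs => rw [e, subst_add hs, subst_add hs, subst_mul hs, subst_pow hs, subst_smul hs,
    subst_X hs, subst_C]
  rw [map_add, map_add, h2]
  have : coeff 1 (MvPowerSeries.C (coeff 0 f) : C⟦X⟧) = 0 := coeff_succ_C (n := 0)
  rw [this]
  simp

theorem sub_smul_cx {a c : C} {l : C⟦X⟧} (h0 : constantCoeff l = 0) (hl : l ≠ 0) (ha : a ≠ 0)
    (hc : c ≠ 0) (x : C⸨X⸩) :
    sub (a • l) (sub (PowerSeries.C c * X) x) = sub ((c * a) • l) x := by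
  have h1 : constantCoeff (a • l) = 0 := by simp [h0]
  have hs := HasSubst.of_constantCoeff_zero' h1
  rw [sub_sub (cx_zero c) (cx_ne hc) h1 (smul_ne_zero ha hl), ← smul_eq_C_mul, subst_smul hs,
    subst_X hs, smul_smul]

variable [CompleteSpace C]

theorem ig_cmp (hτ : Lt.Sm τ) (h : Ig P) : Ig (An4.cmp τ P) := hτ.io_cmp h

theorem sm_cmp_sub (h : Sm (τ - X)) (hP : Ig P) : Sm (An4.cmp τ P - P) := by
  intro n
  have hτ := near_sm h
  induction n generalizing P with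
  | zero =>
    have h1 := Lt.Io.norm_ev_sub hP hτ.2
    rw [coeff_zero_eq_constantCoeff_apply, map_sub, An4.constantCoeff_cmp]
    exact h1.trans_lt hτ.2
  | succ n ih =>
    obtain ⟨R, hR, e⟩ : ∃ R : C⟦X⟧, Ig R ∧ P = X * R + PowerSeries.C (constantCoeff P) :=
      ⟨mk fun k => coeff (k + 1) P, fun k => by rw [coeff_mk]; exact hP _,
        eq_X_mul_shift_add_const P⟩
    have e2 : An4.cmp τ P = τ * An4.cmp τ R + PowerSeries.C (constantCoeff P) := by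
      conv_lhs => rw [e, cmp4_eq, hτ.cmp_add (Lt.Io.ou (ig_mul ig_X hR)) (Lt.ou_C _),
        hτ.cmp_mul (Lt.Io.ou ig_X) (Lt.Io.ou hR), ← cmp4_eq, ← cmp4_eq, ← cmp4_eq, An4.cmp_X,
        An4.cmp_C]
    have e3 : An4.cmp τ P - P = (τ - X) * An4.cmp τ R + X * (An4.cmp τ R - R) := by
      rw [e2]
      conv_lhs => rw [e]
      simp only [map_add, map_mul, constantCoeff_X, zero_mul, constantCoeff_C, zero_add]
      ring
    rw [e3, map_add, coeff_succ_X_mul]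
    exact (IsUltrametricDist.norm_add_le_max _ _).trans_lt
      (max_lt (sm_mul h (ig_cmp hτ hR) _) (ih hR))

theorem cm_of (hτ : Lt.Sm τ) (hP : Ig P) (hQ : Ig Q) (e : x * am C Q = am C P)
    (h0 : An4.cmp τ Q ≠ 0) (e' : y * am C (An4.cmp τ Q) = am C (An4.cmp τ P)) : Cm τ x y := by
  intro P' Q' hP' hQ' e1
  have e2 : x * am C Q' = am C P' := e1
  have e3 : P * Q' = P' * Q := am_inj (by rw [map_mul, map_mul, ← e, ← e2]; ring)
  have e4 := congrArg (fun u => am C (FI.cmp τ u)) e3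
  simp only [hτ.cmp_mul (Lt.Io.ou hP) (Lt.Io.ou hQ'), hτ.cmp_mul (Lt.Io.ou hP') (Lt.Io.ou hQ),
    map_mul] at e4
  refine mul_right_cancel₀ (am_ne h0) ?_
  show y * am C (An4.cmp τ Q') * am C (An4.cmp τ Q) = am C (An4.cmp τ P') * am C (An4.cmp τ Q)
  rw [mul_right_comm, e']
  exact e4

theorem cm_zero (τ : C⟦X⟧) : Cm τ (0 : C⸨X⸩) 0 := fun P Q _ _ e => by
  have : am C P = am C 0 := by rw [map_zero]; exact e.symm.trans (zero_mul _)
  rw [am_inj this, An4.cmp_zero, zero_mul]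
  exact (map_zero (am C)).symm

variable [IsAlgClosed C] [CharZero C]

theorem cmp_ne (h : Sm (τ - X)) (hQ : Ig Q) (h0 : Q ≠ 0) : An4.cmp τ Q ≠ 0 := by
  obtain ⟨ρ, r0, r1, -, r3, r4⟩ := (near_sm h).ex one_half_lt_one
  refine cmp_ne_zero r0 r0 r3 r4 (fun c e => ?_) (Lt.Io.ou hQ ρ r0 r1) h0
  have := (near_X h).2.2
  rw [e, coeff_C, if_neg one_ne_zero, norm_zero] at this
  exact zero_ne_one this

theorem frac (hF : FAC C) {c : C} {D : C →₀ ℤ} (h : Fac x c D) :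
    ∃ P Q : C⟦X⟧, Ig P ∧ Ig Q ∧ Q ≠ 0 ∧ x * am C Q = am C P := by
  obtain ⟨P, Q, h1, h2, -, h4, e, -⟩ := hF.2.2.2.2.2.1 x c D h
  have e' : x * am C Q = algebraMap C _ c * am C P := e
  have q0 : Q ≠ 0 := fun e => h4 (e ▸ sm_zero)
  rcases le_total ‖c‖ 1 with hc | hc
  · exact ⟨c • P, Q, ig_smul h1 hc, h2, q0, by rw [am_smul, e']⟩
  · refine ⟨P, c⁻¹ • Q, h1, ig_smul h2 (by rw [norm_inv]; exact inv_le_one_of_one_le₀ hc),
      smul_ne_zero (inv_ne_zero h.1) q0, ?_⟩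
    rw [am_smul, mul_left_comm, e', ← mul_assoc, ← map_mul, inv_mul_cancel₀ h.1, map_one, one_mul]

theorem norm_lt_of_sm (hF : FAC C) {c : C} {D : C →₀ ℤ} (h : Fac x c D) (hQ : Ig Q) (hQ' : ¬ Sm Q)
    (hR : Sm R) (e : x * am C Q = am C R) : ‖c‖ < 1 := by
  obtain ⟨P₁, Q₁, h1, h2, h3, -, e1, -⟩ := hF.2.2.2.2.2.1 x c D h
  have e' : x * am C Q₁ = algebraMap C _ c * am C P₁ := e1
  by_contra hc
  refine not_sm_mul h1 hQ h3 hQ' ?_
  have : P₁ * Q = c⁻¹ • (R * Q₁) := am_inj (by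
    rw [am_smul, map_mul, map_mul, ← e, mul_right_comm x, e', ← mul_assoc, ← mul_assoc,
      ← map_mul (algebraMap C C⸨X⸩), inv_mul_cancel₀ h.1, map_one, one_mul])
  rw [this]
  exact sm_smul (sm_mul hR h2) (by rw [norm_inv]; exact inv_le_one_of_one_le₀ (not_lt.1 hc))

/-- substitution of a series without constant term keeps the norm -/
theorem fac_sub (hS : FCS C) {e : ℕ} (h1 : Ig φ) (he : 0 < e) (h2 : ∀ n < e, ‖coeff n φ‖ < 1)
    (h3 : ‖coeff e φ‖ = 1) (h0 : constantCoeff φ = 0) {c : C} {D : C →₀ ℤ} (h : Fac x c D) :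
    ∃ c' D', Fac (sub φ x) c' D' ∧ ‖c'‖ = ‖c‖ ∧ dgD D' = e * dgD D := by
  obtain ⟨a1, -, a3⟩ := hS φ e h1 he h2 h3 x c D h
  have : φ ≠ 0 := fun e => by simp [e] at h3
  obtain ⟨c', D', b1, b2, b3, -⟩ := a3 _ ((a1 h0 _).1 (sb_sub h0 this x))
  exact ⟨c', D', b1, b2, b3⟩

end ser

section lt

variable {C O E : Type} [NontriviallyNormedField C] [IsUltrametricDist C] [CompleteSpace C]
  [IsAlgClosed C] [CharZero C] [CommRing O] [IsDomain O]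
  [IsDiscreteValuationRing O] [Field E] [Algebra O E] [Algebra E C] {D : LTD C O E} {ϖ : Eˣ}

theorem lg_ne (hD : D.Ok ϖ) : D.lg ≠ 0 := fun e => by simpa [e] using hD.lg1

theorem lam0 (hD : D.Ok ϖ) (a : C) : constantCoeff (a • D.lg) = 0 := by simp [hD.lg0]

theorem lam_ne (hD : D.Ok ϖ) {a : C} (ha : a ≠ 0) : a • D.lg ≠ 0 := smul_ne_zero ha (lg_ne hD)

theorem br_one (hD : D.Ok ϖ) (a : O) : coeff 1 (D.br a) = algebraMap E C (algebraMap O E a) := by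
  have := congrArg (coeff 1) (hD.br_lg a)
  rwa [coeff_one_subst (hD.br0 a), map_smul, hD.lg1, one_mul, smul_eq_mul, mul_one] at this

theorem br_ne (hD : D.Ok ϖ) {a : O} (ha : algebraMap O E a ≠ 0) : D.br a ≠ 0 := fun e => by
  have := br_one hD a
  rw [e, map_zero] at this
  exact ha ((_root_.map_eq_zero _).1 this.symm)

theorem sub_br (hD : D.Ok ϖ) {a : O} (ha : algebraMap O E a ≠ 0) {c : C} (hc : c ≠ 0) (x : C⸨X⸩) :
    sub (D.br a) (sub (c • D.lg) x) = sub ((c * algebraMap E C (algebraMap O E a)) • D.lg) x := by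
  rw [sub_sub (lam0 hD c) (lam_ne hD hc) (hD.br0 a) (br_ne hD ha),
    subst_smul (HasSubst.of_constantCoeff_zero' (hD.br0 a)), hD.br_lg, smul_smul]

theorem unit_ne (o : Oˣ) : algebraMap O E o ≠ 0 := (o.isUnit.map (algebraMap O E)).ne_zero

theorem norm_unit (h : LF O C ϖ) (o : Oˣ) : ‖algebraMap E C (algebraMap O E o)‖ = 1 := by
  have h1 := (h.nrm _).2 (io_alg (E := E) (o : O))
  have h2 := (h.nrm _).2 (io_alg (E := E) ((o⁻¹ : Oˣ) : O))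
  have h3 : ‖algebraMap E C (algebraMap O E o)‖ * ‖algebraMap E C (algebraMap O E (o⁻¹ : Oˣ))‖ = 1 := by
    rw [← norm_mul, ← map_mul, ← map_mul, Units.mul_inv, map_one, map_one, norm_one]
  exact le_antisymm h1 (h3 ▸ mul_le_of_le_one_right (norm_nonneg _) h2)

theorem br_sm (hD : D.Ok ϖ) (a : O) : Lt.Sm (D.br a) := ⟨hD.br_ig a, by simp [hD.br0 a]⟩

theorem fac_br (hS : FCS C) (h : LF O C ϖ) (hD : D.Ok ϖ) (o : Oˣ) {x : C⸨X⸩} {c : C} {Dv : C →₀ ℤ}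
    (hx : Fac x c Dv) : ∃ c' D', Fac (sub (D.br o) x) c' D' ∧ ‖c'‖ = ‖c‖ ∧ dgD D' = dgD Dv := by
  simpa using fac_sub hS (hD.br_ig o) one_pos (fun n hn => by
    obtain rfl : n = 0 := by omega
    simp [hD.br0]) (by rw [br_one hD, norm_unit h]) (hD.br0 o) hx

theorem qq_pos (h : LF O C ϖ) : 0 < qq O :=
  have := h.fin
  Nat.card_pos

theorem f_deg (hD : D.Ok ϖ) :
    Ig D.f ∧ (∀ n < qq O, ‖coeff n D.f‖ < 1) ∧ ‖coeff (qq O) D.f‖ = 1 := by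
  refine ⟨by simpa using ig_add (sm_ig hD.f_red) (ig_pow ig_X (qq O)), fun n hn => ?_, ?_⟩
  · simpa [coeff_X_pow, hn.ne] using hD.f_red n
  · have h1 := hD.f_red (qq O)
    rw [map_sub, coeff_X_pow_self] at h1
    have := IsUltrametricDist.norm_add_eq_max_of_norm_ne_norm (x := coeff (qq O) D.f - 1) (y := 1)
      (by rw [norm_one]; exact h1.ne)
    rwa [sub_add_cancel, norm_one, max_eq_right h1.le] at this

theorem f_zero (h : LF O C ϖ) (hD : D.Ok ϖ) : constantCoeff D.f = 0 := by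
  obtain ⟨p, -, e⟩ := h.irr
  rw [← hD.f_br p e, hD.br0]

theorem f_ne (hD : D.Ok ϖ) : D.f ≠ 0 := fun e => by simpa [e] using (f_deg hD).2.2

theorem sub_f (h : LF O C ϖ) (hD : D.Ok ϖ) {c : C} (hc : c ≠ 0) (x : C⸨X⸩) :
    sub D.f (sub (c • D.lg) x) = sub ((c * algebraMap E C ϖ) • D.lg) x := by
  obtain ⟨p, -, e⟩ := h.irr
  rw [← hD.f_br p e, sub_br hD (e ▸ ϖ.ne_zero) hc, e]

theorem order_lam (hD : D.Ok ϖ) {c : C} (hc : c ≠ 0) (x : C⸨X⸩) :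
    (sub (c • D.lg) x).order = x.order := by
  have h1 := order_am_pos (lam_ne hD hc) (lam0 hD c)
  have h2 : (am C (c • D.lg)).order ≤ ((1 : ℕ) : ℤ) := HahnSeries.order_le_of_coeff_ne_zero (by
    rw [coeff_am, map_smul, hD.lg1]
    simpa using hc)
  rw [order_sub (lam0 hD c) (lam_ne hD hc), show (am C (c • D.lg)).order = 1 by omega, one_mul]

/-- translations commute with the automorphisms -/
theorem cm_br (hF : FAC C) (hD : D.Ok ϖ) (o : Oˣ) (t : E) {x y : C⸨X⸩}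
    (hx : x = 0 ∧ y = 0 ∨ ∃ c Dv, Fac x c Dv) (h : Cm (D.tr (algebraMap O E o * t)) x y) :
    Cm (D.tr t) (sub (D.br o) x) (sub (D.br o) y) := by
  rcases hx with ⟨rfl, rfl⟩ | ⟨c, Dv, hx⟩
  · rw [map_zero]
    exact cm_zero _
  obtain ⟨P, Q, hP, hQ, q0, e⟩ := frac hF hx
  have h0 := hD.br0 o
  have h1 := br_ne hD (unit_ne (E := E) o)
  have hτ := near_sm (hD.tr_red t)
  have hτ' := near_sm (hD.tr_red (algebraMap O E o * t))
  have key : ∀ R, Ig R → An4.cmp (D.tr t) (R.subst (D.br o)) =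
      (An4.cmp (D.tr (algebraMap O E o * t)) R).subst (D.br o) := fun R hR => by
    rw [← An4.cmp_eq_subst h0, ← An4.cmp_eq_subst h0]
    exact (hτ.cmp_assoc (br_sm hD o) (Lt.Io.ou hR)).trans
      ((congrArg (fun u => FI.cmp u R) (hD.tr_br t o)).trans
        ((br_sm hD o).cmp_assoc hτ' (Lt.Io.ou hR)).symm)
  have ig : ∀ R, Ig R → Ig (R.subst (D.br o)) := fun R hR => by
    rw [← An4.cmp_eq_subst h0]
    exact ig_cmp (br_sm hD o) hR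
  refine cm_of hτ (ig P hP) (ig Q hQ) (by rw [← sub_am h0 h1, ← sub_am h0 h1, ← map_mul, e])
    (cmp_ne (hD.tr_red t) (ig Q hQ) (subst_ne h0 h1 q0)) ?_
  have e2 : y * am C _ = am C _ := h P Q hP hQ e
  rw [key P hP, key Q hQ, ← sub_am h0 h1, ← sub_am h0 h1, ← map_mul, e2]

end lt

section mat

variable {E : Type} [Field E] {g k k₀ z : GL (Fin 2) E}

theorem fm_z (hz : z ∈ Zl E) : Fm (g * z) k k₀ ↔ Fm g k k₀ := by
  rw [fm_frame, ← zl_comm hz, mul_inv_cancel_right]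

theorem fm_dg_dg (s μ : Eˣ) : Fm (g * dg s) k (dg μ) ↔ Fm g k (dg μ) := by
  rw [fm_frame, ← dg_mul, mul_comm, dg_mul, mul_inv_cancel_right]

theorem fm_dg_un (s : Eˣ) (c : E) : Fm (g * dg s) k (un c) ↔ Fm g k (un (s * c)) := by
  rw [fm_frame, dg_un']

theorem fm_mul_frame (h : Fm g k k₀) : ∃ z ∈ Zl E, k * g = g * k₀ * z := by
  obtain ⟨z, hz, rfl⟩ := fm_iff.1 h
  refine ⟨z, hz, ?_⟩
  rw [mul_assoc, ← zl_comm hz]
  group

theorem borel (h : k 1 0 = 0) : ∃ (c : E) (μ : Eˣ), ∃ z ∈ Zl E, k = un c * dg μ * z ∧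
    (k 0 1 = 0 → c = 0) := by
  have hd := k.det.ne_zero
  rw [Matrix.GeneralLinearGroup.val_det_apply, Matrix.det_fin_two, h, mul_zero, sub_zero] at hd
  have h0 := left_ne_zero_of_mul hd
  have h1 := right_ne_zero_of_mul hd
  refine ⟨k 0 1 / k 1 1, Units.mk0 _ (div_ne_zero h0 h1), _, mem_Zl.2 ⟨Units.mk0 _ h1, rfl⟩, ?_,
    fun e => by rw [e, zero_div]⟩
  ext i l
  fin_cases i <;> fin_cases l <;>
    simp [un_val, dg_val, d2_val, Matrix.mul_apply, Fin.sum_univ_two, h, h1]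

end mat

variable {C L Γ O E : Type} [NontriviallyNormedField C] [IsUltrametricDist C] [CompleteSpace C]
  [IsAlgClosed C] [CharZero C] [Field L] [Algebra C L] [Group Γ] [CommRing O] [IsDomain O]
  [IsDiscreteValuationRing O] [Field E] [Algebra O E] [Algebra E C] {A : AT C L Γ O E}
  {D : LTD C O E} {x : Plk C L} {θ : L →ₐ[C] C⸨X⸩} {g : GL (Fin 2) E} {b : C}
  {ε : ℤ → L →ₐ[C] C⸨X⸩} {ν : NV C L}

theorem pi_ne (ϖ : Eˣ) : algebraMap E C ϖ ≠ 0 := (map_ne_zero _).2 ϖ.ne_zero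

theorem co_ne (hb : b ≠ 0) (n : ℤ) : b * algebraMap E C A.ϖ ^ n ≠ 0 :=
  mul_ne_zero hb (zpow_ne_zero _ (pi_ne _))

theorem eps (hD : D.Ok A.ϖ) (hB : A.Bas D x θ g b ε) (n : ℤ) (h : L) :
    ε n h = sub ((b * algebraMap E C A.ϖ ^ n) • D.lg) (θ h) :=
  (sb_iff (lam0 hD _) (lam_ne hD (co_ne hB.b0 n))).1 (hB.sb n h)

theorem eps_succ (hA : A.Ok) (hD : D.Ok A.ϖ) (hB : A.Bas D x θ g b ε) (n : ℤ) (h : L) :
    ε (n + 1) h = sub D.f (ε n h) := by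
  rw [eps hD hB, eps hD hB, sub_f hA.lf hD (co_ne hB.b0 n), zpow_add_one₀ (pi_ne _), mul_assoc]

theorem Ln_fm_dg (hA : A.Ok) {t : Γ} {m : ℤ} {o : Oˣ} {μ : Eˣ}
    (e : (μ : E) = A.ϖ ^ m * algebraMap O E o) (hf : Fm g (A.π t) (dg μ)) (n : ℤ) (h : L) :
    h ∈ A.Ln g n ↔ A.act t h ∈ A.Ln g (n + m) := by
  obtain ⟨z, hz, e1⟩ := fm_mul_frame hf
  have := Ln_frame (A := A) g n 0 μ m o e hz
  rw [un_zero, mul_one] at this
  rw [Ln_act hA g n t, e1, this]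

theorem Ln_un (g : GL (Fin 2) E) (c : E) {z : GL (Fin 2) E} (hz : z ∈ Zl E) (n : ℤ) :
    A.Ln (g * un c * z) n = A.Ln g n := by
  have := Ln_frame (A := A) g n c 1 0 1 (by simp) hz
  rwa [dg_one, mul_one, add_zero] at this

theorem Ln_z (g : GL (Fin 2) E) {z : GL (Fin 2) E} (hz : z ∈ Zl E) (n : ℤ) :
    A.Ln (g * z) n = A.Ln g n := by
  have := Ln_un (A := A) g 0 hz n
  rwa [un_zero, mul_one] at this

theorem Ln_o (g : GL (Fin 2) E) {o : Oˣ} {μ : Eˣ} (e : (μ : E) = algebraMap O E o) (n : ℤ) :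
    A.Ln (g * dg μ) n = A.Ln g n := by
  have := Ln_frame (A := A) g n 0 μ 0 o (by simpa using e) (one_mem _)
  rwa [un_zero, mul_one, mul_one, add_zero] at this

theorem Ln_fm_un (hA : A.Ok) {γ : Γ} {c : E} (hf : Fm g (A.π γ) (un c)) (n : ℤ) (h : L) :
    h ∈ A.Ln g n ↔ A.act γ h ∈ A.Ln g n := by
  obtain ⟨z, hz, e1⟩ := fm_mul_frame hf
  rw [Ln_act hA g n γ, e1, Ln_un g c hz]

theorem eps_act (hD : D.Ok A.ϖ) (hB : A.Bas D x θ g b ε) {t : Γ} (ht : t ∈ A.St x) {m : ℤ}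
    {o : Oˣ} {μ : Eˣ} (e : (μ : E) = A.ϖ ^ m * algebraMap O E o) (hf : Fm g (A.π t) (dg μ))
    (n : ℤ) (h : L) : ε n h = sub (D.br o) (ε (n + m) (A.act t h)) := by
  have h1 := pi_ne (C := C) μ
  have h2 := pi_ne (C := C) A.ϖ
  rw [eps hD hB, eps hD hB, hB.cm.lin' ht hf, sub_smul_cx hD.lg0 (lg_ne hD) (co_ne hB.b0 _)
    (inv_ne_zero h1), sub_br hD (unit_ne o) (mul_ne_zero (inv_ne_zero h1) (co_ne hB.b0 _))]
  congr 3
  have h3 : algebraMap E C (algebraMap O E o) ≠ 0 := (map_ne_zero _).2 (unit_ne o)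
  rw [e, map_mul, map_zpow₀, zpow_add₀ h2]
  field_simp

theorem mem_St_sm {γ t : Γ} : t ∈ A.St (A.sm γ x) ↔ γ⁻¹ * t * γ ∈ A.St x := by
  rw [AT.mem_St, AT.mem_St, A.sm_mul, A.sm_mul]
  refine ⟨fun h => by rw [h, ← A.sm_mul, inv_mul_cancel, A.sm_one], fun h => ?_⟩
  conv_rhs => rw [← h, ← A.sm_mul, mul_inv_cancel, A.sm_one]

theorem fm_act {γ t : Γ} {k₀ : GL (Fin 2) E} :
    Fm (A.π γ * g) (A.π t) k₀ ↔ Fm g (A.π (γ⁻¹ * t * γ)) k₀ := by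
  rw [← fm_conj (A.π γ) (g := g), map_mul, map_mul, map_inv]
  simp only [mul_assoc, mul_inv_cancel_left, mul_inv_cancel, mul_one]

theorem act_cj (γ t : Γ) (h : L) :
    A.act γ⁻¹ (A.act t h) = A.act (γ⁻¹ * t * γ) (A.act γ⁻¹ h) := by
  rw [A.act_mul, A.act_mul, A.act_inv']

theorem cm_act (h : A.CM x θ g) (γ : Γ) :
    A.CM (A.sm γ x) (θ.comp (A.act γ⁻¹ : L →ₐ[C] L)) (A.π γ * g) := by
  refine ⟨fun s => h.pl _, h.uni.elim fun s hs => ⟨A.act γ s, ?_⟩, fun t ht => ?_, fun c e he => ?_⟩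
  · show (θ (A.act γ⁻¹ (A.act γ s))).order = 1
    rwa [A.act_inv]
  · obtain ⟨μ, h1, h2⟩ := h.lin _ (mem_St_sm.1 ht)
    refine ⟨μ, fm_act.2 h1, fun s n => ?_⟩
    show (θ (A.act γ⁻¹ (A.act t s))).coeff n * _ = (θ (A.act γ⁻¹ s)).coeff n
    rw [act_cj, h2]
  · obtain ⟨t, ht, μ, h1, h2⟩ := h.den c e he
    have : γ⁻¹ * (γ * t * γ⁻¹) * γ = t := by group
    exact ⟨γ * t * γ⁻¹, mem_St_sm.2 (this.symm ▸ ht), μ, fm_act.2 (this.symm ▸ h1), h2⟩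

theorem hyp_act (hA : A.Ok) (h : A.Hyp x) (γ : Γ) : A.Hyp (A.sm γ x) := by
  obtain ⟨W, hW, δ, h1, h2, h3⟩ := h
  have : γ⁻¹ * (γ * δ * γ⁻¹) * γ = δ := by group
  refine ⟨cj γ W, hA.conj W hW γ, γ * δ * γ⁻¹, mem_cj.2 (this.symm ▸ h1),
    mem_St_sm.2 (this.symm ▸ h2), fun e => h3 ?_⟩
  simpa [mul_assoc] using (MonoidHom.normal_ker A.act).conj_mem _ e γ⁻¹

theorem cm_frame (h : A.CM x θ g) {g' : GL (Fin 2) E}
    (e : ∀ k μ, Fm g' k (dg μ) ↔ Fm g k (dg μ)) : A.CM x θ g' :=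
  ⟨h.pl, h.uni, fun t ht => (h.lin t ht).imp fun _ h => ⟨(e _ _).2 h.1, h.2⟩, fun c r hr => by
    simpa only [e] using h.den c r hr⟩

theorem bas_act (hA : A.Ok) (hB : A.Bas D x θ g b ε) (γ : Γ) :
    A.Bas D (A.sm γ x) (θ.comp (A.act γ⁻¹ : L →ₐ[C] L)) (A.π γ * g) b
      fun n => (ε n).comp (A.act γ⁻¹ : L →ₐ[C] L) := by
  have k : ∀ n, ∀ h ∈ A.Ln (A.π γ * g) n, A.act γ⁻¹ h ∈ A.Ln g n := fun n h hh =>
    (Ln_act hA g n γ _).2 (by rwa [A.act_inv'])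
  refine ⟨cm_act hB.cm γ, hyp_act hA hB.hyp γ, hB.b0, fun n h => hB.sb n _, fun n h hh h0 =>
    hB.fac n _ (k n h hh) ((map_ne_zero _).2 h0), fun n c δ hδ hf h hh => ?_⟩
  show Cm _ (ε n (A.act γ⁻¹ h)) (ε n (A.act γ⁻¹ (A.act δ h)))
  rw [act_cj]
  exact hB.trn n c _ (H_conj hA hδ γ) (fm_act.1 hf) _ (k n h hh)

theorem bas_z (hB : A.Bas D x θ g b ε) {z : GL (Fin 2) E} (hz : z ∈ Zl E) :
    A.Bas D x θ (g * z) b ε :=
  ⟨cm_frame hB.cm fun _ _ => fm_z hz, hB.hyp, hB.b0, hB.sb,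
    fun n h hh => hB.fac n h (Ln_z (A := A) g hz n ▸ hh),
    fun n c δ hδ hf h hh => hB.trn n c δ hδ ((fm_z hz).1 hf) h (Ln_z (A := A) g hz n ▸ hh)⟩

theorem bas_pi (hB : A.Bas D x θ g b ε) (m : ℤ) :
    A.Bas D x θ (g * dg (A.ϖ ^ m)) (b * algebraMap E C A.ϖ ^ m) fun n => ε (n + m) := by
  refine ⟨cm_frame hB.cm fun _ _ => fm_dg_dg _ _, hB.hyp, co_ne hB.b0 m, fun n h => ?_,
    fun n h hh => hB.fac _ h (Ln_dg (A := A) g n m ▸ hh), fun n c δ hδ hf h hh => ?_⟩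
  · rw [mul_assoc, ← zpow_add₀ (pi_ne _), add_comm m]
    exact hB.sb _ h
  · have := hB.trn (n + m) _ δ hδ ((fm_dg_un _ _).1 hf) h (Ln_dg (A := A) g n m ▸ hh)
    rwa [zpow_add, Units.val_mul, mul_comm ((A.ϖ ^ n : Eˣ) : E),
      mul_div_mul_left _ _ (Units.ne_zero _)] at this

theorem bas_o (hA : A.Ok) (hF : FAC C) (hS : FCS C) (hD : D.Ok A.ϖ) (hB : A.Bas D x θ g b ε)
    {o : Oˣ} {μ : Eˣ} (e : (μ : E) = algebraMap O E o) :
    A.Bas D x θ (g * dg μ) (b * algebraMap E C μ) fun n => (sub (D.br o)).comp (ε n) := by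
  have b0 := mul_ne_zero hB.b0 (pi_ne (C := C) μ)
  refine ⟨cm_frame hB.cm fun _ _ => fm_dg_dg _ _, hB.hyp, b0, fun n h => ?_,
    fun n h hh h0 => ?_, fun n c δ hδ hf h hh => ?_⟩
  · refine (sb_iff (lam0 hD _) (lam_ne hD (co_ne b0 n))).2 ?_
    rw [AlgHom.comp_apply, eps hD hB, sub_br hD (unit_ne o) (co_ne hB.b0 n), e, mul_right_comm]
  · obtain ⟨c, Dv, h1⟩ := hB.fac n h (Ln_o (A := A) g e n ▸ hh) h0
    obtain ⟨c', D', h2, -⟩ := fac_br hS hA.lf hD o h1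
    exact ⟨c', D', h2⟩
  · rw [Ln_o (A := A) g e n] at hh
    have := hB.trn n _ δ hδ ((fm_dg_un _ _).1 hf) h hh
    rw [e, mul_div_assoc] at this
    refine cm_br hF hD o _ ?_ this
    rcases eq_or_ne h 0 with rfl | h0
    · exact Or.inl ⟨map_zero _, by rw [map_zero, map_zero]⟩
    · exact Or.inr (hB.fac n h hh h0)

theorem fac_up (hA : A.Ok) (hS : FCS C) (hD : D.Ok A.ϖ) (hB : A.Bas D x θ g b ε) {n n' : ℤ}
    (hn : n ≤ n') {h : L} {c : C} {Dv : C →₀ ℤ} (hf : Fac (ε n h) c Dv) :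
    ∃ c' D', Fac (ε n' h) c' D' ∧ ‖c'‖ = ‖c‖ := by
  induction n', hn using Int.le_induction with
  | base => exact ⟨c, Dv, hf, rfl⟩
  | succ m _ ih =>
    obtain ⟨c', D', h1, h2⟩ := ih
    obtain ⟨c'', D'', h3, h4, -⟩ := fac_sub hS (f_deg hD).1 (qq_pos hA.lf) (f_deg hD).2.1
      (f_deg hD).2.2 (f_zero hA.lf hD) h1
    exact ⟨c'', D'', by rwa [eps_succ hA hD hB], h4.trans h2⟩

theorem ne_of_fac (hF : FAC C) {n : ℤ} {h : L} {c : C} {Dv : C →₀ ℤ} (hf : Fac (ε n h) c Dv) :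
    h ≠ 0 := fun e => (hF.2.2.1 _ _ _ hf).1 (by rw [e, map_zero])

theorem exists_two (hA : A.Ok) (hM : A.MAT) (g : GL (Fin 2) E) (h h' : L) :
    ∃ n, h ∈ A.Ln g n ∧ h' ∈ A.Ln g n := by
  obtain ⟨m, hm⟩ := exists_Ln hA hM g h
  obtain ⟨n, hn⟩ := exists_Ln hA hM g h'
  exact ⟨max m n, Ln_mono hA g (le_max_left _ _) hm, Ln_mono hA g (le_max_right _ _) hn⟩

theorem exists_gv (hA : A.Ok) (hM : A.MAT) (hF : FAC C) (hS : FCS C) (hD : D.Ok A.ϖ)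
    (hB : A.Bas D x θ g b ε) : ∃ ν, A.Gv g ε ν := by
  have ex : ∀ h : L, ∃ r : ℝ, (h = 0 → r = 0) ∧ ∀ n c Dv, Fac (ε n h) c Dv → r = ‖c‖ := fun h => by
    rcases eq_or_ne h 0 with h0 | h0
    · exact ⟨0, fun _ => rfl, fun n c Dv hf => absurd h0 (ne_of_fac hF hf)⟩
    obtain ⟨m, hm⟩ := exists_Ln hA hM g h
    obtain ⟨c, Dv, hf⟩ := hB.fac m h hm h0
    refine ⟨‖c‖, fun e => absurd e h0, fun n c' D' hf' => ?_⟩
    obtain ⟨c₁, D₁, a1, a2⟩ := fac_up hA hS hD hB (le_max_left m n) hf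
    obtain ⟨c₂, D₂, b1, b2⟩ := fac_up hA hS hD hB (le_max_right m n) hf'
    rw [← a2, ← b2, (hF.1 _ _ _ _ _ a1 b1).1]
  choose N N0 hN using ex
  have pos : ∀ h, h ≠ 0 → 0 < N h := fun h h0 => by
    obtain ⟨m, hm⟩ := exists_Ln hA hM g h
    obtain ⟨c, Dv, hf⟩ := hB.fac m h hm h0
    rw [hN h m c Dv hf]
    exact norm_pos_iff.2 hf.1
  have nn : ∀ h, 0 ≤ N h := fun h => by
    rcases eq_or_ne h 0 with h0 | h0
    · exact (N0 h h0).ge
    · exact (pos h h0).le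
  have na : ∀ h h', N (h + h') ≤ max (N h) (N h') := fun h h' => by
    rcases eq_or_ne h 0 with rfl | h0
    · rw [zero_add]; exact le_max_right _ _
    rcases eq_or_ne h' 0 with rfl | h0'
    · rw [add_zero]; exact le_max_left _ _
    rcases eq_or_ne (h + h') 0 with e | h1
    · rw [N0 _ e]; exact le_max_of_le_left (nn h)
    obtain ⟨n, a, a'⟩ := exists_two hA hM g h h'
    obtain ⟨c, Dv, hf⟩ := hB.fac n h a h0
    obtain ⟨c', D', hf'⟩ := hB.fac n h' a' h0'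
    obtain ⟨c'', D'', hf''⟩ := hB.fac n _ (add_mem a a') h1
    rw [hN _ _ _ _ hf, hN _ _ _ _ hf', hN _ _ _ _ hf'']
    exact (hF.2.2.2.2.1 _ _ _ _ _ _ _ _ hf hf' (by rwa [map_add] at hf'')).1
  refine ⟨⟨⟨⟨N, fun h h' => ?_⟩, nn, fun h => ⟨fun e => by_contra fun h0 => (pos h h0).ne' e, N0 h⟩,
    fun h h' => (na h h').trans (max_le_add_of_nonneg (nn h) (nn h'))⟩, na, fun c => ?_⟩,
    fun n h _ c Dv hf => hN h n c Dv hf⟩
  · rcases eq_or_ne h 0 with rfl | h0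
    · simp [N0 0 rfl]
    rcases eq_or_ne h' 0 with rfl | h0'
    · simp [N0 0 rfl]
    obtain ⟨n, a, a'⟩ := exists_two hA hM g h h'
    obtain ⟨c, Dv, hf⟩ := hB.fac n h a h0
    obtain ⟨c', D', hf'⟩ := hB.fac n h' a' h0'
    have := hF.2.1 _ _ _ _ _ _ hf hf'
    rw [← map_mul] at this
    show N (h * h') = N h * N h'
    rw [hN _ _ _ _ hf, hN _ _ _ _ hf', hN _ _ _ _ this, norm_mul]
  · show N _ = _
    rcases eq_or_ne c 0 with rfl | h0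
    · simp [N0 0 rfl]
    · exact hN _ 0 c 0 (by rw [AlgHom.commutes]; exact hF.2.2.2.1 c h0)

theorem nv_ext (hA : A.Ok) (hM : A.MAT) (hB : A.Bas D x θ g b ε) {f f' : L → ℝ} (h0 : f 0 = f' 0)
    (h : ∀ n, ∀ s ∈ A.Ln g n, ∀ c Dv, Fac (ε n s) c Dv → f s = f' s) (s : L) : f s = f' s := by
  rcases eq_or_ne s 0 with rfl | s0
  · exact h0
  obtain ⟨n, hn⟩ := exists_Ln hA hM g s
  obtain ⟨c, Dv, hf⟩ := hB.fac n s hn s0
  exact h n s hn c Dv hf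

theorem gv_unique (hA : A.Ok) (hM : A.MAT) (hB : A.Bas D x θ g b ε) {ν' : NV C L}
    (h : A.Gv g ε ν) (h' : A.Gv g ε ν') : ν' = ν :=
  NV.ext (AbsoluteValue.ext (nv_ext hA hM hB (by simp) fun n s hs c Dv hf =>
    (h' n s hs c Dv hf).trans (h n s hs c Dv hf).symm))

theorem nu_St (hA : A.Ok) (hM : A.MAT) (hF : FAC C) (hS : FCS C) (hD : D.Ok A.ϖ)
    (hB : A.Bas D x θ g b ε) (hν : A.Gv g ε ν) {t : Γ} (ht : t ∈ A.St x) (h : L) :
    ν (A.act t h) = ν h := by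
  obtain ⟨μ, hf, -⟩ := hB.cm.lin t ht
  obtain ⟨m, o, e⟩ := hM.2.2.2.2.2.2.2.2.2 μ
  refine nv_ext hA hM hB (f := fun h => ν (A.act t h)) (by simp) (fun n s hs c Dv h1 => ?_) h
  have h2 := (Ln_fm_dg hA e hf n s).1 hs
  obtain ⟨c', D', h3⟩ := hB.fac _ _ h2 ((map_ne_zero _).2 (ne_of_fac hF h1))
  obtain ⟨c'', D'', h4, h5, -⟩ := fac_br hS hA.lf hD o h3
  rw [← eps_act hD hB ht e hf] at h4
  rw [hν _ _ h2 _ _ h3, hν _ _ hs _ _ h4, h5]

theorem nu_un (hA : A.Ok) (hM : A.MAT) (hS : FCS C) (hD : D.Ok A.ϖ)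
    (hB : A.Bas D x θ g b ε) (hν : A.Gv g ε ν) {γ : Γ} (hγ : γ ∈ A.H) {c : E}
    (hf : Fm g (A.π γ) (un c)) (h : L) : ν (A.act γ h) = ν h := by
  refine nv_ext hA hM hB (f := fun h => ν (A.act γ h)) (by simp) (fun n s hs a Dv h1 => ?_) h
  obtain ⟨t1, t2, t3⟩ := near_X (hD.tr_red (c / (A.ϖ ^ n : Eˣ)))
  obtain ⟨c', D', h2, h3, -⟩ := (hS _ 1 t1 one_pos t2 t3 _ _ _ h1).2.2 _ (hB.trn n c γ hγ hf s hs)
  rw [hν _ _ ((Ln_fm_un hA hf n s).1 hs) _ _ h2, hν _ _ hs _ _ h1, h3]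

theorem nu_un_lt (hA : A.Ok) (hM : A.MAT) (hF : FAC C) (hD : D.Ok A.ϖ)
    (hB : A.Bas D x θ g b ε) (hν : A.Gv g ε ν) {γ : Γ} (hγ : γ ∈ A.H) {c : E}
    (hf : Fm g (A.π γ) (un c)) {h : L} (h1 : ν h ≤ 1) : ν (A.act γ h - h) < 1 := by
  rcases eq_or_ne (A.act γ h - h) 0 with e | h0
  · simp [e]
  have h2 : h ≠ 0 := fun e => h0 (by simp [e])
  obtain ⟨n, hn⟩ := exists_Ln hA hM g h
  have hn' := sub_mem ((Ln_fm_un hA hf n h).1 hn) hn
  obtain ⟨a, Dv, h3⟩ := hB.fac n h hn h2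
  obtain ⟨a', D', h4⟩ := hB.fac n _ hn' h0
  rw [hν _ _ hn _ _ h3] at h1
  rw [hν _ _ hn' _ _ h4]
  obtain ⟨P, Q, hP, hQ, -, hQ', e, -⟩ := hF.2.2.2.2.2.1 _ _ _ h3
  have hP' := ig_smul hP h1
  have e1 : ε n h * am C Q = am C (a • P) := by rw [am_smul]; exact e
  have e2 : ε n (A.act γ h) * am C _ = am C _ := hB.trn n c γ hγ hf h hn _ _ hP' hQ e1
  have hτ := hD.tr_red (c / (A.ϖ ^ n : Eˣ))
  generalize D.tr (c / (A.ϖ ^ n : Eˣ)) = τ at e2 hτ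
  have s1 := sm_cmp_sub hτ hP'
  have s2 := sm_cmp_sub hτ hQ
  have i2 := ig_cmp (near_sm hτ) hQ
  refine norm_lt_of_sm hF h4 (ig_mul hQ i2) (not_sm_mul hQ i2 hQ' fun e => hQ' ?_)
    (sm_sub (sm_mul s1 hQ) (sm_mul s2 hP')) ?_
  · simpa using sm_sub e s2
  · simp only [map_sub, map_mul]
    rw [← e1, ← e2]
    ring

/-- the norm `ν ∘ γ` -/
def nvA (A : AT C L Γ O E) (ν : NV C L) (γ : Γ) : NV C L where
  av := ν.av.comp (f := (A.act γ : L →+* L)) (A.act γ).injective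
  na x y := by
    show ν (A.act γ (x + y)) ≤ max (ν (A.act γ x)) (ν (A.act γ y))
    rw [map_add]
    exact ν.na _ _
  ext' c := by
    show ν (A.act γ (algebraMap C L c)) = ‖c‖
    rw [AlgEquiv.commutes, ν.ext']

theorem nvA_apply (γ : Γ) (h : L) : nvA A ν γ h = ν (A.act γ h) := rfl

theorem gv_act (hA : A.Ok) (hν : A.Gv g ε ν) (γ : Γ) :
    A.Gv (A.π γ * g) (fun n => (ε n).comp (A.act γ⁻¹ : L →ₐ[C] L)) (nvA A ν γ⁻¹) :=
  fun n h hh c Dv hf => hν n (A.act γ⁻¹ h) ((Ln_act hA g n γ _).2 (by rwa [A.act_inv'])) c Dv hf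

theorem frame_diag (hA : A.Ok) (hM : A.MAT) (hF : FAC C) (hS : FCS C) (hD : D.Ok A.ϖ)
    (hB : A.Bas D x θ g b ε) (hν : A.Gv g ε ν) (μ : Eˣ) {z : GL (Fin 2) E} (hz : z ∈ Zl E) :
    ∃ b' ε', A.Bas D x θ (g * dg μ * z) b' ε' ∧ A.Gv (g * dg μ * z) ε' ν := by
  obtain ⟨m, o, e⟩ := hM.2.2.2.2.2.2.2.2.2 μ
  have e1 : ((μ * (A.ϖ ^ m)⁻¹ : Eˣ) : E) = algebraMap O E o := by
    rw [Units.val_mul, e, Units.val_inv_eq_inv_val, Units.val_zpow_eq_zpow_val, mul_comm,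
      inv_mul_cancel_left₀ (zpow_ne_zero _ A.ϖ.ne_zero)]
  have e2 : g * dg μ = g * dg (A.ϖ ^ m) * dg (μ * (A.ϖ ^ m)⁻¹) := by
    rw [mul_assoc, ← dg_mul, mul_comm μ, mul_inv_cancel_left]
  have hB1 := bas_pi hB m
  refine ⟨_, _, e2 ▸ bas_z (bas_o hA hF hS hD hB1 e1) hz, fun n h hh c Dv hf => ?_⟩
  rw [Ln_z _ hz, e2, Ln_o _ e1] at hh
  obtain ⟨c', D', h1⟩ := hB1.fac n h hh fun e => (hF.2.2.1 _ _ _ hf).1 (by rw [e, map_zero])
  obtain ⟨c'', D'', h2, h3, -⟩ := fac_br hS hA.lf hD o h1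
  rw [Ln_dg] at hh
  rw [hν _ _ hh _ _ h1, ← h3]
  exact (hF.1 _ _ _ _ _ h2 hf).1

theorem exists_un (hS : A.SA) (g : GL (Fin 2) E) (c : E) :
    ∃ γ ∈ A.H, A.π γ = g * un c * g⁻¹ := hS.1 _ (by
  rw [map_mul, map_mul, map_inv, mul_comm g.det, mul_inv_cancel_right]
  ext
  simp [un_val, Matrix.det_fin_two])

end Cl

open Cl

variable {C L Γ O E : Type} [NontriviallyNormedField C] [IsUltrametricDist C] [CompleteSpace C]
  [IsAlgClosed C] [CharZero C] [Field L] [Algebra C L] [Group Γ] [CommRing O] [IsDomain O]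
  [IsDiscreteValuationRing O] [Field E] [Algebra O E] [Algebra E C] {A : AT C L Γ O E}

/-- **CAL** -/
theorem cal (hA : A.Ok) (hF : FAC C) : A.CAL := fun D hD x θ g b ε hB => by
  have h2 : ∀ n h, (ε n h).order = (θ h).order := fun n h => by
    rw [eps hD hB, order_lam hD (co_ne hB.b0 n)]
  refine ⟨fun n h => (sb_iff (f_zero hA.lf hD) (f_ne hD)).2 (eps_succ hA hD hB n h), h2,
    fun n => ⟨by simp, fun h _ c Dv hf => ?_⟩, fun t ht m o μ e hf n h =>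
      ⟨Ln_fm_dg hA e hf n h, (sb_iff (hD.br0 o) (br_ne hD (unit_ne o))).2
        (eps_act hD hB ht e hf n h)⟩⟩
  rw [hB.cm.pl, ← h2 n, (hF.2.2.1 _ _ _ hf).2.2]

/-- **FRM** -/
theorem frm (hA : A.Ok) (hF : FAC C) (hS : FCS C) : A.FRM := fun D hD x θ g b ε hB =>
  ⟨bas_act hA hB, fun _ => bas_z hB, bas_pi hB, fun o μ e => ⟨_, bas_o hA hF hS hD hB e,
    fun n h => sb_sub (hD.br0 o) (br_ne hD (unit_ne o)) _⟩⟩

/-- **NUE** -/
theorem nue (hA : A.Ok) (hM : A.MAT) (hF : FAC C) (hS : FCS C) : A.NUE :=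
  fun D hD x θ g b ε hB =>
  ⟨(exists_gv hA hM hF hS hD hB).elim fun ν h => ⟨ν, h, fun _ h' => gv_unique hA hM hB h h'⟩,
    fun ν hν => ⟨fun t ht => nu_St hA hM hF hS hD hB hν ht, fun γ hγ c hf h =>
      ⟨nu_un hA hM hS hD hB hν hγ hf h, nu_un_lt hA hM hF hD hB hν hγ hf⟩⟩⟩

/-- **ORB** -/
theorem orb (hA : A.Ok) (hM : A.MAT) (hF : FAC C) (hS : FCS C) (hsa : A.SA) (hH : A.HYP)
    (hb : A.BAS) (hU : A.UNQ) : A.ORB := fun D hD => by
  refine ⟨?_, ?_⟩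
  · obtain ⟨x, hx⟩ := hA.ex
    obtain ⟨θ, g, h⟩ := hA.cm x hx
    obtain ⟨b, ε, hB⟩ := hb D hD x θ g h hx
    obtain ⟨ν, hν⟩ := exists_gv hA hM hF hS hD hB
    exact ⟨ν, g, x, θ, b, ε, hB, hν⟩
  rintro ν g ⟨x, θ, b, ε, hB, hν⟩
  refine ⟨fun k hk => ?_, fun γ => ⟨nvA A ν γ⁻¹, fun h => by rw [nvA_apply, A.act_inv],
    _, _, _, _, bas_act hA hB γ, gv_act hA hν γ⟩, fun x θ b ε θ' g' b' ε' ν' h1 h2 h3 h4 => ?_⟩
  · obtain ⟨c, μ, z, hz, rfl, -⟩ := borel hk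
    obtain ⟨γ, hγ, e⟩ := exists_un hsa g c
    have h1 := bas_act hA hB γ
    have h2 := gv_act hA hν γ
    have h3 : nvA A ν γ⁻¹ = ν := NV.ext (AbsoluteValue.ext fun h => by
      have := nu_un hA hM hS hD hB hν hγ (e ▸ fm_self g (un c)) (A.act γ⁻¹ h)
      rw [A.act_inv'] at this
      exact this.symm)
    rw [e, inv_mul_cancel_right] at h1 h2
    rw [h3] at h2
    obtain ⟨b', ε', h4, h5⟩ := frame_diag hA hM hF hS hD h1 h2 μ hz
    rw [← mul_assoc, ← mul_assoc]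
    exact ⟨_, _, b', ε', h4, h5⟩
  · obtain ⟨a1, a2⟩ := (hH x θ g h1.cm).2.2 θ' g' h3.cm
    obtain ⟨c, μ, z, hz, e, hc⟩ := borel a1
    rw [hc a2, un_zero, one_mul, inv_mul_eq_iff_eq_mul, ← mul_assoc] at e
    obtain ⟨b₁, ε₁, h5, h6⟩ := frame_diag hA hM hF hS hD h1 h2 μ hz
    rw [← e] at h5 h6
    rw [hU D hD _ _ _ _ _ _ _ _ h5 h3] at h4
    exact gv_unique hA hM h5 h6 h4

end Vale.Agent.P022K.FI
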