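import Vale.Agent.P022K.FI.AnW

/-!
# P022 block FI, row AN1: meromorphic functions on a closed disc

`Fr A` fractions of a subalgebra of `C⟦X⟧` inside `C⸨X⸩`, `MM C r`, the norm `nm r`, `nv`,
composition `cmF`, `cmM`, formal substitution `sub`, orders `od r a`.
-/

set_option linter.all false

noncomputable section

open PowerSeries Filter Topology LaurentSeries P025H746

namespace Vale.Agent.P022K.FI

section fr

variable {C : Type} [Field C]

variable (C) in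
/-- power series as Laurent series -/
abbrev am : C⟦X⟧ →+* C⸨X⸩ := algebraMap C⟦X⟧ C⸨X⸩

theorem am_inj : Function.Injective (am C) := IsFractionRing.injective _ _

theorem am_ne {f : C⟦X⟧} (h : f ≠ 0) : am C f ≠ 0 := (map_ne_zero_iff _ am_inj).2 h

theorem am_C (c : C) : am C (PowerSeries.C c) = algebraMap C C⸨X⸩ c := rfl

theorem am_smul (c : C) (f : C⟦X⟧) : am C (c • f) = algebraMap C C⸨X⸩ c * am C f := by
  rw [smul_eq_C_mul, map_mul, am_C]

theorem coeff_am (f : C⟦X⟧) (n : ℕ) : (am C f).coeff n = coeff n f :=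
  HahnSeries.ofPowerSeries_apply_coeff f n

theorem coeff_am_neg (f : C⟦X⟧) {n : ℤ} (hn : n < 0) : (am C f).coeff n = 0 := by
  have := PowerSeries.coeff_coe f n
  rwa [if_pos hn] at this

theorem order_am {f : C⟦X⟧} (h : f ≠ 0) : (am C f).order = f.order.toNat := by
  refine le_antisymm (HahnSeries.order_le_of_coeff_ne_zero ?_) ?_
  · rw [coeff_am]; exact coeff_order h
  · by_contra h1
    have h2 := HahnSeries.coeff_order_eq_zero.not.2 (am_ne h)
    rcases lt_or_ge (am C f).order 0 with e | e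
    · exact h2 (coeff_am_neg f e)
    · obtain ⟨n, hn⟩ := Int.eq_ofNat_of_zero_le e
      rw [hn] at h1 h2
      rw [coeff_am] at h2
      exact h2 (coeff_of_lt_order_toNat n (by exact_mod_cast not_le.1 h1))

theorem order_am_nonneg (f : C⟦X⟧) : 0 ≤ (am C f).order := by
  by_cases h : f = 0
  · simp [h]
  · rw [order_am h]; positivity

theorem order_am_eq_zero {f : C⟦X⟧} (h : constantCoeff f ≠ 0) : (am C f).order = 0 :=
  le_antisymm (HahnSeries.order_le_of_coeff_ne_zero (by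
    have := coeff_am f 0
    rw [Nat.cast_zero] at this
    rwa [this, coeff_zero_eq_constantCoeff_apply])) (order_am_nonneg f)

theorem order_am_pos {f : C⟦X⟧} (f0 : f ≠ 0) (h : constantCoeff f = 0) : 0 < (am C f).order := by
  refine lt_of_le_of_ne (order_am_nonneg f) fun e => HahnSeries.coeff_order_eq_zero.not.2 (am_ne f0) ?_
  have := coeff_am f 0
  rw [Nat.cast_zero] at this
  rw [← e, this, coeff_zero_eq_constantCoeff_apply, h]

theorem order_am_X : (am C X).order = 1 := by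
  rw [order_am X_ne_zero, order_X]; rfl

theorem order_inv (x : C⸨X⸩) : (x⁻¹).order = -x.order := by
  by_cases h : x = 0
  · simp [h]
  have := HahnSeries.order_mul h (inv_ne_zero h)
  rw [mul_inv_cancel₀ h, HahnSeries.order_one] at this
  omega

theorem order_div {x y : C⸨X⸩} (hx : x ≠ 0) (hy : y ≠ 0) : (x / y).order = x.order - y.order := by
  rw [div_eq_mul_inv, HahnSeries.order_mul hx (inv_ne_zero hy), order_inv, sub_eq_add_neg]

theorem order_zpow (x : C⸨X⸩) (n : ℤ) : (x ^ n).order = n * x.order := by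
  obtain ⟨m, rfl | rfl⟩ := Int.eq_nat_or_neg n
  · simp
  · simp [order_inv]

theorem order_const (c : C) : (algebraMap C C⸨X⸩ c).order = 0 := by
  rw [LaurentSeries.algebraMap_apply, HahnSeries.order_C]

theorem exists_am {x : C⸨X⸩} (h : 0 ≤ x.order) : ∃ f, x = am C f := by
  obtain ⟨n, hn⟩ := Int.eq_ofNat_of_zero_le h
  exact ⟨_, (X_order_mul_powerSeriesPart hn.symm).symm⟩

theorem exists_div (x : C⸨X⸩) : ∃ a b : C⟦X⟧, b ≠ 0 ∧ x = am C a / am C b := by
  obtain ⟨a, b, hb, e⟩ := IsFractionRing.div_surjective (A := C⟦X⟧) x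
  exact ⟨a, b, nonZeroDivisors.ne_zero hb, e.symm⟩

variable (C) in
/-- the valuation ring of the Laurent series -/
def OL : ValuationSubring C⸨X⸩ where
  toSubring := (am C).range
  mem_or_inv_mem' x := by
    rcases le_total 0 x.order with h | h
    · obtain ⟨f, e⟩ := exists_am h
      exact Or.inl ⟨f, e.symm⟩
    · obtain ⟨f, e⟩ := exists_am (x := x⁻¹) (by rw [order_inv]; omega)
      exact Or.inr ⟨f, e.symm⟩

theorem mem_OL {x : C⸨X⸩} : x ∈ OL C ↔ 0 ≤ x.order :=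
  ⟨fun ⟨f, e⟩ => e ▸ order_am_nonneg f, fun h => (exists_am h).imp fun _ e => e.symm⟩

/-- fractions of a subalgebra -/
def Fr (A : Subalgebra C C⟦X⟧) : IntermediateField C C⸨X⸩ where
  carrier := {x | ∃ a b : C⟦X⟧, a ∈ A ∧ b ∈ A ∧ b ≠ 0 ∧ x = am C a / am C b}
  mul_mem' := by
    rintro _ _ ⟨a, b, h1, h2, h3, rfl⟩ ⟨c, d, h4, h5, h6, rfl⟩
    exact ⟨a * c, b * d, A.mul_mem h1 h4, A.mul_mem h2 h5, mul_ne_zero h3 h6, by
      rw [map_mul, map_mul, div_mul_div_comm]⟩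
  add_mem' := by
    rintro _ _ ⟨a, b, h1, h2, h3, rfl⟩ ⟨c, d, h4, h5, h6, rfl⟩
    exact ⟨a * d + b * c, b * d, A.add_mem (A.mul_mem h1 h5) (A.mul_mem h2 h4), A.mul_mem h2 h5,
      mul_ne_zero h3 h6, by rw [map_add, map_mul, map_mul, map_mul, div_add_div _ _ (am_ne h3) (am_ne h6)]⟩
  algebraMap_mem' c := ⟨PowerSeries.C c, 1, A.algebraMap_mem c, A.one_mem, one_ne_zero, by
    rw [map_one, div_one, am_C]⟩
  inv_mem' := by
    rintro _ ⟨a, b, h1, h2, h3, rfl⟩
    by_cases h : a = 0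
    · exact ⟨0, 1, A.zero_mem, A.one_mem, one_ne_zero, by simp [h]⟩
    · exact ⟨b, a, h2, h1, h, by rw [inv_div]⟩

variable {A : Subalgebra C C⟦X⟧} {a b : C⟦X⟧} {x y : C⸨X⸩}

theorem mem_Fr : x ∈ Fr A ↔ ∃ a b : C⟦X⟧, a ∈ A ∧ b ∈ A ∧ b ≠ 0 ∧ x = am C a / am C b := Iff.rfl

theorem am_mem_Fr (ha : a ∈ A) : am C a ∈ Fr A :=
  ⟨a, 1, ha, A.one_mem, one_ne_zero, by rw [map_one, div_one]⟩

theorem Fr_mono {B : Subalgebra C C⟦X⟧} (h : A ≤ B) : Fr A ≤ Fr B :=
  fun _ ⟨a, b, h1, h2, h3, e⟩ => ⟨a, b, h h1, h h2, h3, e⟩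

variable {K : Type} [Field K]

open Classical in
/-- extension of a multiplicative map to the fractions -/
def lf (A : Subalgebra C C⟦X⟧) (φ : C⟦X⟧ → K) (x : C⸨X⸩) : K :=
  if h : x ∈ Fr A then φ (mem_Fr.1 h).choose / φ (mem_Fr.1 h).choose_spec.choose else 0

/-- multiplicative on `A` with trivial kernel -/
structure Mu (A : Subalgebra C C⟦X⟧) (φ : C⟦X⟧ → K) : Prop where
  mul : ∀ a ∈ A, ∀ b ∈ A, φ (a * b) = φ a * φ b
  ne : ∀ a ∈ A, a ≠ 0 → φ a ≠ 0
  zero : φ 0 = 0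

variable {φ : C⟦X⟧ → K}

theorem Mu.one (h : Mu A φ) : φ 1 = 1 :=
  mul_left_cancel₀ (h.ne 1 A.one_mem one_ne_zero) (by
    rw [← h.mul 1 A.one_mem 1 A.one_mem, mul_one, mul_one])

theorem Mu.div (h : Mu A φ) (ha : a ∈ A) (hb : b ∈ A) :
    lf A φ (am C a / am C b) = φ a / φ b := by
  have key : ∀ a ∈ A, ∀ b ∈ A, b ≠ 0 → lf A φ (am C a / am C b) = φ a / φ b := by
    intro a ha b hb b0
    have hx : am C a / am C b ∈ Fr A := ⟨a, b, ha, hb, b0, rfl⟩
    obtain ⟨h1, h2, h3, h4⟩ := (mem_Fr.1 hx).choose_spec.choose_spec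
    rw [lf, dif_pos hx, div_eq_div_iff (h.ne _ h2 h3) (h.ne _ hb b0), ← h.mul _ h1 _ hb,
      ← h.mul _ ha _ h2]
    rw [div_eq_div_iff (am_ne b0) (am_ne h3), ← map_mul, ← map_mul] at h4
    rw [am_inj h4]
  by_cases b0 : b = 0
  · have := key 0 A.zero_mem 1 A.one_mem one_ne_zero
    simp only [map_zero, zero_div, h.zero] at this
    simp [b0, h.zero, this]
  · exact key a ha b hb b0

theorem Mu.am (h : Mu A φ) (ha : a ∈ A) : lf A φ (am C a) = φ a := by
  simpa [h.one] using h.div ha A.one_mem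

theorem Mu.lf_zero (h : Mu A φ) : lf A φ 0 = 0 := by simpa [h.zero] using h.am A.zero_mem

theorem Mu.lf_one (h : Mu A φ) : lf A φ 1 = 1 := by simpa [h.one] using h.am A.one_mem

theorem Mu.lf_mul (h : Mu A φ) (hx : x ∈ Fr A) (hy : y ∈ Fr A) :
    lf A φ (x * y) = lf A φ x * lf A φ y := by
  obtain ⟨a, b, h1, h2, h3, rfl⟩ := hx
  obtain ⟨c, d, h4, h5, h6, rfl⟩ := hy
  rw [div_mul_div_comm, ← map_mul, ← map_mul, h.div (A.mul_mem h1 h4) (A.mul_mem h2 h5),
    h.div h1 h2, h.div h4 h5, h.mul _ h1 _ h4, h.mul _ h2 _ h5, div_mul_div_comm]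

theorem Mu.lf_inv (h : Mu A φ) (hx : x ∈ Fr A) : lf A φ x⁻¹ = (lf A φ x)⁻¹ := by
  obtain ⟨a, b, h1, h2, h3, rfl⟩ := hx
  rw [inv_div, h.div h1 h2, h.div h2 h1, inv_div]

theorem Mu.lf_ne (h : Mu A φ) (hx : x ∈ Fr A) (h0 : x ≠ 0) : lf A φ x ≠ 0 := by
  obtain ⟨a, b, h1, h2, h3, rfl⟩ := hx
  rw [h.div h1 h2]
  exact div_ne_zero (h.ne a h1 fun e => h0 (by simp [e])) (h.ne b h2 h3)

theorem Mu.lf_add (h : Mu A φ) (hadd : ∀ a ∈ A, ∀ b ∈ A, φ (a + b) = φ a + φ b) (hx : x ∈ Fr A)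
    (hy : y ∈ Fr A) : lf A φ (x + y) = lf A φ x + lf A φ y := by
  obtain ⟨a, b, h1, h2, h3, rfl⟩ := hx
  obtain ⟨c, d, h4, h5, h6, rfl⟩ := hy
  rw [div_add_div _ _ (am_ne h3) (am_ne h6), ← map_mul, ← map_mul, ← map_mul, ← map_add,
    h.div (A.add_mem (A.mul_mem h1 h5) (A.mul_mem h2 h4)) (A.mul_mem h2 h5), h.div h1 h2,
    h.div h4 h5, hadd _ (A.mul_mem h1 h5) _ (A.mul_mem h2 h4), h.mul _ h1 _ h5, h.mul _ h2 _ h4,
    h.mul _ h2 _ h5, div_add_div _ _ (h.ne _ h2 h3) (h.ne _ h5 h6)]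

/-- the extension of a ring homomorphism -/
def Mu.hom (h : Mu A φ) (hadd : ∀ a ∈ A, ∀ b ∈ A, φ (a + b) = φ a + φ b) : Fr A →+* K where
  toFun x := lf A φ x
  map_one' := h.lf_one
  map_zero' := h.lf_zero
  map_mul' x y := h.lf_mul x.2 y.2
  map_add' x y := h.lf_add hadd x.2 y.2

theorem Mu.lf_nonneg {φ : C⟦X⟧ → ℝ} (h0 : ∀ a, 0 ≤ φ a) (x : C⸨X⸩) : 0 ≤ lf A φ x := by
  unfold lf
  split_ifs
  · exact div_nonneg (h0 _) (h0 _)
  · rfl

theorem Mu.lf_add_le {φ : C⟦X⟧ → ℝ} (h : Mu A φ) (h0 : ∀ a, 0 ≤ φ a)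
    (hadd : ∀ a ∈ A, ∀ b ∈ A, φ (a + b) ≤ max (φ a) (φ b)) (hx : x ∈ Fr A) (hy : y ∈ Fr A) :
    lf A φ (x + y) ≤ max (lf A φ x) (lf A φ y) := by
  obtain ⟨a, b, h1, h2, h3, rfl⟩ := hx
  obtain ⟨c, d, h4, h5, h6, rfl⟩ := hy
  have b0 := h.ne _ h2 h3
  have d0 := h.ne _ h5 h6
  rw [div_add_div _ _ (am_ne h3) (am_ne h6), ← map_mul, ← map_mul, ← map_mul, ← map_add,
    h.div (A.add_mem (A.mul_mem h1 h5) (A.mul_mem h2 h4)) (A.mul_mem h2 h5), h.div h1 h2,
    h.div h4 h5]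
  refine (div_le_div_of_nonneg_right (hadd _ (A.mul_mem h1 h5) _ (A.mul_mem h2 h4)) (h0 _)).trans ?_
  rw [← max_div_div_right (h0 _), h.mul _ h1 _ h5, h.mul _ h2 _ h4, h.mul _ h2 _ h5,
    mul_div_mul_right _ _ d0, mul_div_mul_left _ _ b0]

/-! ## formal substitution -/

theorem subst_ne {g : C⟦X⟧} (h0 : constantCoeff g = 0) (hg : g ≠ 0) {f : C⟦X⟧} (hf : f ≠ 0) :
    f.subst g ≠ 0 := by
  have hs : HasSubst g := HasSubst.of_constantCoeff_zero' h0
  obtain ⟨u, hu⟩ : ∃ u : C⟦X⟧, IsUnit u ∧ f = X ^ f.order.toNat * u :=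
    ⟨divXPowOrder f, isUnit_divided_by_X_pow_order hf, X_pow_order_mul_divXPowOrder.symm⟩
  rw [hu.2, ← coe_substAlgHom hs, map_mul, map_pow, coe_substAlgHom, subst_X hs]
  refine mul_ne_zero (pow_ne_zero _ hg) ?_
  rw [← coe_substAlgHom hs]
  exact (hu.1.map _).ne_zero

theorem subst_inj {g : C⟦X⟧} (h0 : constantCoeff g = 0) (hg : g ≠ 0) : Function.Injective
    ((am C).comp (substAlgHom (R := C) (HasSubst.of_constantCoeff_zero' h0)).toRingHom) :=
  am_inj.comp ((injective_iff_map_eq_zero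
    (substAlgHom (R := C) (HasSubst.of_constantCoeff_zero' h0)).toRingHom).2 fun f hf => by
      by_contra e
      exact subst_ne h0 hg e (by simpa [coe_substAlgHom] using hf))

open Classical in
/-- substitution of a series without constant term -/
def sub (g : C⟦X⟧) : C⸨X⸩ →ₐ[C] C⸨X⸩ :=
  if h : constantCoeff g = 0 ∧ g ≠ 0 then
    { IsFractionRing.lift (A := C⟦X⟧) (subst_inj h.1 h.2) with
      commutes' := fun c => by
        rw [← am_C]
        refine (IsFractionRing.lift_algebraMap _ _).trans (congrArg (am C) ?_)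
        exact (substAlgHom (HasSubst.of_constantCoeff_zero' h.1)).commutes c }
  else AlgHom.id C _

variable {g h : C⟦X⟧}

theorem sub_am (h0 : constantCoeff g = 0) (hg : g ≠ 0) (f : C⟦X⟧) :
    sub g (am C f) = am C (f.subst g) := by
  rw [sub, dif_pos ⟨h0, hg⟩]
  refine (IsFractionRing.lift_algebraMap (subst_inj h0 hg) f).trans (congrArg (am C) ?_)
  simp [coe_substAlgHom]

theorem sub_div (h0 : constantCoeff g = 0) (hg : g ≠ 0) (a b : C⟦X⟧) :
    sub g (am C a / am C b) = am C (a.subst g) / am C (b.subst g) := by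
  rw [map_div₀, sub_am h0 hg, sub_am h0 hg]

theorem sub_X (x : C⸨X⸩) : sub X x = x := by
  obtain ⟨a, b, -, rfl⟩ := exists_div x
  rw [sub_div constantCoeff_X X_ne_zero, X_subst, X_subst]

theorem cc_subst_zero (h0 : constantCoeff g = 0) (h1 : constantCoeff h = 0) :
    constantCoeff (g.subst h : C⟦X⟧) = 0 := constantCoeff_subst_eq_zero h1 g h0

theorem sub_sub (h0 : constantCoeff g = 0) (hg : g ≠ 0) (h1 : constantCoeff h = 0) (hh : h ≠ 0)
    (x : C⸨X⸩) : sub h (sub g x) = sub (g.subst h) x := by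
  obtain ⟨a, b, -, rfl⟩ := exists_div x
  rw [sub_div h0 hg, sub_div h1 hh, sub_div (cc_subst_zero h0 h1) (subst_ne h1 hh hg),
    subst_comp_subst_apply (HasSubst.of_constantCoeff_zero' h0) (HasSubst.of_constantCoeff_zero' h1),
    subst_comp_subst_apply (HasSubst.of_constantCoeff_zero' h0) (HasSubst.of_constantCoeff_zero' h1)]

theorem order_sub (h0 : constantCoeff g = 0) (hg : g ≠ 0) (x : C⸨X⸩) :
    (sub g x).order = (am C g).order * x.order := by
  by_cases hx : x = 0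
  · simp [hx]
  have h1 : (x / am C X ^ x.order).order = 0 := by
    rw [order_div hx (zpow_ne_zero _ (am_ne X_ne_zero)), order_zpow, order_am_X]; ring
  obtain ⟨f, hf⟩ := exists_am h1.ge
  obtain ⟨f', hf'⟩ := exists_am (x := (x / am C X ^ x.order)⁻¹) (by rw [order_inv, h1]; rfl)
  have h2 : x = am C f * am C X ^ x.order := by
    rw [← hf, div_mul_cancel₀ _ (zpow_ne_zero _ (am_ne X_ne_zero))]
  have f0 : am C f ≠ 0 := left_ne_zero_of_mul (h2 ▸ hx)
  have h3 : (sub g (am C f)).order = 0 := by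
    have a1 := order_am_nonneg (f.subst g : C⟦X⟧)
    have a2 := order_am_nonneg (f'.subst g : C⟦X⟧)
    rw [← sub_am h0 hg] at a1 a2
    rw [← hf', hf, map_inv₀, order_inv] at a2
    omega
  conv_lhs => rw [h2]
  rw [map_mul, map_zpow₀, HahnSeries.order_mul ((map_ne_zero _).2 f0)
    (zpow_ne_zero _ ((map_ne_zero _).2 (am_ne X_ne_zero))), h3, order_zpow, sub_am h0 hg,
    subst_X (HasSubst.of_constantCoeff_zero' h0)]
  ring

end fr

section mm

variable {C : Type} [NontriviallyNormedField C] [IsUltrametricDist C]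

variable (C) in
/-- meromorphic functions on the closed disc -/
def MM (r : ℝ) : IntermediateField C C⸨X⸩ := Fr (TA C r)

/-- the norm of a meromorphic function -/
def nm (r : ℝ) : C⸨X⸩ → ℝ := lf (TA C r) (gn r)

variable {r ρ σ : ℝ} {a b f g : C⟦X⟧} {x y : C⸨X⸩}

theorem mem_MM : x ∈ MM C r ↔ ∃ a b : C⟦X⟧, Cv r a ∧ Cv r b ∧ b ≠ 0 ∧ x = am C a / am C b :=
  Iff.rfl

theorem Cv.mem (h : Cv r f) : am C f ∈ MM C r := am_mem_Fr h

theorem MM_anti (hρ : 0 < ρ) (h : ρ ≤ r) : MM C r ≤ MM C ρ := Fr_mono fun _ hf => Cv.mono hf hρ h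

theorem mu_gn (hr : 0 < r) : Mu (TA C r) (gn r) :=
  ⟨fun _ ha _ hb => gn_mul hr ha hb, fun _ ha h => (gn_pos hr ha h).ne', gn_zero r⟩

theorem nm_div (hr : 0 < r) (ha : Cv r a) (hb : Cv r b) :
    nm r (am C a / am C b) = gn r a / gn r b := (mu_gn hr).div ha hb

theorem nm_am (hr : 0 < r) (ha : Cv r a) : nm r (am C a) = gn r a := (mu_gn hr).am ha

theorem nm_nonneg (hr : 0 < r) (x : C⸨X⸩) : 0 ≤ nm r x := Mu.lf_nonneg (gn_nonneg hr) x

theorem nm_mul (hr : 0 < r) (hx : x ∈ MM C r) (hy : y ∈ MM C r) : nm r (x * y) = nm r x * nm r y :=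
  (mu_gn hr).lf_mul hx hy

theorem nm_add_le (hr : 0 < r) (hx : x ∈ MM C r) (hy : y ∈ MM C r) :
    nm r (x + y) ≤ max (nm r x) (nm r y) :=
  (mu_gn hr).lf_add_le (gn_nonneg hr) (fun _ ha _ hb => gn_add_le hr ha hb) hx hy

theorem nm_const (hr : 0 < r) (c : C) : nm r (algebraMap C C⸨X⸩ c) = ‖c‖ := by
  rw [← am_C, nm_am hr (cv_C r c), gn_C hr]

variable (C) in
/-- the Gauss point of the disc -/
def nv (hr : 0 < r) : NV C (MM C r) where
  av :=
    { toFun := fun x => nm r (x : C⸨X⸩)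
      map_mul' := fun x y => nm_mul hr x.2 y.2
      nonneg' := fun x => nm_nonneg hr (x : C⸨X⸩)
      eq_zero' := fun x => ⟨fun h => Subtype.ext (by
        by_contra e; exact (mu_gn hr).lf_ne x.2 e h), fun h => by
          rw [h]; exact (mu_gn hr).lf_zero⟩
      add_le' := fun x y => (nm_add_le hr x.2 y.2).trans
        (max_le_add_of_nonneg (nm_nonneg hr _) (nm_nonneg hr _)) }
  na x y := nm_add_le hr x.2 y.2
  ext' c := nm_const hr c

theorem nv_apply (hr : 0 < r) (x : MM C r) : nv C hr x = nm r (x : C⸨X⸩) := rfl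

/-- composition of a meromorphic function with `g` -/
def cmF (r : ℝ) (g : C⟦X⟧) : C⸨X⸩ → C⸨X⸩ := lf (TA C r) fun f => am C (cmp g f)

/-- `g` is a non-constant map from the disc of radius `ρ` to the disc of radius `r` -/
structure Mp (ρ r : ℝ) (g : C⟦X⟧) : Prop where
  hρ : 0 < ρ
  hr : 0 < r
  cv : Cv ρ g
  le : gn ρ g ≤ r
  nc : ∀ c, g ≠ PowerSeries.C c

theorem mp_add (hr : 0 < r) {c : C} (hc : ‖c‖ ≤ r) : Mp r r (X + PowerSeries.C c) := by
  refine ⟨hr, hr, (cv_X r).add (cv_C r c), (gn_add_le hr (cv_X r) (cv_C r c)).trans ?_,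
    fun d e => by simpa [coeff_X, coeff_C] using congrArg (coeff 1) e⟩
  rw [gn_X hr, gn_C hr]; exact max_le le_rfl hc

/-- substitution is a composition -/
theorem cmF_eq_sub (h0 : constantCoeff g = 0) (hg : g ≠ 0) (hx : x ∈ MM C r) :
    cmF r g x = sub g x := by
  obtain ⟨a, b, h1, h2, h3, rfl⟩ := hx
  have : Mu (TA C r) fun f => am C (cmp g f) := by
    have hs := HasSubst.of_constantCoeff_zero' h0
    simp only [cmp_eq_subst h0]
    exact ⟨fun a _ b _ => by rw [subst_mul hs, map_mul], fun a _ h => am_ne (subst_ne h0 hg h), by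
      rw [← coe_substAlgHom hs, map_zero, map_zero]⟩
  rw [cmF, this.div h1 h2, sub_div h0 hg, cmp_eq_subst h0, cmp_eq_subst h0]

theorem cmF_X (hx : x ∈ MM C r) : cmF r X x = x := by
  rw [cmF_eq_sub constantCoeff_X X_ne_zero hx, sub_X]

variable [CompleteSpace C] [IsAlgClosed C]

namespace Mp

variable (H : Mp ρ r g)
include H

theorem cv_cmp (hf : Cv r f) : Cv ρ (cmp g f) := Cv.cmp H.hρ H.cv H.le hf

theorem mu : Mu (TA C r) fun f => am C (cmp g f) :=
  ⟨fun _ ha _ hb => by rw [cmp_mul H.hr H.hρ H.cv H.le ha hb, map_mul],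
    fun _ ha h => am_ne (cmp_ne_zero H.hr H.hρ H.cv H.le H.nc ha h), by rw [cmp_zero, map_zero]⟩

theorem div (ha : Cv r a) (hb : Cv r b) :
    cmF r g (am C a / am C b) = am C (cmp g a) / am C (cmp g b) := H.mu.div ha hb

theorem am (ha : Cv r a) : cmF r g (am C a) = am C (cmp g a) := H.mu.am ha

theorem mem (hx : x ∈ MM C r) : cmF r g x ∈ MM C ρ := by
  obtain ⟨a, b, h1, h2, h3, rfl⟩ := hx
  rw [H.div h1 h2]
  exact div_mem (H.cv_cmp h1).mem (H.cv_cmp h2).mem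

/-- composition as a homomorphism to the Laurent series -/
def cmL : MM C r →ₐ[C] C⸨X⸩ :=
  { H.mu.hom fun _ ha _ hb => by rw [cmp_add H.hr H.hρ H.cv H.le ha hb, map_add] with
    commutes' := fun c => (H.am (cv_C r c)).trans (by rw [cmp_C, am_C]) }

theorem cmL_apply (x : MM C r) : H.cmL x = cmF r g x := rfl

/-- composition as a homomorphism of fields -/
def cmM : MM C r →ₐ[C] MM C ρ := H.cmL.codRestrict (MM C ρ).toSubalgebra fun x => H.mem x.2

theorem cmM_coe (x : MM C r) : (H.cmM x : C⸨X⸩) = cmF r g x := rfl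

theorem map_mul (hx : x ∈ MM C r) (hy : y ∈ MM C r) : cmF r g (x * y) = cmF r g x * cmF r g y :=
  H.mu.lf_mul hx hy

theorem map_add (hx : x ∈ MM C r) (hy : y ∈ MM C r) : cmF r g (x + y) = cmF r g x + cmF r g y :=
  _root_.map_add H.cmL ⟨x, hx⟩ ⟨y, hy⟩

theorem map_sub (hx : x ∈ MM C r) (hy : y ∈ MM C r) : cmF r g (x - y) = cmF r g x - cmF r g y :=
  _root_.map_sub H.cmL (⟨x, hx⟩ : MM C r) ⟨y, hy⟩

theorem map_inv (hx : x ∈ MM C r) : cmF r g x⁻¹ = (cmF r g x)⁻¹ := H.mu.lf_inv hx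

theorem map_div (hx : x ∈ MM C r) (hy : y ∈ MM C r) : cmF r g (x / y) = cmF r g x / cmF r g y := by
  rw [div_eq_mul_inv, H.map_mul hx (inv_mem hy), H.map_inv hy, div_eq_mul_inv]

theorem map_zpow (hx : x ∈ MM C r) (n : ℤ) : cmF r g (x ^ n) = cmF r g x ^ n :=
  map_zpow₀ H.cmL (⟨x, hx⟩ : MM C r) n

theorem map_pow (hx : x ∈ MM C r) (n : ℕ) : cmF r g (x ^ n) = cmF r g x ^ n :=
  _root_.map_pow H.cmL (⟨x, hx⟩ : MM C r) n

theorem map_const (c : C) : cmF r g (algebraMap C C⸨X⸩ c) = algebraMap C C⸨X⸩ c :=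
  H.cmL.commutes c

theorem map_zero : cmF r g 0 = 0 := H.mu.lf_zero

theorem map_one : cmF r g 1 = 1 := H.mu.lf_one

theorem ne_zero (hx : x ∈ MM C r) (h : x ≠ 0) : cmF r g x ≠ 0 := H.mu.lf_ne hx h

theorem comp {h : C⟦X⟧} (H' : Mp σ ρ h) : Mp σ r (cmp h g) := by
  refine ⟨H'.hρ, H.hr, H'.cv_cmp H.cv, (gn_cmp_le H.hρ H'.hρ H'.cv H'.le H.cv).trans H.le,
    fun c e => ?_⟩
  refine cmp_ne_zero H.hρ H'.hρ H'.cv H'.le H'.nc (H.cv.sub (cv_C ρ c))
    (sub_ne_zero.2 (H.nc c)) ?_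
  rw [cmp_sub H.hρ H'.hρ H'.cv H'.le H.cv (cv_C ρ c), e, cmp_C, sub_self]

theorem assoc {h : C⟦X⟧} (H' : Mp σ ρ h) (hx : x ∈ MM C r) :
    cmF ρ h (cmF r g x) = cmF r (cmp h g) x := by
  obtain ⟨a, b, h1, h2, h3, rfl⟩ := hx
  rw [H.div h1 h2, H'.div (H.cv_cmp h1) (H.cv_cmp h2), (H.comp H').div h1 h2,
    cmp_assoc H.hr H.hρ H'.hρ H'.cv H'.le H.cv H.le h1,
    cmp_assoc H.hr H.hρ H'.hρ H'.cv H'.le H.cv H.le h2]

theorem mono {r' : ℝ} (h : r ≤ r') : Mp ρ r' g :=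
  ⟨H.hρ, H.hr.trans_le h, H.cv, H.le.trans h, H.nc⟩

theorem anti {ρ' : ℝ} (h0 : 0 < ρ') (h : ρ' ≤ ρ) : Mp ρ' r g :=
  ⟨h0, H.hr, H.cv.mono h0 h, (gn_mono H.cv h0 h).trans H.le, H.nc⟩

/-- independence of the radius -/
theorem rad {r' : ℝ} (h : r ≤ r') (hx : x ∈ MM C r') : cmF r g x = cmF r' g x := by
  obtain ⟨a, b, h1, h2, h3, rfl⟩ := hx
  rw [(H.mono h).div h1 h2, H.div (h1.mono H.hr h) (h2.mono H.hr h)]

/-- a map of full norm and positive degree preserves the norms -/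
theorem nm_eq (h1 : gn ρ g = r) (h2 : wd ρ g ≠ 0) (hx : x ∈ MM C r) : nm ρ (cmF r g x) = nm r x := by
  obtain ⟨a, b, a1, a2, a3, rfl⟩ := hx
  rw [H.div a1 a2, nm_div H.hρ (H.cv_cmp a1) (H.cv_cmp a2), nm_div H.hr a1 a2,
    (gn_wd_cmp H.hr H.hρ H.cv h1 h2 a1).1, (gn_wd_cmp H.hr H.hρ H.cv h1 h2 a2).1]

theorem sub_mem (h0 : constantCoeff g = 0) (hx : x ∈ MM C r) : sub g x ∈ MM C ρ := by
  rw [← cmF_eq_sub h0 (by simpa using H.nc 0) hx]; exact H.mem hx

end Mp

/-! ## orders at the points of the disc -/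

/-- the order at the point `c` -/
def od (r : ℝ) (c : C) (x : C⸨X⸩) : ℤ := (cmF r (X + PowerSeries.C c) x).order

/-- the value at the point `c` -/
def va (r : ℝ) (c : C) (x : C⸨X⸩) : C := (cmF r (X + PowerSeries.C c) x).coeff 0

variable {c : C}

omit [CompleteSpace C] [IsAlgClosed C] in
theorem od_at_zero (hx : x ∈ MM C r) : od r 0 x = x.order := by
  rw [od, _root_.map_zero, add_zero, cmF_X hx]

omit [CompleteSpace C] [IsAlgClosed C] in
theorem va_at_zero (hx : x ∈ MM C r) : va r 0 x = x.coeff 0 := by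
  rw [va, _root_.map_zero, add_zero, cmF_X hx]

section od

variable (hr : 0 < r) (hc : ‖c‖ ≤ r)
include hr hc

theorem od_zero : od r c 0 = 0 := by rw [od, (mp_add hr hc).map_zero, HahnSeries.order_zero]

theorem od_const (d : C) : od r c (algebraMap C C⸨X⸩ d) = 0 := by
  rw [od, (mp_add hr hc).map_const, order_const]

theorem od_one : od r c 1 = 0 := by simpa using od_const hr hc 1

theorem od_mul (hx : x ∈ MM C r) (hy : y ∈ MM C r) (x0 : x ≠ 0) (y0 : y ≠ 0) :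
    od r c (x * y) = od r c x + od r c y := by
  rw [od, (mp_add hr hc).map_mul hx hy,
    HahnSeries.order_mul ((mp_add hr hc).ne_zero hx x0) ((mp_add hr hc).ne_zero hy y0)]; rfl

theorem od_inv (hx : x ∈ MM C r) : od r c x⁻¹ = -od r c x := by
  rw [od, (mp_add hr hc).map_inv hx, order_inv]; rfl

theorem od_div (hx : x ∈ MM C r) (hy : y ∈ MM C r) (x0 : x ≠ 0) (y0 : y ≠ 0) :
    od r c (x / y) = od r c x - od r c y := by
  rw [div_eq_mul_inv, od_mul hr hc hx (inv_mem hy) x0 (inv_ne_zero y0), od_inv hr hc hy]; rfl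

theorem od_zpow (hx : x ∈ MM C r) (n : ℤ) : od r c (x ^ n) = n * od r c x := by
  rw [od, (mp_add hr hc).map_zpow hx, order_zpow]; rfl

theorem od_pow (hx : x ∈ MM C r) (n : ℕ) : od r c (x ^ n) = n * od r c x := by
  simpa using od_zpow hr hc hx n

theorem od_add (hx : x ∈ MM C r) (hy : y ∈ MM C r) (h : x + y ≠ 0) :
    min (od r c x) (od r c y) ≤ od r c (x + y) := by
  have := (mp_add hr hc).ne_zero (add_mem hx hy) h
  unfold od
  rw [(mp_add hr hc).map_add hx hy] at this ⊢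
  exact HahnSeries.min_order_le_order_add this

theorem od_rad {r' : ℝ} (h : r ≤ r') (hx : x ∈ MM C r') : od r c x = od r' c x := by
  rw [od, (mp_add hr hc).rad h hx]; rfl

theorem va_rad {r' : ℝ} (h : r ≤ r') (hx : x ∈ MM C r') : va r c x = va r' c x := by
  rw [va, (mp_add hr hc).rad h hx]; rfl

theorem od_am_nonneg (hf : Cv r f) : 0 ≤ od r c (am C f) := by
  rw [od, (mp_add hr hc).am hf]; exact order_am_nonneg _

theorem va_am (hf : Cv r f) : va r c (am C f) = ev c f := by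
  have := coeff_am (cmp (X + PowerSeries.C c) f) 0
  rw [Nat.cast_zero] at this
  rw [va, (mp_add hr hc).am hf, this, coeff_zero_eq_constantCoeff_apply, constantCoeff_cmp]
  simp

theorem od_am_eq_zero (hf : Cv r f) (h : ev c f ≠ 0) : od r c (am C f) = 0 := by
  rw [od, (mp_add hr hc).am hf]
  exact order_am_eq_zero (by rw [constantCoeff_cmp]; simpa using h)

theorem od_am_pos (hf : Cv r f) (f0 : f ≠ 0) (h : ev c f = 0) : 0 < od r c (am C f) := by
  have := (mp_add hr hc).ne_zero hf.mem (am_ne f0)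
  rw [od]
  rw [(mp_add hr hc).am hf] at this ⊢
  exact order_am_pos (fun e => this (by rw [e, _root_.map_zero]))
    (by rw [constantCoeff_cmp]; simpa using h)

theorem od_unit (hf : Cv r f) (f0 : f ≠ 0) (h : wd r f = 0) : od r c (am C f) = 0 :=
  od_am_eq_zero hr hc hf ((wd_eq_zero_iff hr hf f0).1 h c hc)

open Classical in
theorem od_lin (d : C) : od r c (am C (X - PowerSeries.C d)) = if d = c then 1 else 0 := by
  split_ifs with h
  · rw [od, (mp_add hr hc).am ((cv_X r).sub (cv_C r d)), cmp_sub hr hr (mp_add hr hc).cv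
      (mp_add hr hc).le (cv_X r) (cv_C r d), cmp_X, cmp_C, h, add_sub_cancel_right, order_am_X]
  · refine od_am_eq_zero hr hc ((cv_X r).sub (cv_C r d)) ?_
    rw [ev_sub hc (cv_X r) (cv_C r d), ev_X, ev_C]
    exact sub_ne_zero.2 (Ne.symm h)

/-- the local ring of a point of the disc -/
def ptR : ValuationSubring (MM C r) := (OL C).comap (mp_add hr hc).cmL.toRingHom

theorem mem_ptR (x : MM C r) : x ∈ ptR hr hc ↔ 0 ≤ od r c x := mem_OL

end od

/-- products of linear factors -/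
def pr (D : C →₀ ℤ) : C⸨X⸩ := D.prod fun a n => am C (X - PowerSeries.C a) ^ n

omit [IsUltrametricDist C] [CompleteSpace C] [IsAlgClosed C] in
theorem pr_ne (D : C →₀ ℤ) : pr D ≠ 0 :=
  Finset.prod_ne_zero_iff.2 fun a _ => zpow_ne_zero _ (am_ne (X_sub_C_ne a))

omit [IsUltrametricDist C] [CompleteSpace C] [IsAlgClosed C] in
theorem pr_add (D E : C →₀ ℤ) : pr (D + E) = pr D * pr E :=
  Finsupp.prod_add_index' (fun _ => zpow_zero _) fun a _ _ => zpow_add₀ (am_ne (X_sub_C_ne a)) _ _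

omit [IsUltrametricDist C] [CompleteSpace C] [IsAlgClosed C] in
theorem pr_zero : pr (0 : C →₀ ℤ) = 1 := Finsupp.prod_zero_index

omit [IsUltrametricDist C] [CompleteSpace C] [IsAlgClosed C] in
theorem pr_single (a : C) (n : ℤ) : pr (Finsupp.single a n) = am C (X - PowerSeries.C a) ^ n :=
  Finsupp.prod_single_index (zpow_zero _)

omit [IsUltrametricDist C] [CompleteSpace C] [IsAlgClosed C] in
theorem pr_sub (D E : C →₀ ℤ) : pr (D - E) = pr D / pr E := by
  rw [eq_div_iff (pr_ne E), ← pr_add, sub_add_cancel]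

omit [IsUltrametricDist C] [CompleteSpace C] [IsAlgClosed C] in
theorem pr_nsmul (n : ℕ) (D : C →₀ ℤ) : pr (n • D) = pr D ^ n := by
  induction n with
  | zero => simp [pr_zero]
  | succ n ih => rw [succ_nsmul, pr_add, ih, pow_succ]

omit [CompleteSpace C] [IsAlgClosed C] in
theorem pr_mem (r : ℝ) (D : C →₀ ℤ) : pr D ∈ MM C r :=
  prod_mem fun a _ => zpow_mem ((cv_X r).sub (cv_C r a)).mem _

theorem od_pr (hr : 0 < r) (hc : ‖c‖ ≤ r) (D : C →₀ ℤ) : od r c (pr D) = D c := by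
  classical
  induction D using Finsupp.induction_linear with
  | zero => rw [pr_zero, od_one hr hc]; rfl
  | add D E h1 h2 =>
    rw [pr_add, od_mul hr hc (pr_mem r D) (pr_mem r E) (pr_ne D) (pr_ne E), h1, h2]; rfl
  | single a n =>
    rw [pr_single, od_zpow hr hc ((cv_X r).sub (cv_C r a)).mem, od_lin hr hc, Finsupp.single_apply]
    split_ifs <;> simp

/-- the divisor of a multiset -/
def dv (s : Multiset C) : C →₀ ℤ := (s.map fun a => Finsupp.single a 1).sum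

omit [IsUltrametricDist C] [CompleteSpace C] [IsAlgClosed C] in
theorem pr_dv (s : Multiset C) : pr (dv s) = am C (s.map fun a => X - PowerSeries.C a).prod := by
  induction s using Multiset.induction_on with
  | empty => simp [dv, pr_zero]
  | cons a s ih =>
    rw [dv, Multiset.map_cons, Multiset.sum_cons, pr_add, pr_single, ← dv, ih]
    simp

omit [IsUltrametricDist C] [CompleteSpace C] [IsAlgClosed C] in
theorem dv_ne {s : Multiset C} {a : C} (h : dv s a ≠ 0) : a ∈ s := by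
  classical
  induction s using Multiset.induction_on with
  | empty => simp [dv] at h
  | cons b s ih =>
    rw [dv, Multiset.map_cons, Multiset.sum_cons, ← dv, Finsupp.add_apply,
      Finsupp.single_apply] at h
    by_cases e : b = a
    · simp [e]
    · rw [if_neg e, zero_add] at h
      exact Multiset.mem_cons_of_mem (ih h)

omit [IsUltrametricDist C] [CompleteSpace C] [IsAlgClosed C] in
theorem degree_dv (s : Multiset C) : (dv s).degree = s.card := by
  induction s using Multiset.induction_on with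
  | empty => simp [dv]
  | cons b s ih =>
    rw [dv, Multiset.map_cons, Multiset.sum_cons, ← dv, _root_.map_add, ih]
    simp [add_comm]

/-- **structure of meromorphic functions** -/
theorem fac (hr : 0 < r) (hx : x ∈ MM C r) (x0 : x ≠ 0) :
    ∃ (u : C⟦X⟧) (D : C →₀ ℤ), Cv r u ∧ u ≠ 0 ∧ wd r u = 0 ∧ (∀ a, D a ≠ 0 → ‖a‖ ≤ r) ∧
      x = am C u * pr D ∧ ∀ a, ‖a‖ ≤ r → od r a x = D a := by
  obtain ⟨a, b, h1, h2, h3, rfl⟩ := hx
  have a0 : a ≠ 0 := fun e => x0 (by simp [e])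
  obtain ⟨u, s, u1, u2, u3, u4, -, u6⟩ := roots hr h1 a0
  obtain ⟨v, t, v1, v2, v3, v4, -, v6⟩ := roots hr h2 h3
  obtain ⟨w, w1, w2⟩ := exists_inv hr v1 v2 v3
  have w0 := right_ne_zero_of_mul_eq_one w2
  have w3 : wd r (u * w) = 0 := by
    rw [wd_mul hr u1 w1 u2 w0, u3, wd_of_inv hr w1 v1 (mul_comm v w ▸ w2)]
  have e : am C a / am C b = am C (u * w) * pr (dv s - dv t) := by
    rw [pr_sub, pr_dv, pr_dv, u6, v6, _root_.map_mul, _root_.map_mul, _root_.map_mul,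
      eq_inv_of_mul_eq_one_right (show am C v * am C w = 1 by
        rw [← _root_.map_mul, w2, _root_.map_one])]
    have := am_ne v2
    have := am_ne (prod_ne t)
    field_simp
  refine ⟨u * w, dv s - dv t, u1.mul w1, mul_ne_zero u2 w0, w3, fun c hc => ?_, e, fun c hc => ?_⟩
  · by_cases h : dv s c = 0
    · exact v4 c (dv_ne fun h' => hc (by rw [Finsupp.sub_apply, h, h', sub_zero]))
    · exact u4 c (dv_ne h)
  · rw [e, od_mul hr hc (u1.mul w1).mem (pr_mem r _) (am_ne (mul_ne_zero u2 w0)) (pr_ne _),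
      od_unit hr hc (u1.mul w1) (mul_ne_zero u2 w0) w3, od_pr hr hc, zero_add]

omit [CompleteSpace C] [IsAlgClosed C] [IsUltrametricDist C] in
theorem pr_poly {D : C →₀ ℤ} (h : ∀ a, 0 ≤ D a) :
    ∃ P : Polynomial C, P.Monic ∧ pr D = am C P := by
  refine ⟨∏ a ∈ D.support, (Polynomial.X - Polynomial.C a) ^ (D a).toNat,
    Polynomial.monic_prod_of_monic _ _ fun a _ => (Polynomial.monic_X_sub_C a).pow _, ?_⟩
  rw [← Polynomial.coeToPowerSeries.ringHom_apply, map_prod, map_prod]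
  refine Finset.prod_congr rfl fun a _ => ?_
  simp [← zpow_natCast, Int.toNat_of_nonneg (h a)]

/-- a meromorphic function without poles is holomorphic -/
theorem hol (hr : 0 < r) (hx : x ∈ MM C r) (h : ∀ a, ‖a‖ ≤ r → 0 ≤ od r a x) :
    ∃ f, Cv r f ∧ x = am C f := by
  by_cases x0 : x = 0
  · exact ⟨0, cv_zero r, by simp [x0]⟩
  obtain ⟨u, D, h1, -, -, h4, h5, h6⟩ := fac hr hx x0
  obtain ⟨P, -, hP⟩ := pr_poly (D := D) fun a => by
    by_cases e : D a = 0
    · exact e.ge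
    · rw [← h6 a (h4 a e)]; exact h a (h4 a e)
  exact ⟨u * P, h1.mul (cv_poly r P), by rw [h5, hP, _root_.map_mul]⟩

/-- a meromorphic function without zeros and poles is a unit -/
theorem unit_of_od (hr : 0 < r) (hx : x ∈ MM C r) (x0 : x ≠ 0) (h : ∀ a, ‖a‖ ≤ r → od r a x = 0) :
    ∃ u, Cv r u ∧ u ≠ 0 ∧ wd r u = 0 ∧ x = am C u := by
  obtain ⟨u, D, h1, h2, h3, h4, h5, h6⟩ := fac hr hx x0
  have : D = 0 := Finsupp.ext fun a => by
    by_contra e
    exact e ((h6 a (h4 a e)).symm.trans (h a (h4 a e)))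
  exact ⟨u, h1, h2, h3, by rw [h5, this, pr_zero, mul_one]⟩

theorem od_finite (hr : 0 < r) (hx : x ∈ MM C r) : {a | ‖a‖ ≤ r ∧ od r a x ≠ 0}.Finite := by
  by_cases x0 : x = 0
  · exact Set.finite_empty.subset fun a ha => ha.2 (x0 ▸ od_zero hr ha.1)
  obtain ⟨u, D, -, -, -, -, -, h6⟩ := fac hr hx x0
  exact D.support.finite_toSet.subset fun a ha => by simpa [← h6 a ha.1] using ha.2

/-- maximum principle -/
theorem norm_va_le (hr : 0 < r) (hx : x ∈ MM C r) (h : ∀ a, ‖a‖ ≤ r → 0 ≤ od r a x)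
    (hc : ‖c‖ ≤ r) : ‖va r c x‖ ≤ nm r x := by
  obtain ⟨f, hf, rfl⟩ := hol hr hx h
  rw [va_am hr hc hf, nm_am hr hf]
  exact norm_ev_le hr hc hf

/-- orders of a composition -/
theorem Mp.od_cmF (H : Mp ρ r g) (hc : ‖c‖ ≤ ρ) (hx : x ∈ MM C r) :
    od ρ c (cmF r g x) = od ρ c (FI.am C (g - PowerSeries.C (ev c g))) * od r (ev c g) x := by
  have h1 : ‖ev c g‖ ≤ r := (norm_ev_le H.hρ hc H.cv).trans H.le
  have H1 := mp_add H.hρ hc
  have H2 := mp_add H.hr h1
  have a1 := H.cv.sub (cv_C ρ (ev c g))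
  have H3 : Mp ρ r (g - PowerSeries.C (ev c g)) :=
    ⟨H.hρ, H.hr, a1, (gn_sub_le H.hρ H.cv (cv_C ρ _)).trans (max_le H.le (by rwa [gn_C H.hρ])),
      fun d e => H.nc (d + ev c g) (by rw [_root_.map_add, ← e, sub_add_cancel])⟩
  have H4 := H3.comp H1
  have a2 : constantCoeff (cmp (X + PowerSeries.C c) (g - PowerSeries.C (ev c g))) = 0 := by
    rw [constantCoeff_cmp]
    simp [ev_sub hc H.cv (cv_C ρ _), ev_C]
  have a3 : cmp (cmp (X + PowerSeries.C c) (g - PowerSeries.C (ev c g)))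
      (X + PowerSeries.C (ev c g)) = cmp (X + PowerSeries.C c) g := by
    rw [cmp_add H.hr H.hρ H4.cv H4.le (cv_X r) (cv_C r _), cmp_X, cmp_C,
      cmp_sub H.hρ H.hρ H1.cv H1.le H.cv (cv_C ρ _), cmp_C, sub_add_cancel]
  rw [od, H.assoc H1 hx, ← a3, ← H2.assoc H4 hx, cmF_eq_sub a2 (by simpa using H4.nc 0) (H2.mem hx),
    order_sub a2 (by simpa using H4.nc 0), od, H1.am a1]
  rfl

end mm

end Vale.Agent.P022K.FI
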