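import Vale.Agent.P022K.FI.St
import Vale.Agent.P022K.FI.AnM

/-!
# P022K, block FI: rows FAC and FCS (calculus of factorisations on the open unit disc)
-/

set_option linter.all false

noncomputable section

open PowerSeries Filter Topology LaurentSeries P025H746

namespace Vale.Agent.P022K.FI

variable {C : Type} [NontriviallyNormedField C] [IsUltrametricDist C]

/-- shortcut for the instance search -/
abbrev algL (k : Type) [Field k] : Algebra k k⸨X⸩ := inferInstance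

instance instAlgKC : Algebra (kC C) (kC C)⸨X⸩ := algL (kC C)

section ig

variable {u v P Q : C⟦X⟧} {r : ℝ} {c a : C}

theorem ig_iff : Ig u ↔ ∃ v : (OC C)⟦X⟧, PowerSeries.map (OC C).subtype v = u := by
  refine ⟨fun h => ⟨mk fun n => ⟨coeff n u, h n⟩, by ext n; simp⟩, ?_⟩
  rintro ⟨v, rfl⟩ n
  exact (coeff n v).2

variable (C) in
/-- the ring of integral series -/
def IgS : Subring C⟦X⟧ := (PowerSeries.map (OC C).subtype).range

theorem mem_IgS : u ∈ IgS C ↔ Ig u := ig_iff.symm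

theorem Ig.mul (h : Ig u) (h' : Ig v) : Ig (u * v) :=
  mem_IgS.1 (mul_mem (mem_IgS.2 h) (mem_IgS.2 h'))

theorem Ig.add (h : Ig u) (h' : Ig v) : Ig (u + v) :=
  mem_IgS.1 (add_mem (mem_IgS.2 h) (mem_IgS.2 h'))

theorem Ig.sub (h : Ig u) (h' : Ig v) : Ig (u - v) :=
  mem_IgS.1 (sub_mem (mem_IgS.2 h) (mem_IgS.2 h'))

theorem Ig.neg (h : Ig u) : Ig (-u) := mem_IgS.1 (neg_mem (mem_IgS.2 h))

theorem Ig.pow (h : Ig u) (n : ℕ) : Ig (u ^ n) := mem_IgS.1 (pow_mem (mem_IgS.2 h) n)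

theorem ig_one : Ig (1 : C⟦X⟧) := mem_IgS.1 (one_mem _)

theorem ig_zero : Ig (0 : C⟦X⟧) := mem_IgS.1 (zero_mem _)

theorem ig_X : Ig (X : C⟦X⟧) := ig_iff.2 ⟨X, map_X _⟩

theorem ig_C (h : ‖c‖ ≤ 1) : Ig (PowerSeries.C c) := ig_iff.2 ⟨PowerSeries.C ⟨c, h⟩, map_C _ _⟩

theorem ig_lin (h : ‖c‖ ≤ 1) : Ig (X - PowerSeries.C c) := ig_X.sub (ig_C h)

theorem ig_prod {ι : Type} {s : Finset ι} {f : ι → C⟦X⟧} (h : ∀ i ∈ s, Ig (f i)) :
    Ig (∏ i ∈ s, f i) := mem_IgS.1 (prod_mem fun i hi => mem_IgS.2 (h i hi))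

theorem Ig.deriv (h : Ig u) : Ig (d⁄dX C u) := fun n => by
  rw [coeff_derivative, norm_mul]
  refine mul_le_one₀ (h _) (norm_nonneg _) ?_
  exact_mod_cast IsUltrametricDist.norm_natCast_le_one C (n + 1)

omit [IsUltrametricDist C] in
theorem Ig.cv (h : Ig u) (hr : 0 < r) (h1 : r < 1) : Cv r u :=
  Cv.of_bdd (M := 1) hr h1 fun n => by simpa using h n

omit [IsUltrametricDist C] in
theorem Ig.gn_le (h : Ig u) (hr : 0 < r) (h1 : r ≤ 1) : gn r u ≤ 1 :=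
  FI.gn_le fun n => mul_le_one₀ (h n) (by positivity) (pow_le_one₀ hr.le h1)

omit [IsUltrametricDist C] in
theorem Sm.ig (h : Sm u) : Ig u := fun n => (h n).le

omit [IsUltrametricDist C] in
/-- a bound near the boundary -/
theorem ig_of_near {r₀ : ℝ} (h0 : r₀ < 1)
    (h : ∀ r, r₀ < r → r < 1 → ∀ n, ‖coeff n u‖ * r ^ n ≤ 1) : Ig u := fun n => by
  have h1 : Tendsto (fun r : ℝ => ‖coeff n u‖ * r ^ n) (𝓝[<] 1) (𝓝 (‖coeff n u‖ * 1 ^ n)) :=
    (Continuous.tendsto (by fun_prop) 1).mono_left nhdsWithin_le_nhds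
  rw [one_pow, mul_one] at h1
  refine le_of_tendsto h1 ?_
  filter_upwards [Ioo_mem_nhdsLT h0] with r hr using h r hr.1 hr.2 n

/-- coefficientwise reduction -/
def rd (u : C⟦X⟧) : (kC C)⟦X⟧ := mk fun n => cred (coeff n u)

theorem coeff_rd (u : C⟦X⟧) (n : ℕ) : coeff n (rd u) = cred (coeff n u) := coeff_mk _ _

theorem rd_map (v : (OC C)⟦X⟧) : rd (PowerSeries.map (OC C).subtype v) =
    PowerSeries.map (IsLocalRing.residue (OC C)) v := by
  ext n
  rw [coeff_rd, coeff_map, coeff_map]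
  exact cred_of (coeff n v).2

theorem rd_mul (h : Ig u) (h' : Ig v) : rd (u * v) = rd u * rd v := by
  obtain ⟨u, rfl⟩ := ig_iff.1 h
  obtain ⟨v, rfl⟩ := ig_iff.1 h'
  rw [← map_mul, rd_map, rd_map, rd_map, map_mul]

theorem rd_add (h : Ig u) (h' : Ig v) : rd (u + v) = rd u + rd v := by
  obtain ⟨u, rfl⟩ := ig_iff.1 h
  obtain ⟨v, rfl⟩ := ig_iff.1 h'
  rw [← map_add, rd_map, rd_map, rd_map, map_add]

theorem rd_sub (h : Ig u) (h' : Ig v) : rd (u - v) = rd u - rd v := by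
  obtain ⟨u, rfl⟩ := ig_iff.1 h
  obtain ⟨v, rfl⟩ := ig_iff.1 h'
  rw [← map_sub, rd_map, rd_map, rd_map, map_sub]

theorem rd_pow (h : Ig u) (n : ℕ) : rd (u ^ n) = rd u ^ n := by
  obtain ⟨u, rfl⟩ := ig_iff.1 h
  rw [← map_pow, rd_map, rd_map, map_pow]

theorem rd_one : rd (1 : C⟦X⟧) = 1 := by simpa using rd_map (C := C) 1

theorem rd_zero : rd (0 : C⟦X⟧) = 0 := by simpa using rd_map (C := C) 0

theorem rd_X : rd (X : C⟦X⟧) = X := by simpa using rd_map (C := C) X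

theorem rd_C (c : C) : rd (PowerSeries.C c) = PowerSeries.C (cred c) := by
  ext n
  rw [coeff_rd, coeff_C, coeff_C]
  split_ifs <;> simp

theorem rd_eq_zero (h : Ig u) : rd u = 0 ↔ Sm u :=
  PowerSeries.ext_iff.trans (forall_congr' fun n => by
    rw [coeff_rd, map_zero, cred_eq_zero (h n)])

theorem rd_lin (h : ‖c‖ < 1) : rd (X - PowerSeries.C c) = X := by
  rw [rd_sub ig_X (ig_C h.le), rd_X, rd_C, (cred_eq_zero h.le).2 h, map_zero, sub_zero]

theorem rd_prod {ι : Type} {s : Finset ι} {f : ι → C⟦X⟧} (h : ∀ i ∈ s, Ig (f i)) :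
    rd (∏ i ∈ s, f i) = ∏ i ∈ s, rd (f i) := by
  classical
  induction s using Finset.induction_on with
  | empty => simpa using rd_one
  | insert i s hi ih =>
    have h' : ∀ j ∈ s, Ig (f j) := fun j hj => h j (Finset.mem_insert_of_mem hj)
    rw [Finset.prod_insert hi, Finset.prod_insert hi,
      rd_mul (h i (Finset.mem_insert_self _ _)) (ig_prod h'), ih h']

omit [IsUltrametricDist C] in
theorem Un.cc (h : Un u) : ‖constantCoeff u‖ = 1 := by simpa using h.2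

omit [IsUltrametricDist C] in
theorem Un.ne (h : Un u) : u ≠ 0 := fun e => by simpa [e] using h.2

theorem un_one : Un (1 : C⟦X⟧) := ⟨ig_one, by simp⟩

theorem un_C (h : ‖c‖ = 1) : Un (PowerSeries.C c) := ⟨ig_C h.le, by simpa using h⟩

theorem Un.mul (h : Un u) (h' : Un v) : Un (u * v) :=
  ⟨h.1.mul h'.1, by simp [h.cc, h'.cc]⟩

theorem Un.inv (h : Un u) : ∃ v, Un v ∧ u * v = 1 := by
  obtain ⟨w, rfl⟩ := ig_iff.1 h.1
  obtain ⟨v, hv⟩ := (isUnit_iff_constantCoeff.2 (isUnit_OC_iff.2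
    (show ‖((constantCoeff w : OC C) : C)‖ = 1 by simpa using h.2))).exists_right_inv
  have e : PowerSeries.map (OC C).subtype w * PowerSeries.map (OC C).subtype v = 1 := by
    rw [← map_mul, hv, map_one]
  refine ⟨_, ⟨ig_iff.2 ⟨v, rfl⟩, ?_⟩, e⟩
  have := congrArg (fun f => ‖constantCoeff f‖) e
  simp only [map_mul, norm_mul, h.cc, one_mul, map_one, norm_one] at this
  rwa [coeff_zero_eq_constantCoeff_apply]

theorem Un.rd_cc (h : Un u) : constantCoeff (rd u) ≠ 0 := by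
  rw [← coeff_zero_eq_constantCoeff_apply, coeff_rd, Ne, cred_eq_zero (h.1 0), h.2]
  exact lt_irrefl _

omit [IsUltrametricDist C] in
/-- norm and degree near the boundary -/
theorem near_bd {e : ℕ} (h : Ig P) (h1 : ∀ n < e, ‖coeff n P‖ < 1) (h2 : ‖coeff e P‖ = 1) :
    ∃ r₀, 0 < r₀ ∧ r₀ < 1 ∧ ∀ r, r₀ ≤ r → r < 1 → gn r P = r ^ e ∧ wd r P = e := by
  have h3 : ∀ᶠ r in 𝓝[<] (1 : ℝ), ∀ n ∈ Finset.range e, ‖coeff n P‖ ≤ r ^ e := by
    refine (eventually_all_finset _).2 fun n hn => ?_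
    have : Tendsto (fun r : ℝ => r ^ e) (𝓝[<] 1) (𝓝 (1 ^ e)) :=
      (Continuous.tendsto (by fun_prop) 1).mono_left nhdsWithin_le_nhds
    rw [one_pow] at this
    exact this.eventually_const_le (h1 n (Finset.mem_range.1 hn))
  obtain ⟨r₀, a1, a2, a3⟩ := (h3.and (Ioo_mem_nhdsLT zero_lt_one)).exists
  refine ⟨r₀, a2, a3, fun r b1 b2 => ?_⟩
  have hr := a2.trans_le b1
  have key : ∀ n, e < n → ‖coeff n P‖ * r ^ n < r ^ e := fun n hn =>
    (mul_le_of_le_one_left (by positivity) (h n)).trans_lt (pow_lt_pow_right_of_lt_one₀ hr b2 hn)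
  refine gn_wd_of (fun n => ?_) (by rw [h2, one_mul]) key
  rcases lt_trichotomy n e with c | rfl | c
  · exact (mul_le_of_le_one_right (norm_nonneg _) (pow_le_one₀ hr.le b2.le)).trans
      ((a1 n (Finset.mem_range.2 c)).trans (by gcongr))
  · rw [h2, one_mul]
  · exact (key n c).le

omit [IsUltrametricDist C] in
theorem Un.gn_wd (h : Un u) (hr : 0 < r) (h1 : r < 1) : gn r u = 1 ∧ wd r u = 0 :=
  gn_wd_of (fun n => mul_le_one₀ (h.1 n) (by positivity) (pow_le_one₀ hr.le h1.le))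
    (by rw [h.2]; simp) fun n hn =>
    (mul_le_of_le_one_left (by positivity) (h.1 n)).trans_lt (pow_lt_one₀ hr.le h1 hn.ne')

omit [IsUltrametricDist C] in
theorem exists_r (h : ‖a‖ < 1) {r₀ : ℝ} (h0 : r₀ < 1) : ∃ r, 0 < r ∧ r < 1 ∧ ‖a‖ ≤ r ∧ r₀ ≤ r :=
  ⟨max (max ‖a‖ r₀) (1 / 2), by positivity, max_lt (max_lt h h0) (by norm_num),
    le_max_of_le_left (le_max_left _ _), le_max_of_le_left (le_max_right _ _)⟩

/-- the positive part of a divisor as a polynomial -/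
def pp (D : C →₀ ℤ) : C⟦X⟧ := D.prod fun a n => (X - PowerSeries.C a) ^ n.toNat

omit [IsUltrametricDist C] in
theorem pp_neg (D : C →₀ ℤ) : pp (-D) = D.prod fun a n => (X - PowerSeries.C a) ^ (-n).toNat := by
  simp [pp, Finsupp.prod]

omit [IsUltrametricDist C] in
theorem pr_mul_pp (D : C →₀ ℤ) : pr D * am C (pp (-D)) = am C (pp D) := by
  rw [pp_neg, pp, pr, Finsupp.prod, Finsupp.prod, Finsupp.prod, map_prod, map_prod,
    ← Finset.prod_mul_distrib]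
  refine Finset.prod_congr rfl fun a _ => ?_
  rw [map_pow, map_pow, ← zpow_natCast, ← zpow_natCast, ← zpow_add₀ (am_ne (X_sub_C_ne a))]
  congr 1
  omega

theorem ig_pp {D : C →₀ ℤ} (h : ∀ a ∈ D.support, ‖a‖ < 1) : Ig (pp D) :=
  ig_prod fun a ha => (ig_lin (h a ha).le).pow _

theorem rd_pp {D : C →₀ ℤ} (h : ∀ a ∈ D.support, ‖a‖ < 1) :
    rd (pp D) = X ^ ∑ a ∈ D.support, (D a).toNat := by
  rw [pp, Finsupp.prod, rd_prod fun a ha => (ig_lin (h a ha).le).pow _,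
    ← Finset.prod_pow_eq_pow_sum]
  exact Finset.prod_congr rfl fun a ha => by rw [rd_pow (ig_lin (h a ha).le), rd_lin (h a ha)]

omit [IsUltrametricDist C] in
theorem dgD_eq (D : C →₀ ℤ) : dgD D = D.degree := rfl

omit [IsUltrametricDist C] in
theorem dgD_add (D E : C →₀ ℤ) : dgD (D + E) = dgD D + dgD E := map_add Finsupp.degree D E

omit [IsUltrametricDist C] in
theorem dgD_neg (D : C →₀ ℤ) : dgD (-D) = -dgD D := map_neg Finsupp.degree D

omit [IsUltrametricDist C] in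
theorem dgD_zero : dgD (0 : C →₀ ℤ) = 0 := rfl

omit [IsUltrametricDist C] in
theorem dgD_zsmul (n : ℤ) (D : C →₀ ℤ) : dgD (n • D) = n * dgD D := map_zsmul Finsupp.degree n D

omit [IsUltrametricDist C] in
theorem dgD_single (a : C) (n : ℤ) : dgD (Finsupp.single a n) = n := Finsupp.degree_single a n

omit [IsUltrametricDist C] in
theorem dgD_nonneg {D : C →₀ ℤ} (h : 0 ≤ D) : 0 ≤ dgD D := Finset.sum_nonneg fun a _ => h a

omit [IsUltrametricDist C] in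
theorem dgD_sub (D : C →₀ ℤ) : dgD D = (∑ a ∈ D.support, (D a).toNat : ℕ) -
    (∑ a ∈ (-D).support, ((-D) a).toNat : ℕ) := by
  rw [Finsupp.support_neg, Nat.cast_sum, Nat.cast_sum, ← Finset.sum_sub_distrib]
  exact Finset.sum_congr rfl fun a _ => by simp

end ig

section fac

variable {x y : C⸨X⸩} {c c' a : C} {D D' : C →₀ ℤ} {r : ℝ} {u P Q : C⟦X⟧}

omit [IsUltrametricDist C] in
theorem fac_iff : Fac x c D ↔ c ≠ 0 ∧ (∀ a ∈ D.support, ‖a‖ < 1) ∧ ∃ u : C⟦X⟧, Un u ∧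
    x = algebraMap C C⸨X⸩ c * am C u * pr D := Iff.rfl

omit [IsUltrametricDist C] in
theorem Fac.ne (h : Fac x c D) : x ≠ 0 := by
  obtain ⟨h1, -, u, hu, rfl⟩ := fac_iff.1 h
  exact mul_ne_zero (mul_ne_zero ((map_ne_zero _).2 h1) (am_ne hu.ne)) (pr_ne D)

omit [IsUltrametricDist C] in
theorem Fac.lt (h : Fac x c D) (ha : D a ≠ 0) : ‖a‖ < 1 := h.2.1 a (Finsupp.mem_support_iff.2 ha)

omit [IsUltrametricDist C] in
theorem Fac.out (h : Fac x c D) (ha : ¬‖a‖ < 1) : D a = 0 := by_contra fun e => ha (h.lt e)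

theorem Fac.mem (h : Fac x c D) (hr : 0 < r) (h1 : r < 1) : x ∈ MM C r := by
  obtain ⟨-, -, u, hu, rfl⟩ := fac_iff.1 h
  exact mul_mem (mul_mem (IntermediateField.algebraMap_mem _ c) (hu.1.cv hr h1).mem) (pr_mem r D)

theorem Fac.mul (h : Fac x c D) (h' : Fac y c' D') : Fac (x * y) (c * c') (D + D') := by
  obtain ⟨h1, -, u, hu, e⟩ := fac_iff.1 h
  obtain ⟨h2, -, v, hv, e'⟩ := fac_iff.1 h'
  refine fac_iff.2 ⟨mul_ne_zero h1 h2, fun a ha => ?_, u * v, hu.mul hv, by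
    rw [e, e', pr_add, map_mul, map_mul]; ring⟩
  by_contra n
  exact Finsupp.mem_support_iff.1 ha (by rw [Finsupp.add_apply, h.out n, h'.out n, add_zero])

theorem Fac.inv (h : Fac x c D) : Fac x⁻¹ c⁻¹ (-D) := by
  obtain ⟨h1, h2, u, hu, e⟩ := fac_iff.1 h
  obtain ⟨v, hv, e'⟩ := hu.inv
  refine fac_iff.2 ⟨inv_ne_zero h1, by rwa [Finsupp.support_neg], v, hv, ?_⟩
  rw [e, ← zero_sub, pr_sub, pr_zero, map_inv₀, eq_inv_of_mul_eq_one_right
    (show am C u * am C v = 1 by rw [← map_mul, e', map_one]), mul_inv, mul_inv, one_div]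

theorem fac_const (h : c ≠ 0) : Fac (algebraMap C C⸨X⸩ c) c 0 :=
  fac_iff.2 ⟨h, by simp, 1, un_one, by simp [pr_zero]⟩

theorem fac_one : Fac (1 : C⸨X⸩) (1 : C) 0 := by simpa using fac_const (one_ne_zero (α := C))

omit [IsUltrametricDist C] in
theorem Un.fac (h : Un u) : Fac (am C u) 1 0 :=
  fac_iff.2 ⟨one_ne_zero, by simp, u, h, by simp [pr_zero]⟩

theorem fac_pr (h : ∀ a ∈ D.support, ‖a‖ < 1) : Fac (pr D) 1 D :=
  fac_iff.2 ⟨one_ne_zero, h, 1, un_one, by simp⟩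

theorem fac_lin (h : ‖a‖ < 1) : Fac (am C (X - PowerSeries.C a)) 1 (Finsupp.single a 1) := by
  have := fac_pr (D := Finsupp.single a 1) fun b hb => by
    rwa [Finset.mem_singleton.1 (Finsupp.support_single_subset hb)]
  rwa [pr_single, zpow_one] at this

theorem Fac.smul (h : Fac x c D) (h' : c' ≠ 0) : Fac (algebraMap C C⸨X⸩ c' * x) (c' * c) D := by
  simpa using (fac_const h').mul h

theorem Fac.neg (h : Fac x c D) : Fac (-x) (-c) D := by
  simpa using h.smul (c' := -1) (by simp)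

theorem Fac.div (h : Fac x c D) (h' : Fac y c' D') : Fac (x / y) (c / c') (D - D') := by
  simpa [div_eq_mul_inv, sub_eq_add_neg] using h.mul h'.inv

theorem Fac.pow (h : Fac x c D) (n : ℕ) : Fac (x ^ n) (c ^ n) (n • D) := by
  induction n with
  | zero => simpa using fac_one
  | succ n ih => rw [pow_succ, pow_succ, succ_nsmul]; exact ih.mul h

theorem Fac.zpow (h : Fac x c D) (n : ℤ) : Fac (x ^ n) (c ^ n) (n • D) := by
  obtain ⟨m, rfl | rfl⟩ := Int.eq_nat_or_neg n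
  · simpa using h.pow m
  · simpa using (h.pow m).inv

/-- numerator and denominator -/
theorem Fac.quot (h : Fac x c D) : ∃ u, Un u ∧
    x * am C (pp (-D)) = algebraMap C C⸨X⸩ c * am C (u * pp D) := by
  obtain ⟨-, -, u, hu, rfl⟩ := fac_iff.1 h
  exact ⟨u, hu, by rw [mul_assoc, pr_mul_pp, map_mul, mul_assoc]⟩

theorem Fac.supp_neg (h : Fac x c D) : ∀ a ∈ (-D).support, ‖a‖ < 1 := h.inv.2.1

theorem Fac.ex_ig (h : Fac x c D) :
    ∃ P Q, Ig P ∧ Ig Q ∧ Q ≠ 0 ∧ x * am C Q = am C P := by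
  obtain ⟨u, hu, e⟩ := h.quot
  have a1 := hu.1.mul (ig_pp h.2.1)
  have a2 := ig_pp h.supp_neg
  have a3 : pp (-D) ≠ 0 := Finset.prod_ne_zero_iff.2 fun a _ => pow_ne_zero _ (X_sub_C_ne a)
  rcases le_total ‖c‖ 1 with hc | hc
  · exact ⟨_, _, (ig_C hc).mul a1, a2, a3, by rw [e, map_mul (am C) (PowerSeries.C c), am_C]⟩
  · refine ⟨_, _, a1, (ig_C (c := c⁻¹) (by rw [norm_inv]; exact inv_le_one_of_one_le₀ hc)).mul a2,
      mul_ne_zero (fun e => inv_ne_zero h.1 (by simpa using congrArg constantCoeff e)) a3, ?_⟩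
    rw [map_mul, am_C, mul_left_comm, e, ← mul_assoc, ← map_mul, inv_mul_cancel₀ h.1, map_one,
      one_mul]

/-- `z` is the reduction of `x` -/
def Rd (x : C⸨X⸩) (z : (kC C)⸨X⸩) : Prop := ∃ P Q : C⟦X⟧, Ig P ∧ Ig Q ∧ rd Q ≠ 0 ∧
  x * am C Q = am C P ∧ z * am (kC C) (rd Q) = am (kC C) (rd P)

variable {z z' : (kC C)⸨X⸩}

theorem Ig.red (h : Ig P) : Rd (am C P) (am (kC C) (rd P)) :=
  ⟨P, 1, h, ig_one, by simp [rd_one], by simp, by simp [rd_one]⟩

theorem rd_const (h : ‖c‖ ≤ 1) : Rd (algebraMap C C⸨X⸩ c) (algebraMap (kC C) _ (cred c)) := by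
  simpa only [rd_C, am_C] using (ig_C h).red

theorem rd_one' : Rd (1 : C⸨X⸩) 1 := by simpa [rd_one] using (ig_one (C := C)).red

theorem rd_zero' : Rd (0 : C⸨X⸩) 0 := by simpa [rd_zero] using (ig_zero (C := C)).red

theorem Rd.unique (h : Rd x z) (h' : Rd x z') : z = z' := by
  obtain ⟨P, Q, a1, a2, a3, a4, a5⟩ := h
  obtain ⟨P', Q', b1, b2, b3, b4, b5⟩ := h'
  have e : P * Q' = P' * Q := am_inj (by rw [map_mul, map_mul, ← a4, ← b4]; ring)
  have e' := congrArg (fun f => am (kC C) (rd f)) e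
  simp only [rd_mul a1 b2, rd_mul b1 a2, map_mul, ← a5, ← b5] at e'
  refine mul_right_cancel₀ (mul_ne_zero (am_ne a3) (am_ne b3)) ?_
  rw [← mul_assoc, e']; ring

theorem Rd.mul (h : Rd x z) (h' : Rd y z') : Rd (x * y) (z * z') := by
  obtain ⟨P, Q, a1, a2, a3, a4, a5⟩ := h
  obtain ⟨P', Q', b1, b2, b3, b4, b5⟩ := h'
  refine ⟨P * P', Q * Q', a1.mul b1, a2.mul b2, by rw [rd_mul a2 b2]; exact mul_ne_zero a3 b3,
    by rw [map_mul, map_mul, ← a4, ← b4]; ring, ?_⟩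
  rw [rd_mul a2 b2, rd_mul a1 b1, map_mul, map_mul, ← a5, ← b5]; ring

theorem Rd.add (h : Rd x z) (h' : Rd y z') : Rd (x + y) (z + z') := by
  obtain ⟨P, Q, a1, a2, a3, a4, a5⟩ := h
  obtain ⟨P', Q', b1, b2, b3, b4, b5⟩ := h'
  refine ⟨P * Q' + P' * Q, Q * Q', (a1.mul b2).add (b1.mul a2), a2.mul b2,
    by rw [rd_mul a2 b2]; exact mul_ne_zero a3 b3,
    by rw [map_add, map_mul, map_mul, map_mul, ← a4, ← b4]; ring, ?_⟩
  rw [rd_add (a1.mul b2) (b1.mul a2), rd_mul a2 b2, rd_mul a1 b2, rd_mul b1 a2, map_add, map_mul,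
    map_mul, map_mul, ← a5, ← b5]; ring

theorem Rd.inv (h : Rd x z) (h0 : z ≠ 0) : Rd x⁻¹ z⁻¹ := by
  obtain ⟨P, Q, a1, a2, a3, a4, a5⟩ := h
  have h1 : rd P ≠ 0 := fun e => mul_ne_zero h0 (am_ne a3) (by rw [a5, e, map_zero])
  have h2 : x ≠ 0 := fun e => h1 (by
    rw [am_inj (show am C P = am C 0 by rw [← a4, e, zero_mul, map_zero]), rd_zero])
  exact ⟨Q, P, a2, a1, h1, by rw [← a4, inv_mul_cancel_left₀ h2], by
    rw [← a5, inv_mul_cancel_left₀ h0]⟩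

theorem Rd.neg (h : Rd x z) : Rd (-x) (-z) := by
  obtain ⟨P, Q, a1, a2, a3, a4, a5⟩ := h
  refine ⟨-P, Q, a1.neg, a2, a3, by rw [map_neg, ← a4, neg_mul], ?_⟩
  rw [← zero_sub P, rd_sub ig_zero a1, rd_zero, zero_sub, map_neg, ← a5, neg_mul]

/-- the reduction of a factorised function -/
theorem Fac.red (h : Fac x c D) (hc : ‖c‖ ≤ 1) : ∃ z, Rd x z ∧ (‖c‖ < 1 → z = 0) ∧
    (‖c‖ = 1 → z ≠ 0 ∧ z.order = dgD D) := by
  obtain ⟨u, hu, e⟩ := h.quot
  have a1 := hu.1.mul (ig_pp h.2.1)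
  have a2 := ig_pp h.supp_neg
  have a3 : rd (pp (-D)) ≠ 0 := by rw [rd_pp h.supp_neg]; exact pow_ne_zero _ X_ne_zero
  refine ⟨am (kC C) (rd (PowerSeries.C c * (u * pp D))) / am (kC C) (rd (pp (-D))),
    ⟨_, _, (ig_C hc).mul a1, a2, a3, by rw [e, map_mul (am C) (PowerSeries.C c), am_C],
      div_mul_cancel₀ _ (am_ne a3)⟩, fun h1 => ?_, fun h1 => ?_⟩
  · rw [rd_mul (ig_C hc) a1, rd_C, (cred_eq_zero hc).2 h1]; simp
  · have b1 := ((un_C h1).mul hu).rd_cc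
    have b2 : rd (PowerSeries.C c * u) ≠ 0 := fun e => b1 (by rw [e, map_zero])
    have b3 : ∀ n : ℕ, am (kC C) X ^ n ≠ 0 := fun n => pow_ne_zero _ (am_ne X_ne_zero)
    rw [← mul_assoc, rd_mul ((ig_C hc).mul hu.1) (ig_pp h.2.1), rd_pp h.2.1, rd_pp h.supp_neg,
      map_mul, map_pow, map_pow]
    refine ⟨div_ne_zero (mul_ne_zero (am_ne b2) (b3 _)) (b3 _), ?_⟩
    rw [order_div (mul_ne_zero (am_ne b2) (b3 _)) (b3 _), HahnSeries.order_mul (am_ne b2) (b3 _),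
      order_am_eq_zero b1, ← zpow_natCast, ← zpow_natCast, order_zpow, order_zpow, order_am_X,
      dgD_sub D]
    ring

theorem Fac.le_of_rd (h : Fac x c D) (h' : Rd x z) : ‖c‖ ≤ 1 := by
  by_contra hc
  have h1 : ‖c⁻¹‖ < 1 := by rw [norm_inv]; exact inv_lt_one_of_one_lt₀ (not_le.1 hc)
  obtain ⟨z', a1, a2, -⟩ := h.inv.red h1.le
  have := (h'.mul a1).unique (by rw [mul_inv_cancel₀ h.ne]; exact rd_one')
  simp [a2 h1] at this

theorem Fac.rd_eq_zero (h : Fac x c D) (h' : Rd x z) : z = 0 ↔ ‖c‖ < 1 := by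
  obtain ⟨z', a1, a2, a3⟩ := h.red (h.le_of_rd h')
  rw [h'.unique a1]
  exact ⟨fun e => lt_of_le_of_ne (h.le_of_rd h') fun e' => (a3 e').1 e, a2⟩

theorem Fac.rd_order (h : Fac x c D) (h' : Rd x z) (h0 : z ≠ 0) : ‖c‖ = 1 ∧ z.order = dgD D := by
  have h1 := (h.le_of_rd h').eq_or_lt.resolve_right fun e => h0 ((h.rd_eq_zero h').2 e)
  obtain ⟨z', a1, -, a3⟩ := h.red h1.le
  exact ⟨h1, h'.unique a1 ▸ (a3 h1).2⟩

theorem Fac.norm_eq (h : Fac x c D) (h' : Fac x c' D') : ‖c‖ = ‖c'‖ := by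
  have := ((h.div h').rd_order (z := 1)
    (by rw [div_self h.ne]; exact rd_one') one_ne_zero).1
  rwa [norm_div, div_eq_one_iff_eq (norm_ne_zero_iff.2 h'.1)] at this

theorem Fac.add_le {c'' : C} {D'' : C →₀ ℤ} (h : Fac x c D) (h' : Fac y c' D')
    (h'' : Fac (x + y) c'' D'') : ‖c''‖ ≤ max ‖c‖ ‖c'‖ := by
  by_contra hc
  have n := inv_ne_zero h''.1
  have p := norm_pos_iff.2 h''.1
  have k : ∀ d : C, ‖d‖ < ‖c''‖ → ‖c''⁻¹ * d‖ < 1 := fun d hd => by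
    rwa [norm_mul, norm_inv, inv_mul_lt_one₀ p]
  obtain ⟨b1, b2⟩ := max_lt_iff.1 (not_le.1 hc)
  obtain ⟨z, a1, a2, -⟩ := (h.smul n).red (k c b1).le
  obtain ⟨z', a3, a4, -⟩ := (h'.smul n).red (k c' b2).le
  have a5 := a1.add a3
  rw [← mul_add] at a5
  have := ((h''.smul n).rd_eq_zero a5).1 (by rw [a2 (k c b1), a4 (k c' b2), add_zero])
  simp [inv_mul_cancel₀ h''.1] at this

variable [CompleteSpace C] [IsAlgClosed C]

theorem Fac.od (h : Fac x c D) (hr : 0 < r) (h1 : r < 1) (ha : ‖a‖ ≤ r) : od r a x = D a := by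
  obtain ⟨c0, -, u, hu, rfl⟩ := fac_iff.1 h
  have a1 := IntermediateField.algebraMap_mem (MM C r) c
  have a2 := hu.1.cv hr h1
  have a3 : algebraMap C C⸨X⸩ c ≠ 0 := (map_ne_zero _).2 c0
  rw [od_mul hr ha (mul_mem a1 a2.mem) (pr_mem r D) (mul_ne_zero a3 (am_ne hu.ne)) (pr_ne D),
    od_mul hr ha a1 a2.mem a3 (am_ne hu.ne), od_const hr ha, od_unit hr ha a2 hu.ne
    (hu.gn_wd hr h1).2, od_pr hr ha]
  simp

theorem Fac.unique (h : Fac x c D) (h' : Fac x c' D') : ‖c‖ = ‖c'‖ ∧ D = D' := by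
  refine ⟨h.norm_eq h', Finsupp.ext fun a => ?_⟩
  by_cases ha : ‖a‖ < 1
  · obtain ⟨r, a1, a2, a3, -⟩ := exists_r ha ha
    rw [← h.od a1 a2 a3, h'.od a1 a2 a3]
  · rw [h.out ha, h'.out ha]

theorem Fac.order (h : Fac x c D) : x.order = D 0 := by
  rw [← h.od (r := 1 / 2) (by norm_num) (by norm_num) (by simp),
    od_at_zero (h.mem (by norm_num) (by norm_num))]

theorem Fac.min_le {c'' : C} {D'' : C →₀ ℤ} (h : Fac x c D) (h' : Fac y c' D')
    (h'' : Fac (x + y) c'' D'') (a : C) : min (D a) (D' a) ≤ D'' a := by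
  by_cases ha : ‖a‖ < 1
  · obtain ⟨r, a1, a2, a3, -⟩ := exists_r ha ha
    rw [← h.od a1 a2 a3, ← h'.od a1 a2 a3, ← h''.od a1 a2 a3]
    exact od_add a1 a3 (h.mem a1 a2) (h'.mem a1 a2) h''.ne
  · simp [h.out ha, h'.out ha, h''.out ha]

omit [IsAlgClosed C] in
theorem ev_pp (D : C →₀ ℤ) (a : C) : ev a (pp D) = 0 ↔ 0 < D a := by
  have hr : 0 < ‖a‖ + 1 := by positivity
  haveI := Fact.mk hr
  have e : pp D = ((∏ b ∈ D.support, (Polynomial.X - Polynomial.C b) ^ (D b).toNat :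
      Polynomial C) : C⟦X⟧) := by
    rw [← Polynomial.coeToPowerSeries.ringHom_apply, map_prod]
    exact Finset.prod_congr rfl fun b _ => by simp
  rw [e, ev_poly, map_prod, Finset.prod_eq_zero_iff]
  simp only [map_pow, map_sub, Polynomial.aeval_X, Polynomial.aeval_C, Algebra.algebraMap_self,
    RingHom.id_apply, pow_eq_zero_iff', sub_eq_zero, Finsupp.mem_support_iff]
  exact ⟨by rintro ⟨b, -, rfl, h⟩; omega, fun h => ⟨a, by omega, rfl, by omega⟩⟩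

omit [IsAlgClosed C] in
theorem Un.norm_ev (h : Un u) (ha : ‖a‖ < 1) : ‖ev a u‖ = 1 := by
  obtain ⟨r, a1, a2, a3, -⟩ := exists_r ha ha
  rw [norm_ev_unit a1 (h.1.cv a1 a2) (h.gn_wd a1 a2).2 a3, (h.gn_wd a1 a2).1]

omit [IsAlgClosed C] in
theorem Ig.ev_mul (h : Ig P) (h' : Ig Q) (ha : ‖a‖ < 1) : ev a (P * Q) = ev a P * ev a Q := by
  obtain ⟨r, a1, a2, a3, -⟩ := exists_r ha ha
  exact FI.ev_mul a1 a3 (h.cv a1 a2) (h'.cv a1 a2)

omit [IsAlgClosed C] in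
theorem Ig.ev_add (h : Ig P) (h' : Ig Q) (ha : ‖a‖ < 1) : ev a (P + Q) = ev a P + ev a Q := by
  obtain ⟨r, a1, a2, a3, -⟩ := exists_r ha ha
  exact FI.ev_add a3 (h.cv a1 a2) (h'.cv a1 a2)

omit [IsAlgClosed C] in
theorem Ig.ev_sub (h : Ig P) (h' : Ig Q) (ha : ‖a‖ < 1) : ev a (P - Q) = ev a P - ev a Q := by
  obtain ⟨r, a1, a2, a3, -⟩ := exists_r ha ha
  exact FI.ev_sub a3 (h.cv a1 a2) (h'.cv a1 a2)

omit [IsAlgClosed C] [CompleteSpace C] in
theorem Ig.norm_ev_le (h : Ig P) (ha : ‖a‖ < 1) : ‖ev a P‖ ≤ 1 := by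
  obtain ⟨r, a1, a2, a3, -⟩ := exists_r ha ha
  exact (FI.norm_ev_le a1 a3 (h.cv a1 a2)).trans (h.gn_le a1 a2.le)

omit [IsAlgClosed C] in
/-- the value is congruent to the constant coefficient -/
theorem Ig.ev_sub_lt (h : Ig P) (ha : ‖a‖ < 1) : ‖ev a P - constantCoeff P‖ < 1 := by
  have h1 : Ig (mk fun n => coeff (n + 1) P) := fun n => by rw [coeff_mk]; exact h _
  conv_lhs => rw [eq_shift_mul_X_add_const P]
  rw [(h1.mul ig_X).ev_add (ig_C (by simpa using h 0)) ha, h1.ev_mul ig_X ha, ev_X, ev_C]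
  simp only [map_add, map_mul, constantCoeff_X, mul_zero, constantCoeff_C, zero_add,
    Algebra.algebraMap_self, RingHom.id_apply, add_sub_cancel_right, norm_mul]
  exact mul_lt_one_of_nonneg_of_lt_one_right (h1.norm_ev_le ha) (norm_nonneg _) ha

omit [IsAlgClosed C] in
theorem coeff_one_cmp (hr : 0 < r) (ha : ‖a‖ ≤ r) (hP : Cv r P) :
    coeff 1 (cmp (X + PowerSeries.C a) P) = ev a (d⁄dX C P) := by
  have H := mp_add hr ha
  have := congrArg constantCoeff (deriv_cmp hr hr H.cv H.le hP)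
  rw [map_mul, constantCoeff_cmp, ← coeff_zero_eq_constantCoeff_apply, coeff_derivative] at this
  simpa using this

theorem od_le_one (hr : 0 < r) (ha : ‖a‖ ≤ r) (hP : Cv r P) (h : ev a (d⁄dX C P) ≠ 0) :
    od r a (am C P) ≤ 1 := by
  rw [od, (mp_add hr ha).am hP]
  refine HahnSeries.order_le_of_coeff_ne_zero ?_
  rw [← coeff_one_cmp hr ha hP, ← coeff_am] at h
  exact h

/-- **Weierstrass preparation on the open disc** -/
theorem Ig.fac {e : ℕ} (h : Ig P) (h1 : ∀ n < e, ‖coeff n P‖ < 1) (h2 : ‖coeff e P‖ = 1) :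
    ∃ D, Fac (am C P) 1 D ∧ 0 ≤ D ∧ dgD D = e := by
  obtain ⟨r₀, a1, a2, a3⟩ := near_bd h h1 h2
  have P0 : P ≠ 0 := fun e => by simp [e] at h2
  obtain ⟨u, s, u1, u2, u3, u4, u5, u6⟩ := roots a1 (h.cv a1 a2) P0
  rw [(a3 _ le_rfl a2).2] at u5
  have b : ∀ r, r₀ ≤ r → gn r (s.map fun a => X - PowerSeries.C a).prod = r ^ e ∧
      wd r (s.map fun a => X - PowerSeries.C a).prod = e := fun r hr => by
    have hr0 := a1.trans_le hr
    refine ⟨?_, by rw [wd_prod hr0, Multiset.filter_eq_self.2 fun a ha => (u4 a ha).trans hr, u5]⟩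
    rw [← u5]
    clear u5 u6
    induction s using Multiset.induction_on with
    | empty => simpa using gn_one hr0
    | cons a s ih =>
      rw [Multiset.map_cons, Multiset.prod_cons, gn_mul hr0 ((cv_X r).sub (cv_C r a)) (cv_prod r s),
        ih fun b hb => u4 b (Multiset.mem_cons_of_mem hb), (gn_X_sub_C hr0 a).1,
        max_eq_left ((u4 a (Multiset.mem_cons_self _ _)).trans hr), Multiset.card_cons, pow_succ']
  have hu : Un u := by
    refine ⟨ig_of_near a2 fun r r1 r2 n => ?_, ?_⟩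
    · have hr := a1.trans r1
      obtain ⟨q, R, q1, q2, q3, q4, -⟩ := wdiv hr (cv_prod r s) (prod_ne s) (h.cv hr r2)
      rw [(b r r1.le).1, (a3 r r1.le r2).1, mul_le_iff_le_one_left (pow_pos hr e)] at q4
      have : u = q := by
        by_contra hne
        have e1 : (R : C⟦X⟧) = (u - q) * (s.map fun a => X - PowerSeries.C a).prod := by
          rw [sub_mul, ← u6, q3, add_sub_cancel_left]
        have c1 := u1.sub (q1.mono a1 r1.le)
        have c2 := wd_mul a1 c1 (cv_prod r₀ s) (sub_ne_zero.2 hne) (prod_ne s)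
        have c3 := coeff_wd_ne a1 (cv_poly r₀ R)
          (e1 ▸ mul_ne_zero (sub_ne_zero.2 hne) (prod_ne s))
        rw [← e1, (b r₀ le_rfl).2] at c2
        rw [(b r r1.le).2] at q2
        rw [Polynomial.coeff_coe] at c3
        exact c3 (Polynomial.coeff_eq_zero_of_degree_lt (q2.trans_le (by
          rw [c2]; exact_mod_cast Nat.le_add_left _ _)))
      exact this ▸ (le_gn q1 n).trans q4
    · have := gn_mul a1 u1 (cv_prod r₀ s)
      rw [← u6, (a3 _ le_rfl a2).1, (b _ le_rfl).1, gn_eq_const a1 u1 u3,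
        right_eq_mul₀ (pow_pos a1 e).ne'] at this
      simpa using this
  refine ⟨dv s, fac_iff.2 ⟨one_ne_zero, fun a ha => (u4 a (dv_ne
    (Finsupp.mem_support_iff.1 ha))).trans_lt a2, u, hu, by rw [u6, pr_dv]; simp⟩,
    Multiset.sum_nonneg fun D hD => ?_, by rw [dgD_eq, degree_dv, u5]⟩
  obtain ⟨a, -, rfl⟩ := Multiset.mem_map.1 hD
  exact Finsupp.single_nonneg.2 zero_le_one

omit [CompleteSpace C] [IsAlgClosed C] [IsUltrametricDist C] in
theorem exists_deg (h : Ig P) (h0 : ¬Sm P) :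
    ∃ e, (∀ n < e, ‖coeff n P‖ < 1) ∧ ‖coeff e P‖ = 1 := by
  classical
  have h1 : ∃ n, ¬‖coeff n P‖ < 1 := not_forall.1 h0
  exact ⟨Nat.find h1, fun n hn => not_not.1 (Nat.find_min h1 hn),
    (h _).eq_or_lt.resolve_right (Nat.find_spec h1)⟩

theorem Ig.fac' (h : Ig P) (h0 : rd P ≠ 0) : ∃ D, Fac (am C P) 1 D ∧ 0 ≤ D := by
  obtain ⟨e, h1, h2⟩ := exists_deg h fun s => h0 ((FI.rd_eq_zero h).2 s)
  obtain ⟨D, a, b, -⟩ := h.fac h1 h2
  exact ⟨D, a, b⟩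

/-- a function with non zero reduction has a factorisation -/
theorem Rd.fac (h : Rd x z) (h0 : z ≠ 0) : ∃ D, Fac x 1 D ∧ z.order = dgD D := by
  obtain ⟨P, Q, a1, a2, a3, a4, a5⟩ := id h
  obtain ⟨D, hD, -⟩ := a1.fac' fun e => mul_ne_zero h0 (am_ne a3) (by rw [a5, e, map_zero])
  obtain ⟨E, hE, -⟩ := a2.fac' a3
  have := hD.div hE
  rw [← eq_div_of_mul_eq hE.ne a4, div_one] at this
  exact ⟨_, this, (this.rd_order h h0).2⟩

theorem Fac.pos_iff (h : Fac (am C P) c D) (hP : Ig P) (ha : ‖a‖ < 1) : 0 < D a ↔ ev a P = 0 := by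
  obtain ⟨r, a1, a2, a3, -⟩ := exists_r ha ha
  rw [← h.od a1 a2 a3]
  exact ⟨fun h1 => by_contra fun e => h1.ne' (od_am_eq_zero a1 a3 (hP.cv a1 a2) e),
    od_am_pos a1 a3 (hP.cv a1 a2) fun e => h.ne (by rw [e, map_zero])⟩

theorem Fac.le_one (h : Fac (am C P) c D) (hP : Ig P) (ha : ‖a‖ < 1)
    (h1 : ev a (d⁄dX C P) ≠ 0) : D a ≤ 1 := by
  obtain ⟨r, a1, a2, a3, -⟩ := exists_r ha ha
  rw [← h.od a1 a2 a3]
  exact od_le_one a1 a3 (hP.cv a1 a2) h1

/-- **FAC** -/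
theorem fac_row [CharZero C] : FAC C := by
  refine ⟨fun x c D c' D' => Fac.unique, fun x y c D c' D' => Fac.mul,
    fun x c D h => ⟨h.ne, h.inv, h.order⟩, fun c => fac_const,
    fun x y c D c' D' c'' D'' h h' h'' => ⟨h.add_le h' h'', h.min_le h' h'', fun a1 a2 a3 => ?_⟩,
    fun x c D h => ?_, fun P e h h1 h2 => ?_⟩
  · obtain ⟨z, b1, b2, b3⟩ := h.red a1
    obtain ⟨z', c1, -, c3⟩ := h'.red a2
    have d1 : z + z' ≠ 0 := fun e => ((h''.rd_eq_zero (b1.add c1)).1 e).ne a3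
    rw [← (h''.rd_order (b1.add c1) d1).2]
    refine ⟨fun e => ?_, fun e e' => ?_⟩
    · rw [b2 e, zero_add] at d1 ⊢
      exact (h'.rd_order c1 d1).2
    · rw [← (b3 e).2, ← (c3 e').2]
      exact HahnSeries.min_order_le_order_add d1
  · obtain ⟨u, hu, e⟩ := h.quot
    have a1 := ig_pp h.2.1
    have a2 := ig_pp h.supp_neg
    refine ⟨u * pp D, pp (-D), hu.1.mul a1, a2, fun s => ?_, fun s => ?_, e, fun h0 => ?_,
      fun a ha => ?_⟩
    · have := (rd_eq_zero (hu.1.mul a1)).2 s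
      rw [rd_mul hu.1 a1, rd_pp h.2.1] at this
      exact mul_ne_zero (fun e => hu.rd_cc (by rw [e, map_zero])) (pow_ne_zero _ X_ne_zero) this
    · have := (rd_eq_zero a2).2 s
      rw [rd_pp h.supp_neg] at this
      exact pow_ne_zero _ X_ne_zero this
    · rw [pp_neg]
      refine Finset.prod_eq_one fun a _ => ?_
      have : (0 : ℤ) ≤ D a := h0 a
      simp only [Int.toNat_eq_zero.2 (show -D a ≤ 0 by omega), pow_zero]
    · have b1 : An4.ev a (pp (-D)) = 0 ↔ 0 < -D a := ev_pp (-D) a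
      have b2 : An4.ev a (u * pp D) = 0 ↔ 0 < D a := by
        change ev a (u * pp D) = 0 ↔ _
        rw [hu.1.ev_mul a1 ha, mul_eq_zero, ev_pp, or_iff_right]
        exact fun e => by simpa [e] using hu.norm_ev ha
      simp only [Ne, b1, b2]
      omega
  · obtain ⟨D, a1, a2, a3⟩ := h.fac h1 h2
    exact ⟨1, D, a1, norm_one, a2, a3, fun a ha => ⟨a1.pos_iff h ha, fun e =>
      by_contra fun n => absurd (a1.le_one h ha n) (not_le.2 e)⟩⟩

end fac

end Vale.Agent.P022K.FI
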