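import Vale.Agent.P022K.FI.Pb
import Vale.Agent.P022K.FI.Cal
import Vale.Agent.P022K.FI.Fac

/-!
# P022K, block FI: rows CALW, FRMW; basins and pre-basins
-/

set_option autoImplicit false
set_option linter.all false

open PowerSeries Vale.Agent.P019P P025H746
open scoped MatrixGroups LaurentSeries

noncomputable section

namespace Vale.Agent.P022K.FI

open Vale.Agent.P022K.Sh Gn Cl

namespace Pg

section series

variable {C : Type} [NontriviallyNormedField C] [IsUltrametricDist C] {τ P Q : C⟦X⟧} {ρ : ℝ}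
  {x y : C⸨X⸩} {a c : C} {D : C →₀ ℤ}

theorem mp_of (h : Ig τ) (h1 : coeff 1 τ ≠ 0) (r0 : 0 < ρ) (hc : ‖constantCoeff τ‖ ≤ ρ)
    (r1 : ρ < 1) : Mp ρ ρ τ :=
  ⟨r0, r0, h.cv r0 r1, Lt.Io.gn_le' h r0 r1 hc,
    fun c e => h1 (by rw [e, coeff_C, if_neg one_ne_zero])⟩

theorem mp_near (h : Sm (τ - X)) (r0 : 0 < ρ) (hc : ‖constantCoeff τ‖ ≤ ρ) (r1 : ρ < 1) :
    Mp ρ ρ τ :=
  mp_of (near_X h).1 (fun e => by simpa [e] using (near_X h).2.2) r0 hc r1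

theorem m1_zero : M1 (0 : C⸨X⸩) := fun _ _ _ => zero_mem _

theorem m1_fac (h : Fac x c D) : M1 x := fun _ r0 r1 => h.mem r0 r1

variable [CompleteSpace C] [IsAlgClosed C]

theorem o1_fac (h : Fac x c D) (ha : ‖a‖ < 1) : o1 a x = D a :=
  h.od (rad1 ha).1 (rad1 ha).2.2 (rad1 ha).2.1

theorem o1_zero (ha : ‖a‖ < 1) : o1 a (0 : C⸨X⸩) = 0 := od_zero (rad1 ha).1 (rad1 ha).2.1

theorem cm_cmF (H : Mp ρ ρ τ) (r1 : ρ < 1) (hx : x ∈ MM C ρ) : Cm τ x (cmF ρ τ x) :=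
  fun P Q hP hQ e => by
    have e1 : x * am C Q = am C P := e
    have := congrArg (cmF ρ τ) e1
    rwa [H.map_mul hx (hQ.cv H.hr r1).mem, H.am (hQ.cv H.hr r1), H.am (hP.cv H.hr r1)] at this

theorem eq_cmF (H : Mp ρ ρ τ) (r1 : ρ < 1) (hx : Fac x c D) (h : Cm τ x y) : y = cmF ρ τ x := by
  obtain ⟨P, Q, hP, hQ, q0, e⟩ := hx.ex_ig
  have e1 := cm_cmF H r1 (hx.mem H.hr r1) P Q hP hQ e
  exact mul_right_cancel₀ (H.mu.ne Q (hQ.cv H.hr r1) q0) ((h P Q hP hQ e).trans e1.symm)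

/-- a meromorphic function on the open disc with finitely many zeros and poles -/
theorem fac_of_finite (hx : M1 x) (x0 : x ≠ 0) (h : {a | ‖a‖ < 1 ∧ o1 a x ≠ 0}.Finite) :
    ∃ c D, Fac x c D := by
  classical
  let D : C →₀ ℤ := Finsupp.onFinset h.toFinset (fun a => if ‖a‖ < 1 then o1 a x else 0)
    fun a ha => by
      by_cases e : ‖a‖ < 1
      · exact h.mem_toFinset.2 ⟨e, by simpa [e] using ha⟩
      · simp [e] at ha
  have key : ∀ ρ : ℝ, 0 < ρ → ρ < 1 → ∃ u, Cv ρ u ∧ u ≠ 0 ∧ wd ρ u = 0 ∧ x / pr D = am C u :=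
    fun ρ r0 r1 => unit_of_od r0 (div_mem (hx ρ r0 r1) (pr_mem ρ D)) (div_ne_zero x0 (pr_ne D))
      fun a ha => by
        rw [od_div r0 ha (hx ρ r0 r1) (pr_mem ρ D) x0 (pr_ne D), od_pr r0 ha, ← hx.o1_eq r0 ha r1]
        simp [D, ha.trans_lt r1]
  obtain ⟨u, u1, u2, u3, e⟩ := key (1 / 2) (by norm_num) (by norm_num)
  have c0 : 0 < ‖constantCoeff u‖ := by
    rw [← gn_eq_const (by norm_num) u1 u3]; exact gn_pos (by norm_num) u1 u2
  have c1 := norm_pos_iff.1 c0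
  refine ⟨constantCoeff u, D, fac_iff.2 ⟨c1, fun a ha => ?_, (constantCoeff u)⁻¹ • u,
    ⟨fun n => Lt.le_of_rho (k := n) one_half_lt_one fun ρ r0 _ r1 => ?_, by simp [c1]⟩, ?_⟩⟩
  · by_contra f
    simp [D, f] at ha
  · obtain ⟨v, v1, -, v3, e'⟩ := key ρ r0 r1
    obtain rfl := am_inj (e.symm.trans e')
    rw [map_smul, smul_eq_mul, norm_mul, norm_inv, mul_assoc, inv_mul_le_iff₀ c0, mul_one,
      ← gn_eq_const r0 v1 v3]
    exact le_gn v1 n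
  · rw [← am_smul, smul_inv_smul₀ c1, ← e, div_mul_cancel₀ _ (pr_ne D)]

theorem va_of (r0 : 0 < ρ) (ha : ‖a‖ ≤ ρ) (hP : Cv ρ P) (hQ : Cv ρ Q) (e : x * am C Q = am C P)
    (h : ev a Q ≠ 0) : 0 ≤ od ρ a x ∧ va ρ a x = ev a P / ev a Q := by
  have q0 : Q ≠ 0 := fun f => h (by rw [f, ← map_zero PowerSeries.C, ev_C, map_zero])
  obtain rfl : x = am C P / am C Q := eq_div_of_mul_eq (am_ne q0) e
  have H := mp_add r0 ha
  have h1 : constantCoeff (cmp (X + PowerSeries.C a) Q) = ev a Q := by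
    rw [constantCoeff_cmp]; simp
  have h2 : constantCoeff (cmp (X + PowerSeries.C a) P) = ev a P := by
    rw [constantCoeff_cmp]; simp
  have h3 := PowerSeries.mul_inv_cancel _ (h1 ▸ h)
  have h4 : cmF ρ (X + PowerSeries.C a) (am C P / am C Q) =
      am C (cmp (X + PowerSeries.C a) P * (cmp (X + PowerSeries.C a) Q)⁻¹) := by
    rw [H.div hP hQ, map_mul, div_eq_mul_inv, ← eq_inv_of_mul_eq_one_right
      (show am C _ * am C _ = 1 by rw [← map_mul, h3, map_one])]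
  refine ⟨by rw [od, h4]; exact order_am_nonneg _, ?_⟩
  have := coeff_am (cmp (X + PowerSeries.C a) P * (cmp (X + PowerSeries.C a) Q)⁻¹) 0
  rw [Nat.cast_zero] at this
  rw [va, h4, this, coeff_zero_eq_constantCoeff_apply, map_mul, constantCoeff_inv, h1, h2,
    div_eq_mul_inv]

end series

variable {C L Γ O E : Type} [NontriviallyNormedField C] [IsUltrametricDist C] [CompleteSpace C]
  [IsAlgClosed C] [CharZero C] [Field L] [Algebra C L] [Group Γ] [CommRing O] [IsDomain O]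
  [IsDiscreteValuationRing O] [Field E] [Algebra O E] [Algebra E C] {A : AT C L Γ O E}
  {D : LTD C O E} {x y : Plk C L} {θ : L →ₐ[C] C⸨X⸩} {g : GL (Fin 2) E} {b a : C}
  {ε : ℤ → L →ₐ[C] C⸨X⸩} {n : ℤ} {ρ : ℝ}

theorem mp_br {ϖ : Eˣ} (hD : D.Ok ϖ) (o : Oˣ) (r0 : 0 < ρ) (r1 : ρ < 1) : Mp ρ ρ (D.br o) :=
  mp_of (hD.br_ig o) (by rw [br_one hD]; exact (map_ne_zero _).2 (unit_ne o)) r0
    (by rw [hD.br0, norm_zero]; exact r0.le) r1

theorem cmF_br {ϖ : Eˣ} (hD : D.Ok ϖ) (o : Oˣ) (t : E) (r0 : 0 < ρ)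
    (hc : ‖constantCoeff (D.tr t)‖ ≤ ρ) (r1 : ρ < 1) :
    ‖constantCoeff (D.tr (algebraMap O E o * t))‖ ≤ ρ ∧ ∀ z ∈ MM C ρ,
      sub (D.br o) (cmF ρ (D.tr (algebraMap O E o * t)) z) =
        cmF ρ (D.tr t) (sub (D.br o) z) := by
  have H := mp_br hD o r0 r1
  have e : cmp (D.tr t) (D.br o) = cmp (D.br o) (D.tr (algebraMap O E o * t)) := hD.tr_br t o
  have h1 : ‖constantCoeff (D.tr (algebraMap O E o * t))‖ ≤ ρ := by
    have := congrArg constantCoeff e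
    rw [constantCoeff_cmp, constantCoeff_cmp, hD.br0, ev_zero_left] at this
    exact (congrArg norm this).ge.trans ((norm_ev_le r0 hc H.cv).trans H.le)
  have H1 := mp_near (hD.tr_red t) r0 hc r1
  have H2 := mp_near (hD.tr_red _) r0 h1 r1
  refine ⟨h1, fun z hz => ?_⟩
  have h0 := br_ne hD (unit_ne (E := E) o)
  rw [← cmF_eq_sub (hD.br0 o) h0 (H2.mem hz), ← cmF_eq_sub (hD.br0 o) h0 hz, H2.assoc H hz,
    H.assoc H1 hz, e]

theorem pb_act (hA : A.Ok) (hB : A.PB D x θ g b ε) (γ : Γ) :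
    A.PB D (A.sm γ x) (θ.comp (A.act γ⁻¹ : L →ₐ[C] L)) (A.π γ * g) b
      fun n => (ε n).comp (A.act γ⁻¹ : L →ₐ[C] L) := by
  have k : ∀ n, ∀ h ∈ A.Ln (A.π γ * g) n, A.act γ⁻¹ h ∈ A.Ln g n := fun n h hh =>
    (Ln_act hA g n γ _).2 (by rwa [A.act_inv'])
  refine ⟨cm_act hB.cm γ, hyp_act hA hB.hyp γ, hB.b0, fun n h => hB.sb n _, fun n h hh =>
    hB.mer n _ (k n h hh), fun n c δ hδ hf h hh => ?_⟩
  show ∀ ρ, _ → _ → _ → ε n (A.act γ⁻¹ (A.act δ h)) = cmF ρ _ (ε n (A.act γ⁻¹ h))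
  rw [act_cj]
  exact hB.trn n c _ (H_conj hA hδ γ) (fm_act.1 hf) _ (k n h hh)

theorem pb_pi (hB : A.PB D x θ g b ε) (m : ℤ) :
    A.PB D x θ (g * dg (A.ϖ ^ m)) (b * algebraMap E C A.ϖ ^ m) fun n => ε (n + m) := by
  refine ⟨cm_frame hB.cm fun _ _ => fm_dg_dg _ _, hB.hyp, co_ne hB.b0 m, fun n h => ?_,
    fun n h hh => hB.mer _ h (Ln_dg (A := A) g n m ▸ hh), fun n c δ hδ hf h hh => ?_⟩
  · rw [mul_assoc, ← zpow_add₀ (pi_ne _), add_comm m]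
    exact hB.sb _ h
  · have := hB.trn (n + m) _ δ hδ ((fm_dg_un _ _).1 hf) h (Ln_dg (A := A) g n m ▸ hh)
    rwa [zpow_add, Units.val_mul, mul_comm ((A.ϖ ^ n : Eˣ) : E),
      mul_div_mul_left _ _ (Units.ne_zero _)] at this

theorem pb_o (hD : D.Ok A.ϖ) (hB : A.PB D x θ g b ε)
    {o : Oˣ} {μ : Eˣ} (e : (μ : E) = algebraMap O E o) :
    A.PB D x θ (g * dg μ) (b * algebraMap E C μ) fun n => (sub (D.br o)).comp (ε n) := by
  have b0 := mul_ne_zero hB.b0 (pi_ne (C := C) μ)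
  refine ⟨cm_frame hB.cm fun _ _ => fm_dg_dg _ _, hB.hyp, b0, fun n h => ?_,
    fun n h hh ρ r0 r1 => ?_, fun n c δ hδ hf h hh ρ r0 hc r1 => ?_⟩
  · rw [AlgHom.comp_apply, hB.sb, sub_br hD (unit_ne o) (co_ne hB.b0 n), e, mul_right_comm]
  · exact (mp_br hD o r0 r1).sub_mem (hD.br0 o)
      (hB.mer n h (Ln_o (A := A) g e n ▸ hh) ρ r0 r1)
  · rw [Ln_o (A := A) g e n] at hh
    have := hB.trn n _ δ hδ ((fm_dg_un _ _).1 hf) h hh ρ r0
    rw [e, mul_div_assoc] at this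
    obtain ⟨h1, h2⟩ := cmF_br hD o _ r0 hc r1
    rw [AlgHom.comp_apply, AlgHom.comp_apply, this h1 r1, h2 _ (hB.mer n h hh ρ r0 r1)]

theorem _root_.Vale.Agent.P022K.FI.AT.Bas.pb (hD : D.Ok A.ϖ) (hB : A.Bas D x θ g b ε) :
    A.PB D x θ g b ε := by
  refine ⟨hB.cm, hB.hyp, hB.b0, eps hD hB, fun n h hh => ?_,
    fun n c γ hγ hf h hh ρ r0 hc r1 => ?_⟩
  · rcases eq_or_ne h 0 with rfl | h0
    · rw [map_zero]; exact m1_zero
    · obtain ⟨c, Dv, e⟩ := hB.fac n h hh h0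
      exact m1_fac e
  · have H := mp_near (hD.tr_red _) r0 hc r1
    rcases eq_or_ne h 0 with rfl | h0
    · rw [map_zero, map_zero, H.map_zero]
    · obtain ⟨c', Dv, e⟩ := hB.fac n h hh h0
      exact eq_cmF H r1 e (hB.trn n c γ hγ hf h hh)

theorem ov_iff (hB : A.Bas D x θ g b ε) : A.Ov g ε n a y ↔ A.Ow g ε n a y := by
  refine and_congr_right fun ha => forall₂_congr fun h hh => ⟨fun H => ?_, fun H c Dv e => ?_⟩
  · rcases eq_or_ne h 0 with rfl | h0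
    · rw [map_zero, o1_zero ha]
      exact iff_of_true (zero_mem _) le_rfl
    · obtain ⟨c, Dv, e⟩ := hB.fac n h hh h0
      rw [H c Dv e, o1_fac e ha]
  · rw [H, o1_fac e ha]

theorem bas_of (hA : A.Ok) (hG : A.GN2) (hW : A.DSW) (hD : D.Ok A.ϖ) (hB : A.PB D x θ g b ε) :
    A.Bas D x θ g b ε := by
  classical
  refine ⟨hB.cm, hB.hyp, hB.b0, fun n h => (sb_iff (lam0 hD _) (lam_ne hD (co_ne hB.b0 n))).2
    (hB.sb n h), fun n h hh h0 => ?_, fun n c γ hγ hf h hh => ?_⟩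
  · obtain ⟨W, w1, V, v1, v2, e⟩ := hG g n {h} (by simpa using hh)
    have := hA.cff W w1 V v1
    obtain ⟨j, j1, j2, -⟩ := hW D hD x θ g b ε hB n W w1 V v1 v2
    have h1 : (⟨h, e h (by simp)⟩ : A.K (A.U W V)) ≠ 0 := fun f => h0 (congrArg Subtype.val f)
    refine fac_of_finite (hB.mer n h hh) ((map_ne_zero _).2 h0)
      (Set.Finite.of_finite_image (f := j) ((dv_finite h1).subset ?_) (j1.mono fun a ha => ha.1))
    rintro _ ⟨a, ha, rfl⟩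
    exact (j2 a ha.1 _ h1).trans_ne ha.2
  · obtain ⟨ρ, r0, r1, hc, -⟩ := exists_r (near_sm (hD.tr_red (c / (A.ϖ ^ n : Eˣ)))).2 one_half_lt_one
    rw [hB.trn n c γ hγ hf h hh ρ r0 hc r1]
    exact cm_cmF (mp_near (hD.tr_red _) r0 hc r1) r1 (hB.mer n h hh ρ r0 r1)

end Pg

open Pg

variable {C L Γ O E : Type} [NontriviallyNormedField C] [IsUltrametricDist C] [CompleteSpace C]
  [IsAlgClosed C] [CharZero C] [Field L] [Algebra C L] [Group Γ] [CommRing O] [IsDomain O]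
  [IsDiscreteValuationRing O] [Field E] [Algebra O E] [Algebra E C] {A : AT C L Γ O E}

/-- **CALW** -/
theorem calw (hA : A.Ok) : A.CALW := fun D hD x θ g b ε hB => by
  have h2 : ∀ n h, (ε n h).order = (θ h).order := fun n h => by
    rw [hB.sb, order_lam hD (co_ne hB.b0 n)]
  refine ⟨fun n h => ?_, h2, fun n => ?_, fun t ht m o μ e hf n h => ⟨Ln_fm_dg hA e hf n h, ?_⟩⟩
  · rw [hB.sb, hB.sb, sub_f hA.lf hD (co_ne hB.b0 n), zpow_add_one₀ (pi_ne _), mul_assoc]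
  · refine (hB.ow_iff one_half_pos (by simp) one_half_lt_one).2 fun s hs => ?_
    rw [od_at_zero (hB.mer n s hs _ one_half_pos one_half_lt_one), h2, hB.cm.pl]
  · have h1 := pi_ne (C := C) μ
    have h2 := pi_ne (C := C) A.ϖ
    rw [hB.sb, hB.sb, hB.cm.lin' ht hf, sub_smul_cx hD.lg0 (lg_ne hD) (co_ne hB.b0 _)
      (inv_ne_zero h1), sub_br hD (unit_ne o) (mul_ne_zero (inv_ne_zero h1) (co_ne hB.b0 _))]
    congr 3
    have h3 : algebraMap E C (algebraMap O E o) ≠ 0 := (map_ne_zero _).2 (unit_ne o)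
    rw [e, map_mul, map_zpow₀, zpow_add₀ h2]
    field_simp

/-- **FRMW** -/
theorem frmw (hA : A.Ok) : A.FRMW := fun D hD x θ g b ε hB =>
  ⟨pb_act hA hB, fun z hz => ⟨cm_frame hB.cm fun _ _ => fm_z hz, hB.hyp, hB.b0, hB.sb,
    fun n h hh => hB.mer n h (Ln_z (A := A) g hz n ▸ hh),
    fun n c δ hδ hf h hh => hB.trn n c δ hδ ((fm_z hz).1 hf) h (Ln_z (A := A) g hz n ▸ hh)⟩,
    pb_pi hB, fun o μ e => ⟨_, pb_o hD hB e, fun _ _ => rfl⟩⟩

/-- **BAS** -/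
theorem bas (hA : A.Ok) (hG : A.GN2) (hX : A.PBX) (hW : A.DSW) : A.BAS :=
  fun D hD x θ g h hx => (hX D hD x θ g h hx).imp fun _ => Exists.imp fun _ => bas_of hA hG hW hD

/-- **OVU** -/
theorem ovu (hV : A.OVW) : A.OVU := fun D hD x θ g b ε hB n => by
  obtain ⟨h1, h2, h3, h4, h5, h6, h7⟩ := hV D hD x θ g b ε (hB.pb hD) n
  simp only [ov_iff hB]
  refine ⟨fun a ha => ⟨(h1 a ha).1, ?_⟩, h2, h3, h4, h5, h6,
    fun a y hy h hh c P Q hP hQ e q0 => ?_⟩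
  · obtain ⟨h, hh, e⟩ := (h1 a ha).2
    obtain ⟨c, Dv, f⟩ := hB.fac n h hh fun f => by
      rw [f, map_zero, o1_zero ha] at e
      exact zero_ne_one e
    exact ⟨h, hh, c, Dv, f, by rw [← o1_fac f ha, e]⟩
  · obtain ⟨r0, r1, r2⟩ := rad1 hy.1
    obtain ⟨a1, a2⟩ := va_of r0 r1 ((hP.cv r0 r2).smul c) (hQ.cv r0 r2)
      (e.trans (am_smul c P).symm) q0
    have := h7 a y hy h hh ((hy.2 h hh).2 a1)
    rwa [v1, a2, ev_smul r1 (hP.cv r0 r2)] at this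

/-- **SIG1** -/
theorem sig1 (h : A.SG1) : A.SIG1 := fun D hD x θ g b ε x' θ' g' b' ε' hB hB' n a n' a' y e e' =>
  h D hD x θ g b ε x' θ' g' b' ε' (hB.pb hD) (hB'.pb hD) n a n' a' y ((ov_iff hB).1 e)
    ((ov_iff hB').1 e')

/-- **SIG2** -/
theorem sig2 (h : A.SG2) : A.SIG2 := fun D hD x θ g b ε x' θ' b' ε' hB hB' n a n' a' y e e' =>
  h D hD x θ g b ε x' θ' b' ε' (hB.pb hD) (hB'.pb hD) n a n' a' y ((ov_iff hB).1 e)
    ((ov_iff hB').1 e')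

/-- **SIG** -/
theorem sig (h : A.SG) : A.SIG := fun D hD x θ g b ε x' θ' g' b' ε' hB hB' n a n' a' y e e' =>
  h D hD x θ g b ε x' θ' g' b' ε' (hB.pb hD) (hB'.pb hD) n a n' a' y ((ov_iff hB).1 e)
    ((ov_iff hB').1 e')

/-- **DSC** -/
theorem dsc (hA : A.Ok) (h : A.DSW) : A.DSC := fun D hD x θ g b ε hB n W hW V hV hN _ => by
  obtain ⟨j, j1, j2, j3⟩ := h D hD x θ g b ε (hB.pb hD) n W hW V hV hN
  refine ⟨j, ⟨fun s s0 => ?_, j1⟩, fun a y e => j3 a y ((ov_iff hB).1 e)⟩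
  obtain ⟨c, Dv, e⟩ := hB.fac n s (le_Ln hW hV.z (fun c hc => (hN c).2 hc) s.2)
    fun f => s0 (Subtype.ext f)
  exact ⟨c, Dv, e, fun a ha => (j2 a ha s s0).trans (o1_fac e ha)⟩

end Vale.Agent.P022K.FI
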