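import Vale.Agent.P022K.FI.AnM
import Vale.Agent.P022K.FI.An2a
import Mathlib.RingTheory.LaurentSeries
import Mathlib.RingTheory.DiscreteValuationRing.Basic
import Mathlib.RingTheory.Ideal.Quotient.Index
import Mathlib.RingTheory.LocalRing.ResidueField.Basic

/-!
# FI, row AN2, part b: Kummer classes of the unipotent tower on a disc
-/

set_option linter.all false

noncomputable section

open PowerSeries Filter Topology LaurentSeries

namespace Vale.Agent.P022K.FI.Ku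

section mq

variable {C : Type} [NontriviallyNormedField C] [IsUltrametricDist C]

/-- power series as Laurent series -/
abbrev jp : C⟦X⟧ →+* C⸨X⸩ := HahnSeries.ofPowerSeries ℤ C

theorem jp_inj : Function.Injective (jp (C := C)) := HahnSeries.ofPowerSeries_injective

theorem jp_ne {f : C⟦X⟧} (h : f ≠ 0) : jp f ≠ 0 := (map_ne_zero_iff _ jp_inj).2 h

theorem jp_C (c : C) : jp (PowerSeries.C c) = algebraMap C C⸨X⸩ c := rfl

/-- quotients of series which converge on the closed disc -/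
def Mq (r : ℝ) (x : C⸨X⸩) : Prop := ∃ a b : C⟦X⟧, Cv r a ∧ Cv r b ∧ b ≠ 0 ∧ x * jp b = jp a

variable {r s : ℝ} {x y : C⸨X⸩} {f : C⟦X⟧}

theorem Mq.cv (h : Cv r f) : Mq r (jp f) := ⟨f, 1, h, cv_one r, one_ne_zero, by simp⟩

theorem Mq.zero : Mq r (0 : C⸨X⸩) := by simpa using Mq.cv (cv_zero (C := C) r)

theorem Mq.one : Mq r (1 : C⸨X⸩) := by simpa using Mq.cv (cv_one (C := C) r)

theorem Mq.mul (hx : Mq r x) (hy : Mq r y) : Mq r (x * y) := by
  obtain ⟨a, b, h1, h2, h3, h4⟩ := hx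
  obtain ⟨a', b', k1, k2, k3, k4⟩ := hy
  exact ⟨a * a', b * b', h1.mul k1, h2.mul k2, mul_ne_zero h3 k3, by
    rw [map_mul, map_mul, ← h4, ← k4]; ring⟩

theorem Mq.add (hx : Mq r x) (hy : Mq r y) : Mq r (x + y) := by
  obtain ⟨a, b, h1, h2, h3, h4⟩ := hx
  obtain ⟨a', b', k1, k2, k3, k4⟩ := hy
  exact ⟨a * b' + a' * b, b * b', (h1.mul k2).add (k1.mul h2), h2.mul k2, mul_ne_zero h3 k3, by
    rw [map_add, map_mul, map_mul, map_mul, ← h4, ← k4]; ring⟩

theorem Mq.inv (hx : Mq r x) : Mq r x⁻¹ := by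
  by_cases h0 : x = 0
  · rw [h0, inv_zero]; exact Mq.zero
  obtain ⟨a, b, h1, h2, h3, h4⟩ := hx
  refine ⟨b, a, h2, h1, fun e => ?_, by rw [← h4, inv_mul_cancel_left₀ h0]⟩
  rw [e, map_zero] at h4
  exact mul_ne_zero h0 (jp_ne h3) h4

theorem Mq.zpow (hx : Mq r x) (n : ℤ) : Mq r (x ^ n) := by
  have h : ∀ n : ℕ, Mq r (x ^ n) := fun n => by
    induction n with
    | zero => simpa using Mq.one
    | succ n ih => rw [pow_succ]; exact ih.mul hx
  obtain ⟨m, rfl | rfl⟩ := n.eq_nat_or_neg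
  · rw [zpow_natCast]; exact h m
  · rw [zpow_neg, zpow_natCast]; exact (h m).inv

theorem Mq.mono (hx : Mq r x) (hs : 0 < s) (h : s ≤ r) : Mq s x := by
  obtain ⟨a, b, h1, h2, h3, h4⟩ := hx
  exact ⟨a, b, h1.mono hs h, h2.mono hs h, h3, h4⟩

theorem cv_resc {l : C} (hf : Cv r f) (hs : 0 < s) (h : ‖l‖ * s ≤ r) : Cv s (rescale l f) :=
  Cv.of_le hs hf fun n => by
    rw [coeff_rescale, norm_mul, norm_pow, mul_comm (‖l‖ ^ n), mul_assoc, ← mul_pow]
    gcongr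

theorem Mq.resc {l : C} (σ : C⸨X⸩ →+* C⸨X⸩) (hσ : ∀ f, σ (jp f) = jp (rescale l f))
    (hx : Mq r x) (hs : 0 < s) (h : ‖l‖ * s ≤ r) : Mq s (σ x) := by
  obtain ⟨a, b, h1, h2, h3, h4⟩ := hx
  refine ⟨_, _, cv_resc h1 hs h, cv_resc h2 hs h, fun e => ?_, by rw [← hσ, ← hσ, ← map_mul, h4]⟩
  have := hσ b
  rw [e, map_zero, _root_.map_eq_zero] at this
  exact jp_ne h3 this

/-- the bound for logarithmic derivatives -/
theorem dlog_le (hr : 0 < r) {u w : C⟦X⟧} (hw : Cv r w) (u0 : u ≠ 0) (hu : Mq r (jp u))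
    (hd : d⁄dX C u = w * u) : gn r w ≤ 1 / r := by
  obtain ⟨a, b, h1, h2, h3, h4⟩ := hu
  rw [← map_mul] at h4
  have e := jp_inj h4
  have a0 : a ≠ 0 := e ▸ mul_ne_zero u0 h3
  have e2 : w * (a * b) = d⁄dX C a * b - a * d⁄dX C b := by
    rw [← e, Derivation.leibniz, hd, smul_eq_mul, smul_eq_mul]
    ring
  have h5 := gn_sub_le hr ((h1.deriv hr).mul h2) (h1.mul (h2.deriv hr))
  rw [← e2, gn_mul hr hw (h1.mul h2), gn_mul hr h1 h2, gn_mul hr (h1.deriv hr) h2,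
    gn_mul hr h1 (h2.deriv hr)] at h5
  have pa := gn_pos hr h1 a0
  have pb := gn_pos hr h2 h3
  refine le_of_mul_le_mul_right (h5.trans (max_le ?_ ?_)) (mul_pos pa pb)
  · calc _ ≤ gn r a / r * gn r b := by gcongr; exact gn_deriv hr h1
      _ = _ := by ring
  · calc _ ≤ gn r a * (gn r b / r) := by gcongr; exact gn_deriv hr h2
      _ = _ := by ring

theorem coeff_le (hr : 0 < r) {w : C⟦X⟧} (hw : Cv r w) (h : gn r w ≤ 1 / r) (n : ℕ) :
    ‖coeff n w‖ * r ^ (n + 1) ≤ 1 := by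
  rw [pow_succ, ← mul_assoc, ← le_div_iff₀ hr]
  exact (le_gn hw n).trans h

variable [CharZero C] {p : ℕ}

theorem d_ex_itg (w : C⟦X⟧) : d⁄dX C (ex (itg w)) = w * ex (itg w) := by
  rw [d_ex (cc_itg w), d_itg]

theorem ex_itg_add (w v : C⟦X⟧) : ex (itg (w + v)) = ex (itg w) * ex (itg v) := by
  rw [itg_add, ex_add (cc_itg w) (cc_itg v)]

theorem cv_ex (hp : p.Prime) (hp1 : ‖(p : C)‖ < 1) (hr : 0 < r) {w : C⟦X⟧} (hw : Cv r w)
    (h : gn r w ≤ 1 / r) (hs : 0 < s) (hsr : s < ‖(p : C)‖ * r) : Cv s (ex (itg w)) :=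
  Cv.of_bdd hs hsr (ode_le hp hp1 hr (d_ex_itg w) (by rw [cc_ex (cc_itg w), norm_one])
    (coeff_le hr hw h))

/-- `D` is the logarithmic derivative of `Y` modulo meromorphic functions -/
def Rep (r : ℝ) (Y : C⸨X⸩) (D : C⟦X⟧) : Prop := ∃ m, Mq r m ∧ Y = m * jp (ex (itg D))

variable {D D' : C⟦X⟧}

theorem Rep.mul (h : Rep r x D) (h' : Rep r y D') : Rep r (x * y) (D + D') := by
  obtain ⟨m, h1, h2⟩ := h
  obtain ⟨m', k1, k2⟩ := h'
  exact ⟨m * m', h1.mul k1, by rw [ex_itg_add, map_mul, h2, k2]; ring⟩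

theorem Rep.left (hx : Mq r x) (h : Rep r y D) : Rep r (x * y) D := by
  obtain ⟨m, h1, h2⟩ := h
  exact ⟨x * m, hx.mul h1, by rw [h2, mul_assoc]⟩

theorem Rep.mono (h : Rep r x D) (hs : 0 < s) (hsr : s ≤ r) : Rep s x D := by
  obtain ⟨m, h1, h2⟩ := h
  exact ⟨m, h1.mono hs hsr, h2⟩

theorem Rep.zero (hx : Mq r x) : Rep r x 0 := ⟨x, hx, by rw [itg_zero, ex_zero, map_one, mul_one]⟩

theorem Rep.close (hr : 0 < r) (x0 : x ≠ 0) (hD : Cv r (D - D')) (h : Rep r x D)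
    (h' : Rep r x D') : gn r (D - D') ≤ 1 / r := by
  obtain ⟨m, h1, h2⟩ := h
  obtain ⟨m', k1, k2⟩ := h'
  have m0 : m ≠ 0 := fun e => x0 (by rw [h2, e, zero_mul])
  refine dlog_le hr hD (ex_ne (cc_itg _)) ?_ (d_ex_itg _)
  have e : jp (ex (itg (D - D'))) = m⁻¹ * m' := by
    refine mul_right_cancel₀ (jp_ne (ex_ne (cc_itg D'))) ?_
    rw [← map_mul, ← ex_itg_add, sub_add_cancel, mul_assoc, ← k2, h2, inv_mul_cancel_left₀ m0]
  rw [e]
  exact h1.inv.mul k1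

theorem Rep.shift (hp : p.Prime) (hp1 : ‖(p : C)‖ < 1) (hr : 0 < r) (hD : Cv r (D - D'))
    (hn : gn r (D - D') ≤ 1 / r) (h : Rep r x D) (hs : 0 < s) (hsr : s < ‖(p : C)‖ * r) :
    Rep s x D' := by
  obtain ⟨m, h1, h2⟩ := h
  have hle : s ≤ r := hsr.le.trans (mul_le_of_le_one_left hr.le hp1.le)
  refine ⟨m * jp (ex (itg (D - D'))), (h1.mono hs hle).mul (Mq.cv (cv_ex hp hp1 hr hD hn hs hsr)),
    ?_⟩
  rw [mul_assoc, ← map_mul, ← ex_itg_add, sub_add_cancel, h2]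

theorem d_resc (l : C) (f : C⟦X⟧) : d⁄dX C (rescale l f) = l • rescale l (d⁄dX C f) := by
  ext n
  simp only [coeff_derivative, coeff_rescale, coeff_smul, smul_eq_mul]
  ring

theorem cc_resc (l : C) (f : C⟦X⟧) : constantCoeff (rescale l f) = constantCoeff f := by
  rw [← coeff_zero_eq_constantCoeff_apply, coeff_rescale, pow_zero, one_mul,
    coeff_zero_eq_constantCoeff_apply]

theorem resc_ex_itg (l : C) (D : C⟦X⟧) :
    rescale l (ex (itg D)) = ex (itg (l • rescale l D)) := by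
  refine ode_uniq (w := l • rescale l D) ?_ (d_ex_itg _) ?_
  · rw [d_resc, d_ex_itg, map_mul, smul_mul_assoc]
  · rw [cc_resc, cc_ex (cc_itg _), cc_ex (cc_itg _)]

theorem Rep.resc {l : C} (σ : C⸨X⸩ →+* C⸨X⸩) (hσ : ∀ f, σ (jp f) = jp (rescale l f))
    (h : Rep r x D) (hs : 0 < s) (hl : ‖l‖ * s ≤ r) : Rep s (σ x) (l • rescale l D) := by
  obtain ⟨m, h1, h2⟩ := h
  exact ⟨σ m, h1.resc σ hσ hs hl, by rw [h2, map_mul, hσ, resc_ex_itg]⟩

theorem itg_C (a : C) : itg (PowerSeries.C a) = a • (X : C⟦X⟧) :=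
  derivative.ext (by rw [d_itg, Derivation.map_smul, derivative_X, smul_eq_C_mul, mul_one])
    (by simp [cc_itg])

theorem ex_smul_X (a : C) : ex (a • (X : C⟦X⟧)) = rescale a (PowerSeries.exp C) := by
  rw [ex, rescale_eq_subst]

end mq

section eig

variable {C : Type} [NontriviallyNormedField C] {E L : Type} [Field E] [Algebra E C] [Field L]
  [Algebra C L]

variable (C) in
/-- the absolute value on `E` -/
abbrev av (b : E) : ℝ := ‖algebraMap E C b‖

theorem av_mul (a b : E) : av C (a * b) = av C a * av C b := by rw [av, map_mul, norm_mul]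

theorem av_div (a b : E) : av C (a / b) = av C a / av C b := by rw [av, map_div₀, norm_div]

theorem av_pos {a : E} (h : a ≠ 0) : 0 < av C a := norm_pos_iff.2 ((map_ne_zero _).2 h)

theorem av_nonneg (a : E) : 0 ≤ av C a := norm_nonneg _

theorem av_neg (a : E) : av C (-a) = av C a := by rw [av, map_neg, norm_neg]

theorem av_one : av C (1 : E) = 1 := by rw [av, map_one, norm_one]

theorem av_add [IsUltrametricDist C] (a b : E) : av C (a + b) ≤ max (av C a) (av C b) := by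
  rw [av, map_add]; exact IsUltrametricDist.norm_add_le_max _ _

variable (ν : AddChar E (L ≃ₐ[C] L)) (ψ : AddChar E C)

/-- fixed by the ball of radius `s` -/
def Fx (s : ℝ) (y : L) : Prop := ∀ b : E, av C b ≤ s → ν b y = y

/-- eigenvector of the ball of radius `s` -/
def Eig (s : ℝ) (c : E) (y : L) : Prop := ∀ b : E, av C b ≤ s → ν b y = ψ (c * b) • y

variable {ν ψ} {s s' : ℝ} {a c : E} {x y : L}

theorem psi_ne (ψ : AddChar E C) (b : E) : ψ b ≠ 0 := fun e => by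
  have := ψ.map_add_eq_mul b (-b)
  rw [e, zero_mul, add_neg_cancel, ψ.map_zero_eq_one] at this
  exact one_ne_zero this

theorem Fx.mono (h : Fx ν s y) (hs : s' ≤ s) : Fx ν s' y := fun b hb => h b (hb.trans hs)

theorem Eig.mono (h : Eig ν ψ s c y) (hs : s' ≤ s) : Eig ν ψ s' c y := fun b hb => h b (hb.trans hs)

theorem eig_zero : Eig ν ψ s 0 y ↔ Fx ν s y := by simp [Eig, Fx]

theorem Eig.mul (h : Eig ν ψ s a x) (h' : Eig ν ψ s c y) : Eig ν ψ s (a + c) (x * y) :=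
  fun b hb => by
    rw [map_mul, h b hb, h' b hb, add_mul, ψ.map_add_eq_mul, smul_mul_smul_comm]

theorem Eig.inv (h : Eig ν ψ s c y) : Eig ν ψ s (-c) y⁻¹ := fun b hb => by
  rw [map_inv₀, h b hb, neg_mul, AddChar.map_neg_eq_inv, Algebra.smul_def, Algebra.smul_def,
    mul_inv, map_inv₀]

theorem Eig.div (h : Eig ν ψ s c x) (h' : Eig ν ψ s c y) : Fx ν s (x / y) := by
  have := h.mul h'.inv
  rwa [add_neg_cancel, eig_zero, ← div_eq_mul_inv] at this

theorem Eig.pow (h : Eig ν ψ s c y) (n : ℕ) : Eig ν ψ s (n * c) (y ^ n) := by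
  induction n with
  | zero => intro b _; simp
  | succ n ih => rw [pow_succ, Nat.cast_succ, add_mul, one_mul]; exact ih.mul h

theorem Eig.congr (hψ : ∀ b : E, av C b ≤ 1 → ψ b = 1) (h : Eig ν ψ s c y)
    (hac : av C (a - c) * s ≤ 1) : Eig ν ψ s a y := fun b hb => by
  rw [h b hb, show a * b = c * b + (a - c) * b by ring, ψ.map_add_eq_mul, hψ ((a - c) * b), mul_one]
  rw [av_mul]
  exact (mul_le_mul_of_nonneg_left hb (av_nonneg _)).trans hac

theorem Eig.fx (hψ : ∀ b : E, av C b ≤ 1 → ψ b = 1) (h : Eig ν ψ s c y) (hc : av C c * s ≤ 1) :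
    Fx ν s y := eig_zero.1 (h.congr hψ (by rwa [zero_sub, av_neg]))

theorem Eig.conj {Φ : L ≃ₐ[C] L} {μ : E} (h0 : μ ≠ 0) (hν : ∀ b x, Φ (ν b x) = ν (μ * b) (Φ x))
    (h : Eig ν ψ s c y) : Eig ν ψ (av C μ * s) (c / μ) (Φ y) := fun b hb => by
  have e : b = μ * (b / μ) := by field_simp
  have h1 : av C (b / μ) ≤ s := by rwa [av_div, div_le_iff₀' (av_pos h0)]
  rw [e, ← hν, h _ h1, map_smul]
  congr 2
  field_simp

theorem Eig.conj' {Φ : L ≃ₐ[C] L} {μ : E} (hν : ∀ b x, Φ (ν b x) = ν (μ * b) (Φ x))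
    (h : Eig ν ψ (av C μ * s) c y) : Eig ν ψ s (c * μ) (Φ.symm y) := fun b hb => by
  apply Φ.injective
  rw [hν, map_smul, Φ.apply_symm_apply, h _ ?_, mul_assoc]
  rw [av_mul]
  exact mul_le_mul_of_nonneg_left hb (av_nonneg _)

theorem exists_pow_le {p : ℕ} (hp1 : ‖(p : C)‖ < 1) (M : ℝ) {ε : ℝ} (hε : 0 < ε) :
    ∃ k : ℕ, M * ‖(p : C)‖ ^ k ≤ ε := by
  have h2 : Tendsto (fun n => M * ‖(p : C)‖ ^ n) atTop (𝓝 0) := by
    simpa using (tendsto_pow_atTop_nhds_zero_of_lt_one (norm_nonneg _) hp1).const_mul M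
  exact ((h2.eventually (gt_mem_nhds hε)).exists).imp fun k hk => hk.le

theorem av_pow_mul (p k : ℕ) (c : E) : av C (((p ^ k : ℕ) : E) * c) = av C c * ‖(p : C)‖ ^ k := by
  rw [av_mul, av, map_natCast, Nat.cast_pow, norm_pow, mul_comm]

end eig

section theta

variable {C : Type} [NontriviallyNormedField C] [IsUltrametricDist C] [CompleteSpace C] [CharZero C]
  {E L : Type} [Field E] [Algebra E C] [Field L] [Algebra C L] {e : L →ₐ[C] C⸨X⸩}
  {ν : AddChar E (L ≃ₐ[C] L)} {ψ : AddChar E C} {p : ℕ} {r s : ℝ}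

/-- the additive family of logarithmic derivatives -/
theorem theta (hp : p.Prime) (hp1 : ‖(p : C)‖ < 1) (hr : 0 < r)
    (hψ : ∀ b : E, av C b ≤ 1 → ψ b = 1) (fix : ∀ x, Fx ν s x → Mq r (e x))
    (k1 : ∀ (y : L) (N : ℕ), y ≠ 0 → N ≠ 0 → Fx ν s (y ^ N) → ∃ D, Cv r D ∧ Rep r (e y) D)
    (all : ∀ c, ∃ y, y ≠ 0 ∧ Eig ν ψ s c y) :
    ∃ Θ : E →+ C⟦X⟧, (∀ c, Cv r (Θ c)) ∧ ∀ ρ, 0 < ρ → ρ < ‖(p : C)‖ * r →
      ∀ c y, Eig ν ψ s c y → Rep ρ (e y) (Θ c) := by
  haveI := Fact.mk hr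
  haveI := (algebraMap E C).charZero
  choose y y0 hy using all
  have hD : ∀ c, ∃ D, Cv r D ∧ Rep r (e (y c)) D := fun c => by
    obtain ⟨k, hk⟩ := exists_pow_le hp1 (av C c * s) one_pos
    refine k1 (y c) (p ^ k) (y0 c) (pow_ne_zero _ hp.ne_zero) (((hy c).pow _).fx hψ ?_)
    rwa [av_pow_mul, mul_right_comm]
  choose D hD1 hD2 using hD
  have tr : ∀ c x, Eig ν ψ s c x → ∀ x' D', x' ≠ 0 → Eig ν ψ s c x' → Rep r (e x') D' →
      Rep r (e x) D' := fun c x hx x' D' x0 hx' h => by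
    have := h.left (fix _ (hx.div hx'))
    rwa [← map_mul, div_mul_cancel₀ _ x0] at this
  obtain ⟨T, hT⟩ := hyers (C := C) (M := 1 / r) hp.ne_zero hp1
    (fun c => (⟨D c, hD1 c⟩ : TA C r)) fun a b => by
      have h1 := tr _ _ (hy (a + b)) _ _ (mul_ne_zero (y0 a) (y0 b)) ((hy a).mul (hy b))
        (by rw [map_mul]; exact (hD2 a).mul (hD2 b))
      have h2 := Rep.close hr ((map_ne_zero e).2 (y0 _)) ((hD1 _).sub ((hD1 a).add (hD1 b)))
        (hD2 (a + b)) h1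
      rw [← _root_.sub_sub] at h2
      exact h2
  refine ⟨(TA C r).val.toLinearMap.toAddMonoidHom.comp T, fun c => (T c).2,
    fun ρ h0 h1 c x hx => ?_⟩
  refine (tr c x hx _ _ (y0 c) (hy c) (hD2 c)).shift hp hp1 hr ((hD1 c).sub (T c).2) ?_ h0 h1
  have := hT c
  rw [← norm_neg, neg_sub] at this
  exact this

omit [IsUltrametricDist C] [CompleteSpace C] in
theorem lead1 (hp : p.Prime) (hp1 : ‖(p : C)‖ < 1) (b : E →+ C) {δ M : ℝ} (hδ : 0 < δ)
    (hb : ∀ c, av C c ≤ δ → ‖b c‖ ≤ M) {I : Type} (μ : I → E) (m : ℕ)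
    (he : ∀ t c, b (μ t * c) = algebraMap E C (μ t) ^ m * b c)
    (den : ∀ x : E, x ≠ 0 → ∀ ε > 0, ∃ t, av C (μ t - x) < ε) (x : E) (hx : x ≠ 0) (c : E) :
    b (x * c) = algebraMap E C x ^ m * b c := by
  haveI := (algebraMap E C).charZero
  have P0 : 0 < ‖(p : C)‖ := norm_pos_iff.2 (Nat.cast_ne_zero.2 hp.ne_zero)
  have cont : ∀ u : ℕ → E, Tendsto (fun k => algebraMap E C (u k)) atTop (𝓝 0) →
      Tendsto (fun k => b (u k)) atTop (𝓝 0) := fun u hu => by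
    rw [NormedAddGroup.tendsto_nhds_zero] at hu ⊢
    intro ε hε
    obtain ⟨k, hk⟩ := exists_pow_le hp1 M (half_pos hε)
    filter_upwards [hu _ (mul_pos hδ (pow_pos P0 k))] with n hn
    have q0 : ((p ^ k : ℕ) : E) ≠ 0 := Nat.cast_ne_zero.2 (pow_ne_zero _ hp.ne_zero)
    have e1 : u n = ((p ^ k : ℕ) : E) * (u n / (p ^ k : ℕ)) := by field_simp
    have h1 : av C (u n / (p ^ k : ℕ)) ≤ δ := by
      refine le_of_mul_le_mul_right ?_ (pow_pos P0 k)
      rw [← av_pow_mul, ← e1]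
      exact hn.le
    rw [e1, ← nsmul_eq_mul, map_nsmul, nsmul_eq_mul, norm_mul, Nat.cast_pow, norm_pow, mul_comm]
    exact ((mul_le_mul_of_nonneg_right (hb _ h1) (pow_pos P0 k).le).trans hk).trans_lt
      (half_lt_self hε)
  choose t ht using fun k : ℕ => den x hx (1 / ((k : ℝ) + 1)) Nat.one_div_pos_of_nat
  have h1 : Tendsto (fun k => algebraMap E C (μ (t k) - x)) atTop (𝓝 0) :=
    squeeze_zero_norm (fun k => (ht k).le) tendsto_one_div_add_atTop_nhds_zero_nat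
  have h2 : Tendsto (fun k => b ((μ (t k) - x) * c)) atTop (𝓝 0) := cont _ (by
    simpa using h1.mul_const (algebraMap E C c))
  have h3 : Tendsto (fun k => algebraMap E C (μ (t k))) atTop (𝓝 (algebraMap E C x)) := by
    simpa using h1.add_const (algebraMap E C x)
  have h4 := ((h3.pow m).mul_const (b c)).sub_const (b (x * c))
  have h5 := tendsto_nhds_unique h4 (h2.congr fun k => by rw [sub_mul, map_sub, he])
  exact (sub_eq_zero.1 h5).symm

variable {I : Type} {Φ : I → L ≃ₐ[C] L} {μ : I → E} {σ : I → C⸨X⸩ →+* C⸨X⸩}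

omit [CompleteSpace C] [CharZero C] in
theorem fix_conj (fix : ∀ x, Fx ν s x → Mq r (e x)) {Φ : L ≃ₐ[C] L} {μ : E}
    {σ : C⸨X⸩ →+* C⸨X⸩} (h0 : μ ≠ 0) (hσ : ∀ f, σ (jp f) = jp (rescale (algebraMap E C μ)⁻¹ f))
    (he : ∀ x, e (Φ x) = σ (e x)) (hν : ∀ b x, Φ (ν b x) = ν (μ * b) (Φ x)) {x : L}
    (hx : Fx ν (av C μ * s) x) {ρ : ℝ} (hρ : 0 < ρ) (h : ρ ≤ av C μ * r) : Mq ρ (e x) := by
  have h1 := ((eig_zero (ψ := (1 : AddChar E C))).2 hx).conj' hν
  rw [zero_mul, eig_zero] at h1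
  have h2 := (fix _ h1).resc σ hσ hρ (by rwa [norm_inv, inv_mul_le_iff₀ (av_pos h0)])
  rwa [← he, Φ.apply_symm_apply] at h2

/-- equivariance determines the logarithmic derivatives -/
theorem lead (hp : p.Prime) (hp1 : ‖(p : C)‖ < 1) (hr : 0 < r) (hs : 0 < s)
    (hψ : ∀ b : E, av C b ≤ 1 → ψ b = 1) (fix : ∀ x, Fx ν s x → Mq r (e x))
    (k1 : ∀ (y : L) (N : ℕ), y ≠ 0 → N ≠ 0 → Fx ν s (y ^ N) → ∃ D, Cv r D ∧ Rep r (e y) D)
    (all : ∀ c, ∃ y, y ≠ 0 ∧ Eig ν ψ s c y) (h0 : ∀ t, μ t ≠ 0)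
    (hσ : ∀ t f, σ t (jp f) = jp (rescale (algebraMap E C (μ t))⁻¹ f))
    (he : ∀ t x, e (Φ t x) = σ t (e x)) (hν : ∀ t b x, Φ t (ν b x) = ν (μ t * b) (Φ t x))
    (den : ∀ x : E, x ≠ 0 → ∀ ε > 0, ∃ t, av C (μ t - x) < ε) :
    ∃ β : C, ∀ ρ, 0 < ρ → ρ < ‖(p : C)‖ * r → ∀ c y, Eig ν ψ s c y →
      Rep ρ (e y) (PowerSeries.C (algebraMap E C c * β)) := by
  haveI := (algebraMap E C).charZero
  obtain ⟨Θ, T1, T2⟩ := theta hp hp1 hr hψ fix k1 all
  have P0 : 0 < ‖(p : C)‖ := norm_pos_iff.2 (Nat.cast_ne_zero.2 hp.ne_zero)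
  obtain ⟨ρ, r0, r1⟩ := exists_between (mul_pos P0 hr)
  have r2 : ρ ≤ r := r1.le.trans (mul_le_of_le_one_left hr.le hp1.le)
  let b : ℕ → E →+ C := fun n => (coeff (R := C) n).toAddMonoidHom.comp Θ
  have hb : ∀ n c, b n c = coeff n (Θ c) := fun _ _ => rfl
  have eq : ∀ n t c, b n (μ t * c) = algebraMap E C (μ t) ^ (n + 1) * b n c := fun n t c => by
    have m0 := av_pos (C := C) (h0 t)
    have i0 : algebraMap E C (μ t) ≠ 0 := (map_ne_zero _).2 (h0 t)
    set ρ' := min ρ (av C (μ t) * ρ) with hρ'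
    have q0 : 0 < ρ' := lt_min r0 (mul_pos m0 r0)
    have q1 : ‖(algebraMap E C (μ t))⁻¹‖ * ρ' ≤ ρ := by
      rw [norm_inv, inv_mul_le_iff₀ m0]; exact min_le_right _ _
    let W : E →+ C := AddMonoidHom.mk' (fun c => (algebraMap E C (μ t))⁻¹ ^ (n + 1) *
      b n (μ t * c) - b n c) fun x y => by rw [mul_add, map_add, map_add]; ring
    have hW : ∀ c, ‖W c‖ ≤ 1 / ρ' ^ (n + 1) := fun c => by
      obtain ⟨y, y0, hy⟩ := all (μ t * c)
      obtain ⟨y', y0', hy'⟩ := all c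
      have a1 := (T2 ρ r0 r1 _ _ hy).resc (σ t) (hσ t) q0 q1
      rw [← he] at a1
      have a2 := hy.conj (h0 t) (hν t)
      rw [mul_div_cancel_left₀ _ (h0 t)] at a2
      have a3 : Mq ρ' (e (Φ t y / y')) := by
        rcases le_total (av C (μ t)) 1 with h | h
        · exact fix_conj fix (h0 t) (hσ t) (he t) (hν t)
            (a2.div (hy'.mono (mul_le_of_le_one_left hs.le h))) q0
            ((min_le_right _ _).trans (by gcongr))
        · exact (fix _ ((a2.mono (le_mul_of_one_le_left hs.le h)).div hy')).mono q0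
            ((min_le_left _ _).trans r2)
      have a4 := ((T2 ρ r0 r1 _ _ hy').mono q0 (min_le_left _ _)).left a3
      rw [← map_mul, div_mul_cancel₀ _ y0'] at a4
      have a5 := ((cv_resc (T1 (μ t * c)) q0 (q1.trans r2)).smul (algebraMap E C (μ t))⁻¹).sub
        ((T1 c).mono q0 ((min_le_left _ _).trans r2))
      have a6 := coeff_le q0 a5 (Rep.close q0 ((map_ne_zero e).2 ((map_ne_zero (Φ t)).2 y0)) a5
        a1 a4) n
      rw [map_sub, coeff_smul, coeff_rescale, smul_eq_mul, ← mul_assoc, ← pow_succ',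
        ← le_div_iff₀ (pow_pos q0 _)] at a6
      exact a6
    have : (algebraMap E C (μ t))⁻¹ ^ (n + 1) * b n (μ t * c) - b n c = 0 :=
      zero_of_bd (C := C) hp.ne_zero hp1 W c fun k => hW _
    rw [← sub_eq_zero.1 this, ← mul_assoc, ← mul_pow, mul_inv_cancel₀ i0, one_pow, one_mul]
  have bd : ∀ n c, av C c ≤ s⁻¹ → ‖b n c‖ ≤ 1 / ρ ^ (n + 1) := fun n c hc => by
    have a1 : Eig ν ψ s c 1 := (eig_zero.2 fun b _ => map_one _).congr hψ (by
      rwa [sub_zero, ← le_div_iff₀ hs, one_div])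
    have a2 := T2 ρ r0 r1 _ _ a1
    rw [map_one] at a2
    have a3 : Cv ρ (Θ c - 0) := by rw [sub_zero]; exact (T1 c).mono r0 r2
    have a4 := coeff_le r0 a3 (Rep.close r0 one_ne_zero a3 a2 (Rep.zero Mq.one)) n
    rwa [sub_zero, ← le_div_iff₀ (pow_pos r0 _)] at a4
  have L1 := fun n => lead1 hp hp1 (b n) (inv_pos.2 hs) (bd n) μ (n + 1) (eq n) den
  refine ⟨b 0 1, fun ρ h1 h2 c y hy => ?_⟩
  convert T2 ρ h1 h2 c y hy using 1
  ext n
  rcases n with _ | n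
  · rw [coeff_zero_C, ← hb]
    by_cases hc : c = 0
    · simp [hc]
    · have := L1 0 c hc 1
      rw [mul_one, zero_add, pow_one] at this
      exact this.symm
  · rw [coeff_succ_C, ← hb]
    have h3 := L1 (n + 1) 2 two_ne_zero c
    rw [two_mul, map_add, map_ofNat] at h3
    have h4 : (2 : C) ^ (n + 1) - 1 ≠ 0 := by
      rw [sub_ne_zero]
      exact_mod_cast (Nat.one_lt_two_pow (Nat.succ_ne_zero n)).ne'
    refine (mul_left_cancel₀ (mul_ne_zero two_ne_zero h4) ?_).symm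
    rw [pow_succ] at h3
    linear_combination -h3

omit [IsUltrametricDist C] [CompleteSpace C] in
/-- decomposition into eigenvectors -/
theorem dec {O : Type} [CommRing O] [IsDomain O] [IsDiscreteValuationRing O]
    [Finite (IsLocalRing.ResidueField O)] [Algebra O E] [IsFractionRing O E]
    (hO : ∀ x : E, av C x ≤ 1 ↔ ∃ o, algebraMap O E o = x) (hψ : ∀ b : E, av C b ≤ 1 → ψ b = 1)
    (prim : ∀ x : E, (∀ b, av C b ≤ 1 → ψ (b * x) = 1) → av C x ≤ 1) {al γ : E} (hγ : γ ≠ 0)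
    (h : av C γ ≤ av C al) {x : L} (hx : Fx ν (av C γ) x) :
    ∃ (J : Type) (_ : Fintype J) (c : J → E) (y : J → L),
      (∀ j, Eig ν ψ (av C al) (c j) (y j) ∧ av C (c j) * av C γ ≤ 1) ∧ x = ∑ j, y j := by
  have g0 := av_pos (C := C) hγ
  have a0 : al ≠ 0 := fun e => by
    rw [e, av, av, map_zero, norm_zero] at h
    exact absurd g0 (not_lt.2 h)
  have a1 := av_pos (C := C) a0
  have o1 : ∀ o, av C (algebraMap O E o) ≤ 1 := fun o => (hO _).2 ⟨o, rfl⟩
  obtain ⟨d, hd⟩ := (hO (γ / al)).1 (by rwa [av_div, div_le_one a1])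
  have d0 : algebraMap O E d ≠ 0 := hd ▸ div_ne_zero hγ a0
  have hg : γ = al * algebraMap O E d := by rw [hd]; field_simp
  haveI : Finite (O ⧸ Ideal.span {d}) := by
    obtain ⟨π, hπ⟩ := IsDiscreteValuationRing.exists_irreducible O
    obtain ⟨n, hn⟩ := IsDiscreteValuationRing.ideal_eq_span_pow_irreducible
      (s := Ideal.span {d}) (by
        rw [Ne, Ideal.span_singleton_eq_bot]
        exact fun e => d0 (by rw [e, map_zero])) hπ
    rw [hn, ← Ideal.span_singleton_pow, ← hπ.maximalIdeal_eq]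
    haveI : Finite (O ⧸ IsLocalRing.maximalIdeal O) :=
      inferInstanceAs (Finite (IsLocalRing.ResidueField O))
    exact Ideal.finite_quotient_pow (IsNoetherian.noetherian _) n
  letI := Fintype.ofFinite (O ⧸ Ideal.span {d})
  let q := Ideal.Quotient.mk (Ideal.span {d})
  choose out hout using Ideal.Quotient.mk_surjective (I := Ideal.span {d})
  have k0 : ∀ o o', q o = q o' → ∃ k, algebraMap O E o =
      algebraMap O E o' + algebraMap O E k * algebraMap O E d := fun o o' e => by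
    obtain ⟨k, hk⟩ := Ideal.mem_span_singleton'.1 (Ideal.Quotient.eq.1 e)
    exact ⟨k, by rw [← map_mul, hk, ← map_add, add_sub_cancel]⟩
  have k1 : ∀ o o', q o = q o' → ψ (algebraMap O E o / algebraMap O E d) =
      ψ (algebraMap O E o' / algebraMap O E d) := fun o o' e => by
    obtain ⟨k, hk⟩ := k0 o o' e
    rw [hk, add_div, mul_div_cancel_right₀ _ d0, ψ.map_add_eq_mul, hψ _ (o1 k), mul_one]
  have k2 : ∀ o o', q o = q o' → ν (al * algebraMap O E o) x = ν (al * algebraMap O E o') x :=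
    fun o o' e => by
      obtain ⟨k, hk⟩ := k0 o o' e
      rw [hk, mul_add, ν.map_add_eq_mul, AlgEquiv.mul_apply, mul_left_comm, ← hg, hx]
      rw [av_mul]
      exact mul_le_of_le_one_left g0.le (o1 k)
  let θ : AddChar (O ⧸ Ideal.span {d}) C :=
    { toFun := fun a => ψ (algebraMap O E (out a) / algebraMap O E d)
      map_zero_eq_one' := by
        rw [k1 _ 0 (by rw [hout, map_zero]), map_zero, zero_div, ψ.map_zero_eq_one]
      map_add_eq_mul' := fun a b => by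
        rw [k1 _ (out a + out b) (by rw [map_add, hout, hout, hout]), map_add, add_div,
          ψ.map_add_eq_mul] }
  have hθ : ∀ o, θ (q o) = ψ (algebraMap O E o / algebraMap O E d) := fun o => k1 _ _ (hout _)
  have pr : θ.IsPrimitive := fun a ha e => ha (by
    obtain ⟨k, hk⟩ := (hO _).1 (prim (algebraMap O E (out a) / algebraMap O E d) fun b hb => by
      obtain ⟨o, rfl⟩ := (hO b).1 hb
      have := DFunLike.congr_fun e (q o)
      rw [AddChar.mulShift_apply, ← hout a, ← map_mul, hθ, map_mul] at this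
      rw [← mul_div_assoc, mul_comm, this]
      rfl)
    rw [← hout a, Ideal.Quotient.eq_zero_iff_mem, Ideal.mem_span_singleton']
    exact ⟨k, IsFractionRing.injective O E (by rw [map_mul, hk, div_mul_cancel₀ _ d0])⟩)
  let f : O ⧸ Ideal.span {d} → L := fun a => ν (al * algebraMap O E (out a)) x
  refine ⟨_, inferInstance, fun a => algebraMap O E (out a) / γ, fo θ f, fun a => ⟨fun b hb => ?_,
    by rw [av_div, div_mul_cancel₀ _ g0.ne']; exact o1 _⟩, ?_⟩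
  · obtain ⟨o, ho⟩ := (hO (b / al)).1 (by rwa [av_div, div_le_one a1])
    have e : b = al * algebraMap O E o := by rw [ho]; field_simp
    have := fo_eig θ f a (q o) (ν b).toLinearMap fun a' => by
      change ν b (ν _ x) = ν _ x
      rw [← AlgEquiv.mul_apply, ← ν.map_add_eq_mul, e, ← mul_add, ← map_add]
      exact k2 _ _ (by rw [map_add, hout, hout])
    rw [← hout a, ← map_mul, hθ, hout] at this
    refine this.trans ?_
    rw [map_mul, e, hg]
    congr 2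
    field_simp
  · have := fo_inv pr f 0
    simp only [zero_mul, AddChar.map_zero_eq_one, one_smul] at this
    rw [← this]
    change x = ν _ x
    rw [k2 _ 0 (by rw [hout, map_zero]), map_zero, mul_zero, ν.map_zero_eq_one]
    rfl

omit [CompleteSpace C] [CharZero C] in
/-- the characters which occur form a module over the integers -/
theorem occ (hs : 0 < s) (hψ : ∀ b : E, av C b ≤ 1 → ψ b = 1) (h0 : ∀ t, μ t ≠ 0)
    (hν : ∀ t b x, Φ t (ν b x) = ν (μ t * b) (Φ t x))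
    (den : ∀ x : E, x ≠ 0 → ∀ ε > 0, ∃ t, av C (μ t - x) < ε) {c u : E} (hu : av C u ≤ 1)
    (h : ∃ y, y ≠ 0 ∧ Eig ν ψ s c y) : ∃ y, y ≠ 0 ∧ Eig ν ψ s (c * u) y := by
  obtain ⟨y, y0, hy⟩ := h
  have key : ∀ u : E, av C u = 1 → ∃ y, y ≠ 0 ∧ Eig ν ψ s (c * u) y := fun u hu => by
    have u0 : u ≠ 0 := fun e => by
      rw [e, av, map_zero, norm_zero] at hu
      exact zero_ne_one hu
    have p1 : 0 < av C c * s + 1 := add_pos_of_nonneg_of_pos (mul_nonneg (av_nonneg _) hs.le) one_pos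
    obtain ⟨t, ht⟩ := den u⁻¹ (inv_ne_zero u0) _ (inv_pos.2 p1)
    have h1 : av C (μ t - u⁻¹) < 1 := ht.trans_le (inv_le_one_of_one_le₀
      (le_add_of_nonneg_left (mul_nonneg (av_nonneg _) hs.le)))
    have h2 : av C u⁻¹ = 1 := by rw [← one_div, av_div, av_one, hu, div_one]
    have h3 : av C (μ t) = 1 := by
      have := IsUltrametricDist.norm_add_eq_max_of_norm_ne_norm
        (x := algebraMap E C (μ t - u⁻¹)) (y := algebraMap E C u⁻¹) (h1.trans_eq h2.symm).ne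
      rw [← map_add, sub_add_cancel] at this
      exact this.trans ((max_eq_right (h1.le.trans_eq h2.symm)).trans h2)
    have h4 := hy.conj (h0 t) (hν t)
    rw [h3, one_mul] at h4
    refine ⟨_, (map_ne_zero (Φ t)).2 y0, h4.congr hψ ?_⟩
    have e : c * u - c / μ t = c * (u * (μ t - u⁻¹)) / μ t := by
      have := h0 t
      field_simp
    rw [e, av_div, h3, div_one, av_mul, av_mul, hu, one_mul, mul_right_comm]
    calc _ ≤ (av C c * s + 1) * (av C c * s + 1)⁻¹ :=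
          mul_le_mul (le_add_of_nonneg_right one_pos.le) ht.le (av_nonneg _) p1.le
      _ = 1 := mul_inv_cancel₀ p1.ne'
  rcases hu.eq_or_lt with hu | hu
  · exact key u hu
  · obtain ⟨y', y0', hy'⟩ := key (u + 1) (by
      have := IsUltrametricDist.norm_add_eq_max_of_norm_ne_norm
        (x := algebraMap E C u) (y := algebraMap E C 1) (hu.trans_eq av_one.symm).ne
      rw [← map_add] at this
      exact this.trans ((max_eq_right (hu.le.trans_eq av_one.symm)).trans av_one))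
    refine ⟨_, mul_ne_zero y0' (inv_ne_zero y0), ?_⟩
    have := hy'.mul hy.inv
    rwa [show c * (u + 1) + -c = c * u by ring] at this

omit [IsUltrametricDist C] [CompleteSpace C] in
theorem exists_small (hp : p.Prime) (hp1 : ‖(p : C)‖ < 1) {al : E} (a0 : al ≠ 0) {δ : ℝ}
    (hδ : 0 < δ) : ∃ γ : E, γ ≠ 0 ∧ av C γ ≤ δ ∧ av C γ ≤ av C al := by
  haveI := (algebraMap E C).charZero
  obtain ⟨k, hk⟩ := exists_pow_le hp1 (av C al) hδ
  refine ⟨((p ^ k : ℕ) : E) * al, mul_ne_zero (Nat.cast_ne_zero.2 (pow_ne_zero _ hp.ne_zero)) a0,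
    by rwa [av_pow_mul], ?_⟩
  rw [av_pow_mul]
  exact mul_le_of_le_one_right (av_nonneg _) (pow_le_one₀ (norm_nonneg _) hp1.le)

omit [CompleteSpace C] in
theorem exists_big (hp : p.Prime) (hp1 : ‖(p : C)‖ < 1)
    (den : ∀ x : E, x ≠ 0 → ∀ ε > 0, ∃ t, av C (μ t - x) < ε) (R : ℝ) : ∃ t, R ≤ av C (μ t) := by
  obtain ⟨γ, g0, g1, -⟩ := exists_small (E := E) hp hp1 one_ne_zero
    (inv_pos.2 (lt_max_of_lt_right one_pos : 0 < max R 1))
  have h1 : max R 1 ≤ av C γ⁻¹ := by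
    rw [← one_div, av_div, av_one, one_div]
    exact (le_inv_comm₀ (lt_max_of_lt_right one_pos) (av_pos g0)).2 g1
  obtain ⟨t, ht⟩ := den γ⁻¹ (inv_ne_zero g0) 1 one_pos
  have h2 := ht.trans_le ((le_max_right _ _).trans h1)
  have := IsUltrametricDist.norm_add_eq_max_of_norm_ne_norm
    (x := algebraMap E C (μ t - γ⁻¹)) (y := algebraMap E C γ⁻¹) h2.ne
  rw [← map_add, sub_add_cancel] at this
  exact ⟨t, ((le_max_left _ _).trans h1).trans ((le_max_right _ _).trans this.ge)⟩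

variable {O : Type} [CommRing O] [IsDomain O] [IsDiscreteValuationRing O]
  [Finite (IsLocalRing.ResidueField O)] [Algebra O E] [IsFractionRing O E]

omit [CompleteSpace C] in
/-- all characters occur, or the action is trivial -/
theorem all_or (hp : p.Prime) (hp1 : ‖(p : C)‖ < 1)
    (hO : ∀ x : E, av C x ≤ 1 ↔ ∃ o, algebraMap O E o = x) (hψ : ∀ b : E, av C b ≤ 1 → ψ b = 1)
    (prim : ∀ x : E, (∀ b, av C b ≤ 1 → ψ (b * x) = 1) → av C x ≤ 1) {al : E} (a0 : al ≠ 0)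
    (sm : ∀ x, ∃ δ > 0, Fx ν δ x) (h0 : ∀ t, μ t ≠ 0)
    (hν : ∀ t b x, Φ t (ν b x) = ν (μ t * b) (Φ t x))
    (den : ∀ x : E, x ≠ 0 → ∀ ε > 0, ∃ t, av C (μ t - x) < ε) :
    (∀ c, ∃ y, y ≠ 0 ∧ Eig ν ψ (av C al) c y) ∨ ∀ b x, ν b x = x := by
  refine (em _).imp_right fun h => ?_
  obtain ⟨c₀, hc⟩ := not_forall.1 h
  have a1 := av_pos (C := C) a0
  have c0 : c₀ ≠ 0 := fun e => hc ⟨1, one_ne_zero, e ▸ eig_zero.2 fun b _ => map_one _⟩
  have c1 := av_pos (C := C) c0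
  have d0 : 0 < min (av C al) (av C c₀)⁻¹ := lt_min a1 (inv_pos.2 c1)
  have h1 : ∀ x, Fx ν (min (av C al) (av C c₀)⁻¹) x := fun x => by
    obtain ⟨δ, hδ, hx⟩ := sm x
    obtain ⟨γ, g0, g1, g2⟩ := exists_small hp hp1 a0 hδ
    obtain ⟨J, _, c, y, hy, rfl⟩ := dec hO hψ prim g0 g2 (hx.mono g1)
    intro b hb
    rw [map_sum]
    refine Finset.sum_congr rfl fun j _ => ?_
    by_cases y0 : y j = 0
    · rw [y0, map_zero]
    refine ((hy j).1.mono (min_le_left _ _)).fx hψ ?_ b hb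
    have h2 : av C (c j) < av C c₀ := not_le.1 fun h2 => hc (by
      have c2 := c1.trans_le h2
      have c3 : c j ≠ 0 := fun e => by
        rw [e, av, map_zero, norm_zero] at c2
        exact lt_irrefl _ c2
      have := occ a1 hψ h0 hν den (u := c₀ / c j) (by rwa [av_div, div_le_one c2])
        ⟨_, y0, (hy j).1⟩
      rwa [mul_div_cancel₀ _ c3] at this)
    calc _ ≤ av C c₀ * (av C c₀)⁻¹ := mul_le_mul h2.le (min_le_right _ _) d0.le c1.le
      _ = 1 := mul_inv_cancel₀ c1.ne'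
  intro b x
  obtain ⟨t, ht⟩ := exists_big hp hp1 den (av C b / min (av C al) (av C c₀)⁻¹)
  have h2 := ((eig_zero (ψ := ψ)).2 (h1 ((Φ t).symm x))).conj (h0 t) (hν t)
  rw [zero_div, eig_zero, (Φ t).apply_symm_apply] at h2
  exact h2 b ((div_le_iff₀ d0).1 ht)

/-- **Kummer classes**, all radii -/
theorem kum0 (hp : p.Prime) (hp1 : ‖(p : C)‖ < 1) (hr : 0 < r)
    (hO : ∀ x : E, av C x ≤ 1 ↔ ∃ o, algebraMap O E o = x) (hψ : ∀ b : E, av C b ≤ 1 → ψ b = 1)
    (prim : ∀ x : E, (∀ b, av C b ≤ 1 → ψ (b * x) = 1) → av C x ≤ 1) {al : E} (a0 : al ≠ 0)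
    (sm : ∀ x, ∃ δ > 0, Fx ν δ x) (fix : ∀ x, Fx ν (av C al) x → Mq r (e x))
    (k1 : ∀ (y : L) (N : ℕ), y ≠ 0 → N ≠ 0 → Fx ν (av C al) (y ^ N) →
      ∃ D, Cv r D ∧ Rep r (e y) D) (h0 : ∀ t, μ t ≠ 0)
    (hσ : ∀ t f, σ t (jp f) = jp (rescale (algebraMap E C (μ t))⁻¹ f))
    (he : ∀ t x, e (Φ t x) = σ t (e x)) (hν : ∀ t b x, Φ t (ν b x) = ν (μ t * b) (Φ t x))
    (den : ∀ x : E, x ≠ 0 → ∀ ε > 0, ∃ t, av C (μ t - x) < ε) :
    ∃ β : C, ∀ R : ℝ, 0 < R → ∃ s₀ : ℝ, ∀ c y, Eig ν ψ s₀ c y →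
      ∃ m, Mq R m ∧ e y = m * jp (ex ((algebraMap E C c * β) • X)) := by
  have P0 : 0 < ‖(p : C)‖ := norm_pos_iff.2 (Nat.cast_ne_zero.2 hp.ne_zero)
  obtain ⟨ρ, r0, r1⟩ := exists_between (mul_pos P0 hr)
  have r2 : ρ ≤ r := r1.le.trans (mul_le_of_le_one_left hr.le hp1.le)
  have key : ∃ β : C, ∀ c y, Eig ν ψ (av C al) c y →
      Rep ρ (e y) (PowerSeries.C (algebraMap E C c * β)) := by
    rcases all_or hp hp1 hO hψ prim a0 sm h0 hν den with h | h
    · exact (lead hp hp1 hr (av_pos a0) hψ fix k1 h h0 hσ he hν den).imp fun β hβ => hβ ρ r0 r1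
    · exact ⟨0, fun c y _ => by
        rw [mul_zero, map_zero]
        exact Rep.zero ((fix y fun b _ => h b y).mono r0 r2)⟩
  obtain ⟨β, hβ⟩ := key
  refine ⟨β, fun R hR => ?_⟩
  obtain ⟨t, ht⟩ := exists_big hp hp1 den (R / ρ)
  refine ⟨av C (μ t) * av C al, fun c y hy => ?_⟩
  have h1 := (hβ _ _ (hy.conj' (hν t))).resc (σ t) (hσ t) hR (by
    rwa [norm_inv, inv_mul_le_iff₀ (av_pos (h0 t)), ← div_le_iff₀ r0])
  have i0 : algebraMap E C (μ t) ≠ 0 := (map_ne_zero _).2 (h0 t)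
  have e1 : (algebraMap E C (μ t))⁻¹ • rescale (algebraMap E C (μ t))⁻¹
      (PowerSeries.C (algebraMap E C (c * μ t) * β)) = PowerSeries.C (algebraMap E C c * β) := by
    ext n
    rw [coeff_smul, coeff_rescale, coeff_C, coeff_C]
    split_ifs with hn
    · rw [hn, map_mul, smul_eq_mul]
      field_simp
    · simp
  rwa [← he, (Φ t).apply_symm_apply, e1, Rep, itg_C] at h1

omit [CompleteSpace C] [CharZero C] in
theorem mq_iff {x : C⸨X⸩} : Mq r x ↔ x ∈ MM C r :=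
  ⟨fun ⟨a, b, h1, h2, h3, h4⟩ => ⟨a, b, h1, h2, h3, eq_div_of_mul_eq (jp_ne h3) h4⟩,
    fun ⟨a, b, h1, h2, h3, h4⟩ => ⟨a, b, h1, h2, h3, (eq_div_iff (jp_ne h3)).1 h4⟩⟩

/-- a root of a meromorphic function whose divisor is divisible -/
theorem rep_of_dvd [IsAlgClosed C] (hr : 0 < r) {Y : C⸨X⸩} {N : ℕ} (hN : N ≠ 0) (Y0 : Y ≠ 0)
    (hY : Y ^ N ∈ MM C r) (hd : ∀ a : C, ‖a‖ ≤ r → (N : ℤ) ∣ od r a (Y ^ N)) :
    ∃ D, Cv r D ∧ Rep r Y D := by
  obtain ⟨u, D, hu, u0, wu, h1, h2, h3⟩ := fac hr hY (pow_ne_zero _ Y0)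
  obtain ⟨u', hu', eu⟩ := exists_inv hr hu u0 wu
  have e1 : D = N • D.mapRange (· / (N : ℤ)) (Int.zero_ediv _) := by
    ext a
    rw [Finsupp.nsmul_apply, Finsupp.mapRange_apply, nsmul_eq_mul, Int.mul_ediv_cancel']
    by_cases h : D a = 0
    · rw [h]; exact dvd_zero _
    · rw [← h3 a (h1 a h)]; exact hd a (h1 a h)
  rw [e1, pr_nsmul] at h2
  have n1 := pr_ne (D.mapRange (· / (N : ℤ)) (Int.zero_ediv _))
  have c1 := mq_iff.2 (pr_mem r (D.mapRange (· / (N : ℤ)) (Int.zero_ediv _)))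
  generalize pr (D.mapRange (· / (N : ℤ)) (Int.zero_ediv _)) = a' at *
  have e3 : (Y / a') ^ N = am C u := by rw [div_pow, h2, mul_div_cancel_right₀ _ (pow_ne_zero _ n1)]
  obtain ⟨w, hw⟩ := IsIntegrallyClosed.exists_algebraMap_eq_of_isIntegral_pow (R := C⟦X⟧)
    (x := Y / a') (Nat.pos_of_ne_zero hN) (e3 ▸ isIntegral_algebraMap (x := u))
  rw [← hw, ← map_pow] at e3
  have e5 := am_inj e3
  have N0 : (N : C) ≠ 0 := Nat.cast_ne_zero.2 hN
  refine ⟨(N : C)⁻¹ • (d⁄dX C u * u'), ((hu.deriv hr).mul hu').smul _, ?_⟩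
  have e7 : d⁄dX C w = ((N : C)⁻¹ • (d⁄dX C u * u')) * w := by
    obtain ⟨k, rfl⟩ := Nat.exists_eq_succ_of_ne_zero hN
    rw [← e5, pow_succ] at eu
    rw [← e5, Derivation.leibniz_pow, Nat.succ_sub_one, smul_eq_mul, ← Nat.cast_smul_eq_nsmul C,
      smul_mul_assoc ((k.succ : ℕ) : C), smul_smul, inv_mul_cancel₀ N0, one_smul]
    linear_combination -(d⁄dX C w) * eu
  generalize (N : C)⁻¹ • (d⁄dX C u * u') = D at *
  have e8 : w = PowerSeries.C (constantCoeff w) * ex (itg D) := ode_uniq e7 (by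
    rw [Derivation.leibniz, derivative_C, smul_zero, add_zero, d_ex_itg, smul_eq_mul]
    ring) (by rw [map_mul, cc_ex (cc_itg D), constantCoeff_C, mul_one])
  refine ⟨a' * jp (PowerSeries.C (constantCoeff w)), c1.mul (Mq.cv (cv_C r _)), ?_⟩
  have hw' : jp w = Y / a' := hw
  rw [mul_assoc, ← map_mul, ← e8, hw', mul_div_cancel₀ _ n1]

omit [IsUltrametricDist C] [CompleteSpace C] [CharZero C] in
theorem sub_resc {l : C} (hl : l ≠ 0) (f : C⟦X⟧) : sub (l • X) (am C f) = am C (rescale l f) := by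
  rw [sub_am (by simp) (smul_ne_zero hl X_ne_zero), rescale_eq_subst]

omit [IsUltrametricDist C] [CompleteSpace C] [CharZero C] in
/-- the coefficients after the substitution of `l X` -/
theorem coeff_sub_resc {l : C} (hl : l ≠ 0) (z : C⸨X⸩) (n : ℤ) :
    (sub (l • X) z).coeff n = l ^ n * z.coeff n := by
  have e : z = HahnSeries.single z.order 1 * am C z.powerSeriesPart :=
    (single_order_mul_powerSeriesPart z).symm
  generalize z.order = m at e
  generalize z.powerSeriesPart = g at e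
  have e1 : ∀ m : ℤ, am C X ^ m = HahnSeries.single m 1 := fun m => by
    rw [RatFunc.single_zpow, ← HahnSeries.ofPowerSeries_X]
    rfl
  have e2 : sub (l • X) z = HahnSeries.single m (l ^ m) * am C (rescale l g) := by
    rw [e, map_mul, sub_resc hl, ← e1, map_zpow₀, sub_resc hl, rescale_X, map_mul, mul_zpow, e1,
      am_C, ← map_zpow₀, LaurentSeries.algebraMap_apply, HahnSeries.C_apply,
      HahnSeries.single_mul_single, zero_add, mul_one]
  obtain ⟨j, rfl⟩ : ∃ j, n = j + m := ⟨n - m, by ring⟩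
  rw [e2, e, HahnSeries.coeff_single_mul_add, HahnSeries.coeff_single_mul_add, one_mul]
  rcases lt_or_ge j 0 with h | h
  · rw [coeff_am_neg _ h, coeff_am_neg _ h, mul_zero, mul_zero]
  · obtain ⟨i, rfl⟩ := Int.eq_ofNat_of_zero_le h
    rw [coeff_am, coeff_am, coeff_rescale, zpow_add₀ hl, zpow_natCast]
    ring

omit [CompleteSpace C] [CharZero C] in
theorem exists_p (hO : ∀ x : E, av C x ≤ 1 ↔ ∃ o, algebraMap O E o = x) :
    ∃ p : ℕ, p.Prime ∧ ‖(p : C)‖ < 1 := by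
  obtain ⟨p, hp⟩ := CharP.exists (IsLocalRing.ResidueField O)
  refine ⟨p, CharP.char_is_prime (IsLocalRing.ResidueField O) p,
    (IsUltrametricDist.norm_natCast_le_one C p).lt_of_ne fun h => ?_⟩
  have h1 : av C (p : E) = 1 := by rwa [av, map_natCast]
  have h2 : (p : E) ≠ 0 := fun e => by
    rw [e, av, map_zero, norm_zero] at h1
    exact zero_ne_one h1
  obtain ⟨o, ho⟩ := (hO (p : E)⁻¹).1 (by rw [← one_div, av_div, h1, av_one, div_one])
  have h3 : o * (p : O) = 1 := IsFractionRing.injective O E (by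
    rw [map_mul, ho, map_natCast, map_one, inv_mul_cancel₀ h2])
  have h4 := congrArg (IsLocalRing.residue O) h3
  rw [map_mul, map_natCast, CharP.cast_eq_zero, mul_zero, map_one] at h4
  exact zero_ne_one h4

/-- **KUMT**: expansion of the elements of the tower in exponentials, on discs of all radii -/
theorem kumt [IsAlgClosed C] (hr : 0 < r)
    (hO : ∀ x : E, av C x ≤ 1 ↔ ∃ o, algebraMap O E o = x) (hψ : ∀ b : E, av C b ≤ 1 → ψ b = 1)
    (prim : ∀ x : E, (∀ b, av C b ≤ 1 → ψ (b * x) = 1) → av C x ≤ 1) {al : E} (a0 : al ≠ 0)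
    (sm : ∀ x, ∃ δ > 0, Fx ν δ x) (fix : ∀ x, Fx ν (av C al) x → e x ∈ MM C r)
    (unr : ∀ (y : L) (N : ℕ), e y ^ N ∈ MM C r → ∀ a : C, ‖a‖ ≤ r → (N : ℤ) ∣ od r a (e y ^ N))
    (h0 : ∀ t, μ t ≠ 0)
    (he : ∀ t x (n : ℤ), (e (Φ t x)).coeff n * algebraMap E C (μ t) ^ n = (e x).coeff n)
    (hν : ∀ t b x, Φ t (ν b x) = ν (μ t * b) (Φ t x))
    (den : ∀ x : E, x ≠ 0 → ∀ ε > 0, ∃ t, av C (μ t - x) < ε) :
    ∃ β : C, ∀ R : ℝ, 0 < R → ∀ (s₁ : ℝ) (γ : E), γ ≠ 0 → ∀ x, Fx ν (av C γ) x →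
      ∃ (J : Type) (_ : Fintype J) (c : J → E) (m : J → C⸨X⸩),
        (∀ j, m j ∈ MM C R ∧ av C (c j * γ) ≤ 1) ∧ ∀ b, av C b ≤ s₁ → e (ν b x) =
          ∑ j, algebraMap C C⸨X⸩ (ψ (c j * b)) *
            (m j * am C (ex ((algebraMap E C (c j) * β) • X))) := by
  obtain ⟨p, hp, hp1⟩ := exists_p hO
  have i0 : ∀ t, (algebraMap E C (μ t))⁻¹ ≠ 0 := fun t => inv_ne_zero ((map_ne_zero _).2 (h0 t))
  obtain ⟨β, hβ⟩ := kum0 (σ := fun t => (sub ((algebraMap E C (μ t))⁻¹ • X)).toRingHom) hp hp1 hr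
    hO hψ prim a0 sm (fun x hx => mq_iff.2 (fix x hx)) (fun y N y0 hN hy => by
      have h1 := fix _ hy
      rw [map_pow] at h1
      exact rep_of_dvd hr hN ((map_ne_zero e).2 y0) h1 (unr y N h1)) h0
    (fun t f => sub_resc (i0 t) f) (fun t x => by
      ext n
      refine Eq.trans ?_ (coeff_sub_resc (i0 t) (e x) n).symm
      rw [← he t x n, inv_zpow, mul_comm, mul_assoc, mul_inv_cancel₀
        (zpow_ne_zero _ ((map_ne_zero _).2 (h0 t))), mul_one]) hν den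
  refine ⟨β, fun R hR s₁ γ g0 x hx => ?_⟩
  obtain ⟨s₀, hs⟩ := hβ R hR
  obtain ⟨t, ht⟩ := exists_big hp hp1 den (max (max s₀ s₁) (av C γ))
  obtain ⟨J, _, c, y, hy, rfl⟩ := dec hO hψ prim g0 ((le_max_right _ _).trans ht) hx
  choose m m1 m2 using fun j => hs (c j) (y j)
    ((hy j).1.mono (((le_max_left _ _).trans (le_max_left _ _)).trans ht))
  refine ⟨J, inferInstance, c, m, fun j => ⟨mq_iff.1 (m1 j), by rw [av_mul]; exact (hy j).2⟩,
    fun b hb => ?_⟩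
  rw [map_sum, map_sum]
  refine Finset.sum_congr rfl fun j _ => ?_
  rw [(hy j).1 b (hb.trans (((le_max_right _ _).trans (le_max_left _ _)).trans ht)),
    Algebra.smul_def, map_mul, e.commutes, m2]
  rfl

end theta

end Vale.Agent.P022K.FI.Ku
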