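import Vale.Agent.P022K.FI.Sg1
import Vale.Agent.P022K.FI.An2b
import Vale.Agent.P022K.FI.Cal

/-!
# P022K, block FI, row PBX: pre-basins exist
-/

set_option linter.all false

noncomputable section

open PowerSeries Filter Topology Vale.Agent.P019P P025H746 P025H492 P025H552 Module
open scoped MatrixGroups LaurentSeries

namespace Vale.Agent.P022K.FI

open Vale.Agent.P022K.Sh

namespace Pbx

open Sg1

variable {C L Γ O E : Type} [NontriviallyNormedField C] [IsUltrametricDist C] [CompleteSpace C]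
  [IsAlgClosed C] [CharZero C] [Field L] [Algebra C L] [Group Γ] [CommRing O] [IsDomain O]
  [IsDiscreteValuationRing O] [Field E] [Algebra O E] [Algebra E C] {A : AT C L Γ O E}
  {D : LTD C O E} {x : Plk C L} {θ : L →ₐ[C] C⸨X⸩} {g : GL (Fin 2) E} {ϖ : Eˣ} {ρ r : ℝ}

theorem cmF_sum {φ : C⟦X⟧} (H : Mp ρ r φ) {J : Type} (s : Finset J) (f : J → C⸨X⸩)
    (hf : ∀ j, f j ∈ MM C r) : cmF r φ (∑ j ∈ s, f j) = ∑ j ∈ s, cmF r φ (f j) := by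
  classical
  induction s using Finset.induction_on with
  | empty => simpa using H.map_zero
  | insert j s hj ih =>
    rw [Finset.sum_insert hj, Finset.sum_insert hj, H.map_add (hf j) (sum_mem fun i _ => hf i), ih]

theorem ps_at_zero {f : C⟦X⟧} (h : constantCoeff f = 0) : ps f 0 = f := by
  rw [ps, map_zero, add_zero, cmp_X_left, ev_zero_left, h, map_zero, map_zero, sub_zero]

/-- the logarithm converges on the open disc -/
theorem cv_lg (h : LF O C ϖ) (hD : D.Ok ϖ) (h0 : 0 < ρ) (h1 : ρ < 1) : Cv ρ D.lg := by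
  have := h.fr
  have := h.fin
  obtain ⟨p, hp, hp1⟩ := Ku.exists_p (C := C) (O := O) (E := E) h.nrm
  have hf := ef h hD
  have P0 : 0 < ‖(p : C)‖ := norm_pos_iff.2 (Nat.cast_ne_zero.2 hp.ne_zero)
  have e : itg (d⁄dX C D.lg) = D.lg := derivative.ext (d_itg _) (by rw [cc_itg, hD.lg0])
  have b0 : ∀ s, 0 < s → s < ‖(p : C)‖ * 1 → Cv s D.lg := fun s a1 a2 =>
    Cv.of_bdd a1 a2 (e ▸ itg_le hp hp1 one_pos zero_le_one fun n => by simpa using hD.lg_un.1 n)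
  have k0 : 0 < max ‖algebraMap E C ϖ‖ ρ := lt_max_of_lt_right h0
  have k1 : max ‖algebraMap E C ϖ‖ ρ < 1 := max_lt hf.lt h1
  obtain ⟨o, -, eo⟩ := h.irr
  have e1 := hD.br_lg o
  rw [hD.f_br o eo, eo, ← cmp_eq_subst hf.c0] at e1
  have ind : ∀ (m : ℕ) (s : ℝ), 0 < s → s ≤ ρ →
      max ‖algebraMap E C ϖ‖ ρ ^ m * s < ‖(p : C)‖ * 1 → Cv s D.lg := fun m => by
    induction m with
    | zero => exact fun s a1 _ a3 => b0 s a1 (by simpa using a3)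
    | succ m ih =>
      intro s a1 a2 a3
      have H := hf.ps_mp (a := 0) (by simp) a1 a2 h1
      rw [ps_at_zero hf.c0] at H
      have a4 := (H.cv_cmp (ih _ H.hr ((mul_le_of_le_one_left a1.le k1.le).trans a2)
        (by rwa [← mul_assoc, ← pow_succ]))).smul (algebraMap E C ϖ)⁻¹
      rwa [e1, smul_smul, inv_mul_cancel₀ ((map_ne_zero _).2 ϖ.ne_zero), one_smul] at a4
  obtain ⟨m, hm⟩ := exists_pow_lt_of_lt_one (div_pos (mul_pos P0 one_pos) h0) k1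
  exact ind m ρ h0 le_rfl ((lt_div_iff₀ h0).1 hm)

theorem mp_lam (h : LF O C ϖ) (hD : D.Ok ϖ) {c : C} (hc : c ≠ 0) (h0 : 0 < ρ) (h1 : ρ < 1) :
    Mp ρ (max (gn ρ (c • D.lg)) 1) (c • D.lg) :=
  ⟨h0, lt_max_of_lt_right one_pos, (cv_lg h hD h0 h1).smul c, le_max_left _ _, fun d e => by
    have := congrArg (coeff 1) e
    rw [map_smul, hD.lg1, coeff_C, if_neg one_ne_zero, smul_eq_mul, mul_one] at this
    exact hc this⟩

theorem mp_tr {τ : C⟦X⟧} (h : Sm (τ - X)) (h0 : 0 < ρ) (hc : ‖constantCoeff τ‖ ≤ ρ) (h1 : ρ < 1) :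
    Mp ρ ρ τ := by
  obtain ⟨a1, -, a3⟩ := Cl.near_X h
  refine ⟨h0, h0, ig_cv a1 h0 h1, gn_le fun n => ?_, fun d e => ?_⟩
  · rcases n with _ | n
    · simpa using hc
    · exact (mul_le_of_le_one_left (by positivity) (a1 _)).trans
        (pow_le_of_le_one h0.le h1.le (Nat.succ_ne_zero n))
  · rw [e, coeff_C, if_neg one_ne_zero, norm_zero] at a3
    exact zero_ne_one a3

theorem act_eq (hA : A.Ok) (hN : A.GNN) {γ γ' : Γ} {c : E} (h : γ ∈ A.H) (h' : γ' ∈ A.H)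
    (f : Fm g (A.π γ) (un c)) (f' : Fm g (A.π γ') (un c)) : A.act γ = A.act γ' := by
  ext z
  obtain ⟨m, hm⟩ := (hN g 0).2.2.2.1 z
  have h1 := Gn.fm_mul (Gn.fm_inv f') f
  rw [inv_mul_cancel, ← un_zero, ← map_inv, ← map_mul] at h1
  have h2 := A.mem_K.1 hm _ (Gn.mem_Nn.2 ⟨mul_mem (inv_mem h') h, 0, by
    rw [zero_div]; exact Gn.io_zero, h1⟩)
  conv_rhs => rw [← h2, A.act_mul, A.act_inv']

theorem io_iff (h : LF O C ϖ) (s : Eˣ) (c : E) : Io O (c / s) ↔ Ku.av C c ≤ Ku.av C (s : E) := by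
  rw [← h.nrm, ← Ku.av, Ku.av_div, div_le_one (Ku.av_pos s.ne_zero)]

/-- the action of the unipotent group -/
theorem exists_nu (hA : A.Ok) (hN : A.GNN) (h : ∀ c : E, ∃ γ ∈ A.H, A.π γ = g * un c * g⁻¹) :
    ∃ ν : AddChar E (L ≃ₐ[C] L), (∀ c, ∃ γ ∈ A.H, Fm g (A.π γ) (un c)) ∧
      (∀ c, ∀ γ ∈ A.H, Fm g (A.π γ) (un c) → A.act γ = ν c) ∧
      ∀ (n : ℤ) z, Ku.Fx ν (Ku.av C ((A.ϖ ^ n : Eˣ) : E)) z ↔ z ∈ A.Ln g n := by
  choose γ h1 h2 using h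
  have f : ∀ c, Fm g (A.π (γ c)) (un c) := fun c => h2 c ▸ Gn.fm_self g _
  refine ⟨{
    toFun := fun c => A.act (γ c)
    map_zero_eq_one' := by
      rw [← map_one A.act]
      exact act_eq hA hN (h1 0) (one_mem _) (f 0) (by
        rw [map_one, un_zero]; exact Gn.fm_zl (one_mem _))
    map_add_eq_mul' := fun a b => by
      rw [← map_mul]
      exact act_eq hA hN (h1 _) (mul_mem (h1 a) (h1 b)) (f _) (by
        rw [map_mul, un_add]; exact Gn.fm_mul (f a) (f b)) }, fun c => ⟨_, h1 c, f c⟩,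
    fun c δ hδ fδ => act_eq hA hN hδ (h1 c) fδ (f c), fun n z => ⟨fun hz => A.mem_K.2 fun δ hδ => ?_,
      fun hz c hc => A.mem_K.1 hz _ (Gn.mem_Nn.2 ⟨h1 c, c, (io_iff hA.lf _ c).2 hc, f c⟩)⟩⟩
  obtain ⟨a1, c, a2, a3⟩ := Gn.mem_Nn.1 hδ
  rw [act_eq hA hN a1 (h1 c) a3 (f c)]
  exact hz c ((io_iff hA.lf _ c).1 a2)

theorem sub_ex (hD : D.Ok ϖ) {β b : C} (hb : β * b = D.Ω) (b0 : b ≠ 0) (s : Eˣ) (c : E) :
    sub ((b * algebraMap E C s) • D.lg) (am C (ex ((algebraMap E C c * β) • X))) =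
      am C (D.y (c * s)) := by
  have a0 : b * algebraMap E C s ≠ 0 := mul_ne_zero b0 ((map_ne_zero _).2 s.ne_zero)
  have a1 := Cl.lam0 hD (b * algebraMap E C s)
  rw [sub_am a1 (Cl.lam_ne hD a0), ex_subst (by simp) a1, subst_smul (hs a1), subst_X (hs a1),
    smul_smul, LTD.y, ex, ← hb, map_mul (algebraMap E C) c]
  congr 3
  ring

end Pbx

open Pbx

variable {C L Γ O E : Type} [NontriviallyNormedField C] [IsUltrametricDist C] [CompleteSpace C]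
  [IsAlgClosed C] [CharZero C] [Field L] [Algebra C L] [Group Γ] [CommRing O] [IsDomain O]
  [IsDiscreteValuationRing O] [Field E] [Algebra O E] [Algebra E C] {A : AT C L Γ O E}

/-- **PBX** -/
theorem pbx (hA : A.Ok) (hM : A.MAT) (hN : A.GNN) (hS : A.SRN) : A.PBX := by
  intro D hD x θ g hx hy
  have := hA.lf.fr
  have := hA.lf.fin
  obtain ⟨hs1, r, n₀, hr, hs2⟩ := hS x θ g hx hy
  obtain ⟨ν, ν1, ν2, ν3⟩ := exists_nu hA hN hs1
  obtain ⟨W, hW⟩ := Gn.exists_W hA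
  have lv := A.lv_U hW (hM.1 (g * dg (A.ϖ ^ n₀)))
  have := lv.cff hA
  have l3 := (hN g n₀).2.2.1 W hW _ (hM.1 (g * dg (A.ϖ ^ n₀))) (by
    simpa using hM.2.2.2.2.2.2.1 g n₀ n₀ le_rfl)
  obtain ⟨β, hβ⟩ := Ku.kumt (O := O) (e := θ) (ν := ν) (ψ := D.ψ)
    (I := {t : Γ × Eˣ // t.1 ∈ A.St x ∧ Fm g (A.π t.1) (dg t.2)}) (Φ := fun t => A.act t.1.1)
    (μ := fun t => t.1.2) hr hA.lf.nrm (fun b hb => hD.ψ_int b ((hA.lf.nrm b).1 hb))
    (fun z hz => (hA.lf.nrm z).2 (hD.ψ_prim z fun b hb => hz b ((hA.lf.nrm b).2 hb)))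
    (A.ϖ ^ n₀).ne_zero (fun z => by
      obtain ⟨m, hm⟩ := (hN g 0).2.2.2.1 z
      exact ⟨_, Ku.av_pos (A.ϖ ^ m).ne_zero, (ν3 m z).2 hm⟩)
    (fun z hz => mr_iff.1 ((hs2 z).1 ((ν3 n₀ z).1 hz)))
    (fun y N hy a ha => (lv.unrT hA).dvd_od θ hr ha
      (fun z => mr_iff.1 ((hs2 z).1 (l3 z.2))) y N hy)
    (fun t => t.1.2.ne_zero) (fun t z n => by
      obtain ⟨μ, h1, h2⟩ := hx.lin _ t.2.1
      rw [Twr.fm_dg t.2.2 h1]
      exact h2 z n) (fun t b z => by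
      obtain ⟨γ, h1, h2⟩ := ν1 b
      have h3 := Gn.fm_mul (Gn.fm_mul t.2.2 h2) (Gn.fm_inv t.2.2)
      rw [Gn.dg_un', ← map_inv, ← map_mul, ← map_mul] at h3
      rw [← ν2 b γ h1 h2, ← ν2 _ _ (Gn.H_conj' hA h1 t.1.1) h3, A.act_mul, A.act_mul, A.act_inv])
    (fun z hz e he => by
      obtain ⟨t, h1, μ, h2, h3⟩ := hx.den (Units.mk0 z hz) e he
      exact ⟨⟨(t, μ), h1, h2⟩, by rwa [Ku.av, map_sub]⟩)
  have z0 : Ku.av C (0 : E) = 0 := by rw [Ku.av, map_zero, norm_zero]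
  have β0 : β ≠ 0 := fun e => by
    have h1 : ∀ z, z ∈ A.Ln g n₀ := fun z => by
      obtain ⟨m, hm⟩ := (hN g 0).2.2.2.1 z
      obtain ⟨J, _, c, m, h2, h3⟩ := hβ r hr 0 _ (A.ϖ ^ m).ne_zero z ((ν3 m z).2 hm)
      have h4 := h3 0 z0.le
      rw [ν.map_zero_eq_one, AlgEquiv.one_apply] at h4
      refine (hs2 z).2 (mr_iff.2 (h4 ▸ sum_mem fun j _ => mul_mem
        (IntermediateField.algebraMap_mem _ _) (mul_mem (h2 j).1 ?_)))
      rw [e, mul_zero, zero_smul, ex_zero, map_one]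
      exact one_mem _
    obtain ⟨γ, h2, h3⟩ := hs1 ((A.ϖ ^ n₀ : Eˣ) : E)
    have h4 : γ ∈ A.act.ker := by
      rw [MonoidHom.mem_ker, ν2 _ γ h2 (h3 ▸ Gn.fm_self g _)]
      ext z
      exact (ν3 n₀ z).2 (h1 z) _ le_rfl
    have h5 := Gn.zl_conj (hA.zs γ h4) g
    obtain ⟨w, hw⟩ := mem_Zl.1 (hA.zs γ h4)
    rw [hw] at h5
    rw [hw] at h3
    have h6 : un ((A.ϖ ^ n₀ : Eˣ) : E) = d2 w w := by rw [← h5, h3]; group
    have h7 := congrArg (fun m : GL (Fin 2) E => m 0 1) h6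
    simp only [un_val, d2_val] at h7
    exact (A.ϖ ^ n₀).ne_zero h7
  have b0 : D.Ω / β ≠ 0 := div_ne_zero hD.Ω0 β0
  have hb : β * (D.Ω / β) = D.Ω := mul_div_cancel₀ _ β0
  have pw : ∀ n : ℤ, algebraMap E C A.ϖ ^ n = algebraMap E C ((A.ϖ ^ n : Eˣ) : E) := fun n => by
    rw [Units.val_zpow_eq_zpow_val, map_zpow₀]
  have l0 : ∀ n : ℤ, D.Ω / β * algebraMap E C A.ϖ ^ n ≠ 0 := fun n =>
    mul_ne_zero b0 (zpow_ne_zero _ ((map_ne_zero _).2 A.ϖ.ne_zero))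
  have key : ∀ (n : ℤ) (z : L), z ∈ A.Ln g n → ∀ ρ, 0 < ρ → ρ < 1 → ∀ s₁ : ℝ,
      ∃ (J : Type) (_ : Fintype J) (c : J → E) (m : J → C⸨X⸩),
        (∀ j, m j ∈ MM C (max (gn ρ ((D.Ω / β * algebraMap E C A.ϖ ^ n) • D.lg)) 1) ∧
          Io O (c j * (A.ϖ ^ n : Eˣ))) ∧ ∀ b, Ku.av C b ≤ s₁ →
        sub ((D.Ω / β * algebraMap E C A.ϖ ^ n) • D.lg) (θ (ν b z)) =
          ∑ j, algebraMap C C⸨X⸩ (D.ψ (c j * b)) *
            (sub ((D.Ω / β * algebraMap E C A.ϖ ^ n) • D.lg) (m j) *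
              am C (D.y (c j * (A.ϖ ^ n : Eˣ)))) := fun n z hz ρ h0 h1 s₁ => by
    obtain ⟨J, _, c, m, h2, h3⟩ := hβ _ (mp_lam hA.lf hD (l0 n) h0 h1).hr s₁ _
      (A.ϖ ^ n).ne_zero z ((ν3 n z).2 hz)
    refine ⟨J, inferInstance, c, m, fun j => ⟨(h2 j).1, (hA.lf.nrm _).1 (h2 j).2⟩, fun b hb' => ?_⟩
    rw [h3 b hb', map_sum]
    refine Finset.sum_congr rfl fun j _ => ?_
    rw [map_mul (sub _), map_mul (sub _), AlgHom.commutes, pw, sub_ex hD hb b0]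
  have mm : ∀ (n : ℤ) ρ, 0 < ρ → ρ < 1 → ∀ (c : E) (m : C⸨X⸩),
      m ∈ MM C (max (gn ρ ((D.Ω / β * algebraMap E C A.ϖ ^ n) • D.lg)) 1) →
      sub ((D.Ω / β * algebraMap E C A.ϖ ^ n) • D.lg) m ∈ MM C ρ := fun n ρ h0 h1 c m hm =>
    (mp_lam hA.lf hD (l0 n) h0 h1).sub_mem (Cl.lam0 hD _) hm
  refine ⟨D.Ω / β, fun n => (sub ((D.Ω / β * algebraMap E C A.ϖ ^ n) • D.lg)).comp θ, hx, hy, b0,
    fun _ _ => rfl, fun n z hz ρ h0 h1 => ?_, fun n c γ hγ fγ z hz ρ h0 hc h1 => ?_⟩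
  · obtain ⟨J, _, c, m, h2, h3⟩ := key n z hz ρ h0 h1 0
    have h4 := h3 0 z0.le
    rw [ν.map_zero_eq_one, AlgEquiv.one_apply] at h4
    rw [AlgHom.comp_apply, h4]
    exact sum_mem fun j _ => mul_mem (IntermediateField.algebraMap_mem _ _)
      (mul_mem (mm n ρ h0 h1 0 _ (h2 j).1) (Sg1.ig_cv (hD.y_un _ (h2 j).2).1 h0 h1).mem)
  · obtain ⟨J, _, c', m, h2, h3⟩ := key n z hz ρ h0 h1 (Ku.av C c)
    have h4 := h3 0 (z0.le.trans (Ku.av_nonneg c))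
    rw [ν.map_zero_eq_one, AlgEquiv.one_apply] at h4
    have H := mp_tr (hD.tr_red _) h0 hc h1
    have H1 := mp_lam hA.lf hD (l0 n) h0 h1
    have y1 := fun j => Sg1.ig_cv (hD.y_un _ (h2 j).2).1 h0 h1
    have m1 := fun j => mm n ρ h0 h1 0 _ (h2 j).1
    rw [AlgHom.comp_apply, AlgHom.comp_apply, ν2 c γ hγ fγ, h3 c le_rfl, h4, cmF_sum H _ _ fun j =>
      mul_mem (IntermediateField.algebraMap_mem _ _) (mul_mem (m1 j) (y1 j).mem)]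
    refine Finset.sum_congr rfl fun j _ => ?_
    have e1 : cmp (D.tr (c / (A.ϖ ^ n : Eˣ))) ((D.Ω / β * algebraMap E C A.ϖ ^ n) • D.lg) =
        (D.Ω / β * algebraMap E C A.ϖ ^ n) • D.lg := by
      rw [cmp_smul h0 h0 H.cv H.le (cv_lg hA.lf hD h0 h1), ← cmp4_eq, hD.tr_lg]
    have e2 := cmF_eq_sub (Cl.lam0 hD _) (Cl.lam_ne hD (l0 n)) (h2 j).1
    rw [mul_zero, AddChar.map_zero_eq_one, map_one, one_mul, H.map_mul (m1 j) (y1 j).mem,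
      H.am (y1 j), ← cmp4_eq, hD.y_tr _ _ (h2 j).2, am_smul, ← e2, H1.assoc H (h2 j).1, e1,
      mul_assoc (c' j), mul_div_cancel₀ _ (A.ϖ ^ n).ne_zero]
    ring

end Vale.Agent.P022K.FI
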