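import Vale.Agent.P022K.FI.Pb
import Vale.Agent.P022K.FI.Gnn
import Vale.Agent.P022K.FI.Lt3

/-!
# P022K, block FI, rows SG2 and SG: pre-basins with a common point
-/

set_option autoImplicit false
set_option linter.all false

open PowerSeries Vale.Agent.P019P P025H746 P025H492 Filter Topology
open scoped MatrixGroups LaurentSeries

noncomputable section

namespace Vale.Agent.P022K.FI

open Vale.Agent.P022K.Sh

namespace Sg

section series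

variable {C : Type} [NontriviallyNormedField C] [IsUltrametricDist C] [CompleteSpace C]
  [IsAlgClosed C]

/-- a function which is regular at the origin is continuous there -/
theorem near {s : C⸨X⸩} (hs : M1 s) (h0 : 0 ≤ s.order) {c : ℕ → C} (hc : Tendsto c atTop (𝓝 0)) :
    (∀ᶠ i in atTop, 0 ≤ o1 (c i) s) ∧ Tendsto (fun i => v1 (c i) s) atTop (𝓝 (s.coeff 0)) := by
  have hf := (od_finite one_half_pos (hs _ one_half_pos one_half_lt_one)).diff (t := {0})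
  obtain ⟨r₁, r0, r1⟩ := Metric.mem_nhds_iff.1
    (hf.isClosed.isOpen_compl.mem_nhds (x := (0 : C)) fun h => h.2 rfl)
  obtain ⟨r, hr, hr1, hr2⟩ : ∃ r : ℝ, 0 < r ∧ r < r₁ ∧ r ≤ 1 / 2 :=
    ⟨min (r₁ / 2) (1 / 2), by positivity, (min_le_left _ _).trans_lt (by linarith), min_le_right _ _⟩
  have hr3 : r < 1 := hr2.trans_lt one_half_lt_one
  have h1 : ∀ a : C, ‖a‖ ≤ r → 0 ≤ od r a s := fun a ha => by
    rcases eq_or_ne a 0 with rfl | e
    · rwa [od_at_zero (hs r hr hr3)]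
    · rw [od_rad hr ha hr2 (hs _ one_half_pos one_half_lt_one)]
      by_contra h
      exact r1 (mem_ball_zero_iff.2 (ha.trans_lt hr1))
        ⟨⟨ha.trans hr2, fun e' => h e'.ge⟩, e⟩
  obtain ⟨f, hf1, rfl⟩ := hol hr (hs r hr hr3) h1
  obtain ⟨q, hq, e⟩ := exists_factor hr hf1 (a := 0) (by simpa using hr.le)
  have h2 : ∀ᶠ i in atTop, ‖c i‖ ≤ r := by
    filter_upwards [hc.eventually (Metric.closedBall_mem_nhds 0 hr)] with i hi
    simpa using hi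
  refine ⟨h2.mono fun i hi => by rw [hs.o1_eq hr hi hr3]; exact h1 _ hi, ?_⟩
  rw [tendsto_iff_norm_sub_tendsto_zero]
  refine squeeze_zero' (Eventually.of_forall fun _ => norm_nonneg _) (h2.mono fun i hi => ?_)
    (by simpa using hc.norm.const_mul (gn r q))
  have e0 : (am C f).coeff 0 = ev (0 : C) f := by
    rw [ev_zero_left]; exact (coeff_am f 0).trans (coeff_zero_eq_constantCoeff_apply f)
  rw [hs.v1_eq hr hi hr3, va_am hr hi hf1, e0]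
  nth_rw 1 [e]
  rw [map_zero, sub_zero, ev_add hi (hq.mul (cv_X r)) (cv_C r _), ev_mul hr hi hq (cv_X r), ev_X,
    Lt.ev_C', add_sub_cancel_right, norm_mul]
  exact mul_le_mul_of_nonneg_right (norm_ev_le hr hi hq) (norm_nonneg _)

omit [IsAlgClosed C] in
theorem norm_ev_le2 {f : C⟦X⟧} (hf : Ig f) (h0 : constantCoeff f = 0) {a : C} (ha : ‖a‖ < 1) :
    ‖ev a f‖ ≤ max ‖coeff 1 f‖ ‖a‖ * ‖a‖ := by
  obtain ⟨q, rfl⟩ := X_dvd_iff.2 h0
  have hq : Lt.Io q := fun n => by simpa using hf (n + 1)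
  rw [Lt.io_X.ou.ev_mul hq.ou ha, ev_X, norm_mul, mul_comm]
  refine mul_le_mul_of_nonneg_right ?_ (norm_nonneg _)
  rw [← add_sub_cancel (constantCoeff q) (ev a q)]
  refine (IsUltrametricDist.norm_add_le_max _ _).trans (max_le_max (by simp) (hq.norm_ev_sub ha))

end series

section mat

variable {O E : Type} [CommRing O] [IsDomain O] [IsDiscreteValuationRing O] [Field E]
  [Algebra O E]

theorem fm_pow {g k : GL (Fin 2) E} {μ : Eˣ} (h : Fm g k (dg μ)) (j : ℕ) :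
    Fm g (k ^ j) (dg (μ ^ j)) := by
  induction j with
  | zero => rw [pow_zero, pow_zero, Gn.dg_one]; exact Gn.fm_zl (one_mem _)
  | succ j ih => rw [pow_succ, pow_succ, Gn.dg_mul]; exact Gn.fm_mul ih h

theorem dg_pow (μ : Eˣ) (j : ℕ) : dg (μ ^ j) = dg μ ^ j := by
  induction j with
  | zero => rw [pow_zero, pow_zero, Gn.dg_one]
  | succ j ih => rw [pow_succ, pow_succ, Gn.dg_mul, ih]

theorem dg_mem (o : Oˣ) {μ : Eˣ} (e : (μ : E) = algebraMap O E o) : dg μ ∈ KK O E := by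
  refine ⟨⟨!![(o : O), 0; 0, 1], !![((o⁻¹ : Oˣ) : O), 0; 0, 1], ?_, ?_⟩, ?_⟩
  · ext i j; fin_cases i <;> fin_cases j <;> simp [Matrix.mul_apply, Fin.sum_univ_two]
  · ext i j; fin_cases i <;> fin_cases j <;> simp [Matrix.mul_apply, Fin.sum_univ_two]
  · ext i j; fin_cases i <;> fin_cases j <;> simp [Gn.dg_val, e]

theorem tri {k : GL (Fin 2) E} (h : k 1 0 = 0) :
    ∃ (c : E) (μ : Eˣ), ∃ z ∈ Zl E, k = un c * (dg μ * z) := by
  have hd := k.det.ne_zero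
  rw [Matrix.GeneralLinearGroup.val_det_apply, Matrix.det_fin_two, h, mul_zero, sub_zero] at hd
  have h0 := left_ne_zero_of_mul hd
  have h1 := right_ne_zero_of_mul hd
  refine ⟨k 0 1 / k 1 1, Units.mk0 _ (div_ne_zero h0 h1), _, mem_Zl.2 ⟨Units.mk0 _ h1, rfl⟩, ?_⟩
  ext i j
  fin_cases i <;> fin_cases j <;>
    simp [un_val, Gn.dg_val, d2_val, Matrix.mul_apply, Fin.sum_univ_two, h, h1]

end mat

section tower

variable {C L Γ O E : Type} [NontriviallyNormedField C] [IsUltrametricDist C] [CompleteSpace C]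
  [IsAlgClosed C] [CharZero C] [Field L] [Algebra C L] [Group Γ] [CommRing O] [IsDomain O]
  [IsDiscreteValuationRing O] [Field E] [Algebra O E] [Algebra E C] {A : AT C L Γ O E}
  {D : LTD C O E} {x x' y : Plk C L} {θ θ' : L →ₐ[C] C⸨X⸩} {g g' : GL (Fin 2) E} {b b' a a' : C}
  {ε ε' : ℤ → L →ₐ[C] C⸨X⸩} {n n' : ℤ}

theorem val_uniq {h : L} {c c' : C}
    (e : h = algebraMap C L c ∨ (h - algebraMap C L c)⁻¹ ∉ y.1)
    (e' : h = algebraMap C L c' ∨ (h - algebraMap C L c')⁻¹ ∉ y.1) : c = c' := by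
  rw [← sub_eq_zero (a := h), ← ValuationSubring.mem_nonunits_iff_or] at e e'
  have h1 := sub_mem e' e
  rw [sub_sub_sub_cancel_left, ← map_sub, ValuationSubring.mem_nonunits_iff_or, ← map_inv₀] at h1
  exact sub_eq_zero.1 ((_root_.map_eq_zero _).1 (h1.resolve_right fun e => e (y.2.1 _)))

theorem f_ig (hA : A.Ok) (hD : D.Ok A.ϖ) :
    Ig D.f ∧ constantCoeff D.f = 0 ∧ ‖coeff 1 D.f‖ < 1 := by
  obtain ⟨p, -, hp⟩ := hA.lf.irr
  haveI := hA.lf.fin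
  have h1 : 1 < qq O := Finite.one_lt_card
  refine ⟨hD.f_br p hp ▸ hD.br_ig p, hD.f_br p hp ▸ hD.br0 p, ?_⟩
  simpa [coeff_X_pow, h1.ne] using hD.f_red 1

theorem up (hO : A.OVW) (hD : D.Ok A.ϖ) (h : A.PB D x θ g b ε) (hy : A.Ow g ε n a y) {N : ℤ}
    (hN : n ≤ N) : ∃ a₁, A.Ow g ε N a₁ y := by
  induction N, hN using Int.le_induction with
  | base => exact ⟨a, hy⟩
  | succ N _ ih =>
    obtain ⟨a₁, h1⟩ := ih
    obtain ⟨a₂, -, h2⟩ := (hO D hD x θ g b ε h N).2.2.1 a₁ y h1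
    exact ⟨a₂, h2⟩

theorem dn (hA : A.Ok) (hO : A.OVW) (hD : D.Ok A.ϖ) (h : A.PB D x θ g b ε) (k : ℕ) :
    ∀ a, A.Ow g ε (n + 1 + k) a y →
      ∃ a₁, ‖a₁‖ ≤ max ‖coeff 1 D.f‖ ‖a‖ * ‖a‖ ∧ A.Ow g ε n a₁ y := by
  obtain ⟨f1, f2, f3⟩ := f_ig hA hD
  induction k with
  | zero =>
    exact fun a ha => ⟨_, norm_ev_le2 f1 f2 ha.1, (hO D hD x θ g b ε h n).2.1 a y (by simpa using ha)⟩
  | succ k ih =>
    intro a ha
    obtain ⟨a₁, h1, h2⟩ := ih _ ((hO D hD x θ g b ε h (n + 1 + k)).2.1 a y (by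
      rw [add_assoc _ (k : ℤ)]; exact_mod_cast ha))
    have h3 : ‖An4.ev a D.f‖ ≤ ‖a‖ := (norm_ev_le2 f1 f2 ha.1).trans
      (mul_le_of_le_one_left (norm_nonneg _) (max_le f3.le ha.1.le))
    exact ⟨a₁, h1.trans (by gcongr), h2⟩

theorem orbit (hA : A.Ok) (hO : A.OVW) (hD : D.Ok A.ϖ) (h : A.PB D x θ g b ε)
    (hy : A.Ow g ε n a y) {t : Γ} (ht : t ∈ A.St x) {k : ℕ} {o : Oˣ} {μ : Eˣ}
    (e : (μ : E) = A.ϖ ^ ((k + 1 : ℕ) : ℤ) * algebraMap O E o) (hμ : Fm g (A.π t) (dg μ)) :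
    ∃ c : ℕ → C, Tendsto c atTop (𝓝 0) ∧ ∀ j, A.Ow g ε n (c j) (A.sm (t ^ j) y) := by
  have hθ : max ‖coeff 1 D.f‖ ‖a‖ < 1 := max_lt (f_ig hA hD).2.2 hy.1
  have key : ∀ j : ℕ, ∃ c : C, ‖c‖ ≤ max ‖coeff 1 D.f‖ ‖a‖ ^ j * ‖a‖ ∧
      A.Ow g ε n c (A.sm (t ^ j) y) := fun j => by
    induction j with
    | zero => exact ⟨a, by simp, by rwa [pow_zero, A.sm_one]⟩
    | succ j ih =>
      obtain ⟨c, h1, h2⟩ := ih
      have h3 := (hO D hD x θ g b ε h n).2.2.2.2.2.1 t ht _ o μ e hμ c _ h2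
      rw [← A.sm_mul, ← pow_succ'] at h3
      obtain ⟨c', h4, h5⟩ := dn (n := n) hA hO hD h k _ (by
        rw [add_assoc, add_comm 1]; exact h3)
      have h6 : ‖An4.ev c (D.br o)‖ ≤ ‖c‖ := by
        simpa [hD.br0, ev4_eq] using Lt.Io.norm_ev_sub (hD.br_ig o) h2.1
      have h7 : ‖c‖ ≤ ‖a‖ := h1.trans
        (mul_le_of_le_one_left (norm_nonneg _) (pow_le_one₀ (by positivity) hθ.le))
      refine ⟨c', h4.trans ?_, h5⟩
      rw [pow_succ', mul_assoc]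
      exact mul_le_mul (max_le_max le_rfl (h6.trans h7)) (h6.trans h1) (norm_nonneg _)
        (by positivity)
  choose c h1 h2 using key
  exact ⟨c, squeeze_zero_norm h1 (by
    simpa using (tendsto_pow_atTop_nhds_zero_of_lt_one (by positivity) hθ).mul_const ‖a‖), h2⟩

theorem attr (hA : A.Ok) (hM : A.MAT) (hH : A.HYP) (h : A.PB D x θ g b ε) {W : Subgroup Γ}
    (hW : W ∈ A.Wl) : ∃ t ∈ W, t ∈ A.St x ∧ ∃ (k : ℕ) (o : Oˣ) (μ : Eˣ),
      (μ : E) = A.ϖ ^ ((k + 1 : ℕ) : ℤ) * algebraMap O E o ∧ Fm g (A.π t) (dg μ) := by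
  obtain ⟨t, h1, h2, μ, h3, h4⟩ := (hH x θ g h.cm).1 h.hyp W hW
  obtain ⟨m, o, e⟩ := hM.2.2.2.2.2.2.2.2.2 μ
  have h5 : 0 < m := by
    by_contra hm
    have h6 := (hA.lf.nrm _).2 (Gn.io_mul (Gn.io_zpow hA.lf (neg_nonneg.2 (not_lt.1 hm)))
      (Gn.io_alg (O := O) (↑o⁻¹ : O)))
    rw [zpow_neg, map_units_inv, ← mul_inv, ← e, map_inv₀, norm_inv] at h6
    exact absurd h4 (not_lt.2 ((inv_le_one₀ (Gn.norm_pi_pos μ)).1 h6))
  obtain ⟨k, rfl⟩ := Int.eq_succ_of_zero_lt h5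
  exact ⟨t, h1, h2, k, o, μ, by exact_mod_cast e, h3⟩

theorem le_of (hA : A.Ok) (hM : A.MAT) (hH : A.HYP) (hC : A.CALW) (hO : A.OVW) (hD : D.Ok A.ϖ)
    (h : A.PB D x θ g b ε) (h' : A.PB D x' θ' g' b' ε')
    (hf : ∀ k ν, Fm g' k (dg ν) → Fm g k (dg ν)) (hy : A.Ow g ε n a y) (hy' : A.Ow g' ε' n' a' y)
    {s : L} (hs : s ∈ x.1) : s ∈ x'.1 := by
  by_contra hs'
  obtain ⟨w, w1, w2, w3⟩ : ∃ w, w ∈ x.1 ∧ w⁻¹ ∈ x.1 ∧ w ∉ x'.1 := by
    by_cases e : s⁻¹ ∈ x.1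
    · exact ⟨s, hs, e, hs'⟩
    refine ⟨1 - s, sub_mem (one_mem _) hs, ?_, fun e' => hs' (by simpa using sub_mem (one_mem _) e')⟩
    by_contra e2
    have h1 := add_mem ((x.1.mem_nonunits_iff_or).2 (Or.inr e)) ((x.1.mem_nonunits_iff_or).2 (Or.inr e2))
    rw [add_sub_cancel, ValuationSubring.mem_nonunits_iff_or, inv_one] at h1
    exact h1.elim one_ne_zero fun e3 => e3 (one_mem _)
  have w0 : w⁻¹ ≠ 0 := inv_ne_zero fun e => w3 (e ▸ zero_mem _)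
  obtain ⟨N, hN⟩ := Gn.exists_Ln hA hM g w⁻¹
  obtain ⟨N', hN'⟩ := Gn.exists_Ln hA hM g' w⁻¹
  replace hN := Gn.Ln_mono hA g (le_max_left N n) hN
  replace hN' := Gn.Ln_mono hA g' (le_max_left N' n') hN'
  obtain ⟨a₁, hy₁⟩ := up hO hD h hy (le_max_right N n)
  obtain ⟨a₁', hy₁'⟩ := up hO hD h' hy' (le_max_right N' n')
  generalize max N n = M at *
  generalize max N' n' = M' at *
  obtain ⟨W, hW, m, hw⟩ := hA.smo w⁻¹
  obtain ⟨t, t1, t2, k, o, μ, e, t3⟩ := attr hA hM hH h hW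
  obtain ⟨t', t1', t2', k', o', μ', e', t3'⟩ := attr hA hM hH h' hW
  obtain ⟨c, c1, c2⟩ := orbit hA hO hD h hy₁ t2 e t3
  obtain ⟨c', c1', c2'⟩ := orbit hA hO hD h' hy₁' t2' e' t3'
  obtain ⟨R, R0, -, hR⟩ := Subgroup.exists_pow_mem_of_relIndex_ne_zero
    (hM.2.2.1 _ _ (hM.2.1 m) (hM.1 g)).2
    (a := g * dg (μ ^ (k' + 1) * (μ' ^ (k + 1))⁻¹) * g⁻¹) (by
      rw [Vx, mem_cj]
      refine Subgroup.mem_sup_left (S := KK O E) ?_
      have := dg_mem (o ^ (k' + 1) * (o' ^ (k + 1))⁻¹) (μ := μ ^ (k' + 1) * (μ' ^ (k + 1))⁻¹) (by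
        have p0 := A.ϖ.ne_zero
        have o0 : algebraMap O E o' ≠ 0 := fun e0 => μ'.ne_zero (by rw [e', e0, mul_zero])
        rw [Units.val_mul, Units.val_mul, map_mul, map_units_inv, Units.val_inv_eq_inv_val,
          Units.val_pow_eq_pow_val, Units.val_pow_eq_pow_val, Units.val_pow_eq_pow_val,
          Units.val_pow_eq_pow_val, map_pow, map_pow, e, e', zpow_natCast, zpow_natCast]
        field_simp
        ring)
      simpa [mul_assoc] using this)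
  have hfix : ∀ i : ℕ, A.act (t ^ ((k' + 1) * (R * i)) * (t' ^ ((k + 1) * (R * i)))⁻¹) w⁻¹ = w⁻¹ :=
    fun i => by
      refine A.mem_K.1 hw _ (Gn.mem_U.2 ⟨mul_mem (pow_mem t1 _) (inv_mem (pow_mem t1' _)), ?_⟩)
      obtain ⟨z, hz, ez⟩ := Gn.fm_iff.1 (Gn.fm_mul (fm_pow t3 ((k' + 1) * (R * i)))
        (Gn.fm_inv (fm_pow (hf _ _ t3') ((k + 1) * (R * i)))))
      rw [map_mul, map_inv, map_pow, map_pow, ez, ← Gn.dg_inv, ← Gn.dg_mul, pow_mul μ, pow_mul μ',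
        ← inv_pow, ← mul_pow, dg_pow, ← conj_pow, pow_mul]
      exact mul_mem (pow_mem (Subgroup.mem_inf.1 hR).1 i) (Subgroup.mem_sup_right hz)
  have tj : ∀ l : ℕ, Tendsto (fun i => (l + 1) * (R * i)) atTop atTop := fun l =>
    tendsto_atTop_mono (fun i => by
      exact (Nat.le_mul_of_pos_left i R0).trans (Nat.le_mul_of_pos_left _ l.succ_pos)) tendsto_id
  have o0 : (ε M w⁻¹).order = 0 := by
    rw [(hC D hD x θ g b ε h).2.1]
    have h1 := (h.cm.pl _).1 w1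
    have h2 := (h.cm.pl _).1 w2
    rw [map_inv₀, order_inv] at h2 ⊢
    omega
  have o1' : 0 < (ε' M' w⁻¹).order := by
    rw [(hC D hD x' θ' g' b' ε' h').2.1, map_inv₀, order_inv]
    have h1 := (h'.cm.pl w).not.1 w3
    omega
  obtain ⟨n1, n2⟩ := near (h.mer M _ hN) o0.ge (c1.comp (tj k'))
  obtain ⟨n1', n2'⟩ := near (h'.mer M' _ hN') o1'.le (c1'.comp (tj k))
  have lim := tendsto_nhds_unique_of_eventuallyEq n2 n2' (by
    filter_upwards [n1, n1'] with i hi hi'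
    have v := (hO D hD x θ g b ε h M).2.2.2.2.2.2 _ _ (c2 _) _ hN (((c2 _).2 _ hN).2 hi)
    have v' := (hO D hD x' θ' g' b' ε' h' M').2.2.2.2.2.2 _ _ (c2' _) _ hN' (((c2' _).2 _ hN').2 hi')
    refine val_uniq v (v'.imp_right fun e1 e2 => e1 ?_)
    rw [AT.mem_sm] at e2 ⊢
    have h1 : (t' ^ ((k + 1) * (R * i)))⁻¹ = (t ^ ((k' + 1) * (R * i)))⁻¹ *
        (t ^ ((k' + 1) * (R * i)) * (t' ^ ((k + 1) * (R * i)))⁻¹) := by group
    rwa [h1, A.act_mul, map_inv₀ (A.act (_ * _)), map_sub, hfix, AlgEquiv.commutes])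
  rw [HahnSeries.coeff_eq_zero_of_lt_order o1', ← o0, HahnSeries.coeff_order_eq_zero] at lim
  exact w0 ((_root_.map_eq_zero _).1 lim)

theorem ow_act (hA : A.Ok) (hy : A.Ow g ε n a y) (γ : Γ) :
    A.Ow (A.π γ * g) (fun n => (ε n).comp (A.act γ⁻¹ : L →ₐ[C] L)) n a (A.sm γ y) :=
  ⟨hy.1, fun h hh => hy.2 (A.act γ⁻¹ h) (by rwa [Gn.Ln_act hA g n γ, A.act_inv'])⟩

end tower

end Sg

section rows

variable {C L Γ O E : Type} [NontriviallyNormedField C] [IsUltrametricDist C] [CompleteSpace C]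
  [IsAlgClosed C] [CharZero C] [Field L] [Algebra C L] [Group Γ] [CommRing O] [IsDomain O]
  [IsDiscreteValuationRing O] [Field E] [Algebra O E] [Algebra E C] {A : AT C L Γ O E}

/-- **SG2** -/
theorem sg2 (hA : A.Ok) (hM : A.MAT) (hH : A.HYP) (hC : A.CALW) (hO : A.OVW) : A.SG2 :=
  fun D hD x θ g b ε x' θ' b' ε' h h' n a n' a' y hy hy' => Subtype.ext (SetLike.ext fun s =>
    ⟨Sg.le_of hA hM hH hC hO hD h' h (fun _ _ e => e) hy' hy,
      Sg.le_of hA hM hH hC hO hD h h' (fun _ _ e => e) hy hy'⟩)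

/-- **SG** -/
theorem sg (hA : A.Ok) (hM : A.MAT) (hH : A.HYP) (hS : A.SA) (hC : A.CALW) (hF : A.FRMW)
    (hO : A.OVW) (h1 : A.SG1) : A.SG := by
  intro D hD x θ g b ε x' θ' g' b' ε' h h' n a n' a' y hy hy'
  obtain ⟨c, μ, z, hz, e⟩ := Sg.tri (h1 D hD x θ g b ε x' θ' g' b' ε' h h' n a n' a' y hy hy')
  obtain ⟨γ, hγ, eγ⟩ := hS.1 (g * un c * g⁻¹) (by
    rw [map_mul, map_mul, map_inv, mul_right_comm, mul_inv_cancel, one_mul]
    ext; simp [un_val])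
  have hm : Fm g (A.π γ) (un c) := eγ ▸ Gn.fm_self g _
  have e2 : g' = A.π γ * g * (dg μ * z) := by
    rw [eγ, inv_mul_cancel_right, mul_assoc, ← e, mul_inv_cancel_left]
  have hf : ∀ k ν, Fm g' k (dg ν) ↔ Fm (A.π γ * g) k (dg ν) := fun k ν => by
    rw [e2, Gn.fm_frame, mul_assoc (dg μ), ← Gn.zl_comm hz, mul_inv_rev, ← mul_assoc, ← mul_assoc,
      mul_inv_cancel_right, ← Gn.dg_inv, ← Gn.dg_mul, ← Gn.dg_mul, mul_inv_cancel_comm]
  have h2 := (hF D hD x θ g b ε h).1 γ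
  have h3 := Sg.ow_act hA (((hO D hD x θ g b ε h n).2.2.2.2.1 γ hγ c hm _ y).2 ⟨a, hy, rfl⟩) γ
  rw [← A.sm_mul, mul_inv_cancel, A.sm_one] at h3
  exact ⟨γ, hγ, c, hm, Subtype.ext (SetLike.ext fun s =>
    ⟨Sg.le_of hA hM hH hC hO hD h' h2 (fun k ν => (hf k ν).2) hy' h3,
      Sg.le_of hA hM hH hC hO hD h2 h' (fun k ν => (hf k ν).1) h3 hy'⟩)⟩

end rows

end Vale.Agent.P022K.FI
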