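import Vale.Agent.P022K.FI.Pb
import Vale.Agent.P022K.FI.Twr
import Vale.Agent.P022K.FI.Gnn

/-!
# P022K, block FI, row SG1: pre-basins with a common point have the same end
-/

set_option linter.all false

noncomputable section

open PowerSeries Filter Topology Vale.Agent.P019P P025H746 P025H492 P025H552 Module
open scoped MatrixGroups LaurentSeries

namespace Vale.Agent.P022K.FI

open Vale.Agent.P022K.Sh

namespace Sg1

section series

variable {C : Type} [NontriviallyNormedField C] [IsUltrametricDist C] {ρ : ℝ} {u f : C⟦X⟧}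
  {a : C} {x : C⸨X⸩}

theorem ig_cv (h : Ig u) (h0 : 0 < ρ) (h1 : ρ < 1) : Cv ρ u :=
  Cv.of_bdd (r := 1) (M := 1) h0 h1 fun n => by simpa using h n

theorem un_gn (h : Un u) (h0 : 0 < ρ) (h1 : ρ < 1) : gn ρ u = 1 ∧ wd ρ u = 0 :=
  gn_wd_of (fun n => mul_le_one₀ (h.1 n) (by positivity) (pow_le_one₀ h0.le h1.le))
    (by simpa using h.2) fun n hn =>
      mul_lt_one_of_nonneg_of_lt_one_right (h.1 n) (by positivity) (pow_lt_one₀ h0.le h1 hn.ne')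

theorem ig_cmp {g : C⟦X⟧} (hg : Ig g) (hf : Ig f) : Ig (cmp g f) := fun n => by
  simpa [cmp4_eq] using An4.Bnd.cmp (r := 1) (ρ := 1) (B := 1) (φ := g) (f := f) one_pos
    (fun n => by simpa using hg n) (fun n => by simpa using hf n) n

theorem ig_gn (h : Ig u) (hu : constantCoeff u = 0) (h0 : 0 < ρ) (h1 : ρ < 1) : gn ρ u ≤ ρ :=
  gn_le fun n => by
    rcases n with _ | n
    · simpa [hu] using h0.le
    · exact (mul_le_of_le_one_left (by positivity) (h _)).trans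
        (pow_le_of_le_one h0.le h1.le (Nat.succ_ne_zero n))

theorem ig_add (ha : ‖a‖ < 1) : Ig (X + PowerSeries.C a : C⟦X⟧) := fun n => by
  rcases n with _ | _ | n <;> simp [coeff_X, coeff_C, ha.le]

/-- the properties of the endomorphism `[ϖ]` -/
structure Ef (κ : ℝ) (q : ℕ) (f : C⟦X⟧) : Prop where
  ig : Ig f
  c0 : constantCoeff f = 0
  red : Sm (f - X ^ q)
  two : 2 ≤ q
  pos : 0 < κ
  lt : κ < 1
  der : ∀ ρ, 0 < ρ → ρ < 1 → gn ρ (d⁄dX C f) = κ ∧ wd ρ (d⁄dX C f) = 0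

variable {κ : ℝ} {q : ℕ}

theorem Ef.top (h : Ef κ q f) : ‖coeff q f‖ = 1 := by
  have h1 := h.red q
  rw [map_sub, coeff_X_pow_self] at h1
  have := IsUltrametricDist.norm_add_eq_max_of_norm_ne_norm (x := coeff q f - 1) (y := 1)
    (by rw [norm_one]; exact h1.ne)
  rwa [sub_add_cancel, norm_one, max_eq_right h1.le] at this

theorem Ef.ne (h : Ef κ q f) (c : C) : f ≠ PowerSeries.C c := fun e => by
  have := h.top
  rw [e, coeff_C, if_neg (by have := h.two; omega), norm_zero] at this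
  exact zero_ne_one this

theorem Ef.mp (h : Ef κ q f) (h0 : 0 < ρ) (h1 : ρ < 1) : Mp ρ ρ f :=
  ⟨h0, h0, ig_cv h.ig h0 h1, ig_gn h.ig h.c0 h0 h1, h.ne⟩

theorem Ef.exists_wd (h : Ef κ q f) (ha : ‖a‖ < 1) :
    ∃ ρ, 0 < ρ ∧ ‖a‖ ≤ ρ ∧ ρ < 1 ∧ gn ρ f = ρ ^ q ∧ wd ρ f = q := by
  have t : Tendsto (fun ρ : ℝ => ρ ^ q) (𝓝[<] 1) (𝓝 1) := by
    simpa using ((continuous_pow q).tendsto (1 : ℝ)).mono_left nhdsWithin_le_nhds
  have e1 : ∀ᶠ ρ : ℝ in 𝓝[<] 1, ∀ n ∈ Finset.range q, ‖coeff n f‖ < ρ ^ q :=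
    (Finset.range q).eventually_all.2 fun n hn => t.eventually (lt_mem_nhds (by
      have := h.red n
      rwa [map_sub, coeff_X_pow, if_neg (Finset.mem_range.1 hn).ne, sub_zero] at this))
  obtain ⟨ρ, h1, h2⟩ := (e1.and (Ioo_mem_nhdsLT (max_lt ha one_pos))).exists
  have h0 : 0 < ρ := (le_max_right _ _).trans_lt h2.1
  refine ⟨ρ, h0, ((le_max_left _ _).trans_lt h2.1).le, h2.2, gn_wd_of (fun n => ?_)
    (by rw [h.top, one_mul]) fun n hn => ?_⟩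
  · rcases lt_or_ge n q with hn | hn
    · exact (mul_le_of_le_one_right (norm_nonneg _) (pow_le_one₀ h0.le h2.2.le)).trans
        (h1 n (Finset.mem_range.2 hn)).le
    · exact (mul_le_of_le_one_left (by positivity) (h.ig n)).trans
        (pow_le_pow_of_le_one h0.le h2.2.le hn)
  · exact (mul_le_of_le_one_left (by positivity) (h.ig n)).trans_lt
      (pow_lt_pow_right_of_lt_one₀ h0 h2.2 hn)

/-- `f (a + X) - f a` -/
def ps (f : C⟦X⟧) (a : C) : C⟦X⟧ := cmp (X + PowerSeries.C a) f - PowerSeries.C (ev a f)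

omit [IsUltrametricDist C] in
theorem ps_zero (f : C⟦X⟧) (a : C) : constantCoeff (ps f a) = 0 := by
  simp [ps, constantCoeff_cmp]

omit [IsUltrametricDist C] in
theorem ps_succ (f : C⟦X⟧) (a : C) (n : ℕ) :
    coeff (n + 1) (ps f a) = coeff (n + 1) (cmp (X + PowerSeries.C a) f) := by
  simp [ps, coeff_succ_C]

theorem Ef.ps_ig (h : Ef κ q f) (ha : ‖a‖ < 1) : Ig (ps f a) := fun n => by
  rcases n with _ | n
  · simp [ps_zero]
  · rw [ps_succ]; exact ig_cmp (ig_add ha) h.ig _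

/-- translation to the point `a` -/
def T (a : C) (x : C⸨X⸩) : C⸨X⸩ := cmF ((1 + ‖a‖) / 2) (X + PowerSeries.C a) x

theorem order_T (a : C) (x : C⸨X⸩) : (T a x).order = o1 a x := rfl

variable [CompleteSpace C] [IsAlgClosed C]

theorem Ef.ps_one (h : Ef κ q f) (ha : ‖a‖ < 1) : ‖coeff 1 (ps f a)‖ = κ := by
  obtain ⟨a1, a2, a3⟩ := rad1 ha
  have H := mp_add a1 a2
  have e := congrArg constantCoeff (deriv_cmp a1 a1 H.cv H.le (ig_cv h.ig a1 a3))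
  rw [← coeff_zero_eq_constantCoeff_apply, coeff_derivative, map_mul, constantCoeff_cmp] at e
  simp only [Nat.cast_zero, zero_add, mul_one, map_add, constantCoeff_X, constantCoeff_C,
    derivative_X, derivative_C, add_zero, map_one] at e
  rw [ps_succ, zero_add, e, norm_ev_unit a1 ((ig_cv h.ig a1 a3).deriv a1) (h.der _ a1 a3).2 a2,
    (h.der _ a1 a3).1]

theorem Ef.ps_top (h : Ef κ q f) (ha : ‖a‖ < 1) : ‖coeff q (ps f a)‖ = 1 := by
  obtain ⟨ρ, h0, h1, h2, h3, h4⟩ := h.exists_wd ha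
  have H := mp_add h0 h1
  have h5 := gn_X_sub_C h0 (-a)
  rw [map_neg, sub_neg_eq_add, norm_neg, max_eq_left h1, if_pos h1] at h5
  have h6 := gn_wd_cmp h0 h0 H.cv h5.1 (by rw [h5.2]; exact one_ne_zero) (ig_cv h.ig h0 h2)
  have h7 := coeff_wd h0 (H.cv_cmp (ig_cv h.ig h0 h2))
  rw [h6.1, h6.2, h5.2, one_mul, h4, h3] at h7
  obtain ⟨k, rfl⟩ : ∃ k, q = k + 1 := ⟨q - 1, by have := h.two; omega⟩
  rw [ps_succ]
  exact mul_right_cancel₀ (pow_pos h0 _).ne' (h7.trans (one_mul _).symm)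

theorem Ef.ps_mp (h : Ef κ q f) (ha : ‖a‖ < 1) {ρ₀ : ℝ} (h0 : 0 < ρ) (h1 : ρ ≤ ρ₀) (h2 : ρ₀ < 1) :
    Mp ρ (max κ ρ₀ * ρ) (ps f a) := by
  refine ⟨h0, mul_pos (lt_max_of_lt_left h.pos) h0, ig_cv (h.ps_ig ha) h0 (h1.trans_lt h2),
    gn_le fun n => ?_, fun c e => ?_⟩
  · rcases n with _ | _ | n
    · simpa [ps_zero] using (mul_pos (lt_max_of_lt_left h.pos) h0).le
    · rw [zero_add, h.ps_one ha, pow_one]
      exact mul_le_mul_of_nonneg_right (le_max_left _ _) h0.le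
    · refine (mul_le_of_le_one_left (by positivity) (h.ps_ig ha _)).trans ?_
      rw [pow_succ]
      exact mul_le_mul_of_nonneg_right ((pow_le_of_le_one h0.le (h1.trans h2.le)
        (Nat.succ_ne_zero n)).trans (h1.trans (le_max_right _ _))) h0.le
  · have := h.ps_one ha
    rw [e, coeff_C, if_neg one_ne_zero, norm_zero] at this
    exact h.pos.ne this

/-- a second point in the fibre, at a distance bounded away from one -/
theorem Ef.root (h : Ef κ q f) : ∃ ρ₀, 0 < ρ₀ ∧ ρ₀ < 1 ∧ ∀ a : C, ‖a‖ < 1 →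
    ∃ v : C, v ≠ 0 ∧ ‖v‖ ≤ ρ₀ ∧ ev v (ps f a) = 0 := by
  obtain ⟨k, rfl⟩ : ∃ k, q = k + 1 := ⟨q - 1, by have := h.two; omega⟩
  have k0 : 0 < k := by have := h.two; omega
  have t : Tendsto (fun ρ : ℝ => ρ ^ k) (𝓝[<] 1) (𝓝 1) := by
    simpa using ((continuous_pow k).tendsto (1 : ℝ)).mono_left nhdsWithin_le_nhds
  obtain ⟨ρ, h1, h0, h2⟩ := ((t.eventually (lt_mem_nhds h.lt)).and (Ioo_mem_nhdsLT one_pos)).exists
  refine ⟨ρ, h0, h2, fun a ha => ?_⟩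
  obtain ⟨g, hg⟩ := X_dvd_iff.2 (ps_zero f a)
  have c : ∀ n, coeff n g = coeff (n + 1) (ps f a) := fun n => by rw [hg, coeff_succ_X_mul]
  have cg : Cv ρ g := ig_cv (fun n => c n ▸ h.ps_ig ha _) h0 h2
  have g1 : ‖constantCoeff g‖ = κ := by rw [← coeff_zero_eq_constantCoeff_apply, c, h.ps_one ha]
  obtain ⟨v, v1, v2⟩ := exists_zero h0 cg fun e => by
    have := le_gn cg k
    rw [gn_eq_const h0 cg e, g1, c, h.ps_top ha, one_mul] at this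
    exact absurd h1 (not_lt.2 this)
  refine ⟨v, fun e => ?_, v1, by rw [hg, ev_mul h0 v1 (cv_X ρ) cg, v2, mul_zero]⟩
  rw [e, ev_zero_left] at v2
  rw [show constantCoeff g = 0 from v2, norm_zero] at g1
  exact h.pos.ne g1

theorem T_eq (hx : M1 x) (h0 : 0 < ρ) (ha : ‖a‖ ≤ ρ) (h1 : ρ < 1) :
    T a x = cmF ρ (X + PowerSeries.C a) x := by
  obtain ⟨a1, a2, a3⟩ := rad1 (ha.trans_lt h1)
  have key : ∀ r r' : ℝ, 0 < r → ‖a‖ ≤ r → r ≤ r' → r' < 1 →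
      cmF r (X + PowerSeries.C a) x = cmF r' (X + PowerSeries.C a) x := fun r r' b1 b2 b3 b4 =>
    (mp_add b1 b2).rad b3 (hx _ (b1.trans_le b3) b4)
  rcases le_total ρ ((1 + ‖a‖) / 2) with h | h
  · exact (key _ _ h0 ha h a3).symm
  · exact key _ _ a1 a2 h h1

theorem T_mem (hx : M1 x) (ha : ‖a‖ < 1) : M1 (T a x) := fun ρ h0 h1 => by
  have h2 : 0 < max ρ ‖a‖ := lt_max_of_lt_left h0
  rw [T_eq hx h2 (le_max_right _ _) (max_lt h1 ha)]
  exact MM_anti h0 (le_max_left _ _) ((mp_add h2 (le_max_right _ _)).mem (hx _ h2 (max_lt h1 ha)))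

theorem o1_T (hx : M1 x) (ha : ‖a‖ < 1) {v : C} (hv : ‖v‖ < 1) : o1 v (T a x) = o1 (v + a) x := by
  obtain ⟨ρ, h1, h2⟩ := exists_between (max_lt ha hv)
  have a1 := ((le_max_left _ _).trans_lt h1).le
  have a2 := ((le_max_right _ _).trans_lt h1).le
  have h0 : 0 < ρ := ((norm_nonneg _).trans (le_max_left _ _)).trans_lt h1
  have e : ev v (X + PowerSeries.C a : C⟦X⟧) = v + a := by
    rw [ev_add a2 (cv_X ρ) (cv_C ρ a), ev_X, ev_C]; rfl
  rw [(T_mem hx ha).o1_eq h0 a2 h2, T_eq hx h0 a1 h2, (mp_add h0 a1).od_cmF a2 (hx _ h0 h2), e,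
    hx.o1_eq h0 ((IsUltrametricDist.norm_add_le_max _ _).trans (max_le a2 a1)) h2, map_add,
    add_sub_add_right_eq_sub, od_lin h0 a2, if_pos rfl, one_mul]

theorem Ef.T_sub (h : Ef κ q f) (hx : M1 x) (ha : ‖a‖ < 1) :
    T a (sub f x) = sub (ps f a) (T (ev a f) x) := by
  obtain ⟨a1, a2, a3⟩ := rad1 ha
  have f0 : f ≠ 0 := by simpa using h.ne 0
  have H := h.mp a1 a3
  have a4 : ‖ev a f‖ ≤ (1 + ‖a‖) / 2 := (norm_ev_le a1 a2 H.cv).trans H.le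
  have H1 := (h.ps_mp ha a1 le_rfl a3).mono
    (mul_le_of_le_one_left a1.le (max_le h.lt.le a3.le))
  have m := hx _ a1 a3
  rw [T_eq hx a1 a4 a3, ← cmF_eq_sub (ps_zero f a) (by simpa using H1.nc 0) ((mp_add a1 a4).mem m),
    (mp_add a1 a4).assoc H1 m, cmp_add a1 a1 H1.cv H1.le (cv_X _) (cv_C _ _), cmp_X, cmp_C, T,
    ← cmF_eq_sub h.c0 f0 m, H.assoc (mp_add a1 a2) m, ps, sub_add_cancel]

end series

section tower

variable {C L Γ O E : Type} [NontriviallyNormedField C] [IsUltrametricDist C] [CompleteSpace C]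
  [IsAlgClosed C] [CharZero C] [Field L] [Algebra C L] [Group Γ] [CommRing O] [IsDomain O]
  [IsDiscreteValuationRing O] [Field E] [Algebra O E] [Algebra E C] {A : AT C L Γ O E}
  {D : LTD C O E} {x y : Plk C L} {θ χ : L →ₐ[C] C⸨X⸩} {g : GL (Fin 2) E} {b a : C}
  {ε : ℤ → L →ₐ[C] C⸨X⸩} {n : ℤ} {s : L}

theorem ef {ϖ : Eˣ} (h : LF O C ϖ) (hD : D.Ok ϖ) : Ef ‖algebraMap E C ϖ‖ (qq O) D.f := by
  obtain ⟨p, -, e⟩ := h.irr
  have e1 := hD.f_br p e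
  have i1 : Ig D.f := e1 ▸ hD.br_ig p
  have c0 : constantCoeff D.f = 0 := e1 ▸ hD.br0 p
  have := h.fin
  refine ⟨i1, c0, hD.f_red, Finite.one_lt_card, Gn.norm_pi_pos ϖ, Gn.norm_pi_lt h,
    fun ρ h0 h1 => ?_⟩
  have e2 := congrArg (d⁄dX C) (hD.br_lg p)
  rw [e1, e, derivative_subst (HasSubst.of_constantCoeff_zero' c0), Derivation.map_smul,
    ← cmp_eq_subst c0] at e2
  have u1 := hD.lg_un
  have u2 : Un (cmp D.f (d⁄dX C D.lg)) := ⟨ig_cmp i1 u1.1, by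
    rw [coeff_zero_eq_constantCoeff_apply, constantCoeff_cmp, c0, ev_zero_left,
      ← coeff_zero_eq_constantCoeff_apply]
    exact u1.2⟩
  have d1 := (ig_cv i1 h0 h1).deriv h0
  have a1 := congrArg (gn ρ) e2
  rw [gn_mul h0 (ig_cv u2.1 h0 h1) d1, gn_smul h0, (un_gn u2 h0 h1).1, (un_gn u1 h0 h1).1, one_mul,
    mul_one] at a1
  have n0 : ∀ u : C⟦X⟧, Un u → u ≠ 0 := fun u hu e => by simpa [e] using hu.2
  have p0 : algebraMap E C ϖ ≠ 0 := (map_ne_zero _).2 ϖ.ne_zero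
  have d0 : d⁄dX C D.f ≠ 0 := fun e => by
    rw [e, gn_zero] at a1
    exact (Gn.norm_pi_pos ϖ).ne a1
  have a2 := congrArg (wd ρ) e2
  rw [wd_mul h0 (ig_cv u2.1 h0 h1) d1 (n0 _ u2) d0, smul_eq_C_mul, wd_mul h0 (cv_C ρ _)
    (ig_cv u1.1 h0 h1) (by simpa using p0) (n0 _ u1), wd_C h0, (un_gn u1 h0 h1).2] at a2
  exact ⟨a1, by omega⟩

/-- the expansion at a point of the disc and a global chart -/
theorem chart (hP : A.PB D x θ g b ε) (hO : A.Ow g ε n a y) (hχ : An4.At χ y) (hs : χ s = LX)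
    (sn : s ∈ A.Ln g n) : ∃ φ : C⟦X⟧, constantCoeff φ = 0 ∧ φ ≠ 0 ∧ T a (ε n s) = am C φ ∧
      ∀ h ∈ A.Ln g n, T a (ε n h) = sub φ (χ h) := by
  obtain ⟨a1, a2, a3⟩ := rad1 hO.1
  let κ := tl a1 a2 ((ε n).comp (A.Ln g n).val) fun h => hP.mer n h h.2 _ a1 a3
  have k1 : ∀ h : A.Ln g n, An4.Reg (χ h) ↔ 0 ≤ (κ h).order := fun h =>
    (hχ h).symm.trans (hO.2 h h.2)
  have s0 : (⟨s, sn⟩ : A.Ln g n) ≠ 0 := fun e => LX_ne_zero (C := C) (by
    rw [← hs, show s = 0 from congrArg Subtype.val e, map_zero])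
  have o1 : (LX : C⸨X⸩).order = 1 := by rw [LX_eq, order_am_X]
  have k2 : 0 < (κ ⟨s, sn⟩).order := by
    have := (k1 ⟨s, sn⟩⁻¹).not
    rw [map_inv₀, order_inv, An4.reg_iff, IntermediateField.coe_inv, map_inv₀, order_inv, hs,
      o1] at this
    have := this.1 (by norm_num)
    omega
  obtain ⟨φ, e⟩ := exists_am k2.le
  have f0 : φ ≠ 0 := fun e' => (map_ne_zero κ).2 s0 (by rw [e, e', map_zero])
  have c0 : constantCoeff φ = 0 := by
    by_contra hc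
    rw [e, order_am_eq_zero hc] at k2
    exact lt_irrefl _ k2
  exact ⟨φ, c0, f0, e, fun h hh => An4.lau_factor (χ.comp (A.Ln g n).val) κ (s := ⟨s, sn⟩) hs e c0
    (fun z hz => An4.reg_iff.2 ((k1 z).1 hz)) (isSub_sub c0 f0) ⟨h, hh⟩⟩

/-- the chart converges uniformly on `L_n` -/
theorem chart_lin (hP : A.PB D x θ g b ε) (hO : A.Ow g ε n a y) (hχ : An4.At χ y) (hs : χ s = LX)
    (sn : s ∈ A.Ln g n) (h1 : ∃ h ∈ A.Ln g n, o1 a (ε n h) = 1) :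
    (∃ r, 0 < r ∧ ∀ h ∈ A.Ln g n, χ h ∈ MM C r) ∧ ∀ r, 0 < r → ∃ ρ φ, Mp ρ r φ ∧
      T a (ε n s) = am C φ := by
  obtain ⟨φ, c0, f0, e, hφ⟩ := chart hP hO hχ hs sn
  obtain ⟨h, hh, h2⟩ := h1
  rw [← order_T, hφ h hh, order_sub c0 f0] at h2
  have h3 := Int.eq_one_of_mul_eq_one_right (order_am_nonneg φ) h2
  have m : ∀ h ∈ A.Ln g n, M1 (T a (ε n h)) := fun h hh => T_mem (hP.mer n h hh) hO.1
  have cv : An4.Conv φ := An4.Mer.conv (mer_of_mem one_half_pos (e ▸ m s sn _ one_half_pos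
    one_half_lt_one))
  obtain ⟨r₀, hL⟩ := cv.exists_lin c0 (An4.order_eq_one_iff.1 h3).2
  have l0 : 0 < ‖coeff 1 φ‖ := norm_pos_iff.2 hL.one
  constructor
  · obtain ⟨r, r1, r2⟩ := exists_between (lt_min hL.pos one_pos)
    exact ⟨_, mul_pos l0 r1, fun h hh => (hL.mem_iff r1 (r2.trans_le (min_le_left _ _)) _).1
      (hφ h hh ▸ m h hh r r1 (r2.trans_le (min_le_right _ _)))⟩
  · intro r hr
    obtain ⟨ρ, r1, r2⟩ := exists_between (lt_min hL.pos (div_pos hr l0))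
    exact ⟨ρ, φ, (hL.mp r1 (r2.trans_le (min_le_left _ _))).mono
      ((lt_div_iff₀' l0).1 (r2.trans_le (min_le_right _ _))).le, e⟩

theorem up (hV : A.OVW) (hD : D.Ok A.ϖ) (hP : A.PB D x θ g b ε) (hO : A.Ow g ε n a y) {m : ℤ} :
    ∃ k a', m ≤ k ∧ A.Ow g ε k a' y := by
  have key : ∀ j : ℕ, ∃ a', A.Ow g ε (n + j) a' y := fun j => by
    induction j with
    | zero => exact ⟨a, by simpa using hO⟩
    | succ j ih =>
      obtain ⟨a', h⟩ := ih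
      obtain ⟨a₁, -, h1⟩ := (hV D hD x θ g b ε hP _).2.2.1 a' y h
      exact ⟨a₁, by rwa [Nat.cast_succ, ← add_assoc]⟩
  obtain ⟨a', h⟩ := key (m - n).toNat
  exact ⟨_, a', by omega, h⟩

theorem un_zero_of {g' k : GL (Fin 2) E} {c c' : E} (h : Fm g k (un c)) (h' : Fm g' k (un c'))
    (hk : (g⁻¹ * g' : GL (Fin 2) E) 1 0 ≠ 0) : c = 0 := by
  obtain ⟨z, hz, e⟩ := Gn.fm_iff.1 h
  obtain ⟨z', hz', e'⟩ := Gn.fm_iff.1 h'
  have e1 : un c * z * (g⁻¹ * g') = (g⁻¹ * g') * (un c' * z') := by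
    have a1 : un c * z = g⁻¹ * k * g := by
      rw [e, mul_assoc, mul_assoc _ z, ← Gn.zl_comm hz]; group
    have a2 : un c' * z' = g'⁻¹ * k * g' := by
      rw [e', mul_assoc, mul_assoc _ z', ← Gn.zl_comm hz']; group
    rw [a1, a2]; group
  obtain ⟨w, rfl⟩ := mem_Zl.1 hz
  obtain ⟨w', rfl⟩ := mem_Zl.1 hz'
  generalize g⁻¹ * g' = t at *
  have b1 := congrArg (fun m : GL (Fin 2) E => m 1 0) e1
  have b2 := congrArg (fun m : GL (Fin 2) E => m 0 0) e1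
  simp [un_val, d2_val, Matrix.mul_apply, Fin.sum_univ_two] at b1 b2
  have b3 : (w : E) = w' := mul_right_cancel₀ hk (b1.trans (mul_comm _ _))
  rw [← b3] at b2
  have b4 : c * (w * t 1 0) = 0 := by linear_combination b2
  exact (mul_eq_zero.1 b4).resolve_right (mul_ne_zero w.ne_zero hk)

/-- the chart at a point of a pre-basin is not meromorphic on a fixed disc -/
theorem not_mm (hA : A.Ok) (hN : A.GNN) (hC : A.CALW) (hV : A.OVW) (hD : D.Ok A.ϖ)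
    (hP : A.PB D x θ g b ε) (hO : A.Ow g ε n a y) (hχ : An4.At χ y) (hs : χ s = LX)
    (sn : s ∈ A.Ln g n) {r : ℝ} (hr : 0 < r) (hm : ∀ h, χ h ∈ MM C r) : False := by
  have hf := ef hA.lf hD
  have V := hV D hD x θ g b ε hP
  obtain ⟨ρ₀, p0, p1, hρ⟩ := hf.root
  obtain ⟨r₁, φ₀, H₀, e₀⟩ := (chart_lin hP hO hχ hs sn ((V n).1 a hO.1).2).2 r hr
  set κ := max ‖algebraMap E C A.ϖ‖ ρ₀ with hκ
  have k0 : 0 < κ := lt_max_of_lt_right p0
  have k1 : κ < 1 := max_lt hf.lt p1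
  have sm : ∀ m : ℕ, s ∈ A.Ln g (n + m) := fun m => (hN g n).2.2.2.2.1 (by omega) sn
  have step : ∀ (m : ℕ) a φ, A.Ow g ε (n + m) a y → T a (ε (n + m) s) = am C φ →
      ∃ a₁, A.Ow g ε (n + (m + 1 : ℕ)) a₁ y ∧
        T a₁ (ε (n + (m + 1 : ℕ)) s) = am C (cmp (ps D.f a₁) φ) := fun m a φ h1 h2 => by
    obtain ⟨a₁, e, h3⟩ := (V _).2.2.1 a y h1
    rw [Nat.cast_succ, ← add_assoc]
    refine ⟨a₁, h3, ?_⟩
    rw [(hC D hD x θ g b ε hP).1, hf.T_sub (hP.mer _ s (sm m)) h3.1, ← ev4_eq, e, h2,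
      sub_am (ps_zero _ _) (by simpa using (hf.ps_mp h3.1 p0 le_rfl p1).nc 0),
      cmp_eq_subst (ps_zero _ _)]
  have ind : ∀ m : ℕ, ∃ a φ, A.Ow g ε (n + m) a y ∧ T a (ε (n + m) s) = am C φ ∧
      ∀ ρ, 0 < ρ → ρ ≤ ρ₀ → κ ^ m * ρ ≤ r₁ → Mp ρ r φ := fun m => by
    induction m with
    | zero =>
      refine ⟨a, φ₀, by simpa using hO, by simpa using e₀, fun ρ h1 _ h3 => H₀.anti h1 ?_⟩
      simpa using h3
    | succ m ih =>
      obtain ⟨a, φ, h1, h2, h3⟩ := ih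
      obtain ⟨a₁, h4, h5⟩ := step m a φ h1 h2
      exact ⟨a₁, _, h4, h5, fun ρ b1 b2 b3 => (h3 (κ * ρ) (mul_pos k0 b1)
        ((mul_le_of_le_one_left b1.le k1.le).trans b2) (by rwa [← mul_assoc, ← pow_succ])).comp
        (hf.ps_mp h4.1 b1 b2 p1)⟩
  obtain ⟨m, hm'⟩ := exists_pow_lt_of_lt_one (div_pos H₀.hρ p0) k1
  obtain ⟨a₀, φ, h1, h2, h3⟩ := ind m
  obtain ⟨a₁, h4, h5⟩ := step m a₀ φ h1 h2
  have H1 := h3 ρ₀ p0 le_rfl ((lt_div_iff₀ p0).1 hm').le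
  have H2 := (hf.ps_mp h4.1 p0 le_rfl p1).mono (mul_le_of_le_one_left p0.le k1.le)
  have H3 := H1.comp H2
  obtain ⟨v, v0, v1, v2⟩ := hρ a₁ h4.1
  obtain ⟨φ', c0, f0, e1, e2⟩ := chart hP h4 hχ hs (sm _)
  have e3 : φ' = cmp (ps D.f a₁) φ := am_inj (e1.symm.trans h5)
  subst e3
  have e4 : ev v (cmp (ps D.f a₁) φ) = 0 := by
    rw [constantCoeff_cmp, ps_zero] at c0
    rw [ev_cmp p0 p0 v1 H2.cv H2.le H1.cv, v2, c0]
  have a5 := od_am_pos p0 v1 H3.cv f0 e4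
  have h6 : A.Ow g ε (n + (m + 1 : ℕ)) (v + a₁) y := by
    refine ⟨(IsUltrametricDist.norm_add_le_max _ _).trans_lt (max_lt (v1.trans_lt p1) h4.1),
      fun h hh => ?_⟩
    have m1 := hP.mer _ h hh
    rw [← o1_T m1 h4.1 (v1.trans_lt p1), (T_mem m1 h4.1).o1_eq p0 v1 p1, e2 h hh,
      ← cmF_eq_sub c0 f0 (hm h), H3.od_cmF v1 (hm h), e4, map_zero, sub_zero, od_at_zero (hm h),
      mul_nonneg_iff_of_pos_left a5, hχ h, An4.reg_iff]
  exact v0 (add_eq_right.1 ((V _).2.2.2.1 _ _ y h6 h4))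

end tower

end Sg1

open Sg1

variable {C L Γ O E : Type} [NontriviallyNormedField C] [IsUltrametricDist C] [CompleteSpace C]
  [IsAlgClosed C] [CharZero C] [Field L] [Algebra C L] [Group Γ] [CommRing O] [IsDomain O]
  [IsDiscreteValuationRing O] [Field E] [Algebra O E] [Algebra E C] {A : AT C L Γ O E}

/-- **SG1** -/
theorem sg1 (hA : A.Ok) (hM : A.MAT) (hN : A.GNN) (hC : A.CALW) (hV : A.OVW) : A.SG1 := by
  intro D hD x θ g b ε x' θ' g' b' ε' hP hP' n₀ a₀ n₀' a₀' y hO₀ hO₀'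
  by_contra hk
  obtain ⟨χ, hχ, s, hs⟩ := AT.exists_chart hA y
  obtain ⟨m, hm⟩ := (hN g 0).2.2.2.1 s
  obtain ⟨m', hm'⟩ := (hN g' 0).2.2.2.1 s
  obtain ⟨n, a, h1, hO⟩ := up hV hD hP hO₀ (m := m)
  obtain ⟨n', a', h1', hO'⟩ := up hV hD hP' hO₀' (m := m')
  have sn := (hN g 0).2.2.2.2.1 h1 hm
  have sn' := (hN g' 0).2.2.2.2.1 h1' hm'
  obtain ⟨r, hr, h2⟩ := (chart_lin hP hO hχ hs sn ((hV D hD x θ g b ε hP n).1 a hO.1).2).1
  obtain ⟨r', hr', h2'⟩ :=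
    (chart_lin hP' hO' hχ hs sn' ((hV D hD x' θ' g' b' ε' hP' n').1 a' hO'.1).2).1
  have r0 := lt_min hr hr'
  have l1 : A.Ln g n ≤ (MM C (min r r')).comap χ := fun h hh =>
    MM_anti r0 (min_le_left _ _) (h2 h hh)
  have l2 : A.Ln g' n' ≤ (MM C (min r r')).comap χ := fun h hh =>
    MM_anti r0 (min_le_right _ _) (h2' h hh)
  obtain ⟨W, hW⟩ := Gn.exists_W hA
  have l3 := (hN g n).2.2.1 W hW _ (hM.1 (g * dg (A.ϖ ^ n))) (by
    simpa using hM.2.2.2.2.2.2.1 g n n le_rfl)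
  refine not_mm hA hN hC hV hD hP hO hχ hs sn r0 fun h => ?_
  refine (A.lv_U hW (hM.1 _)).mem_of_fixed hA (l3.trans l1) fun u _ hu => ?_
  obtain ⟨u1, c, -, u2⟩ := Gn.mem_Nn.1 ((hN g n).2.1 u fun z hz => hu z (l1 hz))
  obtain ⟨-, c', -, u2'⟩ := Gn.mem_Nn.1 ((hN g' n').2.1 u fun z hz => hu z (l2 hz))
  obtain ⟨k, hk'⟩ := (hN g 0).2.2.2.1 h
  exact A.mem_K.1 hk' u (Gn.mem_Nn.2 ⟨u1, c, by
    rw [un_zero_of u2 u2' hk, zero_div]; exact Gn.io_zero, u2⟩)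

end Vale.Agent.P022K.FI
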