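import Vale.Agent.P022K.FI.Sg2
import Vale.Agent.P022K.FI.Sg1
import Vale.Agent.P022K.FI.Cal
import Vale.Agent.P022K.FI.Fcs

/-!
# P022K, block FI, row UNQ: integral series are determined by their values at torsion points
-/

set_option autoImplicit false
set_option linter.all false

open PowerSeries Vale.Agent.P019P P025H746 P025H492 Filter Topology
open scoped MatrixGroups LaurentSeries

noncomputable section

namespace Vale.Agent.P022K.FI

open Vale.Agent.P022K.Sh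

namespace Uq

section lt

variable {C O E : Type} [NontriviallyNormedField C] [IsUltrametricDist C] [CompleteSpace C]
  [IsAlgClosed C] [CharZero C] [CommRing O] [IsDomain O]
  [IsDiscreteValuationRing O] [Field E] [Algebra O E] [Algebra E C] {D : LTD C O E} {ϖ : Eˣ}

/-- the iterates of a series -/
def it (f : C⟦X⟧) : ℕ → C⟦X⟧
  | 0 => X
  | n + 1 => cmp f (it f n)

theorem e_lt (hD : D.Ok ϖ) (z : E) : ‖constantCoeff (D.tr z)‖ < 1 := (Cl.near_sm (hD.tr_red z)).2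

theorem e_add (hD : D.Ok ϖ) (z w : E) :
    ev (constantCoeff (D.tr z)) (D.tr w) = constantCoeff (D.tr (w + z)) := by
  rw [hD.tr_add, cmp4_eq, constantCoeff_cmp]

theorem e_br (hD : D.Ok ϖ) (z : E) (a : O) :
    ev (constantCoeff (D.tr z)) (D.br a) = constantCoeff (D.tr (algebraMap O E a * z)) := by
  have h := congrArg constantCoeff (hD.tr_br z a)
  rwa [cmp4_eq, cmp4_eq, constantCoeff_cmp, constantCoeff_cmp, hD.br0, ev_zero_left] at h

theorem e_f (h : LF O C ϖ) (hD : D.Ok ϖ) (z : E) :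
    ev (constantCoeff (D.tr z)) D.f = constantCoeff (D.tr (ϖ * z)) := by
  obtain ⟨p, -, hp⟩ := h.irr
  rw [← hD.f_br p hp, e_br hD, hp]

theorem f_sm (h : LF O C ϖ) (hD : D.Ok ϖ) : Lt.Sm D.f :=
  ⟨(Cl.f_deg hD).1, by rw [Cl.f_zero h hD]; simp⟩

theorem it_sm (h : LF O C ϖ) (hD : D.Ok ϖ) (n : ℕ) : Lt.Sm (it D.f n) := by
  induction n with
  | zero => exact Lt.sm_X
  | succ n ih => exact (f_sm h hD).cmp ih

theorem it_ev (h : LF O C ϖ) (hD : D.Ok ϖ) (n : ℕ) {a : C} (ha : ‖a‖ < 1) :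
    ev a (it D.f (n + 1)) = ev (ev a D.f) (it D.f n) := (f_sm h hD).ev_cmp (it_sm h hD n).ou ha

theorem it_root (h : LF O C ϖ) (hD : D.Ok ϖ) (n : ℕ) : ∀ a : C, ‖a‖ < 1 → ev a (it D.f n) = 0 →
    ∃ z, a = constantCoeff (D.tr z) := by
  induction n with
  | zero => exact fun a _ e => ⟨0, by rw [hD.tr_int 0 Gn.io_zero, constantCoeff_X, ← e, it, ev_X]⟩
  | succ n ih =>
    intro a ha e
    obtain ⟨z, hz⟩ := ih _ ((f_sm h hD).norm_ev ha) (by rw [← it_ev h hD n ha, e])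
    obtain ⟨w, -, hw⟩ := hD.fib _ a (e_lt hD (z / ϖ)) ha (by
      rw [ev4_eq, ev4_eq, e_f h hD, mul_div_cancel₀ _ ϖ.ne_zero, hz])
    exact ⟨_, hw.trans (e_add hD _ _)⟩

theorem it_der (h : LF O C ϖ) (hD : D.Ok ϖ) (n : ℕ) : ∀ a : C, ‖a‖ < 1 →
    ev a (d⁄dX C (it D.f n)) ≠ 0 := by
  induction n with
  | zero => exact fun a _ => by simp [it, ev_one]
  | succ n ih =>
    intro a ha
    have hf := f_sm h hD
    have hi := it_sm h hD n
    rw [it, hf.deriv_cmp hi.ou, (hf.ou_cmp hi.ou.deriv).ev_mul hf.ou.deriv ha,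
      hf.ev_cmp hi.ou.deriv ha]
    refine mul_ne_zero (ih _ (hf.norm_ev ha)) ?_
    obtain ⟨ρ, r0, r1, r2, -⟩ := Lt.exists_rho ha ha
    obtain ⟨h1, h2⟩ := (Sg1.ef h hD).der ρ r0 r1
    rw [← norm_pos_iff, norm_ev_unit r0 (hf.ou.deriv ρ r0 r1) h2 r2, h1]
    exact Gn.norm_pi_pos ϖ

theorem it_fac (h : LF O C ϖ) (hD : D.Ok ϖ) (n : ℕ) : ∃ Dv, Fac (am C (it D.f n)) 1 Dv := by
  induction n with
  | zero => exact ⟨_, by simpa [it] using fac_lin (a := (0 : C)) (by simp)⟩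
  | succ n ih =>
    obtain ⟨Dv, hv⟩ := ih
    have hf : Dg D.f (qq O) := ⟨(Cl.f_deg hD).1, Cl.qq_pos h, (Cl.f_deg hD).2.1, (Cl.f_deg hD).2.2⟩
    obtain ⟨r, r1, -, H⟩ := hf.mp' (a := 0) (by simp)
    obtain ⟨D', h1, -⟩ := fac_cmF hf H r1 hv
    exact ⟨D', by rwa [H.am ((it_sm h hD n).ou r H.hr r1)] at h1⟩

theorem it_le (h : LF O C ϖ) (hD : D.Ok ϖ) {ρ : ℝ} (h1 : ρ < 1) (n : ℕ) : ∀ a : C, ‖a‖ ≤ ρ →
    ‖ev a (it D.f n)‖ ≤ max ‖coeff 1 D.f‖ ρ ^ n * ‖a‖ := by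
  have hk : ‖coeff 1 D.f‖ < 1 := (Cl.f_deg hD).2.1 1 (Sg1.ef h hD).two
  induction n with
  | zero => exact fun a _ => by simp [it, ev_X]
  | succ n ih =>
    intro a ha
    have h2 : ‖ev a D.f‖ ≤ max ‖coeff 1 D.f‖ ρ * ‖a‖ :=
      (Sg.norm_ev_le2 (Cl.f_deg hD).1 (Cl.f_zero h hD) (ha.trans_lt h1)).trans (by gcongr)
    rw [it_ev h hD n (ha.trans_lt h1), pow_succ, mul_assoc]
    refine (ih _ (h2.trans ((mul_le_of_le_one_left (norm_nonneg _) (max_le hk.le h1.le)).trans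
      ha))).trans (by gcongr)

/-- an integral series which vanishes at all torsion points is zero -/
theorem zero_of_tor (h : LF O C ϖ) (hD : D.Ok ϖ) {G : C⟦X⟧} (hG : Ig G)
    (h0 : ∀ z, ev (constantCoeff (D.tr z)) G = 0) : G = 0 := by
  have hk : ‖coeff 1 D.f‖ < 1 := (Cl.f_deg hD).2.1 1 (Sg1.ef h hD).two
  have key : ∀ n, ∃ H, Ig H ∧ G = H * it D.f n := fun n => by
    obtain ⟨Dv, hv⟩ := it_fac h hD n
    have hi : Ig (it D.f n) := (it_sm h hD n).1
    have h1 : ∀ a ∈ Dv.support, ‖a‖ < 1 ∧ Dv a = 1 ∧ ev a (it D.f n) = 0 := fun a ha => by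
      have a0 := Finsupp.mem_support_iff.1 ha
      have a1 := hv.lt a0
      obtain ⟨ρ, r0, r1, r2, -⟩ := Lt.exists_rho a1 a1
      have h2 := od_am_nonneg r0 r2 (hi.cv r0 r1)
      rw [hv.od r0 r1 r2] at h2
      have h3 := hv.le_one hi a1 (it_der h hD n a a1)
      exact ⟨a1, by omega, (hv.pos_iff hi a1).1 (by omega)⟩
    obtain ⟨H, h2, h3⟩ := Lt.Io.div_prod hG Dv.support fun a ha => ⟨(h1 a ha).1, by
      obtain ⟨z, hz⟩ := it_root h hD n a (h1 a ha).1 (h1 a ha).2.2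
      rw [hz, h0]⟩
    obtain ⟨-, -, u, hu, e⟩ := fac_iff.1 hv
    obtain ⟨v, hv', e'⟩ := hu.inv
    refine ⟨H * v, Ig.mul h2 hv'.1, ?_⟩
    have e2 : it D.f n = u * (Dv.support.val.map fun a => X - PowerSeries.C a).prod := am_inj (by
      rw [e, map_one, one_mul, map_mul, pr, Finsupp.prod, ← Finset.prod_eq_multiset_prod, map_prod]
      exact congrArg _ (Finset.prod_congr rfl fun a ha => by rw [(h1 a ha).2.1, zpow_one]))
    rw [e2, h3]
    linear_combination (-H * (Dv.support.val.map fun a => X - PowerSeries.C a).prod) * e'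
  refine Lt.Ou.ext (Lt.Io.ou hG) (Lt.Io.ou ig_zero) fun a ha => ?_
  rw [show ev a (0 : C⟦X⟧) = 0 by simp [ev], ← norm_le_zero_iff]
  refine ge_of_tendsto' (x := atTop) (f := fun n : ℕ => max ‖coeff 1 D.f‖ ‖a‖ ^ n * ‖a‖) (by
    simpa using (tendsto_pow_atTop_nhds_zero_of_lt_one (by positivity) (max_lt hk ha)).mul_const ‖a‖)
    fun n => ?_
  obtain ⟨H, h1, e⟩ := key n
  rw [e, h1.ev_mul (it_sm h hD n).1 ha, norm_mul]
  exact (mul_le_of_le_one_left (norm_nonneg _) (h1.norm_ev_le ha)).trans (it_le h hD ha n a le_rfl)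

end lt

section tower

variable {C L Γ O E : Type} [NontriviallyNormedField C] [IsUltrametricDist C] [CompleteSpace C]
  [IsAlgClosed C] [CharZero C] [Field L] [Algebra C L] [Group Γ] [CommRing O] [IsDomain O]
  [IsDiscreteValuationRing O] [Field E] [Algebra O E] [Algebra E C] {A : AT C L Γ O E}
  {D : LTD C O E} {x : Plk C L} {θ θ' : L →ₐ[C] C⸨X⸩} {g : GL (Fin 2) E} {b b' : C}
  {ε ε' : ℤ → L →ₐ[C] C⸨X⸩}

theorem val (hD : D.Ok A.ϖ) (hB : A.Bas D x θ g b ε) {n : ℤ} {k : L} {P Q : C⟦X⟧}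
    (e : ε n k * am C Q = am C P) (hQ : constantCoeff Q ≠ 0) :
    k = algebraMap C L (constantCoeff P / constantCoeff Q) ∨
      (k - algebraMap C L (constantCoeff P / constantCoeff Q))⁻¹ ∉ x.1 := by
  set v := constantCoeff P / constantCoeff Q with hv
  refine or_iff_not_imp_left.2 fun h0 h1 => ?_
  have q0 : am C Q ≠ 0 := am_ne fun h => hQ (by rw [h, map_zero])
  have s0 : ε n (k - algebraMap C L v) ≠ 0 := (_root_.map_ne_zero _).2 (sub_ne_zero.2 h0)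
  have e2 : ε n (k - algebraMap C L v) * am C Q = am C (P - v • Q) := by
    rw [map_sub, map_sub, AlgHom.commutes, sub_mul, e, am_smul]
  have h2 := order_am_pos (f := P - v • Q) (fun h => mul_ne_zero s0 q0 (by rw [e2, h, map_zero]))
    (by rw [map_sub, smul_eq_C_mul, map_mul, constantCoeff_C, hv, div_mul_cancel₀ _ hQ, sub_self])
  rw [← e2, HahnSeries.order_mul s0 q0, order_am_eq_zero hQ, Cl.eps hD hB,
    Cl.order_lam hD (Cl.co_ne hB.b0 n)] at h2
  rw [hB.cm.pl, map_inv₀, order_inv] at h1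
  omega

theorem top (hA : A.Ok) (hS : A.SA) (hD : D.Ok A.ϖ) (hB : A.Bas D x θ g b ε)
    (hB' : A.Bas D x θ' g b' ε') {n : ℤ} {h : L} (hn : h ∈ A.Ln g n) : ε' n h = ε n h := by
  rcases eq_or_ne h 0 with rfl | h0
  · rw [map_zero, map_zero]
  obtain ⟨c, Dv, hv⟩ := hB.fac n h hn h0
  obtain ⟨c', Dv', hv'⟩ := hB'.fac n h hn h0
  obtain ⟨P, Q, hP, hQ, Q0, e⟩ := hv.ex_ig
  obtain ⟨P', Q', hP', hQ', Q0', e'⟩ := hv'.ex_ig
  have key : Q * Q' * (P * Q' - P' * Q) = 0 := by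
    refine zero_of_tor hA.lf hD ((hQ.mul hQ').mul ((hP.mul hQ').sub (hP'.mul hQ))) fun z => ?_
    have a1 := e_lt hD z
    rw [(hQ.mul hQ').ev_mul ((hP.mul hQ').sub (hP'.mul hQ)) a1, hQ.ev_mul hQ' a1,
      (hP.mul hQ').ev_sub (hP'.mul hQ) a1, hP.ev_mul hQ' a1, hP'.ev_mul hQ a1]
    by_cases q0 : ev (constantCoeff (D.tr z)) Q = 0
    · rw [q0, zero_mul, zero_mul]
    by_cases q0' : ev (constantCoeff (D.tr z)) Q' = 0
    · rw [q0', mul_zero, zero_mul]
    obtain ⟨γ, hγ, eγ⟩ := Cl.exists_un hS g (z * (A.ϖ ^ n : Eˣ))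
    have hm : Fm g (A.π γ) (un (z * (A.ϖ ^ n : Eˣ))) := eγ ▸ Gn.fm_self g _
    have t1 := hB.trn n _ γ hγ hm h hn P Q hP hQ e
    have t2 := hB'.trn n _ γ hγ hm h hn P' Q' hP' hQ' e'
    rw [mul_div_cancel_right₀ _ (Units.ne_zero _), cmp4_eq, cmp4_eq] at t1 t2
    have v := Sg.val_uniq (val hD hB t1 (by rwa [constantCoeff_cmp]))
      (val hD hB' t2 (by rwa [constantCoeff_cmp]))
    simp only [constantCoeff_cmp] at v
    rw [div_eq_div_iff q0 q0'] at v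
    rw [v, sub_self, mul_zero]
  have h1 := congrArg (am C) (sub_eq_zero.1 ((mul_eq_zero.1 key).resolve_left (mul_ne_zero Q0 Q0')))
  rw [map_mul, map_mul, ← e, ← e'] at h1
  refine mul_right_cancel₀ (mul_ne_zero (am_ne Q0) (am_ne Q0')) ?_
  linear_combination -h1

end tower

end Uq

section rows

variable {C L Γ O E : Type} [NontriviallyNormedField C] [IsUltrametricDist C] [CompleteSpace C]
  [IsAlgClosed C] [CharZero C] [Field L] [Algebra C L] [Group Γ] [CommRing O] [IsDomain O]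
  [IsDiscreteValuationRing O] [Field E] [Algebra O E] [Algebra E C] {A : AT C L Γ O E}

/-- **UNQ** -/
theorem unq (hA : A.Ok) (hM : A.MAT) (hS : A.SA) : A.UNQ := by
  intro D hD x θ g b ε θ' b' ε' hB hB'
  funext n
  refine AlgHom.ext fun h => ?_
  obtain ⟨N, hN⟩ := Gn.exists_Ln hA hM g h
  have h1 := Uq.top hA hS hD hB hB' (Gn.Ln_mono hA g (le_max_left N n) hN)
  have h2 := le_max_right N n
  generalize max N n = M at h1 h2
  induction M, h2 using Int.le_induction with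
  | base => exact h1
  | succ M _ ih =>
    rw [Cl.eps_succ hA hD hB, Cl.eps_succ hA hD hB'] at h1
    exact ih ((sub D.f : C⸨X⸩ →+* C⸨X⸩).injective h1)

end rows

end Vale.Agent.P022K.FI
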