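import Vale.Agent.P022K.FI.Sa
import Vale.Agent.P022K.FI.PbG
import Vale.Agent.P022K.FI.Pbx
import Vale.Agent.P022K.FI.Ovw
import Vale.Agent.P022K.FI.Sg2
import Vale.Agent.P022K.FI.Fcs
import Vale.Agent.P022K.FI.Unq

/-!
# P022K, block FI: the rows about basins hold in every tower
-/

set_option linter.all false

namespace Vale.Agent.P022K.FI.AT.Ok

variable {C L Γ O E : Type} [NontriviallyNormedField C] [IsUltrametricDist C] [CompleteSpace C]
  [IsAlgClosed C] [CharZero C] [Field L] [Algebra C L] [Group Γ] [CommRing O] [IsDomain O]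
  [IsDiscreteValuationRing O] [Field E] [Algebra O E] [Algebra E C] {A : AT C L Γ O E} (hA : A.Ok)

include hA

theorem rMAT : A.MAT := FI.mat hA

theorem rGAL0 : A.GAL0 := AT.gal0 hA

theorem rTRV : A.TRV := AT.trv hA

theorem rUNR : A.UNR := AT.unr hA

theorem rCONV : A.CONV := AT.conv hA

theorem rHYP : A.HYP := FI.hyp hA

theorem rSRN : A.SRN := FI.srn hA

theorem rSA : A.SA := FI.sa hA

theorem rGNN : A.GNN := FI.gnn hA hA.rMAT hA.rGAL0

theorem rGN2 : A.GN2 := FI.gn2 hA hA.rMAT hA.rSA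

theorem rCALW : A.CALW := FI.calw hA

theorem rFRMW : A.FRMW := FI.frmw hA

theorem rPBX : A.PBX := FI.pbx hA hA.rMAT hA.rGNN hA.rSRN

theorem rOVW : A.OVW := FI.ovw hA hA.rCALW hA.rSRN

theorem rSG1 : A.SG1 := FI.sg1 hA hA.rMAT hA.rGNN hA.rCALW hA.rOVW

theorem rSG2 : A.SG2 := FI.sg2 hA hA.rMAT hA.rHYP hA.rCALW hA.rOVW

theorem rSG : A.SG := FI.sg hA hA.rMAT hA.rHYP hA.rSA hA.rCALW hA.rFRMW hA.rOVW hA.rSG1

theorem rDSW : A.DSW := FI.dsw hA hA.rOVW hA.rFRMW hA.rSG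

theorem rBAS : A.BAS := FI.bas hA hA.rGN2 hA.rPBX hA.rDSW

theorem rOVU : A.OVU := FI.ovu hA.rOVW

theorem rSIG1 : A.SIG1 := FI.sig1 hA.rSG1

theorem rSIG2 : A.SIG2 := FI.sig2 hA.rSG2

theorem rSIG : A.SIG := FI.sig hA.rSG

theorem rDSC : A.DSC := FI.dsc hA hA.rDSW

theorem rCAL : A.CAL := FI.cal hA fac_row

theorem rFRM : A.FRM := FI.frm hA fac_row fcs

theorem rNUE : A.NUE := FI.nue hA hA.rMAT fac_row fcs

theorem rUNQ : A.UNQ := FI.unq hA hA.rMAT hA.rSA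

theorem rORB : A.ORB := FI.orb hA hA.rMAT fac_row fcs hA.rSA hA.rHYP hA.rBAS hA.rUNQ

end Vale.Agent.P022K.FI.AT.Ok
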