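import Vale.Agent.P022K.FI.Lgp
import Vale.Agent.P022.H916.Ram
import Vale.Agent.P011.H519.HenselAdic

/-!
# P022K, block FI: split places, and elements which are locally `r`-th powers
-/

set_option linter.all false

open NumberField IsDedekindDomain HeightOneSpectrum Polynomial

noncomputable section

namespace Vale.Agent.P022K.FI

namespace Split

open Vale.Agent.P022 Vale.Agent.P022.H916

variable {F K : Type} [Field F] [NumberField F] [Field K] [NumberField K] [Algebra F K]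

/-- the place `v` of `F` and the embedding `ψ : K → F_v` belong to the Frobenius element `φ` -/
structure Spl (j : K →+* Qb) (φ : GQ) (l : ℕ) (P : Ideal (𝓞 Qb)) (v : HeightOneSpectrum (𝓞 F))
    (ψ : K →ₐ[F] v.adicCompletion F) : Prop where
  prime : l.Prime
  isP : P.IsPrime
  mem : (l : 𝓞 Qb) ∈ P
  frob : ∀ x : 𝓞 Qb, φ • x - x ^ l ∈ P
  fix : φ ∈ GK j
  iff : ∀ y : 𝓞 K, Valued.v (ψ y) < 1 ↔ RingOfIntegers.mapRingHom j y ∈ P

theorem exists_int {l : ℕ} (hl : l.Prime) {P : Ideal (𝓞 Qb)} (hP : P.IsPrime)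
    (hm : (l : 𝓞 Qb) ∈ P) {x : 𝓞 Qb} (hx : x - x ^ l ∈ P) : ∃ m : ℤ, x - m ∈ P := by
  have : Fact l.Prime := ⟨hl⟩
  have h0 : ∀ y, algebraMap (𝓞 Qb) P.ResidueField y = 0 ↔ y ∈ P :=
    fun y => Ideal.algebraMap_residueField_eq_zero
  have : CharP P.ResidueField l := (CharP.charP_iff_prime_eq_zero hl).2 (by
    rw [← map_natCast (algebraMap (𝓞 Qb) P.ResidueField), h0]; exact hm)
  rw [← h0, map_sub, map_pow, sub_eq_zero] at hx
  obtain ⟨m, h⟩ := (mem_bot_iff_intCast l _).1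
    ((Subfield.mem_bot_iff_pow_eq_self _ l).2 hx.symm)
  exact ⟨m, by rw [← h0, map_sub, map_intCast, h, sub_self]⟩

theorem exists_nat {x : 𝓞 Qb} (hx : x ≠ 0) : ∃ n : ℕ, n ≠ 0 ∧ x ∣ n := by
  obtain ⟨r, h0, h⟩ := (RingOfIntegers.isIntegral x).isAlgebraic.exists_nonzero_dvd
    (mem_nonZeroDivisors_of_ne_zero hx)
  refine ⟨r.natAbs, Int.natAbs_ne_zero.2 h0, h.trans ?_⟩
  rw [← Int.cast_natCast]
  exact map_dvd (Int.castRingHom _) (Int.dvd_natAbs.2 dvd_rfl)

theorem not_mem_of {l n : ℕ} (hl : l.Prime) (h : l ∉ n.primeFactors) (hn : n ≠ 0)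
    {P : Ideal (𝓞 Qb)} (hP : P.IsPrime) (hm : (l : 𝓞 Qb) ∈ P) : (n : 𝓞 Qb) ∉ P := fun h1 => by
  have h2 : l.Coprime n := (Nat.Prime.coprime_iff_not_dvd hl).2 fun h3 =>
    h (Nat.mem_primeFactors.2 ⟨hl, h3, hn⟩)
  obtain ⟨a, b, e⟩ := Nat.Coprime.cast (R := 𝓞 Qb) h2
  exact hP.ne_top ((Ideal.eq_top_iff_one _).2
    (e ▸ P.add_mem (P.mul_mem_left _ hm) (P.mul_mem_left _ h1)))

theorem exists_gen : ∃ B : PowerBasis F K, IsIntegral ℤ B.gen := by
  obtain ⟨a, ha⟩ := Field.exists_primitive_element F K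
  obtain ⟨b, hb, h⟩ := ((IsFractionRing.isAlgebraic_iff ℤ ℚ K).2
    (Algebra.IsAlgebraic.isAlgebraic a)).exists_integral_multiple
  have h1 : IntermediateField.adjoin F {b • a} = ⊤ := by
    rw [eq_top_iff, ← ha, IntermediateField.adjoin_simple_le_iff]
    have h2 : a = ((b : F)⁻¹) • (b • a) := by
      rw [← Int.cast_smul_eq_zsmul F, smul_smul, inv_mul_cancel₀ (Int.cast_ne_zero.2 hb), one_smul]
    conv_rhs => rw [h2]
    exact IntermediateField.smul_mem _ (IntermediateField.mem_adjoin_simple_self _ _)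
  have h3 : IsIntegral F (b • a) := Algebra.IsIntegral.isIntegral _
  refine ⟨PowerBasis.ofAdjoinEqTop h3 ?_, by rwa [PowerBasis.ofAdjoinEqTop_gen]⟩
  rw [← IntermediateField.adjoin_simple_toSubalgebra_of_isAlgebraic h3.isAlgebraic, h1]
  rfl

theorem val_int (v : HeightOneSpectrum (𝓞 F)) (a : 𝓞 F) :
    Valued.v (algebraMap (𝓞 F) (v.adicCompletion F) a) < 1 ↔ a ∈ v.asIdeal := by
  rw [← valuation_lt_one_iff_mem (K := F), ← valuedAdicCompletion_eq_valuation]
  rfl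

theorem val_le (v : HeightOneSpectrum (𝓞 F)) (f : 𝓞 K →+* v.adicCompletion F) (a : 𝓞 K) :
    Valued.v (f a) ≤ 1 := by
  obtain ⟨p, hp, h⟩ := RingOfIntegers.isIntegral a
  refine (adicCompletionIntegers.integers F v).mem_of_integral
    ⟨p.map (Int.castRingHom _), hp.map _, ?_⟩
  have h1 := congrArg f h
  rw [hom_eval₂, map_zero] at h1
  rw [eval₂_map, ← h1]
  congr 1
  exact RingHom.ext_int _ _

theorem near_pow (v : HeightOneSpectrum (𝓞 F)) {x y : v.adicCompletion F} (hx : Valued.v x ≤ 1)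
    (hy : Valued.v y ≤ 1) (h : Valued.v (x - y) < 1) (n : ℕ) : Valued.v (x ^ n - y ^ n) < 1 := by
  rw [← Commute.geom_sum₂_mul (Commute.all _ _), map_mul]
  refine mul_lt_one_of_nonneg_of_lt_one_right (Valuation.map_sum_le _ fun i _ => ?_) zero_le h
  rw [map_mul, map_pow, map_pow]
  exact mul_le_one' (pow_le_one' hx _) (pow_le_one' hy _)

theorem isOpen_eq (g : GQ) (a : Qb) : IsOpen {φ : GQ | φ a = g a} := by
  have h1 : Algebra.IsAlgebraic ℚ Qb := AlgebraicClosure.isAlgebraic ℚ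
  have a1 := (stabilizer_isOpen_of_isIntegral (K := ℚ) a).preimage (continuous_const_mul g⁻¹)
  convert a1 using 1
  ext φ
  simp only [Set.mem_ofPred_eq, Set.mem_preimage, SetLike.mem_coe, MulAction.mem_stabilizer_iff,
    mul_smul, inv_smul_eq_iff]
  rfl

theorem eq_of_cong {P : Ideal (𝓞 Qb)} (hP : P.IsPrime) {r : ℕ} {a b : 𝓞 Qb} (h : a ^ r = b ^ r)
    (h1 : a - b ∈ P) (h2 : r * b ∉ P) : a = b := by
  by_contra h3
  have g2 := Commute.geom_sum₂_mul (Commute.all a b) r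
  rw [h, sub_self] at g2
  have g4 := congrArg (Ideal.Quotient.mk P) ((mul_eq_zero.1 g2).resolve_right (sub_ne_zero.2 h3))
  simp only [map_sum, map_mul, map_pow, Ideal.Quotient.eq.2 h1, map_zero] at g4
  rw [geom_sum₂_self, ← map_natCast (Ideal.Quotient.mk P), ← map_pow, ← map_mul,
    Ideal.Quotient.eq_zero_iff_mem] at g4
  rcases hP.mem_or_mem g4 with g | g
  · exact h2 (P.mul_mem_right _ g)
  · exact h2 (P.mul_mem_left _ (hP.mem_of_pow_mem _ g))

/-- an `r`-th root modulo `P` lifts to an `r`-th root fixed by the Frobenius element -/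
theorem exists_root {j : K →+* Qb} {φ : GQ} {l : ℕ} {P : Ideal (𝓞 Qb)}
    {v : HeightOneSpectrum (𝓞 F)} {ψ : K →ₐ[F] v.adicCompletion F} (H : Spl j φ l P v ψ)
    {r : ℕ} (hr : 0 < r) {ζ Y : 𝓞 Qb} (hζ : IsPrimitiveRoot ζ r) {c z : 𝓞 K}
    (hY : Y ^ r = RingOfIntegers.mapRingHom j c) (h2 : r * Y ∉ P)
    (hz : RingOfIntegers.mapRingHom j (z ^ r - c) ∈ P) :
    ∃ i : ℕ, RingOfIntegers.mapRingHom j z - ζ ^ i * Y ∈ P ∧ φ • (ζ ^ i * Y) = ζ ^ i * Y := by
  have hP := H.isP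
  have hpres : ∀ a ∈ P, φ • a ∈ P := fun a ha => by
    simpa using P.add_mem (H.frob a) (P.pow_mem_of_mem ha l H.prime.pos)
  have hf : ∀ a : 𝓞 K, φ • RingOfIntegers.mapRingHom j a = RingOfIntegers.mapRingHom j a :=
    fun a => Subtype.ext (H.fix a)
  rw [map_sub, map_pow, ← hY, hζ.pow_sub_pow_eq_prod_sub_mul _ _ hr] at hz
  have : NeZero r := ⟨hr.ne'⟩
  obtain ⟨η, hη, hw⟩ := (Ideal.IsPrime.prod_mem_iff (hp := hP)).1 hz
  have hη1 : η ^ r = 1 := (mem_nthRootsFinset hr _).1 hη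
  obtain ⟨i, -, rfl⟩ := hζ.eq_pow_of_pow_eq_one hη1
  refine ⟨i, hw, eq_of_cong hP (r := r) ?_ ?_ fun h => h2 ?_⟩
  · rw [← smul_pow', mul_pow, hη1, one_mul, hY, hf]
  · have h3 := P.sub_mem hw (hpres _ hw)
    rwa [smul_sub, hf, sub_sub_sub_cancel_left] at h3
  · have h3 := P.mul_mem_left ((ζ ^ i) ^ (r - 1)) h
    rwa [mul_left_comm, ← mul_assoc ((ζ ^ i) ^ _), ← pow_succ, Nat.sub_add_cancel hr, hη1,
      one_mul] at h3

/-- **Chebotarev for split places.** -/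
theorem exists_spl (j : K →+* Qb) {O : Set GQ} (hO : IsOpen O) {g : GQ} (hg : g ∈ O)
    (hK : g ∈ GK j) (S : Finset (HeightOneSpectrum (𝓞 F))) {x : 𝓞 Qb} (hx : x ≠ 0) :
    ∃ (φ : GQ) (l : ℕ) (P : Ideal (𝓞 Qb)) (v : HeightOneSpectrum (𝓞 F))
      (ψ : K →ₐ[F] v.adicCompletion F), Spl j φ l P v ψ ∧ φ ∈ O ∧ v ∉ S ∧ x ∉ P := by
  classical
  obtain ⟨B, hB⟩ := exists_gen (F := F) (K := K)
  have hB' : IsIntegral (𝓞 F) B.gen := hB.tower_top
  let J := RingOfIntegers.mapRingHom j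
  have hJ : Function.Injective J := fun a b h => RingOfIntegers.coe_injective
    (j.injective (congrArg (fun z : 𝓞 Qb => (z : Qb)) h))
  let E := J.comp (algebraMap (𝓞 F) (𝓞 K))
  have hE : Function.Injective E := hJ.comp (FaithfulSMul.algebraMap_injective _ _)
  let t : 𝓞 K := ⟨B.gen, hB⟩
  let f := minpoly (𝓞 F) B.gen
  have hf : minpoly F B.gen = f.map (algebraMap _ F) :=
    minpoly.isIntegrallyClosed_eq_field_fractions' F hB'
  have hco : ∀ p : (𝓞 F)[X], ((aeval t p : 𝓞 K) : K) = aeval B.gen p := fun p =>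
    (aeval_algHom_apply (IsScalarTower.toAlgHom (𝓞 F) (𝓞 K) K) t p).symm
  have hf1 : aeval t f.derivative ≠ 0 := fun h => by
    have h1 := (Algebra.IsSeparable.isSeparable F B.gen).aeval_derivative_ne_zero
      (minpoly.aeval F B.gen)
    rw [hf, derivative_map, aeval_map_algebraMap, ← hco, h] at h1
    exact h1 rfl
  obtain ⟨d, hd⟩ : ∃ d : 𝓞 F, algebraMap _ F d = Algebra.discr F B.basis :=
    IsIntegrallyClosed.isIntegral_iff.1 (Algebra.discr_isIntegral F fun i => by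
      rw [B.basis_eq_pow]; exact hB'.pow _)
  have hd0 : d ≠ 0 := fun h => Algebra.discr_not_zero_of_basis F B.basis (by rw [← hd, h, map_zero])
  obtain ⟨n, hn, hx1⟩ := exists_nat (x := x * (J (aeval t f.derivative) * (E d *
    (∏ v ∈ S, Ideal.absNorm v.asIdeal : ℕ)))) (mul_ne_zero hx (mul_ne_zero
      ((map_ne_zero_iff _ hJ).2 hf1) (mul_ne_zero ((map_ne_zero_iff _ hE).2 hd0) (by
        rw [Nat.cast_ne_zero, Finset.prod_ne_zero_iff]
        exact fun v _ => mt Ideal.absNorm_eq_zero_iff.1 v.ne_bot))))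
  obtain ⟨l, φ, hl, hS, ⟨P, hP, hm, hF⟩, h1, h2⟩ :=
    Cheb.exists_fr (hO.inter (isOpen_GK j)) ⟨hg, hK⟩ n.primeFactors
  have h3 := mt (P.mem_of_dvd hx1) (not_mem_of hl hS hn hP hm)
  rw [hP.mul_mem_iff_mem_or_mem, hP.mul_mem_iff_mem_or_mem, hP.mul_mem_iff_mem_or_mem] at h3
  simp only [not_or] at h3
  obtain ⟨k1, k2, k3, k4⟩ := h3
  let v : HeightOneSpectrum (𝓞 F) := ⟨P.comap E, inferInstance, fun h => by
    have h4 : (l : 𝓞 F) ∈ P.comap E := by rwa [Ideal.mem_comap, map_natCast]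
    rw [h, Ideal.mem_bot, Nat.cast_eq_zero] at h4
    exact hl.ne_zero h4⟩
  have hv : ∀ a, a ∈ v.asIdeal ↔ E a ∈ P := fun a => Iff.rfl
  obtain ⟨m, hm1⟩ := exists_int hl hP hm (x := J t) (by
    have h4 := hF (J t)
    rwa [show φ • J t = J t from RingOfIntegers.coe_injective (h2 _)] at h4)
  have key : ∀ p : (𝓞 F)[X], J (aeval t p) - E (p.eval (m : 𝓞 F)) ∈ P := fun p => by
    refine P.mem_of_dvd ?_ hm1
    have h4 := sub_dvd_eval_sub (J t) (m : 𝓞 Qb) (p.map E)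
    rwa [← map_intCast E m, eval_map_apply, map_intCast, eval_map, ← hom_eval₂, ← aeval_def] at h4
  obtain ⟨y, hy, hy1⟩ := P011.H519.hensel (K := F) (v := v) (f := f) (minpoly.monic hB')
    (a := m) (by
      have h4 := key f
      rwa [show aeval t f = 0 from RingOfIntegers.coe_injective ((hco f).trans
        (minpoly.aeval _ _)), map_zero, zero_sub, neg_mem_iff] at h4) (fun h => k2 (by
      rw [← sub_add_cancel (J _) (E (f.derivative.eval (m : 𝓞 F)))]
      exact P.add_mem (key _) h))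
  have : IsScalarTower (𝓞 F) (v.adicCompletionIntegers F) (v.adicCompletion F) :=
    IsScalarTower.of_algebraMap_eq fun _ => rfl
  have hco' : ∀ p : (𝓞 F)[X], ((aeval y p : v.adicCompletionIntegers F) : v.adicCompletion F) =
      aeval (y : v.adicCompletion F) p := fun p => (aeval_algHom_apply
    (IsScalarTower.toAlgHom (𝓞 F) (v.adicCompletionIntegers F) (v.adicCompletion F)) y p).symm
  have hy2 : aeval (y : v.adicCompletion F) (minpoly F B.gen) = 0 := by
    rw [hf, aeval_map_algebraMap, ← hco', hy]; rfl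
  let ψ : K →ₐ[F] v.adicCompletion F := B.lift y hy2
  have key' : ∀ p : (𝓞 F)[X], Valued.v (ψ (aeval B.gen p) -
      algebraMap (𝓞 F) _ (p.eval (m : 𝓞 F))) < 1 := fun p => by
    obtain ⟨c, hc⟩ := sub_dvd_eval_sub y (algebraMap (𝓞 F) _ m) (p.map (algebraMap _ _))
    rw [eval_map_apply, eval_map_algebraMap] at hc
    have h4 := congrArg (fun z : v.adicCompletionIntegers F => (z : v.adicCompletion F)) hc
    have h5 : ψ (aeval B.gen p) = aeval (y : v.adicCompletion F) p := by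
      rw [← B.lift_gen (y : v.adicCompletion F) hy2]
      exact (aeval_algHom_apply (ψ.restrictScalars (𝓞 F)) B.gen p).symm
    rw [h5, ← hco']
    refine (congrArg Valued.v h4).trans_lt ?_
    refine (map_mul _ _ _).trans_lt ((mul_le_of_le_one_right' c.2).trans_lt hy1)
  refine ⟨φ, l, P, v, ψ, ⟨hl, hP, hm, hF, h2, fun z => ?_⟩, h1, fun h => k4 ?_, k1⟩
  · have h4 := Algebra.discr_mul_isIntegral_mem_adjoin F hB' (z := z)
      (RingOfIntegers.isIntegral_coe z).tower_top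
    rw [Algebra.adjoin_singleton_eq_range_aeval] at h4
    obtain ⟨p, hp⟩ := h4
    have h5 : aeval B.gen p = Algebra.discr F B.basis • (z : K) := hp
    have h6 : aeval t p = algebraMap (𝓞 F) (𝓞 K) d * z := RingOfIntegers.coe_injective (by
      refine (hco p).trans ?_
      rw [h5, ← hd, Algebra.smul_def, map_mul]
      rfl)
    have h7 : Valued.v (algebraMap (𝓞 F) (v.adicCompletion F) d) = 1 :=
      le_antisymm (val_le v _ d) (not_lt.1 (mt (val_int v d).1 k3))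
    have h8 : Valued.v (ψ (aeval B.gen p)) = Valued.v (ψ z) := by
      rw [h5, map_smul, ← hd, Algebra.smul_def, map_mul, ← IsScalarTower.algebraMap_apply, h7,
        one_mul]
    have h9 : J z ∈ P ↔ E (p.eval (m : 𝓞 F)) ∈ P := by
      have h10 : J (aeval t p) ∈ P ↔ J z ∈ P := by
        rw [h6, map_mul, hP.mul_mem_iff_mem_or_mem]
        exact or_iff_right k3
      rw [← h10]
      exact ⟨fun h => by simpa using P.sub_mem h (key p), fun h => by
        simpa using P.add_mem (key p) h⟩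
    rw [← h8, h9, ← hv, ← val_int]
    refine ⟨fun h => ?_, fun h => ?_⟩
    · rw [← sub_sub_cancel (ψ (aeval B.gen p)) (algebraMap _ _ _)]
      exact Valuation.map_sub_lt _ h (key' p)
    · rw [← sub_add_cancel (ψ (aeval B.gen p)) (algebraMap (𝓞 F) _ (p.eval (m : 𝓞 F)))]
      exact Valuation.map_add_lt _ (key' p) h
  · refine P.mem_of_dvd (Nat.cast_dvd_cast (Finset.dvd_prod_of_mem _ h)) ?_
    rw [← map_natCast E]
    exact Ideal.absNorm_mem v.asIdeal

/-- a local integer is congruent to an integer of `F` -/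
theorem exists_near {v : HeightOneSpectrum (𝓞 F)} (ψ : K →ₐ[F] v.adicCompletion F)
    {x : v.adicCompletion F} (hx : Valued.v x ≤ 1) :
    ∃ z : 𝓞 K, ∀ n : ℕ, Valued.v (ψ z ^ n - x ^ n) < 1 := by
  obtain ⟨a, ha⟩ := exists_int_approx v hx
  refine ⟨algebraMap (𝓞 F) (𝓞 K) a, fun n => ?_⟩
  have h1 : ψ (algebraMap (𝓞 F) (𝓞 K) a : 𝓞 K) = algebraMap (𝓞 F) (v.adicCompletion F) a :=
    ψ.commutes (algebraMap (𝓞 F) F a)
  rw [h1, Valuation.map_sub_swap]
  exact near_pow v hx (val_le v _ a) ha n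

end Split

open Split Vale.Agent.P022 Vale.Agent.P022.H916 Vale.Agent.P022.H853

variable {F K : Type} [Field F] [NumberField F] [Field K] [NumberField K] [Algebra F K]

/-- **an element of `K` which is an `r`-th power at almost all split places is an `r`-th power** -/
theorem lgp_rel {r : ℕ} (hr : r.Prime) (γ : K) (S : Finset (HeightOneSpectrum (𝓞 F)))
    (h : ∀ v ∉ S, ∀ ψ : K →ₐ[F] v.adicCompletion F, ∃ x, x ^ r = ψ γ) : ∃ β, β ^ r = γ := by
  have h1 : Algebra.IsAlgebraic ℚ Qb := AlgebraicClosure.isAlgebraic ℚ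
  let j : K →+* Qb := (IsAlgClosed.lift (R := ℚ) (S := K) (M := Qb)).toRingHom
  obtain ⟨a, n, hn, rfl⟩ := IsFractionRing.div_surjective (A := 𝓞 K) γ
  have hn0 : (algebraMap (𝓞 K) K n) ≠ 0 :=
    (map_ne_zero_iff _ (IsFractionRing.injective (𝓞 K) K)).2 (nonZeroDivisors.ne_zero hn)
  obtain ⟨c, e⟩ : ∃ c : 𝓞 K, (c : K) =
      algebraMap (𝓞 K) K a / algebraMap (𝓞 K) K n * algebraMap (𝓞 K) K n ^ r := by
    obtain ⟨m, rfl⟩ : ∃ m, r = m + 1 := ⟨r - 1, by have := hr.pos; omega⟩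
    refine ⟨a * n ^ m, (map_mul (algebraMap (𝓞 K) K) _ _).trans ?_⟩
    rw [map_pow]
    field_simp
    ring
  suffices h2 : ∃ y : K, y ^ r = c by
    obtain ⟨y, hy⟩ := h2
    exact ⟨y / algebraMap (𝓞 K) K n, by rw [div_pow, hy, e]; field_simp⟩
  by_contra hx
  push Not at hx
  have : NeZero r := ⟨hr.ne_zero⟩
  have hζ := zt_prim r
  obtain ⟨y, hy⟩ := IsAlgClosed.exists_pow_nat_eq (j c) hr.pos
  obtain ⟨g, hg, hgζ, hgy⟩ := exists_move j hr hx hζ hy
  let Y : 𝓞 Qb := ⟨y, IsIntegral.of_pow hr.pos (by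
    rw [hy]; exact (RingOfIntegers.mapRingHom j c).2)⟩
  have hY : Y ^ r = RingOfIntegers.mapRingHom j c := Subtype.ext hy
  obtain ⟨φ, l, P, v, ψ, H, ⟨φ2, φ3⟩, hv, hP⟩ := exists_spl j
    ((isOpen_eq g (zt r)).inter (isOpen_eq g y)) (g := g) ⟨rfl, rfl⟩ hg S (x := r * Y)
    (mul_ne_zero (Nat.cast_ne_zero.2 hr.ne_zero) fun e0 => hgy (by
      rw [show y = 0 from congrArg Subtype.val e0, map_zero]))
  obtain ⟨x, hx1⟩ := h v hv ψ
  have h3 : (x * ψ (algebraMap (𝓞 K) K n)) ^ r = ψ c := by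
    rw [mul_pow, hx1, e, map_mul, map_pow]
  obtain ⟨z, hz⟩ := exists_near ψ (x := x * ψ (algebraMap (𝓞 K) K n)) (by
    refine (pow_le_one_iff hr.ne_zero).1 ?_
    rw [← map_pow, h3]
    exact val_le v (ψ.toRingHom.comp (algebraMap (𝓞 K) K)) c)
  obtain ⟨i, -, h4⟩ := exists_root H hr.pos hζ.toInteger_isPrimitiveRoot hY hP (z := z)
    ((H.iff _).1 (by
      have h5 := hz r
      rwa [h3, ← map_pow, ← map_sub] at h5))
  rw [smul_mul', smul_pow', show φ • hζ.toInteger = hζ.toInteger from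
    Subtype.ext (φ2.trans hgζ), mul_right_inj'
    (pow_ne_zero _ (hζ.toInteger_isPrimitiveRoot.ne_zero hr.ne_zero))] at h4
  exact hgy (φ3.symm.trans (congrArg Subtype.val h4))

/-- **split places outside any finite set** -/
theorem spl_plain (S : Finset (HeightOneSpectrum (𝓞 F))) :
    ∃ v ∉ S, Nonempty (K →ₐ[F] v.adicCompletion F) := by
  have h1 : Algebra.IsAlgebraic ℚ Qb := AlgebraicClosure.isAlgebraic ℚ
  let j : K →+* Qb := (IsAlgClosed.lift (R := ℚ) (S := K) (M := Qb)).toRingHom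
  obtain ⟨φ, l, P, v, ψ, -, -, hv, -⟩ := exists_spl j isOpen_univ (Set.mem_univ 1) (one_mem _) S
    one_ne_zero
  exact ⟨v, hv, ⟨ψ⟩⟩

/-- **split places without `r`-th roots of unity** -/
theorem spl {r : ℕ} (hr : r.Prime) (hK : ∀ ζ : K, ζ ^ r = 1 → ζ = 1)
    (S : Finset (HeightOneSpectrum (𝓞 F))) :
    ∃ v ∉ S, (r : 𝓞 F) ∉ v.asIdeal ∧ Nonempty (K →ₐ[F] v.adicCompletion F) ∧
      ∀ x : v.adicCompletion F, x ^ r = 1 → x = 1 := by
  have h1 : Algebra.IsAlgebraic ℚ Qb := AlgebraicClosure.isAlgebraic ℚ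
  let j : K →+* Qb := (IsAlgClosed.lift (R := ℚ) (S := K) (M := Qb)).toRingHom
  have : NeZero r := ⟨hr.ne_zero⟩
  have hζ := zt_prim r
  obtain ⟨g, hg⟩ : ∃ g : GK j, (g : GQ) (zt r) ≠ zt r := by
    by_contra h2
    push Not at h2
    obtain ⟨y, hy⟩ := fixed j h2
    have h3 := hK y (j.injective (by rw [map_pow, hy, hζ.pow_eq_one, map_one]))
    exact hζ.ne_one hr.one_lt (by rw [← hy, h3, map_one])
  obtain ⟨φ, l, P, v, ψ, H, φ2, hv, hP⟩ := exists_spl j (isOpen_eq g (zt r)) (g := g) rfl g.2 S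
    (x := r * 1) (mul_ne_zero (Nat.cast_ne_zero.2 hr.ne_zero) one_ne_zero)
  have h4 : ¬ Valued.v (r : v.adicCompletion F) < 1 := fun h => hP (by
    have h5 := (H.iff r).1 (by rwa [show ψ (r : 𝓞 K) = r from map_natCast
      (ψ.toRingHom.comp (algebraMap (𝓞 K) K)) r])
    rwa [map_natCast, ← mul_one (r : 𝓞 Qb)] at h5)
  refine ⟨v, hv, fun h => h4 ?_, ⟨ψ⟩, fun x hx => ?_⟩
  · rwa [← val_int, map_natCast] at h
  by_contra h5
  have h6 : Valued.v x ≤ 1 := (pow_le_one_iff hr.ne_zero).1 (by rw [← map_pow, hx, map_one])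
  obtain ⟨z, hz⟩ := exists_near ψ h6
  obtain ⟨i, h7, h8⟩ := exists_root H hr.pos hζ.toInteger_isPrimitiveRoot (c := 1) (Y := 1)
    (by simp) hP (z := z) ((H.iff _).1 (by
      have h5 := hz r
      rwa [hx, ← map_pow, ← map_one ψ, ← map_sub] at h5))
  rw [mul_one] at h7 h8
  by_cases h9 : r ∣ i
  · rw [(hζ.toInteger_isPrimitiveRoot.pow_eq_one_iff_dvd i).2 h9, ← map_one
      (RingOfIntegers.mapRingHom j), ← map_sub, ← H.iff] at h7
    have k1 : Valued.v (ψ z - 1) < 1 := by simpa using h7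
    have k2 : Valued.v (1 - x) < 1 := by
      rw [show 1 - x = (ψ z ^ 1 - x ^ 1) - (ψ z - 1) by ring]
      exact Valuation.map_sub_lt _ (hz 1) k1
    have k3 : ∑ i ∈ Finset.range r, x ^ i = 0 := by
      have k4 := geom_sum_mul x r
      rw [hx, sub_self] at k4
      exact (mul_eq_zero.1 k4).resolve_right (sub_ne_zero.2 h5)
    refine h4 ?_
    rw [show (r : v.adicCompletion F) = ∑ i ∈ Finset.range r, (1 ^ i - x ^ i) by
      simp [Finset.sum_sub_distrib, k3]]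
    exact Valuation.map_sum_lt _ one_ne_zero fun i _ => near_pow v (by simp) h6 k2 i
  · have k1 : φ (zt r ^ i) = zt r ^ i := congrArg Subtype.val h8
    obtain ⟨m, -, k2⟩ := (hζ.pow_of_coprime i
      ((Nat.Prime.coprime_iff_not_dvd hr).2 h9).symm).eq_pow_of_pow_eq_one hζ.pow_eq_one
    exact hg (φ2.symm.trans (by rw [← k2, map_pow, k1]))

end Vale.Agent.P022K.FI
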