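import Vale.Agent.P022K.FI.Qx
import Vale.Agent.P022K.FI.Spl
import Vale.Agent.P022K.F0.Loc

/-!
# P022K, block FI: the row ARIX (arithmetic of the torus of an ordinary point)
-/

set_option autoImplicit false
set_option linter.unusedSectionVars false

open UpperHalfPlane NumberField QuadraticAlgebra
open scoped MatrixGroups

noncomputable section

namespace Vale.Agent.P022K.FI

open Vale.Agent.P022K.Sh Vale.Agent.P022K.F0

namespace Ax


section quad

variable {F : Type} [Field F] [CharZero F] {c : F} [Fact (∀ r : F, r ^ 2 ≠ c + 0 * r)]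

theorem fixd {u : QuadraticAlgebra F c 0} (h : star u = u) : u = algebraMap F _ u.re := by
  have h1 := congrArg QuadraticAlgebra.im h
  rw [im_star] at h1
  refine QuadraticAlgebra.ext rfl ?_
  rw [algebraMap_im]
  linear_combination (-1 / 2 : F) * h1

theorem om_ne : (omega : QuadraticAlgebra F c 0) ≠ 0 := fun h => by
  simpa using congrArg QuadraticAlgebra.im h

theorem star_om : star (omega : QuadraticAlgebra F c 0) = -omega := by
  ext <;> simp

/-- Hilbert 90 -/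
theorem h90 {y : QuadraticAlgebra F c 0} (h : y * star y = 1) : ∃ b, b ≠ 0 ∧ y = b / star b := by
  by_cases h1 : 1 + y = 0
  · refine ⟨omega, om_ne, ?_⟩
    rw [star_om, div_neg, div_self om_ne]
    linear_combination h1
  · refine ⟨1 + y, h1, ?_⟩
    rw [eq_div_iff (star_ne_zero.2 h1), star_add, star_one]
    linear_combination h

theorem nrm (t : F →+* ℝ) (hc : t c < 0) {y : QuadraticAlgebra F c 0} {r : ℕ} (hr : r ≠ 0)
    (h : y ^ r * star (y ^ r) = 1) : y * star y = 1 := by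
  rw [← algebraMap_norm_eq_mul_star, ← map_one (algebraMap F _), algebraMap_inj] at h ⊢
  have h1 : 0 ≤ t (norm y) := by
    rw [norm_def]
    simp only [map_sub, map_add, map_mul, map_zero]
    nlinarith [mul_self_nonneg (t y.re), mul_self_nonneg (t y.im)]
  have h2 : t (norm y) ^ r = 1 := by rw [← map_pow, ← map_pow, h, map_one]
  exact t.injective (by rw [map_one]; exact (pow_eq_one_iff_of_nonneg h1 hr).1 h2)

theorem div_star {z : QuadraticAlgebra F c 0} (h : z ≠ 0) :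
    z / star z * star (z / star z) = 1 := by
  have := star_ne_zero.2 h
  rw [star_div₀, star_star]
  field_simp

theorem map_eq {A : Type} [CommRing A] [Algebra F A] (ψ : QuadraticAlgebra F c 0 →ₐ[F] A)
    (z : QuadraticAlgebra F c 0) : ψ z = algebraMap F A z.re + algebraMap F A z.im * ψ omega := by
  conv_lhs => rw [show z = ⟨z.re, z.im⟩ from rfl, mk_eq_add_smul_omega]
  rw [map_add, map_smul, AlgHom.commutes, Algebra.smul_def]

end quad

/-- diagonalisation -/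
theorem exists_diag {k : Type} [Field k] [CharZero k] (M : Matrix (Fin 2) (Fin 2) k) {l : k}
    (hl : l ≠ 0) (ht : M.trace = 0) (hd : M.det = -l ^ 2) :
    ∃ g : GL (Fin 2) k, M * (g : Matrix (Fin 2) (Fin 2) k) = g * !![-l, 0; 0, l] := by
  rw [Matrix.trace_fin_two] at ht
  rw [Matrix.det_fin_two] at hd
  have key : ∀ m : k, m ^ 2 = l ^ 2 → ∃ u v : k, (u ≠ 0 ∨ v ≠ 0) ∧
      M 0 0 * u + M 0 1 * v = m * u ∧ M 1 0 * u + M 1 1 * v = m * v := by
    intro m hm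
    by_cases h : M 0 1 = 0 ∧ m - M 0 0 = 0
    · by_cases h' : m - M 1 1 = 0
      · exfalso
        have h3 : m = 0 := by linear_combination (h.2 + h' + ht) / 2
        rw [h3] at hm
        exact hl (pow_eq_zero_iff two_ne_zero |>.1 (by linear_combination -hm))
      · refine ⟨m - M 1 1, M 1 0, Or.inl h', ?_, by ring⟩
        linear_combination -hm + m * ht - hd
    · refine ⟨M 0 1, m - M 0 0, by tauto, by ring, ?_⟩
      linear_combination -hm + m * ht - hd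
  obtain ⟨u, v, h0, h1, h2⟩ := key (-l) (by ring)
  obtain ⟨u', v', h0', h1', h2'⟩ := key l rfl
  have hne : u * v' - u' * v ≠ 0 := by
    intro h
    have e1 : 2 * l * (u * u') = 0 := by linear_combination u' * h1 - u * h1' + M 0 1 * h
    have e2 : 2 * l * (v * v') = 0 := by linear_combination v' * h2 - v * h2' - M 1 0 * h
    have h2l : 2 * l ≠ 0 := mul_ne_zero two_ne_zero hl
    have e3 := (mul_eq_zero.1 e1).resolve_left h2l
    have e4 := (mul_eq_zero.1 e2).resolve_left h2l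
    grind
  refine ⟨Matrix.GeneralLinearGroup.mkOfDetNeZero !![u, u'; v, v'] (by
    rwa [Matrix.det_fin_two_of]), ?_⟩
  ext i j
  fin_cases i <;> fin_cases j <;> simp [Matrix.mul_apply, Fin.sum_univ_two] <;>
    first | linear_combination h1 | linear_combination h2 | linear_combination h1' | linear_combination h2'


theorem diag_lin {k : Type} [Field k] {M g : Matrix (Fin 2) (Fin 2) k} {l : k}
    (h : M * g = g * !![-l, 0; 0, l]) (u v : k) :
    (u • 1 + v • M) * g = g * !![u + -v * l, 0; 0, u + v * l] := by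
  rw [add_mul, smul_mul_assoc, smul_mul_assoc, h, one_mul]
  ext i j
  fin_cases i <;> fin_cases j <;> simp [Matrix.mul_apply, Fin.sum_univ_two] <;> ring

/-- trace zero real matrices with a given fixed point -/
theorem form {M : Matrix (Fin 2) (Fin 2) ℝ} {τ : ℍ} (ht : M.trace = 0)
    (h : (M 0 0 : ℂ) * τ + M 0 1 = (M 1 0 * τ + M 1 1) * τ) :
    M = M 1 0 • !![τ.re, -(τ.re ^ 2 + τ.im ^ 2); 1, -τ.re] := by
  rw [Matrix.trace_fin_two] at ht
  have r1 := congrArg Complex.re h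
  have i1 := congrArg Complex.im h
  simp at r1 i1
  have e1 : M 0 0 = M 1 0 * τ.re :=
    mul_right_cancel₀ τ.im_pos.ne' (by linear_combination (i1 + τ.im * ht) / 2)
  ext i j
  fin_cases i <;> fin_cases j <;> simp
  · exact e1
  · linear_combination r1 - 2 * τ.re * e1 + τ.re * ht
  · linear_combination ht - e1

variable {F : Type} [Field F] [NumberField F] (X : QD F)

/-- `q` fixes `τ` -/
def Fx (τ : ℍ) (q : X.D) : Prop :=
  (X.s q 0 0 : ℂ) * τ + X.s q 0 1 = (X.s q 1 0 * τ + X.s q 1 1) * τ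

variable {X}

theorem fx_iff {γ : X.G0} {τ : ℍ} : X.tw.r γ • τ = τ ↔ Fx X τ ((γ : X.Dˣ) : X.D) :=
  ⟨Qx.fix_eq, fun h => Qx.smul_eq_of (by rw [mul_comm (τ : ℂ)]; exact h)⟩

theorem Fx.lin {τ : ℍ} {p : X.D} (h : Fx X τ p) (u v : F) : Fx X τ (u • 1 + v • p) := by
  rw [Fx] at h ⊢
  rw [map_add, Qx.s_smul, Qx.s_smul, map_one]
  simp
  linear_combination (X.t1 v : ℂ) * h

theorem Fx.form {τ : ℍ} {p : X.D} (h : Fx X τ p) (h0 : p.re = 0) :
    X.s p = X.s p 1 0 • !![τ.re, -(τ.re ^ 2 + τ.im ^ 2); 1, -τ.re] :=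
  Ax.form (by rw [X.ovr.trace X.a_ne X.b_ne, Fuj.trd, h0, mul_zero, map_zero]) h

theorem Fx.pos {τ : ℍ} {p : X.D} (h : Fx X τ p) (h0 : p.re = 0) (h1 : p ≠ 0) :
    0 < X.t1 (Fuj.nrd p) := by
  refine lt_of_le_of_ne ?_ ((map_ne_zero X.t1).2 (X.div p h1)).symm
  rw [← X.ovr.det X.a_ne X.b_ne, h.form h0, Matrix.det_smul, Matrix.det_fin_two_of]
  simp only [Fintype.card_fin]
  nlinarith [sq_nonneg (X.s p 1 0 * τ.im)]

theorem Fx.prop {τ : ℍ} {p q : X.D} (h : Fx X τ p) (h0 : p.re = 0) (h1 : p ≠ 0) (h' : Fx X τ q) :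
    ∃ v : F, q = q.re • 1 + v • p := by
  have k := h'.lin (-q.re) 1
  have k0 : (-q.re • (1 : X.D) + (1 : F) • q).re = 0 := by simp
  have hc : (-q.re • (1 : X.D) + (1 : F) • q) * p = p * (-q.re • (1 : X.D) + (1 : F) • q) :=
    X.ovr.inj X.a_ne X.b_ne (by
      rw [map_mul, map_mul, k.form k0, h.form h0, smul_mul_smul_comm, smul_mul_smul_comm, mul_comm])
  obtain ⟨c1, c2, c3⟩ := Qx.comm_co (IsUnit.mk0 _ two_ne_zero) (IsUnit.mk0 _ X.a_ne)
    (IsUnit.mk0 _ X.b_ne) hc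
  simp at c1 c2 c3
  by_cases e1 : p.imI = 0
  · by_cases e2 : p.imJ = 0
    · have e3 : p.imK ≠ 0 := fun e3 => h1 (QuaternionAlgebra.ext h0 e1 e2 e3)
      refine ⟨q.imK / p.imK, ?_⟩
      ext <;> simp [h0] <;> field_simp <;> grind
    · refine ⟨q.imJ / p.imJ, ?_⟩
      ext <;> simp [h0] <;> field_simp <;> grind
  · refine ⟨q.imI / p.imI, ?_⟩
    ext <;> simp [h0] <;> field_simp <;> grind

variable {O K : Type} [CommRing O] [IsDomain O] [IsDiscreteValuationRing O] [Field K] [Algebra O K]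

theorem nat_mem {v : Pl F} {L : X.tw.Lc O K} (h : X.IsPl v L) (n : ℕ) :
    (n : O) ∈ IsLocalRing.maximalIdeal O ↔ (n : 𝓞 F) ∈ v.asIdeal := by
  obtain ⟨e, he⟩ := h.cp
  rw [← he.ker_red, RingHom.mem_ker, map_natCast, ← IsLocalRing.residue_eq_zero_iff, map_natCast]

variable {c : F} [Fact (∀ r : F, r ^ 2 ≠ c + 0 * r)] (ι : QuadraticAlgebra F c 0 →ₐ[F] X.D)

theorem io_eq (z : QuadraticAlgebra F c 0) : ι z = z.re • 1 + z.im • ι omega := by
  conv_lhs => rw [show z = ⟨z.re, z.im⟩ from rfl, mk_eq_add_smul_omega]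
  rw [map_add, map_smul, AlgHom.commutes, Algebra.algebraMap_eq_smul_one z.re]

/-- the split places -/
theorem exists_sp (hSA : X.tw.AllL fun {_ _} _ _ _ _ _ L => ∀ w, X.IsPl w L → L.SA)
    {L : X.tw.Lc O K} {w : Pl F} (hw : X.IsPl w L) {τ : ℍ} (x : X.G) (h0 : (ι omega).re = 0)
    {β₁ : X.G0} (h1 : X.tw.r β₁ • τ = τ) (h2 : ((β₁ : X.Dˣ) : X.D) = ι (1 + omega)) {v : Pl F}
    (hv : w ≠ v) (h3 : 2 * X.a * X.b ∉ v.asIdeal) (ψ : QuadraticAlgebra F c 0 →ₐ[F] Fw v) :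
    ∃ P : SP L τ x, X.IsPl v P.L ∧ ∃ f : Fw v ≃+* P.K', ∀ (β : X.G0) z,
      ((β : X.Dˣ) : X.D) = ι z → P.rho (lc X.tw x β) = f (ψ (z / star z)) := by
  obtain ⟨s, -⟩ := X.loc_two v h3
  obtain ⟨ϖ, hϖ⟩ := IsDiscreteValuationRing.exists_irreducible (v.adicCompletionIntegers F)
  obtain ⟨L', hL, -, hπ⟩ := X.loc.1 _ _ v (RingEquiv.refl _) s.toRingEquiv ϖ Subtype.val_injective
    hϖ (fun y => ⟨fun h => ⟨⟨y, h⟩, rfl⟩, fun ⟨o, h⟩ => (show (o : Fw v) = y from h) ▸ o.2⟩) s.commutes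
  obtain ⟨J, hJ⟩ : ∃ J : X.D →+* Matrix (Fin 2) (Fin 2) (Fw v), ∀ q, J q = s (X.cw v (X.jD q)) :=
    ⟨s.toRingEquiv.toRingHom.comp ((X.cw v).comp X.jD), fun _ => rfl⟩
  have hO : Fuj.Over (algebraMap F (Fw v)) J := fun a => by
    rw [hJ, X.jD_algebraMap, X.cw_alg, s.commutes, ev_alg]
  have hs : ∀ (a : F) q, J (a • q) = algebraMap F (Fw v) a • J q := fun a q => by
    rw [Algebra.smul_def, map_mul, hO, Algebra.smul_def]
  have hl : ψ omega ≠ 0 := (map_ne_zero ψ).2 om_ne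
  have hn : Fuj.nrd (ι omega) = -c := by
    have e := Fuj.sq_eq (ι omega)
    rw [← map_mul, omega_mul_omega_eq_add, Fuj.trd, h0] at e
    have e2 := congrArg QuaternionAlgebra.re e
    simp [QuaternionAlgebra.algebraMap_eq] at e2
    linear_combination e2
  obtain ⟨g, hg⟩ := exists_diag (J (ι omega)) hl
    (by rw [hO.trace X.a_ne X.b_ne, Fuj.trd, h0, mul_zero, map_zero])
    (by
      rw [hO.det X.a_ne X.b_ne, hn, sq, ← map_mul, omega_mul_omega_eq_add, zero_smul, add_zero,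
        ← Algebra.algebraMap_eq_smul_one, AlgHom.commutes, map_neg])
  have key : ∀ (β : X.G0) z, ((β : X.Dˣ) : X.D) = ι z →
      ((((L'.π x)⁻¹ * g)⁻¹ * L'.π (lc X.tw x β) * ((L'.π x)⁻¹ * g) : GL (Fin 2) (Fw v)) :
        Matrix (Fin 2) (Fin 2) (Fw v)) = !![ψ (star z), 0; 0, ψ z] := by
    intro β z hz
    have e1 : ((L'.π x)⁻¹ * g)⁻¹ * L'.π (lc X.tw x β) * ((L'.π x)⁻¹ * g) =
        g⁻¹ * (L'.π (X.tw.j β) * g) := by
      rw [lc, map_mul, map_mul, map_inv]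
      group
    have e2 : (L'.π (X.tw.j β) : Matrix (Fin 2) (Fin 2) (Fw v)) = J (ι z) := by
      rw [hπ, hJ, ← hz]
      rfl
    rw [e1, Units.val_mul, Units.inv_mul_eq_iff_eq_mul, Units.val_mul, e2, io_eq, map_add, hs, hs,
      map_one, diag_lin hg, map_eq ψ z, map_eq ψ (star z), re_star, im_star, zero_mul, add_zero,
      map_neg]
  have n1 : (1 + omega : QuadraticAlgebra F c 0) ≠ 0 := fun h => by
    simpa using congrArg QuadraticAlgebra.im h
  refine ⟨{ O' := v.adicCompletionIntegers F, K' := Fw v, L := L'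
            ne := ⟨hw.pi_io hL hv, hL.pi_io hw hv.symm⟩, sa := hSA _ _ L' v hL
            g := (L'.π x)⁻¹ * g
            reg := ⟨β₁, Units.mk0 _ ((map_ne_zero ψ).2 (star_ne_zero.2 n1)),
              Units.mk0 _ ((map_ne_zero ψ).2 n1), h1, Units.ext (key _ _ h2), ?_⟩ }, hL,
    RingEquiv.refl _, fun β z hz => ?_⟩
  · simp only [Units.val_mk0, star_add, star_one, star_om, map_add, map_neg, map_one]
    intro h
    exact hl (by linear_combination h / 4)
  · simp only [SP.rho, key β z hz, map_div₀]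
    rfl

theorem ari (hSA : X.tw.AllL fun {_ _} _ _ _ _ _ L => ∀ w, X.IsPl w L → L.SA)
    {L : X.tw.Lc O K} {w : Pl F} (hw : X.IsPl w L) {τ : ℍ} (x : X.G) (hc : X.t1 c < 0)
    (h0 : (ι omega).re = 0) (hf : Fx X τ (ι omega)) : Ari L τ x := by
  classical
  have : NumberField (QuadraticAlgebra F c 0) := NumberField.of_module_finite F _
  have hp : ι omega ≠ 0 := (map_ne_zero ι).2 om_ne
  have ex : ∀ z, z ≠ 0 → ∃ β : X.G0, X.tw.r β • τ = τ ∧ ((β : X.Dˣ) : X.D) = ι z := by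
    intro z hz
    obtain ⟨β, hβ⟩ := Qx.exists_G0 X (q := ι z) (by
      refine lt_of_le_of_ne ?_ ((map_ne_zero X.t1).2 (X.div _ ((map_ne_zero ι).2 hz))).symm
      have e : Fuj.nrd (ι z) = z.re ^ 2 + z.im ^ 2 * Fuj.nrd (ι omega) := by
        rw [io_eq]
        simp [Fuj.nrd, h0]
        ring
      have := hf.pos h0 hp
      rw [e, map_add, map_mul, map_pow, map_pow]
      positivity)
    exact ⟨β, fx_iff.2 (by rw [hβ, io_eq]; exact hf.lin _ _), hβ⟩
  have al : ∀ γ : X.G0, X.tw.r γ • τ = τ → ∃ z, z ≠ 0 ∧ ((γ : X.Dˣ) : X.D) = ι z := by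
    intro γ hγ
    obtain ⟨v, hv⟩ := hf.prop h0 hp (fx_iff.1 hγ)
    have e : ((γ : X.Dˣ) : X.D) = ι ⟨((γ : X.Dˣ) : X.D).re, v⟩ := by rw [io_eq]; exact hv
    exact ⟨_, fun h => (γ : X.Dˣ).ne_zero (by rw [e, h, map_zero]), e⟩
  have z0 : ∀ (γ : X.G0) u, ((γ : X.Dˣ) : X.D) = ι u → star u = u → γ ∈ X.tw.Z0 := by
    intro γ u h1 h2
    exact (X.mem_Z0_iff γ).2 ⟨u.re, by rw [h1, fixd h2, AlgHom.commutes, algebraMap_re]⟩
  obtain ⟨β₁, b1, b2⟩ := ex (1 + omega) fun h => by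
    simpa using congrArg QuadraticAlgebra.im h
  obtain ⟨S, hS⟩ : ∃ S : Finset (Pl F), ∀ v ∉ S, w ≠ v ∧ 2 * X.a * X.b ∉ v.asIdeal :=
    ⟨insert w (finite_dvd (mul_ne_zero (mul_ne_zero two_ne_zero X.a0) X.b0)).toFinset,
      fun v hv => by
        rw [Finset.mem_insert, Set.Finite.mem_toFinset, not_or] at hv
        exact ⟨Ne.symm hv.1, hv.2⟩⟩
  have sp := fun v (hv : v ∉ S) => exists_sp ι hSA hw x h0 b1 b2 (hS v hv).1 (hS v hv).2
  have rt : ∀ (r : ℕ), r ≠ 0 → ∀ y : QuadraticAlgebra F c 0, y ^ r * star (y ^ r) = 1 →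
      ∃ (β : X.G0) (b : QuadraticAlgebra F c 0), b ≠ 0 ∧ y = b / star b ∧ X.tw.r β • τ = τ ∧
        ((β : X.Dˣ) : X.D) = ι b ∧ (((β ^ r : X.G0) : X.Dˣ) : X.D) = ι (b ^ r) := by
    intro r hr y hy
    obtain ⟨b, n0, hb⟩ := h90 (nrm X.t1 hc hr hy)
    obtain ⟨β, k1, k2⟩ := ex b n0
    exact ⟨β, b, n0, hb, k1, k2, by
      rw [Subgroup.coe_pow, Units.val_pow_eq_pow_val, k2, map_pow]⟩
  refine ⟨?_, fun r hr γ hγ h => ?_, fun r hr => ?_⟩
  · obtain ⟨v, hv, ⟨ψ⟩⟩ := spl_plain (K := QuadraticAlgebra F c 0) S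
    have n0 : ((Ideal.absNorm v.asIdeal : ℕ) : 𝓞 F) ≠ 0 :=
      Nat.cast_ne_zero.2 fun h => v.ne_bot (Ideal.absNorm_eq_zero_iff.1 h)
    obtain ⟨v', hv', ⟨ψ'⟩⟩ := spl_plain (K := QuadraticAlgebra F c 0)
      (S ∪ (finite_dvd n0).toFinset)
    rw [Finset.mem_union, Set.Finite.mem_toFinset, not_or] at hv'
    obtain ⟨P, hP, -⟩ := sp v hv ψ
    obtain ⟨P', hP', -⟩ := sp v' hv'.1 ψ'
    have hne : v ≠ v' := by
      rintro rfl
      exact hv'.2 (Ideal.absNorm_mem _)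
    refine ⟨P, P', Ideal.absNorm v.asIdeal, ⟨hP.pi_io hP' hne, hP'.pi_io hP hne.symm⟩,
      (nat_mem hP _).2 (Ideal.absNorm_mem _), ?_⟩
    rw [← IsLocalRing.notMem_maximalIdeal, nat_mem hP']
    exact hv'.2
  · obtain ⟨z, n0, hz⟩ := al γ hγ
    obtain ⟨y, hy⟩ := lgp_rel (F := F) hr (z / star z) S fun v hv ψ => by
      obtain ⟨P, -, f, hf⟩ := sp v hv ψ
      obtain ⟨y, hy⟩ := h P
      exact ⟨f.symm y, by rw [← map_pow, hy, hf γ z hz, f.symm_apply_apply]⟩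
    obtain ⟨β, b, b0, rfl, k1, -, k2⟩ := rt r hr.ne_zero y (by rw [hy]; exact div_star n0)
    refine ⟨β, k1, z0 _ (z / b ^ r) ?_ ?_⟩
    · rw [Subgroup.coe_mul, Subgroup.coe_inv, Units.val_mul, Units.mul_inv_eq_iff_eq_mul, k2,
        ← map_mul, div_mul_cancel₀ _ (pow_ne_zero _ b0), hz]
    · have s1 := star_ne_zero.2 b0
      have s2 := star_ne_zero.2 n0
      rw [div_pow, div_eq_div_iff (pow_ne_zero _ s1) s2] at hy
      rw [star_div₀, star_pow, div_eq_div_iff (pow_ne_zero _ s1) (pow_ne_zero _ b0)]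
      linear_combination hy
  · by_cases hK : ∀ ζ : QuadraticAlgebra F c 0, ζ ^ r = 1 → ζ = 1
    · obtain ⟨v, hv, -, ⟨ψ⟩, h⟩ := spl hr hK S
      obtain ⟨P, -, f, hf⟩ := sp v hv ψ
      refine ⟨P, fun y hy => ⟨1, by rw [map_one, one_smul], by rw [one_pow]; exact one_mem _, ?_⟩⟩
      rw [hf 1 1 (map_one ι).symm, star_one, div_one, map_one, map_one, eq_comm,
        ← map_eq_one_iff f.symm f.symm.injective]
      exact h _ (by rw [← map_pow, hy, map_one])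
    · push Not at hK
      obtain ⟨ζ, h1, h2⟩ := hK
      have : Fact r.Prime := ⟨hr⟩
      have : NeZero r := ⟨hr.ne_zero⟩
      have h3 : IsPrimitiveRoot ζ r := by
        rw [← orderOf_eq_prime h1 h2]
        exact IsPrimitiveRoot.orderOf ζ
      obtain ⟨v, hv, ⟨ψ⟩⟩ := spl_plain (K := QuadraticAlgebra F c 0) S
      obtain ⟨P, -, f, hf⟩ := sp v hv ψ
      refine ⟨P, fun y hy => ?_⟩
      obtain ⟨i, -, rfl⟩ := ((h3.map_of_injective ψ.injective).map_of_injective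
        f.injective).eq_pow_of_pow_eq_one hy
      have h4 : (ζ ^ i) ^ r = 1 := by rw [pow_right_comm, h1, one_pow]
      obtain ⟨β, b, b0, e, k1, k2, k3⟩ := rt r hr.ne_zero (ζ ^ i) (by rw [h4, star_one, one_mul])
      refine ⟨β, k1, z0 _ _ k3 ?_, by rw [hf β b k2, ← e, map_pow, map_pow]; rfl⟩
      rw [e, div_pow, div_eq_one_iff_eq (pow_ne_zero _ (star_ne_zero.2 b0))] at h4
      rw [star_pow, ← h4]

end Ax

/-- **ARIX** -/
theorem arix {F : Type} [Field F] [NumberField F] (X : QD F) : ARIX X := by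
  intro hSA O K _ _ _ _ _ L w hw e τ x ⟨γ, a, d, h1, h2, h3, _⟩
  obtain ⟨p, hp⟩ : ∃ p : X.D, p = (-((γ : X.Dˣ) : X.D).re) • 1 + (1 : F) • ((γ : X.Dˣ) : X.D) :=
    ⟨_, rfl⟩
  have hf : Ax.Fx X τ p := hp ▸ (Ax.fx_iff.1 h1).lin _ _
  have h0 : p.re = 0 := by simp [hp]
  have hne : p ≠ 0 := by
    intro h
    have e1 : ((γ : X.Dˣ) : X.D) = algebraMap F _ ((γ : X.Dˣ) : X.D).re := by
      rw [h, _root_.neg_smul, one_smul, eq_comm, neg_add_eq_zero] at hp
      rw [Algebra.algebraMap_eq_smul_one ((γ : X.Dˣ) : X.D).re, hp]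
    have e2 : lc X.tw x γ ∈ X.tw.Z :=
      X.mem_Z.2 ⟨algebraMap F (AF F) ((γ : X.Dˣ) : X.D).re, by
        rw [lc, Units.val_mul, Units.val_mul, X.coe_j]
        conv_lhs => rw [e1, X.jD_algebraMap, ← Algebra.commutes, mul_assoc, Units.inv_mul, mul_one]⟩
    obtain ⟨z, hz⟩ := mem_Zl.1 (L.cen' _ e2)
    obtain ⟨rfl, rfl⟩ := d2_inj (h2.symm.trans hz)
    exact sm_sq_ne L h3 (by rw [div_self (Units.ne_zero _), one_pow])
  have hc : X.t1 (-Fuj.nrd p) < 0 := by rw [map_neg]; exact neg_neg_of_pos (hf.pos h0 hne)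
  have : Fact (∀ r : F, r ^ 2 ≠ -Fuj.nrd p + 0 * r) := ⟨fun r hr => by
    rw [zero_mul, add_zero] at hr
    rw [← hr, map_pow] at hc
    exact (sq_nonneg _).not_gt hc⟩
  have hq : p * p = (-Fuj.nrd p) • 1 + (0 : F) • p := by
    rw [Fuj.sq_eq, Fuj.trd, h0, mul_zero, zero_smul, zero_sub, add_zero, _root_.neg_smul,
      Algebra.algebraMap_eq_smul_one (Fuj.nrd p)]
  have hω : QuadraticAlgebra.lift ⟨p, hq⟩ omega = p := by simp
  exact Ax.ari (QuadraticAlgebra.lift ⟨p, hq⟩) hSA hw x hc (by rwa [hω]) (by rwa [hω])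

end Vale.Agent.P022K.FI
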