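import Vale.Agent.P022K.FI.Qx

/-!
# P022K, block FI: the row CMPX for the tower of a quaternion algebra
-/

set_option autoImplicit false
set_option linter.unusedSectionVars false

open UpperHalfPlane NumberField
open scoped MatrixGroups

noncomputable section

namespace Vale.Agent.P022K.FI

open Vale.Agent.P022K.Sh Vale.Agent.P022K.F0

namespace Qx

section loc

variable {O K : Type} [CommRing O] [IsDomain O] [IsDiscreteValuationRing O] [Field K] [Algebra O K]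

theorem unit_add {y : O} (hy : y ∈ IsLocalRing.maximalIdeal O) : IsUnit (1 + y) := by
  have := IsLocalRing.isUnit_one_sub_self_of_mem_nonunits (-y)
    ((IsLocalRing.mem_maximalIdeal _).1 (neg_mem hy))
  rwa [sub_neg_eq_add] at this

/-- a matrix congruent to `1` is in `GL₂(O)` -/
theorem mem_KK {M : GL (Fin 2) K}
    (h : ∀ i j, sm O (((M : Matrix (Fin 2) (Fin 2) K) - 1) i j)) : M ∈ KK O K := by
  choose y hy e using h
  have hu : IsUnit (1 + Matrix.of y) := by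
    rw [Matrix.isUnit_iff_isUnit_det, Matrix.det_fin_two]
    convert unit_add (y := y 0 0 + y 1 1 + y 0 0 * y 1 1 - y 0 1 * y 1 0)
      (sub_mem (add_mem (add_mem (hy _ _) (hy _ _)) (Ideal.mul_mem_left _ _ (hy _ _)))
        (Ideal.mul_mem_left _ _ (hy _ _))) using 1
    simp
    ring
  refine ⟨hu.unit, ?_⟩
  ext i j
  have := e i j
  rw [Matrix.sub_apply, eq_sub_iff_add_eq] at this
  rw [← this]
  fin_cases i <;> fin_cases j <;> simp [add_comm]

/-- a matrix congruent to `diag (1, 0)` is conjugate to an ordinary diagonal matrix -/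
theorem exists_diag [IsFractionRing O K] [IsAdicComplete (IsLocalRing.maximalIdeal O) O]
    {M : GL (Fin 2) K} (h : ∀ i j, sm O (((M : Matrix (Fin 2) (Fin 2) K) -
      (!![1, 0; 0, 0] : Matrix (Fin 2) (Fin 2) K)) i j)) :
    ∃ (P : GL (Fin 2) K) (a d : Kˣ), P⁻¹ * M * P = d2 a d ∧ sm O ((d : K) / a) := by
  obtain ⟨p, hp, e1⟩ := h 0 0
  obtain ⟨q, hq, e2⟩ := h 0 1
  obtain ⟨r, hr, e3⟩ := h 1 0
  obtain ⟨s, hs, e4⟩ := h 1 1
  simp at e1 e2 e3 e4
  have hD : (1 + p) * s - q * r ∈ IsLocalRing.maximalIdeal O :=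
    sub_mem (Ideal.mul_mem_left _ _ hs) (Ideal.mul_mem_left _ _ hr)
  obtain ⟨d, d1, d2'⟩ := HenselianRing.is_henselian (I := IsLocalRing.maximalIdeal O)
    (Polynomial.X ^ 2 - Polynomial.C (1 + (p + s)) * Polynomial.X +
      Polynomial.C ((1 + p) * s - q * r)) (by monicity!) 0 (by simpa using hD)
    (by
      have := ((unit_add (add_mem hp hs)).neg).map (Ideal.Quotient.mk (IsLocalRing.maximalIdeal O))
      convert this using 2
      simp)
  rw [sub_zero] at d2'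
  have d3 : d ^ 2 - (1 + (p + s)) * d + ((1 + p) * s - q * r) = 0 := by
    simpa [Polynomial.IsRoot] using d1
  obtain ⟨a, ha⟩ := unit_add (sub_mem (add_mem hp hs) d2')
  have k1 : algebraMap O K a = 1 + (algebraMap O K p + algebraMap O K s - algebraMap O K d) := by
    rw [ha]; simp
  have k2 := congrArg (algebraMap O K) d3
  simp only [map_add, map_sub, map_mul, map_pow, map_one, map_zero] at k2
  have a0 : algebraMap O K a ≠ 0 := (a.isUnit.map _).ne_zero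
  have hd := M.det.ne_zero
  rw [Matrix.GeneralLinearGroup.val_det_apply, Matrix.det_fin_two, ← e2, ← e3, ← e4,
    ← sub_add_cancel (M 0 0) 1, ← e1] at hd
  have d0 : algebraMap O K d ≠ 0 := fun e => hd (by rw [e] at k2; linear_combination k2)
  have hP : IsUnit (1 + ((2 + (p - d)) * (p - d) + q * r)) :=
    unit_add (add_mem (Ideal.mul_mem_left _ _ (sub_mem hp d2')) (Ideal.mul_mem_left _ _ hr))
  have hP' : !![1 + algebraMap O K p - algebraMap O K d, algebraMap O K q;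
      algebraMap O K r, algebraMap O K s - algebraMap O K a].det ≠ 0 := by
    intro e
    apply (hP.map (algebraMap O K)).ne_zero
    rw [Matrix.det_fin_two_of, k1] at e
    simp only [map_add, map_sub, map_mul, map_one, map_ofNat]
    linear_combination -e
  refine ⟨Matrix.GeneralLinearGroup.mkOfDetNeZero _ hP', Units.mk0 _ a0, Units.mk0 _ d0, ?_,
    d * (a⁻¹ : Oˣ), Ideal.mul_mem_right _ _ d2', ?_⟩
  · rw [mul_assoc, inv_mul_eq_iff_eq_mul]
    have e1' : (M : Matrix (Fin 2) (Fin 2) K) 0 0 = 1 + algebraMap O K p := by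
      linear_combination -e1
    ext i j
    fin_cases i <;> fin_cases j <;>
      simp [d2_val, Matrix.mul_apply, Fin.sum_univ_two, e1', ← e2, ← e3, ← e4, k1]
    all_goals first | ring1 | linear_combination k2 | linear_combination -k2
  · rw [map_mul, map_units_inv, div_eq_mul_inv]
    rfl

theorem mu_or {m : ℂ} (hm : m ≠ 0) (e : K →+* ℂ) {a d : Kˣ}
    (k : e (((d2 a d : GL (Fin 2) K) : Matrix (Fin 2) (Fin 2) K).trace ^ 2 /
      ((d2 a d : GL (Fin 2) K) : Matrix (Fin 2) (Fin 2) K).det) = m + m⁻¹ + 2) :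
    m * e ((d : K) / a) = 1 ∨ m = e ((d : K) / a) := by
  have ha := a.ne_zero
  have hd0 := d.ne_zero
  have he : e ((d : K) / a) ≠ 0 := (map_ne_zero e).2 (div_ne_zero hd0 ha)
  have k2 : ((d2 a d : GL (Fin 2) K) : Matrix (Fin 2) (Fin 2) K).trace ^ 2 /
      ((d2 a d : GL (Fin 2) K) : Matrix (Fin 2) (Fin 2) K).det =
        (d : K) / a + ((d : K) / a)⁻¹ + 2 := by
    simp only [d2_val, Matrix.trace_fin_two_of, Matrix.det_fin_two_of]
    field_simp
    ring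
  rw [k2, map_add, map_add, map_inv₀, map_ofNat] at k
  generalize e ((d : K) / a) = y at *
  have : (m * y - 1) * (m - y) = 0 := by
    field_simp at k
    linear_combination -k
  exact (mul_eq_zero.1 this).imp sub_eq_zero.1 sub_eq_zero.1

theorem exists_swap (a d : Kˣ) : ∃ S : GL (Fin 2) K, S⁻¹ * d2 a d * S = d2 d a := by
  refine ⟨Matrix.GeneralLinearGroup.mkOfDetNeZero !![0, 1; 1, 0] (by simp), ?_⟩
  rw [mul_assoc, inv_mul_eq_iff_eq_mul]
  ext i j
  fin_cases i <;> fin_cases j <;> simp [d2_val, Matrix.mul_apply, Fin.sum_univ_two]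

end loc

variable {F : Type} [Field F] [NumberField F] (X : QD F)

/-- weak approximation by elliptic elements -/
theorem wk_apx {w : Pl F} (La : X.Dw w → Prop) (h1 : ∀ p q, La p → La q → La (p + q))
    (h2 : ∀ (u : Fw w) q, Valued.v u ≤ 1 → La q → La (u • q))
    (h3 : ∀ q, ∃ N : ℕ, 0 < N ∧ La ((N : Fw w) • q)) (q : X.Dw w) :
    ∃ γ : X.G0, X.t1 (Fuj.trd ((γ : X.Dˣ) : X.D)) ^ 2 < 4 * X.t1 (Fuj.nrd ((γ : X.Dˣ) : X.D)) ∧
      La (X.cw w (X.jD (γ : X.Dˣ)) - q) := by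
  have k : ∀ (b : X.Dw w) (x : Fw w), ∃ c : F, La ((algebraMap F (Fw w) c - x) • b) := by
    intro b x
    obtain ⟨N, N0, hN⟩ := h3 b
    obtain ⟨c, hc⟩ := dense_F x (v_nat_ne w N0)
    have := h2 ((algebraMap F (Fw w) c - x) / N) _ (by
      rw [map_div₀, div_le_one₀ (zero_lt_iff.2 (v_nat_ne w N0)), Valuation.map_sub_swap]
      exact hc.le) hN
    rw [smul_smul, div_mul_cancel₀ _ (Nat.cast_ne_zero.2 N0.ne')] at this
    exact ⟨c, this⟩
  obtain ⟨c0, k0⟩ := k 1 q.re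
  obtain ⟨c1, k1⟩ := k (Fuj.qi _ _) q.imI
  obtain ⟨c2, k2⟩ := k (Fuj.qj _ _) q.imJ
  obtain ⟨c3, k3⟩ := k (Fuj.qk _ _) q.imK
  obtain ⟨y, hy⟩ : ∃ y : X.D, La (X.cw w (X.jD y) - q) := ⟨⟨c0, c1, c2, c3⟩, by
    convert h1 _ _ (h1 _ _ (h1 _ _ k0 k1) k2) k3 using 1
    refine QuaternionAlgebra.ext ?_ ?_ ?_ ?_ <;>
      simp [QD.cw, QD.jD, Fuj.qi, Fuj.qj, Fuj.qk, ev_alg]⟩
  obtain ⟨z, z1, z2⟩ : ∃ z : X.D, z.re = 0 ∧ 0 < X.t1 (Fuj.nrd z) := by
    have ha := (map_ne_zero X.t1).2 X.a_ne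
    have hb := (map_ne_zero X.t1).2 X.b_ne
    rcases ha.lt_or_gt with ha | ha
    · exact ⟨Fuj.qi _ _, rfl, by simpa [Fuj.nrd, Fuj.qi] using ha⟩
    rcases hb.lt_or_gt with hb | hb
    · exact ⟨Fuj.qj _ _, rfl, by simpa [Fuj.nrd, Fuj.qj] using hb⟩
    · exact ⟨Fuj.qk _ _, rfl, by simpa [Fuj.nrd, Fuj.qk] using mul_pos ha hb⟩
  obtain ⟨N, N0, hN⟩ := h3 (X.cw w (X.jD z))
  obtain ⟨β, hβ⟩ : ∃ β, β = X.t1 (Fuj.trd (y * star z)) := ⟨_, rfl⟩
  obtain ⟨C, hC⟩ : ∃ C, C = X.t1 (Fuj.trd y) ^ 2 / 4 - X.t1 (Fuj.nrd y) := ⟨_, rfl⟩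
  obtain ⟨n, hn⟩ := exists_nat_gt ((|β| + |C| + 1) / X.t1 (Fuj.nrd z))
  rw [div_lt_iff₀ z2] at hn
  have n0 : 0 < n := Nat.pos_of_ne_zero (by
    rintro rfl
    have := abs_nonneg β
    have := abs_nonneg C
    simp at hn
    linarith)
  have e1 : Fuj.trd (y + ((n * N : ℕ) : F) • z) = Fuj.trd y := by simp [Fuj.trd, z1]
  have e2 : Fuj.nrd (y + ((n * N : ℕ) : F) • z) = Fuj.nrd y + (n * N : ℕ) * Fuj.trd (y * star z) +
      ((n * N : ℕ) : F) ^ 2 * Fuj.nrd z := by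
    simp [Fuj.trd, Fuj.nrd]
    ring
  have e3 : X.t1 (Fuj.trd (y + ((n * N : ℕ) : F) • z)) ^ 2 <
      4 * X.t1 (Fuj.nrd (y + ((n * N : ℕ) : F) • z)) := by
    rw [e1, e2, map_add, map_add, map_mul, map_mul, map_pow, map_natCast, ← hβ]
    have m1 : (n : ℝ) ≤ (n * N : ℕ) := by exact_mod_cast Nat.le_mul_of_pos_right n N0
    have m2 : (1 : ℝ) ≤ (n * N : ℕ) := by exact_mod_cast mul_pos n0 N0
    generalize ((n * N : ℕ) : ℝ) = m at *
    have m3 : |C| + 1 ≤ β + m * X.t1 (Fuj.nrd z) := by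
      nlinarith [neg_abs_le β, mul_le_mul_of_nonneg_right m1 z2.le]
    nlinarith [le_abs_self C, abs_nonneg C, mul_le_mul m2 m3 (by positivity) (by positivity)]
  obtain ⟨γ, hγ⟩ := exists_G0 X (q := y + ((n * N : ℕ) : F) • z) (by
    linarith [sq_nonneg (X.t1 (Fuj.trd (y + ((n * N : ℕ) : F) • z)))])
  refine ⟨γ, hγ ▸ e3, ?_⟩
  convert h1 _ _ hy (h2 _ _ (v_nat_le w n) hN) using 1
  rw [hγ, map_add, map_add, Nat.cast_smul_eq_nsmul, map_nsmul, map_nsmul, smul_smul,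
    ← Nat.cast_mul, Nat.cast_smul_eq_nsmul]
  abel

variable {O K : Type} [CommRing O] [IsDomain O] [IsDiscreteValuationRing O] [Field K] [Algebra O K]

theorem sm_of {w : Pl F} {f : Fw w ≃+* K} (hf : ∀ x, x ∈ Ow w ↔ f x ∈ (algebraMap O K).range)
    {c : K} (h : Valued.v (f.symm c) < 1) : sm O c := by
  obtain ⟨x, rfl⟩ := f.surjective c
  rw [f.symm_apply_apply] at h
  obtain ⟨y, hy⟩ := (hf x).1 h.le
  refine ⟨y, (IsLocalRing.mem_maximalIdeal _).2 ?_, hy⟩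
  rintro ⟨u, rfl⟩
  have h0 : x ≠ 0 := fun e => (u.isUnit.map (algebraMap O K)).ne_zero (by rw [hy, e, map_zero])
  have h1 := mem_Ow.1 ((hf x⁻¹).2 ⟨(u⁻¹ : Oˣ), by rw [map_units_inv, hy, map_inv₀]⟩)
  rw [map_inv₀, inv_le_one₀ (zero_lt_iff.2 ((Valuation.ne_zero_iff _).2 h0))] at h1
  exact absurd h (not_lt.2 h1)

/-- weak approximation at a place -/
theorem pl_apx {L : X.tw.Lc O K} {w : Pl F} (h : X.IsPl w L) (A B g : Matrix (Fin 2) (Fin 2) K) :
    ∃ (γ : X.G0) (τ : ℍ), X.tw.r γ • τ = τ ∧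
      ∀ i j, sm O ((A * ((L.π (X.tw.j γ) : Matrix (Fin 2) (Fin 2) K) - g) * B) i j) := by
  obtain ⟨f, s, hf, hs, hπ, -⟩ := h
  have hsm : ∀ (u : Fw w) q i j, f.symm ((A * s (u • q) * B) i j) =
      u * f.symm ((A * s q * B) i j) := fun u q i j => by
    rw [Algebra.smul_def, map_mul, hs, ← Algebra.smul_def, Matrix.mul_smul, Matrix.smul_mul,
      Matrix.smul_apply, smul_eq_mul, map_mul, f.symm_apply_apply]
  obtain ⟨γ, h1, h2⟩ := wk_apx X (fun q => ∀ i j, Valued.v (f.symm ((A * s q * B) i j)) < 1)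
    (fun p q hp hq i j => by
      rw [map_add, mul_add, add_mul, Matrix.add_apply, map_add]
      exact Valuation.map_add_lt _ (hp i j) (hq i j))
    (fun u q hu hq i j => by
      rw [hsm, map_mul]
      exact (mul_le_of_le_one_left' hu).trans_lt (hq i j))
    (fun q => by
      choose n n0 hn using fun ij : Fin 2 × Fin 2 => den_w (f.symm ((A * s q * B) ij.1 ij.2))
      obtain ⟨p, p0, hp⟩ := exists_nat_lt w
      refine ⟨p * ∏ ij, n ij, mul_pos p0 (Finset.prod_pos fun _ _ => n0 _), fun i j => ?_⟩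
      rw [hsm, ← Finset.prod_erase_mul _ _ (Finset.mem_univ (i, j)), Nat.cast_mul, Nat.cast_mul,
        mul_assoc, mul_assoc, map_mul, map_mul]
      exact (mul_le_of_le_one_right' (mul_le_one' (v_nat_le w _) (hn (i, j)))).trans_lt hp)
    (s.symm g)
  have hg : 0 < (X.tw.r γ : GL (Fin 2) ℝ).val.det := (X.tw.r γ).2
  have he : (X.tw.r γ : GL (Fin 2) ℝ).IsElliptic := by
    rw [Matrix.GeneralLinearGroup.IsElliptic, Matrix.IsElliptic, Matrix.discr_fin_two, coe_r,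
      X.ovr.trace X.a_ne X.b_ne, X.ovr.det X.a_ne X.b_ne]
    linarith
  refine ⟨γ, fixedPt _ he, (gl_smul_eq_self_iff_eq_fixedPt hg he).2 rfl, fun i j => sm_of hf ?_⟩
  have := h2 i j
  rwa [map_sub, s.apply_symm_apply, ← X.coe_j, ← hπ] at this

theorem cmp_pl {L : X.tw.Lc O K} {w : Pl F} (h : X.IsPl w L) {e : K →+* ℂ} (he : IsE X L e) :
    Cmp L e := by
  obtain ⟨f, s, -, hs, hπ, -⟩ := h
  have := L.ch
  have k : ∀ c : F, e (f (algebraMap F (Fw w) c)) = X.tc c := fun c => by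
    by_cases hc : c = 0
    · simp [hc]
    obtain ⟨x, hx⟩ := (isUnit_alg hc).map (algebraMap (AF F) X.DA)
    refine he c x (Units.mk0 _ (by simpa using hc)) hx (Units.ext ?_)
    rw [hπ, hx, QD.cw, qmap_alg, hs, ev_alg]
    ext i j
    fin_cases i <;> fin_cases j <;> simp [d2_val, Matrix.algebraMap_matrix_apply]
  have ho : Fuj.Over (f : Fw w →+* K) (s : X.Dw w →+* Matrix (Fin 2) (Fin 2) K) := hs
  have ha : algebraMap (𝓞 F) (Fw w) X.a ≠ 0 := by
    rw [IsScalarTower.algebraMap_apply (𝓞 F) F (Fw w)]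
    simpa using X.a0
  have hb : algebraMap (𝓞 F) (Fw w) X.b ≠ 0 := by
    rw [IsScalarTower.algebraMap_apply (𝓞 F) F (Fw w)]
    simpa using X.b0
  intro γ τ x hγ
  have t1 := ho.trace ha hb (X.cw w (X.jD (γ : X.Dˣ)))
  have t2 := ho.det ha hb (X.cw w (X.jD (γ : X.Dˣ)))
  rw [QD.cw, trd_map, QD.jD, trd_map] at t1
  rw [QD.cw, nrd_map, QD.jD, nrd_map] at t2
  rw [← tr_sq hγ, lc, map_mul, map_mul, map_inv, Units.val_mul, Units.val_mul,
    Matrix.trace_units_conj', Matrix.det_units_conj', hπ, coe_r, X.ovr.trace X.a_ne X.b_ne,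
    X.ovr.det X.a_ne X.b_ne, map_div₀, map_pow]
  exact congrArg₂ (fun a b => a ^ 2 / b) ((congrArg e t1).trans (k _)) ((congrArg e t2).trans (k _))

end Qx

open Qx

variable {F : Type} [Field F] [NumberField F] (X : QD F)

/-- **CMPX** -/
theorem cmpx : CMPX X := by
  intro O K _ _ _ _ _ L w h e he
  have hc := cmp_pl X h he
  have := L.fr
  have := L.cpl
  refine ⟨hc, ?_, fun U _ hU x y => ?_⟩
  · obtain ⟨γ, τ, h1, h2⟩ := pl_apx X h 1 1 !![1, 0; 0, 0]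
    simp only [one_mul, mul_one] at h2
    obtain ⟨P, a, d, h3, h4⟩ := exists_diag h2
    have h5 : L.π (lc X.tw (L.ι P) γ) = d2 a d := by
      rw [lc, map_mul, map_mul, map_inv, L.πι, h3]
    have h6 := hc γ τ (L.ι P) h1
    rw [h5] at h6
    rcases mu_or (mu_ne _ _) e h6 with k | k
    · exact ⟨τ, L.ι P, γ, a, d, h1, h5, h4, k⟩
    · obtain ⟨S, hS⟩ := exists_swap a⁻¹ d⁻¹
      have h7 : ((a⁻¹ : Kˣ) : K) / (d⁻¹ : Kˣ) = d / a := by
        rw [Units.val_inv_eq_inv_val, Units.val_inv_eq_inv_val, inv_div_inv]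
      refine ⟨τ, L.ι P * L.ι S, γ⁻¹, d⁻¹, a⁻¹, ?_, ?_, h7 ▸ h4, ?_⟩
      · rw [map_inv, inv_smul_eq_iff, h1]
      · rw [lc_right, map_mul, map_mul, map_inv, L.πι, lc_inv, map_inv, h5, d2_inv, hS]
      · rw [h7, map_inv, mu_inv h1, ← k, inv_mul_cancel₀ (mu_ne _ _)]
  · obtain ⟨γ, -, -, h2⟩ := pl_apx X h ((L.π x)⁻¹ : GL (Fin 2) K) (L.π y)
      (L.π x * (L.π y)⁻¹ : GL (Fin 2) K)
    have h3 := hU.1 _ (mem_KK (O := O) (M := L.π (x⁻¹ * X.tw.j γ * y)) fun i j => by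
      convert h2 i j using 3
      rw [mul_sub, sub_mul, ← Units.val_mul, ← Units.val_mul, ← Units.val_mul, ← Units.val_mul,
        inv_mul_cancel_left, inv_mul_cancel, map_mul, map_mul, map_inv, Units.val_one])
    refine ⟨x⁻¹ * X.tw.j γ * y * (L.ι (L.π (x⁻¹ * X.tw.j γ * y)))⁻¹, ?_,
      cm_eq.2 ⟨γ⁻¹, _, h3, ?_⟩⟩
    · rw [map_mul, map_inv, L.πι, mul_inv_cancel]
    · rw [map_inv]
      group

end Vale.Agent.P022K.FI
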