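import Vale.Agent.P022K.FI.Pt

/-!
# P022K, block FI: no automorphisms of the reduced tower (definitions and rows)
-/

set_option autoImplicit false
set_option linter.unusedSectionVars false

open UpperHalfPlane NumberField
open scoped MatrixGroups

noncomputable section

namespace Vale.Agent.P022K.FI

open Vale.Agent.P022K.Sh Vale.Agent.P022.H218.L3

section abstract

variable {G0 G : Type} [Group G0] [Group G] {T : Tw G0 G}
variable {O K : Type} [CommRing O] [IsDomain O] [IsDiscreteValuationRing O] [Field K] [Algebra O K]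

/-- a place different from `w` at which the torus of the point `(τ, x)` splits -/
structure SP (w : T.Lc O K) (τ : ℍ) (x : G) : Type 1 where
  O' : Type
  K' : Type
  [i1 : CommRing O']
  [i2 : IsDomain O']
  [i3 : IsDiscreteValuationRing O']
  [i4 : Field K']
  [i5 : Algebra O' K']
  L : T.Lc O' K'
  ne : w.Ne L
  sa : L.SA
  g : GL (Fin 2) K'
  reg : ∃ (γ : G0) (a d : K'ˣ), T.r γ • τ = τ ∧ g⁻¹ * L.π (lc T x γ) * g = d2 a d ∧
    (d : K') ^ 2 ≠ (a : K') ^ 2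

attribute [instance] SP.i1 SP.i2 SP.i3 SP.i4 SP.i5

variable {w : T.Lc O K} {τ : ℍ} {x : G}

/-- the quotient of the eigenvalues -/
def SP.rho (P : SP w τ x) (c : G) : P.K' :=
  ((P.g⁻¹ * P.L.π c * P.g : GL (Fin 2) P.K') : Matrix (Fin 2) (Fin 2) P.K') 1 1 /
    ((P.g⁻¹ * P.L.π c * P.g : GL (Fin 2) P.K') : Matrix (Fin 2) (Fin 2) P.K') 0 0

variable (w τ x)

/-- the arithmetic of the torus of `(τ, x)` -/
structure Ari : Prop where
  two : ∃ (P P' : SP w τ x) (p : ℕ), P.L.Ne P'.L ∧ (p : P.O') ∈ IsLocalRing.maximalIdeal P.O' ∧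
    IsUnit (p : P'.O')
  pow : ∀ r : ℕ, r.Prime → ∀ γ, T.r γ • τ = τ →
    (∀ P : SP w τ x, ∃ y : P.K', y ^ r = P.rho (lc T x γ)) →
    ∃ β, T.r β • τ = τ ∧ γ * (β ^ r)⁻¹ ∈ T.Z0
  tor : ∀ r : ℕ, r.Prime → ∃ P : SP w τ x, ∀ y : P.K', y ^ r = 1 →
    ∃ β, T.r β • τ = τ ∧ β ^ r ∈ T.Z0 ∧ P.rho (lc T x β) = y

variable (T) in
/-- `s` commutes modulo `Z` with the stabiliser of the point -/
def Cent (τ : ℍ) (x s : G) : Prop :=
  ∀ γ, T.r γ • τ = τ → s * lc T x γ * s⁻¹ * (lc T x γ)⁻¹ ∈ T.Z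

/-- rigidity: the maps `x h ↦ x s ^ n h` behave like automorphisms of curves -/
def Rg (s : G) : Prop := ∀ U ∈ T.Lev, T.Neat U → w.At (KK O K) U → ∃ B : ℕ, ∀ (n : ℕ) (g : G),
  w.π g = 1 → cj g U = U → ∀ (c : Cp T U) (S : Finset (PU T U)), B < S.card →
  (∀ y ∈ S, ∃ h, w.π h = 1 ∧ cm T U (x * h) = c ∧ y = pm T U τ (x * h) ∧
    pm T U τ (x * s ^ n * h) = pm T U τ (x * h * g)) →
  ∀ h, w.π h = 1 → cm T U (x * h) = c → pm T U τ (x * s ^ n * h) = pm T U τ (x * h * g)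

/-- `s` acts trivially -/
def Tv (s : G) : Prop := ∃ γ, ∃ κ ∈ KK O K ⊔ Zl K, ∃ z ∈ T.Z, T.r γ • τ = τ ∧
  s = lc T x γ * w.ι κ * z

variable (T) in
/-- correspondences have finitely many fixed points -/
def FF : Prop := ∀ U ∈ T.Lev, T.Neat U → ∀ g, g ∉ U → ∃ R, T.FxRep U (dc U g U) R

variable (T) in
/-- elliptic elements with the same multiplier have equivalent fixed points -/
def CJ : Prop := ∀ (γ γ' : G0) (τ τ' : ℍ), T.r γ • τ = τ → T.r γ' • τ' = τ' →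
  T.mu γ τ = T.mu γ' τ' → T.mu γ τ ^ 2 ≠ 1 → ∃ δ, τ' = T.r δ • τ

/-- every component contains ordinary points, and `ker π` permutes the components transitively -/
def EXO (e : K →+* ℂ) : Prop := (∃ τ x, Ord w e τ x) ∧
  ∀ U ∈ T.Lev, w.At (KK O K) U → ∀ x y : G, ∃ h, w.π h = 1 ∧ cm T U (x * h) = cm T U y

variable (T) in
/-- semilinear automorphisms conjugate the multipliers -/
def MUL : Prop := ∀ σ θ, T.Sl σ θ → ∀ τ x τ' x', T.Pt σ θ τ x τ' x' → ∀ γ γ', T.r γ • τ = τ →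
  T.r γ' • τ' = τ' → lc T x' γ' * (lc T x γ)⁻¹ ∈ T.Z → T.mu γ' τ' = σ (T.mu γ τ)

variable (e : K →+* ℂ) (σ : ℂ ≃+* ℂ) (θ : (G → Mer) → G → Mer)

/-- `th` is the action of `θ` on the ordinary points of level `U` -/
def IsTh (U : Subgroup G) (th : OP w e U → OP w e U) : Prop :=
  ∀ τ x (h : Ord w e τ x) τ' x', T.Pt σ θ τ x τ' x' → (th (om w e U h)).1 = pm T U τ' x'

/-- `ρ` is the right translation by `g` -/
def IsRt (U : Subgroup G) (g : G) (ρ : OP w e U → OP w e U) : Prop :=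
  ∀ τ x (h : Ord w e τ x), (ρ (om w e U h)).1 = pm T U τ (x * g)

/-- the input from geometry: `θ ^ n` and `fw ^ (d n) ∘ g` agree on a component as soon as they
agree at many points -/
def RIGB (d : ℕ) : Prop := ∀ U ∈ T.Lev, T.Neat U → w.At (KK O K) U → ∀ th, IsTh w e σ θ U th →
  ∃ B : ℕ, ∀ (n : ℕ) (g : G), w.π g = 1 → cj g U = U → ∀ ρ, IsRt w e U g ρ →
    ∀ (c : Cp T U) (S : Finset (OP w e U)), B < S.card →
    (∀ y ∈ S, PU.cp T y.1 = c ∧ th^[n] y = (fw w e U)^[d * n] (ρ y)) →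
    ∀ y : OP w e U, PU.cp T y.1 = c → th^[n] y = (fw w e U)^[d * n] (ρ y)

end abstract

section rows

variable {F : Type} [Field F] [NumberField F] (X : QD F)

/-- `e` induces the embedding of `F`, for the factor `L` -/
def IsE {O K : Type} [CommRing O] [IsDomain O] [IsDiscreteValuationRing O] [Field K] [Algebra O K]
    (L : X.tw.Lc O K) (e : K →+* ℂ) : Prop :=
  ∀ (c : F) (x : X.G) (a : Kˣ), (x : X.DA) = algebraMap (AF F) X.DA (algebraMap F (AF F) c) →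
    L.π x = d2 a a → e a = X.tc c

/-- **CENX** -/
def CENX : Prop := CEN X.tw

/-- **CJX** -/
def CJX : Prop := CJ X.tw

/-- **CMPX**: eigenvalue ratios are multipliers; ordinary points exist -/
def CMPX : Prop := X.tw.AllL fun {_ K} _ _ _ _ _ L => ∀ w, X.IsPl w L → ∀ e : K →+* ℂ,
  IsE X L e → Cmp L e ∧ EXO L e

/-- **ARIX**: the arithmetic of the torus of an ordinary point -/
def ARIX : Prop := (X.tw.AllL fun {_ _} _ _ _ _ _ L => ∀ w, X.IsPl w L → L.SA) →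
  X.tw.AllL fun {_ K} _ _ _ _ _ L => ∀ w, X.IsPl w L → ∀ (e : K →+* ℂ) τ x, Ord L e τ x → Ari L τ x

end rows

/-- **NOAUT** -/
def NOAUT : Prop := All fun {_ G} _ _ T => FF T → CEN T → T.AllL fun {O K} _ _ _ _ _ w =>
  ∀ (e : K →+* ℂ), Cmp w e → ∀ (τ : ℍ) (x : G), Ord w e τ x → Ari w τ x →
    (∃ U ∈ T.Lev, T.Neat U ∧ w.At (KK O K) U) → ∀ s, Cent T τ x s → Rg w τ x s → Tv w τ x s

/-- **NOA**: the action of the decomposition group on ordinary points -/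
def NOA : Prop := All fun {_ _} _ _ T => T.PTS → MUL T → FF T → CEN T → CJ T →
  T.AllL fun {O K} _ _ _ _ _ w => ∀ (e : K →+* ℂ), Cmp w e → (∀ τ x, Ord w e τ x → Ari w τ x) →
    ∀ σ θ, T.Sl σ θ → (∀ c, σ (e c) = e c) →
      (∀ U ∈ T.Lev, ∃ th, IsTh w e σ θ U th) ∧ ∀ d, RIGB w e σ θ d → ∀ U ∈ T.Lev, T.Neat U →
        w.At (KK O K) U → ∀ th, IsTh w e σ θ U th → ∀ y, th y = (fw w e U)^[d] y

end Vale.Agent.P022K.FI
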