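import Vale.Agent.P022K.FI.Hk0
import Vale.Agent.P022K.FI.Na0
import Vale.Agent.P022.H916.Ram

/-!
# P022K, block FI: the embeddings attached to a prime of the algebraic integers
-/

set_option autoImplicit false
set_option linter.unusedSectionVars false

open NumberField IsDedekindDomain
open scoped Pointwise

noncomputable section

namespace Vale.Agent.P022K.FI.Hk

open Vale.Agent.P022K.Sh Vale.Agent.P022

theorem int_mem_iff {R : Type} [CommRing R] {I : Ideal R} (hI : I ≠ ⊤) {p : ℕ} (hp : p.Prime)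
    (h : (p : R) ∈ I) (n : ℤ) : (n : R) ∈ I ↔ (p : ℤ) ∣ n := by
  refine ⟨fun hn => ?_, ?_⟩
  · by_contra hc
    obtain ⟨a, b, e⟩ := ((Nat.prime_iff_prime_int.1 hp).irreducible.coprime_iff_not_dvd).2 hc
    refine hI ((Ideal.eq_top_iff_one I).2 ?_)
    have e' := congrArg (Int.cast : ℤ → R) e
    push_cast at e'
    exact e' ▸ I.add_mem (I.mul_mem_left _ h) (I.mul_mem_left _ hn)
  · rintro ⟨m, rfl⟩
    push_cast
    exact I.mul_mem_right _ h

/-- the rational prime below a non zero prime -/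
theorem exists_char {F : Type} [Field F] [NumberField F] (w : Pl F) :
    ∃ p : ℕ, p.Prime ∧ (p : 𝓞 F) ∈ w.asIdeal := by
  have := w.isMaximal
  let _ := Ideal.Quotient.field w.asIdeal
  have : Finite (𝓞 F ⧸ w.asIdeal) := Ideal.finiteQuotientOfFreeOfNeBot _ w.ne_bot
  obtain ⟨p, hp⟩ := CharP.exists (𝓞 F ⧸ w.asIdeal)
  refine ⟨p, CharP.char_is_prime (𝓞 F ⧸ w.asIdeal) p, Ideal.Quotient.eq_zero_iff_mem.1 ?_⟩
  rw [map_natCast, CharP.cast_eq_zero]

variable {p : ℕ} [Fact p.Prime]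

/-- the prime of an embedding -/
def prm {K : Type} [Field K] (f : K →+* CS p) : Ideal (𝓞 K) where
  carrier := {x | ‖f x‖ < 1}
  add_mem' {a b} ha hb := by
    change ‖f ((a : K) + b)‖ < 1
    rw [map_add]
    exact (IsUltrametricDist.norm_add_le_max _ _).trans_lt (max_lt ha hb)
  zero_mem' := by simp
  smul_mem' c x hx := by
    change ‖f ((c : K) * x)‖ < 1
    rw [map_mul, norm_mul]
    exact mul_lt_one_of_nonneg_of_lt_one_right (CS.norm_le_one p f c) (norm_nonneg _) hx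

theorem mem_prm {K : Type} [Field K] {f : K →+* CS p} {x : 𝓞 K} : x ∈ prm f ↔ ‖f x‖ < 1 := Iff.rfl

theorem prm_prime {K : Type} [Field K] (f : K →+* CS p) : (prm f).IsPrime := by
  refine ⟨fun h => ?_, fun {a b} h => ?_⟩
  · have h1 : (1 : 𝓞 K) ∈ prm f := h ▸ Submodule.mem_top
    simp [mem_prm] at h1
  · by_contra hc
    simp only [mem_prm, not_or, not_lt] at hc
    change ‖f ((a : K) * b)‖ < 1 at h
    rw [map_mul, norm_mul] at h
    exact h.not_ge (one_le_mul_of_one_le_of_one_le hc.1 hc.2)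

theorem p_mem_prm {K : Type} [Field K] (f : K →+* CS p) : (p : 𝓞 K) ∈ prm f := by
  rw [mem_prm, show ((p : 𝓞 K) : K) = p from rfl, map_natCast]
  exact CS.norm_p_lt p

/-- every prime above `p` comes from an embedding -/
theorem exists_prm {P : Ideal (𝓞 Qb)} (hP : P.IsPrime) (h : (p : 𝓞 Qb) ∈ P) :
    ∃ f : Qb →+* CS p, prm f = P := by
  let f : Qb →+* CS p := (IsAlgClosed.lift (R := ℚ) (S := Qb) (M := CS p)).toRingHom
  have e : ∀ Q : Ideal (𝓞 Qb), Q.IsPrime → (p : 𝓞 Qb) ∈ Q → ∀ n : ℤ,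
      (n : 𝓞 ℚ) ∈ below (algebraMap ℚ Qb) Q ↔ (p : ℤ) ∣ n := fun Q hQ h n => by
    rw [below, Ideal.mem_comap, map_intCast]
    exact int_mem_iff hQ.ne_top Fact.out h n
  obtain ⟨g, hg⟩ := H916.exists_smul (algebraMap ℚ Qb) hP (prm_prime f) (Ideal.ext fun x => by
    obtain ⟨n, rfl⟩ : ∃ n : ℤ, (n : 𝓞 ℚ) = x :=
      ⟨Rat.ringOfIntegersEquiv x, by
        rw [← eq_intCast Rat.ringOfIntegersEquiv.symm, RingEquiv.symm_apply_apply]⟩
    rw [e P hP h, e _ (prm_prime f) (p_mem_prm f)])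
  refine ⟨f.comp (g : GQ).toRingEquiv.toRingHom, Ideal.ext fun x => ?_⟩
  rw [← Ideal.smul_mem_pointwise_smul_iff (a := (g : GQ)) (S := P), ← hg]
  rfl

section

variable {F : Type} [Field F] [NumberField F] (w : Pl F) (f : F →+* CS p)

theorem norm_le_iff (h : prm f = w.asIdeal) (x : F) : ‖f x‖ ≤ 1 ↔ w.valuation F x ≤ 1 := by
  have key : ∀ y : F, w.valuation F y ≤ 1 → ∃ n : 𝓞 F, ‖f y‖ = ‖f n‖ ∧
      w.valuation F y = w.valuation F n := fun y hy => by
    obtain ⟨n, d, e⟩ := w.exists_primeCompl_mul_eq_of_integer y hy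
    have hd : (d : 𝓞 F) ∉ w.asIdeal := d.2
    have h1 : ‖f (d : 𝓞 F)‖ = 1 :=
      le_antisymm (CS.norm_le_one p f _) (not_lt.1 fun h1 => hd (h.le (mem_prm.2 h1)))
    refine ⟨n, ?_, ?_⟩
    · rw [show ((n : 𝓞 F) : F) = y * (d : 𝓞 F) from e.symm, map_mul, norm_mul, h1, mul_one]
    · rw [show ((n : 𝓞 F) : F) = y * algebraMap _ F (d : 𝓞 F) from e.symm, map_mul,
        (w.valuation_eq_one_iff_notMem (K := F)).2 hd, mul_one]
  refine ⟨fun hx => ?_, fun hx => ?_⟩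
  · by_contra hc
    have h0 : x ≠ 0 := by
      rintro rfl
      simp at hc
    have h1 : w.valuation F x⁻¹ < 1 := by
      rw [map_inv₀]
      exact inv_lt_one_of_one_lt₀ (not_le.1 hc)
    obtain ⟨n, h2, h3⟩ := key _ h1.le
    have h4 : ‖f n‖ < 1 := mem_prm.1 (h ▸ (w.valuation_lt_one_iff_mem (K := F) n).1 (h3 ▸ h1))
    rw [← h2, map_inv₀, norm_inv] at h4
    exact h4.not_ge ((one_le_inv₀ (norm_pos_iff.2 ((map_ne_zero f).2 h0))).2 hx)
  · obtain ⟨n, h2, -⟩ := key x hx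
    exact h2 ▸ CS.norm_le_one p f n

/-- the extension to the completion -/
theorem exists_ext (h : prm f = w.asIdeal) : ∃ E : Fw w →+* CS p, Continuous E ∧
    (∀ x, E (algebraMap F _ x) = f x) ∧ ∀ c, ‖E c‖ ≤ 1 ↔ c ∈ Ow w := by
  let f' : WithVal (w.valuation F) →+* CS p := f.comp (WithVal.equiv _).toRingHom
  have hp0 : (p : WithVal (w.valuation F)) ≠ 0 := fun e => by
    have := congrArg f' e
    rw [map_natCast, map_zero] at this
    exact (Fact.out : p.Prime).ne_zero (Nat.cast_eq_zero.1 this)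
  have hp1 : 0 < ‖(p : CS p)‖ := norm_pos_iff.2 (Nat.cast_ne_zero.2 (Fact.out : p.Prime).ne_zero)
  have hc : Continuous f' := by
    refine continuous_of_continuousAt_zero f' (Metric.tendsto_nhds.2 fun ε hε => ?_)
    obtain ⟨n, hn⟩ := exists_pow_lt_of_lt_one hε (CS.norm_p_lt p)
    have ho := (Valued.isOpen_valuationSubring (WithVal (w.valuation F))).preimage
      (continuous_mul_const ((p : WithVal (w.valuation F)) ^ n)⁻¹)
    filter_upwards [ho.mem_nhds (by simp)] with x hx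
    have h1 : ‖f' (x * ((p : WithVal (w.valuation F)) ^ n)⁻¹)‖ ≤ 1 := (norm_le_iff w f h _).2 hx
    rw [map_mul, map_inv₀, map_pow, map_natCast, norm_mul, norm_inv, norm_pow,
      mul_inv_le_iff₀ (pow_pos hp1 n), one_mul] at h1
    rw [map_zero, dist_zero_right]
    exact h1.trans_lt hn
  let E : Fw w →+* CS p := (UniformSpace.Completion.extensionHom f' hc).comp
    (HeightOneSpectrum.adicCompletion.equiv F w).toRingHom
  have hE : Continuous E := UniformSpace.Completion.continuous_extension.comp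
    (HeightOneSpectrum.adicCompletion.continuous_toCompletion F w)
  have hx : ∀ x, E (algebraMap F _ x) = f x := fun x =>
    UniformSpace.Completion.extensionHom_coe f' hc (WithVal.toVal _ x)
  refine ⟨E, hE, hx, fun c => ?_⟩
  have hA : IsClopen {c : Fw w | ‖E c‖ ≤ 1} := by
    simp only [← mem_closedBall_zero_iff]
    exact (IsUltrametricDist.isClopen_closedBall (0 : CS p) one_ne_zero).preimage hE
  have hB : IsClopen {c : Fw w | c ∈ Ow w} := Valued.isClopen_valuationSubring (Fw w)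
  refine (w.denseRange_algebraMap F).induction_on c ?_ fun x => ?_
  · have := (hA.inter hB).union (hA.compl.inter hB.compl)
    convert this.isClosed using 1
    ext c
    simp only [Set.mem_ofPred_eq, Set.mem_union, Set.mem_inter_iff, Set.mem_compl_iff]
    tauto
  · rw [hx, norm_le_iff w f h, ← w.valuedAdicCompletion_eq_valuation' x]
    rfl

end

open Polynomial in
/-- the residue field is that of the algebraic integers -/
theorem near_int (f : Qb →+* CS p) {z : CS p} (h : ‖z‖ ≤ 1) : ∃ a : 𝓞 Qb, ‖z - f a‖ < 1 := by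
  by_contra hcon
  push Not at hcon
  obtain ⟨n, hn, h1⟩ := CS.tor p z (le_antisymm h (by simpa using hcon 0))
  have : NeZero n := ⟨hn.ne'⟩
  obtain ⟨ζ, hζ⟩ := HasEnoughRootsOfUnity.exists_primitiveRoot Qb n
  have e := congrArg (eval₂RingHom f z) (X_pow_sub_one_eq_prod hn hζ)
  simp only [map_sub, map_pow, map_one, map_prod, coe_eval₂RingHom, eval₂_X, eval₂_C] at e
  rw [e, norm_prod] at h1
  refine h1.not_ge (Finset.one_le_prod fun a ha => ?_)
  exact hcon ⟨a, IsIntegral.of_pow hn (by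
    rw [(mem_nthRootsFinset hn 1).1 ha]
    exact isIntegral_one)⟩

theorem norm_pow_sub_lt {a b : CS p} (ha : ‖a‖ ≤ 1) (h : ‖a - b‖ < 1) (n : ℕ) :
    ‖a ^ n - b ^ n‖ < 1 := by
  have hb : ‖b‖ ≤ 1 := by
    rw [show b = a + -(a - b) by ring]
    exact (IsUltrametricDist.norm_add_le_max _ _).trans (max_le ha (by rw [norm_neg]; exact h.le))
  induction n with
  | zero => simp
  | succ n ih =>
    rw [show a ^ (n + 1) - b ^ (n + 1) = a * (a ^ n - b ^ n) + b ^ n * (a - b) by ring]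
    refine (IsUltrametricDist.norm_add_le_max _ _).trans_lt (max_lt ?_ ?_) <;> rw [norm_mul]
    · exact mul_lt_one_of_nonneg_of_lt_one_right ha (norm_nonneg _) ih
    · exact mul_lt_one_of_nonneg_of_lt_one_right (by
        rw [norm_pow]
        exact pow_le_one₀ (norm_nonneg _) hb) (norm_nonneg _) h

/-- an element of the decomposition group extends to an isometry -/
theorem exists_iso (f : Qb →+* CS p) (g : GQ) {Q : ℕ} (hQ : 0 < Q)
    (h : ∀ x : 𝓞 Qb, g • x - x ^ Q ∈ prm f) : ∃ s : CS p ≃+* CS p, (∀ z, ‖s z‖ = ‖z‖) ∧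
      (∀ a, s (f a) = f (g a)) ∧ ∀ z, ‖z‖ ≤ 1 → ‖s z - z ^ Q‖ < 1 := by
  obtain ⟨s, h1, h2⟩ := CS.homog_int p f (f.comp g.toRingEquiv.toRingHom) fun a => by
    change a ∈ prm f ↔ g • a ∈ prm f
    rw [← (prm_prime f).pow_mem_iff_mem Q hQ]
    exact ⟨fun h' => by simpa using add_mem (h a) h', fun h' => by simpa using sub_mem h' (h a)⟩
  refine ⟨s, h1, h2, fun z hz => ?_⟩
  obtain ⟨a, ha⟩ := near_int f hz
  have h3 : ‖f (g a) - f a ^ Q‖ < 1 := by
    rw [← map_pow, ← map_sub]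
    exact h a
  rw [show s z - z ^ Q = s (z - f a) + ((f (g a) - f a ^ Q) + -(z ^ Q - f a ^ Q)) by
    rw [map_sub, h2]
    change _ = s z - f (g a) + _
    ring]
  refine (IsUltrametricDist.norm_add_le_max _ _).trans_lt (max_lt (by rwa [h1]) ?_)
  refine (IsUltrametricDist.norm_add_le_max _ _).trans_lt (max_lt h3 ?_)
  rw [norm_neg]
  exact norm_pow_sub_lt hz ha Q

variable {O K : Type} [CommRing O] [IsDomain O] [IsDiscreteValuationRing O] [Field K] [Algebra O K]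

theorem qq_eq_pow [Finite (IsLocalRing.ResidueField O)] (E : K →+* CS p)
    (h : ∀ c, ‖E c‖ ≤ 1 ↔ ig O c) : ∃ f, 0 < f ∧ qq O = p ^ f := by
  have h1 : (p : O) ∈ IsLocalRing.maximalIdeal O := fun hu => by
    obtain ⟨u, e⟩ := hu.exists_right_inv
    have h2 := congrArg (fun x => ‖E (algebraMap O K x)‖) e
    simp only [map_mul, map_natCast, map_one, norm_mul, norm_one] at h2
    exact (mul_lt_one_of_nonneg_of_lt_one_left (norm_nonneg _) (CS.norm_p_lt p)
      ((h _).2 ⟨u, rfl⟩)).ne h2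
  have : CharP (IsLocalRing.ResidueField O) p := (CharP.charP_iff_prime_eq_zero Fact.out).2 (by
    rw [← map_natCast (IsLocalRing.residue O)]
    exact (IsLocalRing.residue_eq_zero_iff _).2 h1)
  let _ := Fintype.ofFinite (IsLocalRing.ResidueField O)
  obtain ⟨n, -, e⟩ := FiniteField.card (IsLocalRing.ResidueField O) p
  exact ⟨n, n.2, by rw [qq, Nat.card_eq_fintype_card, e]⟩

/-- `σ` is an isometry over `e`, congruent to the power `Q` -/
structure Dec (ι : ℂ ≃+* CS p) (e : K →+* ℂ) (Q : ℕ) (σ : ℂ ≃+* ℂ) : Prop where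
  iso : ∀ c, ‖ι (σ c)‖ = ‖ι c‖
  fix : ∀ c, σ (e c) = e c
  pow : ∀ c, ‖ι c‖ ≤ 1 → ‖ι (σ c - c ^ Q)‖ < 1

/-- **EMB**, without multipliers -/
theorem emb0 {F : Type} [Field F] [NumberField F] (X : QD F) (L : X.tw.Lc O K) (w : Pl F)
    (hw : X.IsPl w L) (j : F →+* Qb) (io : Qb →+* ℂ) (hj : X.Emb j io) (P : Ideal (𝓞 Qb))
    (hP : P.IsPrime) (hb : below j P = w.asIdeal) :
    ∃ (p : ℕ) (_ : Fact p.Prime) (ι : ℂ ≃+* CS p) (e : K →+* ℂ),
      (∀ c, ‖ι (e c)‖ ≤ 1 ↔ ig O c) ∧ IsE X L e ∧ (∃ f, 0 < f ∧ qq O = p ^ f) ∧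
      (∀ x : 𝓞 Qb, ‖ι (io x)‖ < 1 ↔ x ∈ P) ∧
      ∀ Q, 0 < Q → ∀ g ∈ GK j, (∀ x : 𝓞 Qb, g • x - x ^ Q ∈ P) →
        ∃ σ, Tw.Ext io g σ ∧ Dec ι e Q σ := by
  obtain ⟨p, hp, h1⟩ := exists_char w
  have : Fact p.Prime := ⟨hp⟩
  rw [← hb, below, Ideal.mem_comap, map_natCast] at h1
  obtain ⟨f, rfl⟩ := exists_prm hP h1
  have : Countable Qb := Cardinal.mk_le_aleph0_iff.1
    ((Algebra.IsAlgebraic.cardinalMk_le_max ℚ Qb).trans (by simp))
  obtain ⟨ι, hι⟩ := CS.exists_iota p io f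
  obtain ⟨E, c1, c2, c3⟩ := exists_ext w (f.comp j) hb
  obtain ⟨e0, s, e1, e2, e3, -⟩ := hw
  have hi : ∀ c, ‖E (e0.symm c)‖ ≤ 1 ↔ ig O c := fun c => by
    rw [c3, e1, RingEquiv.apply_symm_apply, ig]
  have := L.fin
  refine ⟨p, inferInstance, ι, (ι.symm.toRingHom.comp E).comp e0.symm.toRingHom,
    fun c => ?_, fun c x a hx ha => ?_, qq_eq_pow (E.comp e0.symm.toRingHom) hi,
    fun x => by rw [hι, mem_prm], fun Q hQ g hg h => ?_⟩
  · change ‖ι (ι.symm (E (e0.symm c)))‖ ≤ 1 ↔ _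
    rw [RingEquiv.apply_symm_apply, hi]
  · have h2 : X.cw w x = algebraMap (Fw w) _ (algebraMap F _ c) := by
      rw [hx]
      ext <;> rfl
    have h3 := congrFun (congrFun (e3 x) 0) 0
    rw [ha, d2_val, h2, e2, Matrix.algebraMap_matrix_apply] at h3
    have h4 : (a : K) = e0 (algebraMap F _ c) := by simpa using h3
    change ι.symm (E (e0.symm a)) = _
    rw [h4, RingEquiv.symm_apply_apply, c2, RingEquiv.symm_apply_eq, ← hj]
    exact (hι _).symm
  · obtain ⟨t, t1, t2, t3⟩ := exists_iso f g hQ h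
    have hc : Continuous t := (AddMonoidHomClass.isometry_of_norm t t1).continuous
    have t4 : ∀ c, t (E c) = E c := fun c =>
      (w.denseRange_algebraMap F).induction_on c (isClosed_eq (hc.comp c1) c1) fun x => by
        rw [c2, RingHom.comp_apply, t2, hg]
    refine ⟨ι.trans (t.trans ι.symm), fun a => ?_, fun c => ?_, fun c => ?_, fun c hc => ?_⟩
    · change ι.symm (t (ι (io a))) = _
      rw [hι, t2, RingEquiv.symm_apply_eq, hι]
    · change ‖ι (ι.symm (t (ι c)))‖ = _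
      rw [RingEquiv.apply_symm_apply, t1]
    · change ι.symm (t (ι (ι.symm (E (e0.symm c))))) = ι.symm (E (e0.symm c))
      rw [RingEquiv.apply_symm_apply, t4]
    · rw [map_sub, map_pow]
      change ‖ι (ι.symm (t (ι c))) - _‖ < 1
      rw [RingEquiv.apply_symm_apply]
      exact t3 _ hc

/-- **EMB** -/
theorem emb {F : Type} [Field F] [NumberField F] (X : QD F) (hC : CMPX X) (L : X.tw.Lc O K)
    (w : Pl F) (hw : X.IsPl w L) (j : F →+* Qb) (io : Qb →+* ℂ) (hj : X.Emb j io)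
    (P : Ideal (𝓞 Qb)) (hP : P.IsPrime) (hb : below j P = w.asIdeal) :
    ∃ (p : ℕ) (_ : Fact p.Prime) (D : Emb L p), EXO L D.e ∧ IsE X L D.e ∧
      (∃ f, 0 < f ∧ qq O = p ^ f) ∧ (∀ x : 𝓞 Qb, ‖D.ι (io x)‖ < 1 ↔ x ∈ P) ∧
      ∀ Q, 0 < Q → ∀ g ∈ GK j, (∀ x : 𝓞 Qb, g • x - x ^ Q ∈ P) →
        ∃ σ, Tw.Ext io g σ ∧ Dec D.ι D.e Q σ := by
  obtain ⟨p, hp, ι, e, h1, h2, h3⟩ := emb0 X L w hw j io hj P hP hb
  obtain ⟨h4, h5⟩ := hC O K L w hw e h2
  exact ⟨p, hp, ⟨ι, e, h1, h4⟩, h5, h2, h3⟩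

end Vale.Agent.P022K.FI.Hk
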