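import Vale.Agent.P022K.FI.Oc2
import Vale.Agent.P022K.FI.Na0

/-!
# P022K, block FI: the number of periodic ordinary points (row OCNT)
-/

set_option autoImplicit false
set_option linter.unusedSectionVars false

open UpperHalfPlane WithZero Module
open scoped MatrixGroups

noncomputable section

namespace Vale.Agent.P022K.FI.Oc

open Vale.Agent.P022K.Sh Vale.Agent.P022K.FI.Lv Vale.Agent.P022K.Ih

variable {G0 G : Type} [Group G0] [Group G] {T : Tw G0 G} {U : Subgroup G}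

/-! ## fixed points of correspondences -/

instance : T.Z0.Normal := MonoidHom.normal_ker _

theorem fxr_symm {p q : ℍ × G × G0} (h : T.FxR U p q) : T.FxR U q p := by
  obtain ⟨δ, u, hu, h1, h2, h3⟩ := h
  refine ⟨δ⁻¹, u⁻¹, inv_mem hu, by rw [h1, map_inv, inv_smul_smul], by rw [h2, map_inv]; group, ?_⟩
  have := Subgroup.Normal.conj_mem inferInstance _ (inv_mem h3) δ⁻¹
  convert this using 1
  group

theorem fxr_trans {p q r : ℍ × G × G0} (h : T.FxR U p q) (h' : T.FxR U q r) : T.FxR U p r := by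
  obtain ⟨δ, u, hu, h1, h2, h3⟩ := h
  obtain ⟨ε, v, hv, k1, k2, k3⟩ := h'
  refine ⟨ε * δ, u * v, mul_mem hu hv, by rw [k1, h1, map_mul, mul_smul],
    by rw [k2, h2, map_mul]; group, ?_⟩
  have := mul_mem (Subgroup.Normal.conj_mem inferInstance _ h3 ε) k3
  convert this using 1
  group

theorem fxr_refl (p : ℍ × G × G0) : T.FxR U p p :=
  ⟨1, 1, one_mem _, by simp, by simp, by simp⟩

theorem fx_fin {S : Set G} {I : Type} (F : I → ℍ × G × G0) (ha : ∀ i, T.IsFx S (F i))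
    (h : ∃ R, T.FxRep U S R) : ∃ (n : ℕ) (f : I → Fin n), ∀ i k, f i = f k → T.FxR U (F i) (F k) := by
  obtain ⟨R, -, h⟩ := h
  choose q hq using fun i => (h _ (ha i)).exists
  refine ⟨_, fun i => R.equivFin ⟨q i, (hq i).1⟩, fun i k e => fxr_trans (hq i).2 (fxr_symm ?_)⟩
  rw [show q i = q k from congrArg Subtype.val (R.equivFin.injective e)]
  exact (hq k).2

theorem ff (hT : T.Ok) (hL : T.LEFT) : FF T := fun U hU hn g hg =>
  ((hL U hU hn).2.2 _ (cor_dc (hT.fi _ (hT.conj _ hU _) _ hU)) (by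
    rintro ⟨u, hu, v, hv, e⟩
    refine hg ?_
    rw [show g = u⁻¹ * v⁻¹ by rw [← mul_one u⁻¹, e]; group]
    exact mul_mem (inv_mem hu) (inv_mem hv))).1

theorem fin_Cp (hT : T.Ok) (hU : U ∈ T.Lev) : Finite (Cp T U) := by
  obtain ⟨S, hS⟩ := hT.fin U hU
  refine Finite.of_surjective (fun s : S => cm T U s) fun c => ?_
  obtain ⟨s, hs, h⟩ := hS c.out
  exact ⟨⟨s, hs⟩, (cm_eq.2 h).trans (DoubleCoset.out_eq' _ _ c)⟩

theorem h0_left {f : G → ℂ} (hf : f ∈ T.H0 (Representation.trivial ℂ G0 ℂ) U) (γ : G0) (x : G) :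
    f (T.j γ * x) = f x := by
  simpa [Tw.lt] using (congrFun (hf.2 γ) (T.j γ * x)).symm

variable {O K : Type} [CommRing O] [IsDomain O] [IsDiscreteValuationRing O] [Field K] [Algebra O K]
variable {w : T.Lc O K} {e : K →+* ℂ}

/-! ## components -/

theorem h0_sl (hT : T.Ok) (sa : w.SA) (h : w.At (KK O K) U) (hU : U ∈ T.Lev) {f : G → ℂ}
    (hf : f ∈ T.H0 (Representation.trivial ℂ G0 ℂ) (U0 w U)) {y : G} (h1 : aw w y ∈ U)
    (h2 : ∃ g1 k : GL (Fin 2) K, g1.det = 1 ∧ Dl w 0 k ∧ w.π y = g1 * k) (x : G) :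
    f (x * y) = f x := by
  obtain ⟨g, k, hg, hk, e⟩ := h2
  obtain ⟨γ, u, hu, e'⟩ := sa _ (U0_lev (w := w) hT hU) (x * aw w y) g hg
  rw [← aw_mul w y, e, map_mul, ← mul_assoc, ← mul_assoc,
    hf.1 _ _ ((mem_U0 h hU).2 (iota_Oe hk)), e', hf.1 _ _ hu, h0_left hf,
    hf.1 _ _ ((mem_U0 h hU).2 ⟨by rwa [aw_of w (pi_aw w y)], by rw [pi_aw]; exact dl_one⟩)]

theorem finrank_h0 (hT : T.Ok) (sa : w.SA) (h : w.At (KK O K) U) (hU : U ∈ T.Lev) :
    finrank ℂ (T.H0 (Representation.trivial ℂ G0 ℂ) (U0 w U)) = Nat.card (Cp T U) := by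
  have := fin_Cp hT hU
  have := Fintype.ofFinite (Cp T U)
  let φ : (Cp T U → ℂ) →ₗ[ℂ] T.H0 (Representation.trivial ℂ G0 ℂ) (U0 w U) :=
    { toFun := fun f => ⟨fun x => f (cm T U x),
        fun x u hu => congrArg f (cm_eq.2 ⟨1, u, hu.1, by simp⟩).symm, fun γ => funext fun x =>
          congrArg f (cm_eq.2 ⟨γ, 1, one_mem _, by simp⟩)⟩
      map_add' := fun _ _ => rfl
      map_smul' := fun _ _ => rfl }
  rw [← (LinearEquiv.ofBijective φ ⟨fun f g e => funext fun c => ?_, fun f =>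
    ⟨fun c => f.1 c.out, Subtype.ext (funext fun x => ?_)⟩⟩).finrank_eq,
    finrank_fintype_fun_eq_card, Nat.card_eq_fintype_card]
  · rw [← DoubleCoset.out_eq' _ _ c]
    exact congrFun (congrArg Subtype.val e) c.out
  · obtain ⟨γ, u, hu, e⟩ := cm_eq.1 (DoubleCoset.out_eq' _ _ (cm T U x)).symm
    obtain ⟨h1, h2⟩ := (At_mem h hU).1 hu
    obtain ⟨c, -, hc⟩ := (mem_KZ w).1 h2
    show f.1 (cm T U x).out = _
    rw [e, h0_sl hT sa h hU f.2 h1 (ex_sl hc), h0_left f.2]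

/-! ## periodic points -/

theorem s_conj (a d : Kˣ) : gK K (sO (O := O)) * d2 a d * (gK K (sO (O := O)))⁻¹ = d2 d a := by
  rw [mul_inv_eq_iff_eq_mul]
  ext i j
  simp only [ent]
  fin_cases i <;> fin_cases j <;> simp [d2_val, sO]

theorem fix_iff (hT : T.Ok) (hc : Cmp w e) {τ : ℍ} {x : G} (h : Ord w e τ x) (m : ℕ) :
    (fw w e U)^[m] (om w e U h) = om w e U h ↔
      ∃ γ, T.r γ • τ = τ ∧ (w.ι (tt w ^ m))⁻¹ * lc T x γ ∈ U := by
  rw [fw_iter hT hc, eq_comm]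
  refine Subtype.ext_iff.trans <| pm_eq.trans ⟨fun ⟨γ, u, hu, h1, h2⟩ => ⟨γ, h1.symm, ?_⟩,
    fun ⟨γ, h1, h2⟩ => ⟨γ, _, inv_mem h2, h1.symm, by rw [lc]; group⟩⟩
  rw [eq_inv_mul_iff_mul_eq.2 h2, lc]
  simpa [mul_assoc] using hu

theorem mem_iff (h : w.At (KK O K) U) (hU : U ∈ T.Lev) {y : G} {a d : Kˣ} (hy : w.π y = d2 a d)
    (m : ℕ) : (w.ι (tt w ^ m))⁻¹ * y ∈ U ↔ y ∈ Oe w U m := by
  rw [At_mem h hU, Oe, Set.mem_ofPred_eq, hy, dl_d2]
  simp only [map_mul, map_inv, aw_iota, w.πι, inv_one, one_mul, hy, tt, d2_pow, d2_inv, d2_mul,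
    one_pow]
  rw [d2_mem w, Units.val_mul, Units.val_inv_eq_inv_val, Units.val_pow_eq_pow_val, map_mul,
    map_inv₀, map_pow, inv_mul_eq_iff_eq_mul₀ (pow_pos (Lv.pos w w.ϖ) m).ne', mul_comm]

theorem diag_U0 (h : w.At (KK O K) U) (hU : U ∈ T.Lev) {u : G} (hu : u ∈ U) {a d : Kˣ}
    (hy : w.π u = d2 a d) : u ∈ U0 w U :=
  (mem_U0 h hU).2 ((mem_iff h hU hy 0).1 (by simpa using hu))

theorem sm_of {a d : Kˣ} {m : ℕ} (hm : 0 < m) (h : Dl w m (d2 a d)) : sm O ((d : K) / a) := by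
  rw [← lt_one w, map_div₀, dl_d2.1 h, mul_div_cancel_left₀ _ (Lv.pos w a).ne']
  exact pow_lt_one₀ zero_le (pi_lt w) hm.ne'

theorem mu_or (hc : Cmp w e) {β : G0} {τ : ℍ} {x : G} {a d : Kˣ} (hβ : T.r β • τ = τ)
    (hd : w.π (lc T x β) = d2 a d) :
    mu (T.r β) τ * e ((d : K) / a) = 1 ∨ mu (T.r β) τ = e ((d : K) / a) := by
  have k := hc β τ x hβ
  have hm := mu_ne (T.r β) τ
  have ha := a.ne_zero
  have hd0 := d.ne_zero
  have he : e ((d : K) / a) ≠ 0 := (map_ne_zero e).2 (div_ne_zero hd0 ha)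
  have k2 : ((d2 a d : GL (Fin 2) K) : Matrix (Fin 2) (Fin 2) K).trace ^ 2 /
      ((d2 a d : GL (Fin 2) K) : Matrix (Fin 2) (Fin 2) K).det =
        (d : K) / a + ((d : K) / a)⁻¹ + 2 := by
    simp only [d2_val, Matrix.trace_fin_two_of, Matrix.det_fin_two_of]
    field_simp
    ring
  rw [hd, k2, map_add, map_add, map_inv₀, map_ofNat] at k
  generalize e ((d : K) / a) = y at *
  generalize mu (T.r β) τ = m at *
  have : (m * y - 1) * (m - y) = 0 := by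
    field_simp at k
    linear_combination -k
  exact (mul_eq_zero.1 this).imp sub_eq_zero.1 sub_eq_zero.1

/-- every ordinary point is periodic -/
theorem per (hT : T.Ok) (hF : FF T) (hc : Cmp w e) (hU : U ∈ T.Lev) (hn : T.Neat U)
    (h : w.At (KK O K) U) (c : OP w e U) : ∃ n, 0 < n ∧ (fw w e U)^[n] c = c := by
  induction c using OP.ind with | _ τ x hx => ?_
  obtain ⟨γ, a, d, h1, h2, h3, -⟩ := id hx
  have hg : lc T x γ ∉ U := fun hg => by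
    have := (d2_mem w).1 (h2 ▸ h.2 _ hg)
    rw [← lt_one w, map_div₀, this, div_self (Lv.pos w a).ne'] at h3
    exact h3.false
  obtain ⟨n, f, hf⟩ := fx_fin (S := dc U (lc T x γ) U) (fun n : ℕ => (τ, x * w.ι (tt w ^ n), γ))
    (fun n => ⟨h1, 1, one_mem _, 1, one_mem _, by
      have := (comm_iota w (u := lc T x γ) (g := tt w ^ n)
        (by rw [h2, tt, d2_pow]; exact d2_comm _ _ _ _)).eq
      show lc T (x * _) γ = _
      rw [lc_right, mul_assoc, this]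
      group⟩) (hF U hU hn _ hg)
  obtain ⟨i, k, hik, e1⟩ := Finite.exists_ne_map_eq_of_infinite f
  wlog hlt : i < k generalizing i k
  · exact this k i hik.symm e1.symm (by omega)
  obtain ⟨δ, u, hu, k1, k2, -⟩ := hf i k e1
  obtain ⟨j, rfl⟩ := Nat.exists_eq_add_of_lt hlt
  refine ⟨j + 1, j.succ_pos, (fw_inj hT hc U).iterate i ?_⟩
  rw [← Function.iterate_add_apply, fw_iter hT hc, fw_iter hT hc]
  exact Subtype.ext (pm_eq.2 ⟨δ, u, hu, k1, k2⟩).symm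

theorem key (hT : T.Ok) (hc : Cmp w e) (hn : T.Neat U) {m : ℕ} {τ τ' : ℍ} {x x' : G} {γ γ' : G0}
    (hx : Ord w e τ x) (hx' : Ord w e τ' x') (e1 : pm T U τ x = pm T U τ' x')
    (h1 : T.r γ • τ = τ) (h2 : (w.ι (tt w ^ m))⁻¹ * lc T x γ ∈ U)
    (h1' : T.r γ' • τ' = τ') (h2' : (w.ι (tt w ^ m))⁻¹ * lc T x' γ' ∈ U) :
    ∃ δ, ∃ u ∈ U, (∃ a d, w.π u = d2 a d) ∧ τ' = T.r δ • τ ∧ x' = T.j δ * x * u ∧
      δ * γ * δ⁻¹ * γ'⁻¹ ∈ T.Z0 := by
  obtain ⟨δ, u, hu, rfl, rfl⟩ := pm_eq.1 e1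
  obtain ⟨a, d, hd⟩ := (hx.left δ).diag hT hc hx'
  refine ⟨δ, u, hu, ⟨a, d, hd⟩, rfl, rfl, ?_⟩
  have c := (comm_iota w (u := u) (g := tt w ^ m)
    (by rw [hd, tt, d2_pow]; exact d2_comm _ _ _ _)).inv_left.inv_right.eq
  have k : γ'⁻¹ * (δ * γ * δ⁻¹) ∈ T.Z0 := hn (T.j δ * x * u) _ (T.mem_Gam.2 (by
    have := mul_mem (inv_mem h2') (mul_mem (mul_mem (inv_mem hu) h2) hu)
    rw [← mul_assoc u⁻¹, c] at this
    show lc T _ _ ∈ U
    rw [lc_mul, lc_inv, lc_right T _ u (δ * γ * δ⁻¹), lc_left]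
    convert this using 1
    group)) (T.r δ • τ) (by
      simp only [map_mul, map_inv, mul_smul, inv_smul_smul, h1]
      exact inv_smul_eq_iff.2 h1'.symm)
  exact Subgroup.Normal.mem_comm inferInstance k

theorem flip {m : ℕ} {x : G} {γ : G0} {a d : Kˣ} (k1 : w.π (lc T x γ) = d2 a d)
    (k2 : lc T x γ ∈ Oe w U m) :
    w.π (lc T (x * (w.ι (gK K (sO (O := O))))⁻¹) γ⁻¹) = d2 d⁻¹ a⁻¹ ∧
      lc T (x * (w.ι (gK K (sO (O := O))))⁻¹) γ⁻¹ ∈ Oe w U m := by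
  have e1 : w.π (lc T (x * (w.ι (gK K (sO (O := O))))⁻¹) γ⁻¹) = d2 d⁻¹ a⁻¹ := by
    rw [lc_right, lc_inv]
    simp only [map_mul, map_inv, w.πι, inv_inv, k1, d2_inv]
    exact s_conj _ _
  refine ⟨e1, ?_, ?_⟩
  · rw [lc_right, lc_inv]
    simp only [map_mul, map_inv, aw_iota, inv_one, one_mul, mul_one]
    exact inv_mem k2.1
  · rw [e1, dl_d2, Units.val_inv_eq_inv_val, Units.val_inv_eq_inv_val, map_inv₀, map_inv₀,
      dl_d2.1 (show Dl w m (d2 a d) from k1 ▸ k2.2), mul_inv, inv_mul_cancel_right₀ (pow_pos (Lv.pos w w.ϖ) m).ne']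

theorem cross (hT : T.Ok) (hc : Cmp w e) (hU : U ∈ T.Lev) (h : w.At (KK O K) U) {τ τ' : ℍ}
    {x x' : G} {β β' : G0} (hx : Ord w e τ x) (hx' : Ord w e τ' x') :
    ¬ T.FxR (U0 w U) (τ, x, β) (τ', x' * (w.ι (gK K (sO (O := O))))⁻¹, β') := by
  rintro ⟨δ, u, hu, rfl, k2, -⟩
  obtain rfl : x' = T.j δ * x * (u * w.ι (gK K (sO (O := O)))) := by
    rw [← mul_assoc]
    exact mul_inv_eq_iff_eq_mul.1 k2
  obtain ⟨a, d, hd⟩ := (hx.left δ).diag hT hc hx'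
  rw [map_mul, w.πι] at hd
  have e1 := congrArg (fun g : GL (Fin 2) K => g 0 1) hd
  simp only [ent] at e1
  have e2 : w.π u 0 0 = 0 := by simpa [d2_val, sO] using e1
  simpa [e2] using ((mem_U0 h hU).1 hu).2.pos

/-- the fixed points of `U ^ m` are two copies of the periodic ordinary points -/
theorem fx_data (hT : T.Ok) (hc : Cmp w e) (hU : U ∈ T.Lev) (hn : T.Neat U)
    (h : w.At (KK O K) U) {m : ℕ} (hm : 0 < m) :
    ∃ F : {c : OP w e U | (fw w e U)^[m] c = c} × Bool → ℍ × G × G0,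
      (∀ i, T.IsFx (Oe w U m) (F i)) ∧ (∀ i k, T.FxR (U0 w U) (F i) (F k) → i = k) ∧
      (∀ p, T.IsFx (Oe w U m) p → ∃ i, T.FxR (U0 w U) p (F i)) ∧
      ∀ c, T.mu (F (c, true)).2.2 (F (c, true)).1 * T.mu (F (c, false)).2.2 (F (c, false)).1 = 1 := by
  have h0 : ∀ c : {c : OP w e U | (fw w e U)^[m] c = c}, ∃ γ, T.r γ • c.1.t w e = c.1.t w e ∧
      (w.ι (tt w ^ m))⁻¹ * lc T (c.1.x w e) γ ∈ U := fun c =>
    (fix_iff hT hc (c.1.ord w e) m).1 (by rw [OP.om_eq]; exact c.2)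
  choose γ g1 g2 using h0
  have sU : w.ι (gK K (sO (O := O))) ∈ U := h.1 _ ⟨_, rfl⟩
  refine ⟨fun i => cond i.2 (i.1.1.t w e, i.1.1.x w e, γ i.1)
    (i.1.1.t w e, i.1.1.x w e * (w.ι (gK K (sO (O := O))))⁻¹, (γ i.1)⁻¹), ?_, ?_, ?_, fun c => ?_⟩
  · rintro ⟨c, b⟩
    obtain ⟨a, d, k1, -⟩ := (c.1.ord w e).all hT hc (g1 c)
    have k2 := (mem_iff h hU k1 m).1 (g2 c)
    cases b
    · exact ⟨show T.r (γ c)⁻¹ • _ = _ from map_inv T.r _ ▸ inv_smul_eq_iff.2 (g1 c).symm,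
        (flip k1 k2).2⟩
    · exact ⟨g1 c, k2⟩
  · rintro ⟨c, b⟩ ⟨c', b'⟩ k
    cases b <;> cases b'
    · obtain ⟨δ, u, hu, k1, k2, -⟩ := k
      refine Prod.ext (Subtype.ext (Subtype.ext ?_)) rfl
      rw [c.1.eq w e, c'.1.eq w e]
      exact pm_eq.2 ⟨δ, _, mul_mem (mul_mem (inv_mem sU) hu.1) sU, k1,
        (mul_inv_eq_iff_eq_mul.1 k2).trans (by simp only [cond, mul_assoc])⟩
    · exact (cross hT hc hU h (c'.1.ord w e) (c.1.ord w e) (fxr_symm k)).elim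
    · exact (cross hT hc hU h (c.1.ord w e) (c'.1.ord w e) k).elim
    · obtain ⟨δ, u, hu, k1, k2, -⟩ := k
      refine Prod.ext (Subtype.ext (Subtype.ext ?_)) rfl
      rw [c.1.eq w e, c'.1.eq w e]
      exact pm_eq.2 ⟨δ, u, hu.1, k1, k2⟩
  · rintro ⟨τ, x, β⟩ ⟨p1, p2⟩
    have p1 : T.r β • τ = τ := p1
    have p2 : lc T x β ∈ Oe w U m := p2
    obtain ⟨k, a, d, k0, k1⟩ := p2.2.diag hm
    have kU : w.ι k ∈ U0 w U := (mem_U0 h hU).2 (iota_Oe k0)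
    have q1 : w.π (lc T (x * w.ι k) β) = d2 a d := by
      simp only [lc_right, map_mul, map_inv, w.πι, k1]
    have q2 : lc T (x * w.ι k) β ∈ Oe w U m := by
      have := Oe_mul (Oe_mul ((mem_U0 h hU).1 (inv_mem kU)) p2) ((mem_U0 h hU).1 kU)
      rwa [zero_add, add_zero, ← lc_right] at this
    have q3 := sm_of hm (q1 ▸ q2.2)
    rcases mu_or hc p1 q1 with o | o
    · have hx : Ord w e τ (x * w.ι k) := ⟨β, a, d, p1, q1, q3, o⟩
      have q4 := (mem_iff h hU q1 m).2 q2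
      let c : {c : OP w e U | (fw w e U)^[m] c = c} := ⟨_, (fix_iff hT hc hx m).2 ⟨β, p1, q4⟩⟩
      obtain ⟨δ, u, hu, ⟨a', d', hd⟩, r1, r2, r3⟩ :=
        key hT hc hn hx (c.1.ord w e) (c.1.eq w e) p1 q4 (g1 c) (g2 c)
      exact ⟨(c, true), δ, _, mul_mem kU (diag_U0 h hU hu hd), r1,
        r2.trans (by simp only [mul_assoc]), r3⟩
    · have p1' : T.r β⁻¹ • τ = τ := by rw [map_inv]; exact inv_smul_eq_iff.2 p1.symm
      obtain ⟨q5, q7⟩ := flip q1 q2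
      have q6 : ((a⁻¹ : Kˣ) : K) / (d⁻¹ : Kˣ) = d / a := by
        rw [Units.val_inv_eq_inv_val, Units.val_inv_eq_inv_val, inv_div_inv]
      have hx : Ord w e τ (x * w.ι k * (w.ι (gK K (sO (O := O))))⁻¹) :=
        ⟨β⁻¹, _, _, p1', q5, q6 ▸ q3, by
          rw [q6, map_inv, mu_inv p1, ← o, inv_mul_cancel₀ (mu_ne _ _)]⟩
      have q4 := (mem_iff h hU q5 m).2 q7
      let c : {c : OP w e U | (fw w e U)^[m] c = c} := ⟨_, (fix_iff hT hc hx m).2 ⟨_, p1', q4⟩⟩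
      obtain ⟨δ, u, hu, ⟨a', d', hd⟩, r1, r2, r3⟩ :=
        key hT hc hn hx (c.1.ord w e) (c.1.eq w e) p1' q4 (g1 c) (g2 c)
      have q8 : (gK K (sO (O := O)))⁻¹ * d2 a' d' * (gK K (sO (O := O)))⁻¹ = d2 (-d') (-a') := by
        rw [mul_inv_eq_iff_eq_mul, inv_mul_eq_iff_eq_mul]
        ext i j
        simp only [ent]
        fin_cases i <;> fin_cases j <;> simp [d2_val, sO]
      refine ⟨(c, false), δ, _, mul_mem kU (diag_U0 h hU
        (mul_mem (mul_mem (inv_mem sU) hu) (inv_mem sU)) (by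
          rw [map_mul, map_mul, map_inv, w.πι, hd, q8])), r1,
        (congrArg (· * _) r2).trans (by simp only [mul_assoc]), ?_⟩
      have := Subgroup.Normal.conj_mem inferInstance _ (inv_mem r3) (γ c)⁻¹
      show δ * β * δ⁻¹ * (γ c)⁻¹⁻¹ ∈ T.Z0
      convert this using 1
      group
  · show mu (T.r (γ c)) (c.1.t w e) * mu (T.r (γ c)⁻¹) (c.1.t w e) = 1
    rw [map_inv, mu_inv (g1 c)]
    exact mul_inv_cancel₀ (mu_ne _ _)

theorem fin_fix (hT : T.Ok) (hL : T.LEFT) (hc : Cmp w e) (hU : U ∈ T.Lev) (hn : T.Neat U)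
    (h : w.At (KK O K) U) {m : ℕ} (hm : 0 < m) :
    1 ∉ Oe w U m ∧ {c : OP w e U | (fw w e U)^[m] c = c}.Finite := by
  have := w.fin
  have := Fintype.ofFinite (IsLocalRing.ResidueField O)
  have h1 : 1 ∉ Oe w U m := fun h1 => by
    simpa using (h1.2.d_lt hm)
  obtain ⟨F, f1, f2, -⟩ := fx_data hT hc hU hn h hm
  obtain ⟨n, f, hf⟩ := fx_fin F f1
    ((hL _ (U0_lev hT hU) (neat_le hn inf_le_left)).2.2 _ (cor h hU m) h1).1
  exact ⟨h1, Set.finite_coe_iff.1 (Finite.of_injective (fun c => f (c, true))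
    fun c c' k => congrArg Prod.fst (f2 _ _ (hf _ _ k)))⟩

/-- **OCNT** -/
theorem ocnt (hT : T.Ok) (hL : T.LEFT) (hc : Cmp w e) (sa : w.SA) (hU : U ∈ T.Lev) (hn : T.Neat U)
    (h : w.At (KK O K) U) : ∃ W : Multiset ℂ,
      (∀ n, 0 < n → 2 ∣ n → ({c : OP w e U | (fw w e U)^[n] c = c}.ncard : ℂ) =
        Nat.card (Cp T U) * (qq O : ℂ) ^ n - ps W n) ∧
      ((∃ a ∈ W, a ^ 2 = (qq O : ℂ) ^ 2) ∨ ∃ Al ≤ W, (∀ a ∈ Al, ∃ b ∈ W, a * b = qq O) ∧
        Al.card = 2 * finrank ℂ (T.Om U)) := by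
  classical
  have := w.fin
  have := Fintype.ofFinite (IsLocalRing.ResidueField O)
  have := (hL U hU hn).1
  obtain ⟨l1, l2, l3⟩ := hL _ (U0_lev (w := w) hT hU) (neat_le hn inf_le_left)
  obtain ⟨W, w1, w2⟩ := eig_U hT h hU
  refine ⟨W, ?_, w2⟩
  rintro _ hm ⟨m, rfl⟩
  obtain ⟨h1, hf⟩ := fin_fix hT hL hc hU hn h hm
  have := hf.fintype
  obtain ⟨F, f1, f2, f3, f4⟩ := fx_data hT hc hU hn h hm
  obtain ⟨I, s, r, r1, r2, -⟩ := rep h hU (2 * m)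
  obtain ⟨t1, t2⟩ := (l3 _ (cor h hU _) h1).2 (fun _ => 1) ⟨fun _ _ _ => rfl, fun _ => rfl⟩
    (hO (cor h hU 1) ^ (2 * m)) ((qq O : ℂ) ^ (2 * m) • 1)
    (fun ω x => by rw [one_smul, pow_hO h hU, hk_Oe h hU _ ω.2.2.1])
    (fun f x => by
      rw [one_mul, r1.hk f.2.1, Finset.sum_congr rfl fun i hi =>
        h0_sl hT sa h hU f.2 (r1.mem i hi).1 (r1.mem i hi).2.sl x, Finset.sum_const, r2,
        nsmul_eq_mul, Nat.cast_pow]
      rfl)
    (Finset.univ.image F) ⟨fun p hp => by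
      obtain ⟨i, -, rfl⟩ := Finset.mem_image.1 hp
      exact f1 i, fun p hp => by
      obtain ⟨i, hi⟩ := f3 p hp
      refine ⟨F i, ⟨Finset.mem_image_of_mem _ (Finset.mem_univ _), hi⟩, ?_⟩
      rintro _ ⟨hq, hk⟩
      obtain ⟨k, -, rfl⟩ := Finset.mem_image.1 hq
      rw [f2 k i (fxr_trans (fxr_symm hk) hi)]⟩
  rw [w1 _ hm, map_smul, LinearMap.trace_one, finrank_h0 hT sa h hU,
    Finset.sum_image (g := F) fun i _ k _ e => f2 i k (e ▸ fxr_refl _), Fintype.sum_prod_type,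
    Finset.sum_congr rfl (g := fun _ => -1) fun c _ => ?_] at t2
  · rw [t2, Set.ncard_eq_toFinset_card', Set.toFinset_card]
    simp [mul_comm]
  · have a1 := sub_ne_zero.2 (t1 _ (Finset.mem_image_of_mem F (Finset.mem_univ (c, true))))
    have a2 := sub_ne_zero.2 (t1 _ (Finset.mem_image_of_mem F (Finset.mem_univ (c, false))))
    rw [Fintype.sum_bool]
    field_simp
    linear_combination f4 c

end Vale.Agent.P022K.FI.Oc
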