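import Vale.Agent.P022K.FI.Hk2
import Vale.Agent.P022K.FI.Emb
import Vale.Agent.P022K.FI.Cmpx
import Vale.Agent.P022K.FI.Oc3
import Vale.Agent.P022K.F0.Cf.Rows
import Vale.Agent.P022K.F0.OkA
import Vale.Agent.P022.H916.Fld

/-!
# P022K, block FI: good reduction on cohomology (row GOOD from the reduction data)
-/

set_option autoImplicit false
set_option linter.unusedSectionVars false
set_option linter.style.haveILetI false

open UpperHalfPlane NumberField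
open scoped MatrixGroups

noncomputable section

namespace Vale.Agent.P022K.FI.Hk

open Vale.Agent.P022 Vale.Agent.P022K.Sh Vale.Agent.P022.H218.L3 Vale.Agent.P019P P025H816 P025H746
  P027M.K Vale.Agent.P027M

section abstract

variable {G0 G : Type} [Group G0] [Group G] {T : Tw G0 G} {U : Subgroup G}
  {σ σ₁ : ℂ ≃+* ℂ} {θ θ₁ : (G → Mer) → G → Mer} {n : ℕ}

theorem cz_mem {f : G → ℤ} (hf : f ∈ T.H0 (Representation.trivial ℤ G0 ℤ) U) :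
    Tw.cz f ∈ T.RU U := Tw.mem_RU.2 ⟨fun x u hu => congrArg Int.cast (hf.1 x u hu), fun γ x => by
  have e : f ((T.j γ)⁻¹ * x) = f x := congrFun (hf.2 γ) x
  rw [Tw.cz, Tw.cz, map_intCast, e]⟩

theorem mul_row (ok : T.Ok) : MUL T := fun σ θ s τ x τ' x' pt γ γ' f f' hz =>
  s.is.mu_eq ok ok T.cf T.cf pt f f' hz (by
    rw [ok.com hz]
    exact (inv_mul_cancel_right _ _).symm)

/-- automorphisms over the algebraic numbers act trivially -/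
theorem triv (ok : T.Ok) (io : Qb →+* ℂ) (md : T.Mod)
    (ex : ∀ σ : ℂ ≃+* ℂ, (∀ a, σ (io a) = io a) → ∃ θ, T.Sl σ θ) (hU : U ∈ T.Lev) (ne : T.Neat U)
    (s : T.Sl σ θ) (f : ∀ a, σ (io a) = io a) : (∀ x, Ker (thU s hU) x x) ∧
      ∀ n : ℕ, 0 < n → ∀ a : T.Hc (ZMod n) (ZMod n) U, T.IsGal θ n U a a := by
  refine ⟨fun x => ?_, fun n hn a => ?_⟩
  · obtain ⟨S, I, m1, m2, m3, -, m5⟩ := md U hU
    obtain ⟨x', hx⟩ := s.is.ex_comp hU x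
    refine Ker.right (x' := x') (fun φ => hx φ.1 φ.2) ((m5 x' x).resolve_right ?_)
    rintro ⟨φ, hφ, e1, e0⟩
    have := hx φ (m2 φ hφ) e0
    rw [m3 σ θ s (fun c hc => by
      obtain ⟨a, rfl⟩ := Tw.mem_range_io io (m1 c hc)
      exact f a) φ hφ, e1] at this
    exact one_ne_zero this
  · obtain ⟨S, hS⟩ := Tw.ex_triv ok T.cf T.poi io md ex hU ne hn
    obtain ⟨z, rfl⟩ := Submodule.Quotient.mk_surjective _ a
    exact ⟨z, z, rfl, rfl, fun l => hS σ θ s (fun a _ => f a) _ (Tw.Z1_map z.2 l)⟩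

/-- the action depends only on the restriction to the algebraic numbers -/
theorem chg (ok : T.Ok) (io : Qb →+* ℂ) (md : T.Mod)
    (ex : ∀ σ : ℂ ≃+* ℂ, (∀ a, σ (io a) = io a) → ∃ θ, T.Sl σ θ) (hU : U ∈ T.Lev) (ne : T.Neat U)
    (s : T.Sl σ θ) (s₁ : T.Sl σ₁ θ₁) (f : ∀ a, σ (io a) = σ₁ (io a)) :
    (∀ x x', Ker (thU s hU) x x' → Ker (thU s₁ hU) x x') ∧ ∀ n : ℕ, 0 < n →
      ∀ a a' : T.Hc (ZMod n) (ZMod n) U, T.IsGal θ n U a a' → T.IsGal θ₁ n U a a' := by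
  obtain ⟨θ', s', -, ri⟩ := s.is.ex_inv ok
  obtain ⟨h1, h2⟩ := triv ok io md ex hU ne ((Tw.is_iff.1 s').comp s₁) fun a => by
    rw [RingEquiv.trans_apply, ← f, σ.symm_apply_apply]
  refine ⟨fun x x' k φ h0 => ?_, fun n hn a a' k => ((h2 n hn a).comp s hU hn k).congr hn
    fun φ hφ => (ri U hU _ (s₁.mem U hU φ hφ)).symm⟩
  exact (congrFun (ri U hU _ (s₁.mem U hU φ.1 φ.2)) x').symm.trans (k _ (h1 x φ h0))

variable {O K : Type} [CommRing O] [IsDomain O] [IsDiscreteValuationRing O] [Field K] [Algebra O K]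
  {w : T.Lc O K} {p : ℕ} [Fact p.Prime] [∀ x, CFF ℂ (KX T U x)] {D : Emb w p}

theorem unr_zero (hU : U ∈ T.Lev) (s : T.Sl σ θ) (k : ∀ x, Ker (thU s hU) x x) {f : G → ℤ}
    (hf : f ∈ T.H0 (Representation.trivial ℤ G0 ℤ) U) : θ (Tw.cz f) = Tw.cz f := funext fun x =>
  ((k x).const (sm_thU s hU) (φ := ⟨_, cz_mem hf⟩) (c := f x) (map_intCast _ _).symm).trans
    (by rw [map_intCast, map_intCast, Tw.cz])

namespace Ctx

variable (h : Ctx D U)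

include h

theorem es_zero (s : T.Sl σ θ) (k : ∀ x, Ker (thU s h.lev) x (x * st w)) {f : G → ℤ}
    (hf : f ∈ T.H0 (Representation.trivial ℤ G0 ℤ) U) :
    qq O • θ (θ (Tw.cz f)) - hk (w.To U) U (θ (Tw.cz f)) + Tw.cz f = 0 := by
  haveI := w.fin
  haveI := Fintype.ofFinite (IsLocalRing.ResidueField O)
  have h1 : ∀ (φ : T.RU U) x (m : ℤ), φ.1 x = m → θ φ.1 (x * st w) = m := fun φ x m e =>
    ((k x).const (sm_thU s h.lev) (c := m) (e.trans (map_intCast _ _).symm)).trans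
      (by rw [map_intCast, map_intCast])
  have m1 := s.mem U h.lev _ (cz_mem hf)
  funext x
  have h2 := h1 ⟨_, cz_mem hf⟩ (x * (st w)⁻¹ * (st w)⁻¹) _ rfl
  rw [inv_mul_cancel_right] at h2
  have h3 := h1 ⟨_, m1⟩ _ _ h2
  rw [inv_mul_cancel_right] at h3
  have h4 : ∀ b, θ (Tw.cz f) (x * w.ι (w.tr (some b))) = f (x * (st w)⁻¹ * (st w)⁻¹) := fun b => by
    have r := rel_mul h.sa h.lev h.mx (rel_sa h.sa h.lev x (det_un (algebraMap O K b.out))) (tt w)⁻¹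
    rw [map_inv] at r
    rw [h.at_some m1.2]
    exact Tw.RU_ext m1 (intCast_mem _ _) h2 r
  rw [Pi.add_apply, Pi.sub_apply, Pi.smul_apply, h3, (h.mx.rep_To h.lev).hk m1.2,
    Fintype.sum_option, h.at_none m1.2, h1 ⟨_, cz_mem hf⟩ x _ rfl]
  simp only [h4, Finset.sum_const, Finset.card_univ]
  rw [← Nat.card_eq_fintype_card, ← qq, Tw.cz, Pi.zero_apply]
  ring

theorem nv_rel {x y : G} (r : T.Rel U x y) (φ : T.RU U) : h.nv y φ = h.nv x φ := by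
  obtain ⟨β, -, h1, -⟩ := h.tra r
  exact (h1 φ).1

/-- functions with the same reduction differ by a power -/
theorem root (hc : n.Coprime (qq O)) {a b : T.RU U} {g g' : G → Mer}
    (ha : a.1 = g ^ n) (hb : b.1 = g' ^ n) (H : ∀ τ x, Ord w D.e τ x →
      h.nv x a = 1 ∧ h.nv x b ≤ 1 ∧ h.red x a = h.red x b) : ∃ ψ ∈ T.RU U, a.1 = b.1 * ψ ^ n := by
  have key : ∀ x, ∃ z : KX T U x, T.evK U x a = T.evK U x b * z ^ n := fun x => by
    obtain ⟨τ, y, o, r⟩ := h.ex_ord x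
    obtain ⟨h1, h2, h3⟩ := H τ y o
    have h4 : h.red y b ≠ 0 := h3 ▸ NV.red_ne_zero h1
    have h5 : h.nm y (T.evK U y b) = 1 := Gs.w_eq_one h2 h4
    have h6 : h.nm y (T.evK U y b)⁻¹ = 1 := by rw [map_inv₀, h5, inv_one]
    have h7 : h.nm y (T.evK U y a * (T.evK U y b)⁻¹) = 1 := by
      rw [map_mul, h6, mul_one]
      exact h1
    obtain ⟨_, pt, hp⟩ := h.cf _ (h.ok.fu U h.lev y)
    obtain ⟨z, hz⟩ := (h.gv y).choose_spec.gd.key (D.cast_ne _ hc) h7 (fun P => by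
      obtain ⟨τ', rfl⟩ := hp.onto P
      have := hp.ord (h.neat y) τ' _ (Gs.ne_of_w h7)
      refine MOrd.dvd_pow (τ := τ') (f := g y * (g' y)⁻¹) ?_
      rwa [mul_pow, inv_pow, ← Pi.pow_apply g, ← Pi.pow_apply g', ← ha, ← hb]) (y := 1) (by
      rw [one_pow, NV.red_mul h1.le h6.le, NV.red_inv h5]
      exact ((congrArg (· * (h.red y b)⁻¹) h3).trans (mul_inv_cancel₀ h4)).symm)
    obtain ⟨s, hs⟩ := (ker_refl r.symm).ex
    refine ⟨s z, ?_⟩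
    rw [← map_pow, hz, ← show s (T.evK U y a) = T.evK U x a from hs a,
      ← show s (T.evK U y b) = T.evK U x b from hs b, ← map_mul, mul_comm (T.evK U y a),
      mul_inv_cancel_left₀ (Gs.ne_of_w h5)]
  choose z hz using key
  obtain ⟨ψ, h1, h2⟩ := Tw.ex_RU_all (T := T) (U := U) (f := fun x => z x) fun x => (z x).2
  refine ⟨ψ, h1, Tw.RU_ext_rp a.2 (mul_mem b.2 (pow_mem h1 n)) fun x => ?_⟩
  rw [Pi.mul_apply, Pi.pow_apply, h2]
  exact congrArg Subtype.val (hz _)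

/-- normalised Kummer functions -/
theorem norm (s : T.Sl σ θ) (hn : 0 < n) {z z' : G0 → G → ZMod n} (k : T.KGal θ n U z z') :
    ∃ (g g' : G → Mer) (φ : T.RU U), T.Kum n U g z ∧ T.Kum n U g' z' ∧ φ.1 = g ^ n ∧
      θ φ.1 = g' ^ n ∧ ∀ x, h.nv x φ = 1 := by
  obtain ⟨g, g', k, k', r⟩ := k
  have m := k.pow_mem hn
  have key : ∀ x, ∃ c : ℂ, c ≠ 0 ∧
      h.nm x (T.evK U x ⟨_, m⟩ * algebraMap ℂ (KX T U x) c ^ n) = 1 := fun x => by
    obtain ⟨c, h1, h2⟩ := (h.gv x).scale (f := T.evK U x ⟨_, m⟩)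
      fun e => k.pow_ne x (congrArg Subtype.val e)
    obtain ⟨d, rfl⟩ := IsAlgClosed.exists_pow_nat_eq c hn
    exact ⟨d, fun e => h1 (by rw [e, zero_pow hn.ne']), by rwa [← map_pow, mul_comm]⟩
  choose c h1 h2 using key
  obtain ⟨χ, h3, h4⟩ := Tw.ex_RU_all (T := T) (U := U) (f := fun x => algebraMap ℂ Mer (c x))
    fun x => algebraMap_mem _ _
  have h5 : ∀ x, χ x ≠ 0 := fun x e => (map_ne_zero _).2 (h1 _)
    ((h4 x).symm.trans ((Tw.RU_zero h3 (Tw.rel_rp x)).2 e))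
  refine ⟨g * χ, g' * θ χ, ⟨_, m⟩ * ⟨χ, h3⟩ ^ n, k.mul_RU hn h3 h5,
    k'.mul_RU hn (s.mem U h.lev _ h3) (s.em.ne h.lev h3 h5), (mul_pow _ _ _).symm, ?_, fun x => ?_⟩
  · change θ (g ^ n * χ ^ n) = _
    rw [s.mul U h.lev _ m _ (pow_mem h3 n), r, s.em.pow h.lev h3, mul_pow]
  · rw [← h.nv_rel (Tw.rel_rp x), nv, map_mul, map_pow,
      show T.evK U _ ⟨χ, h3⟩ = algebraMap ℂ _ (c _) from Subtype.ext (h4 x)]
    exact h2 _

theorem unr_one (s : T.Sl σ θ) (i : h.Ine (thU s h.lev)) (hn : 0 < n) (hc : n.Coprime (qq O))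
    (a : T.Hc (ZMod n) (ZMod n) U) : T.IsGal θ n U a a := by
  obtain ⟨z, rfl⟩ := Submodule.Quotient.mk_surjective _ a
  refine ⟨z, z, rfl, rfl, fun l => ?_⟩
  obtain ⟨z', -, k⟩ := Tw.ex_kgal s h.lev hn h.ok h.cf T.poi h.neat (Tw.Z1_map z.2 l)
  obtain ⟨g, g', φ, k, k', e, e', h1⟩ := h.norm s hn k
  obtain ⟨ψ, h2, h3⟩ := h.root hc (a := thU s h.lev φ) e' e fun τ x _ =>
    ⟨((i x).2 φ).1.trans (h1 x), (h1 x).le, ((i x).2 φ).2.symm⟩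
  have h4 : ∀ x, ψ x ≠ 0 := fun x e0 => k'.pow_ne x (by
    rw [← e', show θ φ.1 = _ from h3, Pi.mul_apply, Pi.pow_apply, e0, zero_pow hn.ne', mul_zero])
  exact ⟨g, g * ψ, k, k.mul_RU hn h2 h4, by rw [mul_pow, ← e]; exact h3⟩

theorem es_one (s : T.Sl σ θ) (f : h.Fro (thU s h.lev)) (c : Cor U (w.To U) U) (hn : 0 < n)
    (hc : n.Coprime (qq O)) {a a₁ a₂ : T.Hc (ZMod n) (ZMod n) U} (k : T.IsGal θ n U a a₁)
    (k' : T.IsGal θ n U a₁ a₂) : a₂ - T.hC (ZMod n) (ZMod n) c a₁ + qq O • a = 0 := by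
  obtain ⟨z, z₁, rfl, rfl, k⟩ := k
  obtain ⟨y, z₂, e, rfl, k'⟩ := k'
  obtain ⟨g, g₁, φ, k, k₁, e₀, e₁, h1⟩ := h.norm s hn (k (AddMonoidHom.id _))
  obtain ⟨u, u₂, l, l₂, r⟩ := k' (AddMonoidHom.id _)
  obtain ⟨ψ, hψ, e₂⟩ := (k₁.cob hn l).1 (Tw.mk_eq_mk.1 e.symm)
  have ψ0 : ∀ x, ψ x ≠ 0 := fun x e0 => k₁.pow_ne x (by
    rw [e₂, Pi.mul_apply, Pi.pow_apply ψ, e0, zero_pow hn.ne', mul_zero])
  have k₂ := l₂.mul_RU hn (s.mem U h.lev ψ hψ) (s.em.ne h.lev hψ ψ0)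
  have e₃ : θ (θ φ.1) = (u₂ * θ ψ) ^ n := by
    rw [e₁, e₂, s.mul U h.lev _ (l.pow_mem hn) _ (pow_mem hψ n), r, s.em.pow h.lev hψ, mul_pow]
  have h2 : ∀ φ : T.RU U, (∀ x, h.nv x φ = 1) → ∀ x, h.nv x (thU s h.lev φ) = 1 := fun φ h1 x => by
    rw [← inv_mul_cancel_right x (st w), f.2.1, h1]
  have h3 := h2 φ h1
  have h4 := h2 _ h3
  obtain ⟨χ, h5, h6⟩ := h.root hc (a := thU s h.lev (thU s h.lev φ) * φ ^ qq O)
    (b := h.hpR (thU s h.lev φ)) (g := u₂ * θ ψ * g ^ qq O) (g' := hp (w.To U) U g₁)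
    (by rw [mul_pow, ← e₃, ← pow_mul, mul_comm (qq O), pow_mul, ← e₀]; rfl)
    (by
      change hp (w.To U) U (θ φ.1) = _
      rw [e₁, hp_eq c, hp_eq c, ← Finset.prod_pow]
      rfl) fun τ x o => by
    obtain ⟨v, l⟩ := h.rd.loc τ x o
    obtain ⟨h5, h6⟩ := h.rv_hp l o fun y => (h3 y).le
    refine ⟨by rw [nv, map_mul, map_pow, map_mul, map_pow]; simp [← nv.eq_1, h1, h4], h5,
      (h.emb (l x o)).injective ?_⟩
    have h7 := f.2.2 v τ _ l (ord_back o) (thU s h.lev φ)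
    rw [inv_mul_cancel_right] at h7
    have h8 : v (h.evL x φ) ≤ 1 := ((h.v_evL (l x o) φ).trans (h1 x)).le
    rw [emb_red, emb_red, h6, f.2.2 v τ x l o, ← h7, mul_comm, rv, map_mul, map_pow,
      NV.red_mul (NV.pow_le_one' h8 _) ((h.v_evL (l x o) _).trans (h4 x)).le, NV.red_pow h8]
    rfl
  have h7 := ((k₂.mul hn (k.pow hn (qq O))).cob hn (k₁.hp hn c)).2 ⟨χ, h5, by
    rw [mul_pow, ← e₃, ← pow_mul, mul_comm (qq O), pow_mul, ← e₀]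
    refine h6.trans ?_
    change hp (w.To U) U (θ φ.1) * _ = _
    rw [e₁, hp_eq c, hp_eq c, ← Finset.prod_pow]
    rfl⟩
  rw [sub_add_eq_add_sub, sub_eq_zero]
  exact Tw.mk_eq_mk (a := z₂ + qq O • z) (b := T.hZ _ c z₁) |>.2 h7

end Ctx

omit [∀ x, CFF ℂ (KX T U x)] in
/-- good reduction in level `U` -/
theorem good_lev (noa : NOA) (ok : T.Ok) (ff : FF T) (cen : CEN T) (cj : CJ T) (sa : w.SA)
    (ari : ∀ τ x, Ord w D.e τ x → Ari w τ x)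
    (rd : ∀ U ∈ T.Lev, T.Neat U → w.At (KK O K) U → ∀ [∀ x, CFF ℂ (KX T U x)], RD D U)
    (io : Qb →+* ℂ) (md : T.Mod) (ex : ∀ σ : ℂ ≃+* ℂ, (∀ a, σ (io a) = io a) → ∃ θ, T.Sl σ θ)
    (hU : U ∈ T.Lev) (ne : T.Neat U) (mx : w.At (KK O K) U) (s₁ : T.Sl σ₁ θ₁)
    (f : ∀ a, σ (io a) = σ₁ (io a)) :
    (Dec D.ι D.e 1 σ₁ → w.Unr σ U) ∧ (Dec D.ι D.e (qq O) σ₁ → w.ES σ U) := by
  have inst : ∀ U ∈ T.Lev, ∀ x, CFF ℂ (KX T U x) := fun U hU x => (T.cf _ (ok.fu U hU x)).1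
  have main : ∀ d, Dec D.ι D.e (qq O ^ d) σ₁ → ∃ th, IsTh w D.e σ₁ θ₁ U th ∧
      ∀ y, th y = (fw w D.e U)^[d] y := fun d dec => by
    obtain ⟨h1, h2⟩ := noa _ _ T ok (Tw.pts_of ok T.cf) (mul_row ok) ff cen cj O K w D.e D.cmp ari
      σ₁ θ₁ s₁ dec.fix
    obtain ⟨th, t⟩ := h1 U hU
    refine ⟨th, t, h2 d (fun V hV nV mV th t => ?_) U hU ne mx th t⟩
    haveI := inst V hV
    exact Ctx.rigb ⟨ok, T.cf, T.gen, hV, nV, mV, sa, rd V hV nV mV⟩ s₁ ⟨dec.iso, dec.pow⟩ t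
  haveI := inst U hU
  have h : Ctx D U := ⟨ok, T.cf, T.gen, hU, ne, mx, sa, rd U hU ne mx⟩
  refine ⟨fun dec => ?_, fun dec => ?_⟩
  · obtain ⟨th, t, e⟩ := main 0 (by rwa [pow_zero])
    have i := h.ine s₁ ⟨dec.iso, dec.pow⟩ t e
    exact ⟨fun θ s n hn hc a => (chg ok io md ex hU ne s₁ s fun a => (f a).symm).2 n hn a a
      (h.unr_one s₁ i hn hc a), fun θ s _ hf => unr_zero hU s
        (fun x => (chg ok io md ex hU ne s₁ s fun a => (f a).symm).1 x x (i x).1) hf⟩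
  · obtain ⟨th, t, e⟩ := main 1 (by rwa [pow_one])
    have i := h.fro s₁ ⟨dec.iso, dec.pow⟩ t e
    exact ⟨fun θ s c n hn hc a a₁ a₂ k k' => h.es_one s₁ i c hn hc
      ((chg ok io md ex hU ne s s₁ f).2 n hn _ _ k) ((chg ok io md ex hU ne s s₁ f).2 n hn _ _ k'),
      fun θ s _ hf => h.es_zero s
        (fun x => (chg ok io md ex hU ne s₁ s fun a => (f a).symm).1 _ _ (i.1 x)) hf⟩

end abstract

section rows

variable {F : Type} [Field F] [NumberField F] (X : QD F)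

/-- **RDX**: strong approximation and the reduction data -/
def RDX : Prop := X.tw.AllL fun {O K} _ _ _ _ _ L => ∀ w, X.IsPl w L → ∀ (p : ℕ) [Fact p.Prime]
  (D : Emb L p), IsE X L D.e → L.SA ∧ ∀ U ∈ X.tw.Lev, X.tw.Neat U → L.At (KK O K) U →
    ∀ [∀ x, CFF ℂ (KX X.tw U x)], RD D U

theorem ex_emb : ∃ j io, X.Emb j io := by
  let j : F →+* Qb := (IsAlgClosed.lift (R := ℚ) (S := F) (M := Qb)).toRingHom
  letI := j.toAlgebra
  letI := X.tc.toAlgebra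
  haveI := Tw.alg_Qb
  haveI : IsScalarTower ℚ F Qb := IsScalarTower.of_algebraMap_eq fun a => by simp
  haveI : Algebra.IsAlgebraic F Qb := Algebra.IsAlgebraic.tower_top (K := ℚ) F
  let io : Qb →ₐ[F] ℂ := IsAlgClosed.lift
  exact ⟨j, io, RingHom.ext io.commutes⟩

theorem sa_of (rdx : RDX X) : X.tw.AllL fun {_ _} _ _ _ _ _ L => ∀ w, X.IsPl w L → L.SA := by
  intro O K _ _ _ _ _ L w hw
  obtain ⟨j, io, hj⟩ := ex_emb X
  obtain ⟨P, hP, hb⟩ := H916.exists_above j w.asIdeal w.isPrime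
  obtain ⟨p, _, D, -, he, -⟩ := emb X (cmpx X) L w hw j io hj P hP hb
  exact (rdx O K L w hw p D he).1

/-- **GOOD** from the rows -/
theorem good_of (noa : NOA) (left : X.tw.LEFT) (can : X.CAN) (ari : ARIX X) (rdx : RDX X) :
    X.GOOD := by
  intro O K _ _ _ _ _ L w hw
  refine ⟨sa_of X rdx O K L w hw, fun U hU ne mx j io hj P hP hb g hg σ hσ => ?_⟩
  obtain ⟨p, _, D, -, he, -, -, h1⟩ := emb X (cmpx X) L w hw j io hj P hP hb
  have h2 : ∀ σ₁, Tw.Ext io g σ₁ → ∃ θ₁, X.tw.Sl σ₁ θ₁ := fun σ₁ e => can.ex σ₁ (by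
    rintro _ ⟨c, rfl⟩
    rw [← hj, RingHom.comp_apply, e, hg])
  have h3 := fun σ₁ θ₁ (s₁ : X.tw.Sl σ₁ θ₁) (e : Tw.Ext io g σ₁) =>
    good_lev (σ := σ) noa X.ok (Oc.ff X.ok left) (cenx X) (cjx X) (rdx O K L w hw p D he).1
      (ari (sa_of X rdx) O K L w hw D.e) (rdx O K L w hw p D he).2 io can.mod
      (fun σ e => can.ex σ (by
        rintro _ ⟨c, rfl⟩
        rw [← hj, RingHom.comp_apply, e])) hU ne mx s₁ fun a => (hσ a).trans (e a).symm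
  refine ⟨fun h => ?_, fun h => ?_⟩
  · obtain ⟨σ₁, e, dec⟩ := h1 1 one_pos g hg (by simpa only [pow_one] using h)
    obtain ⟨θ₁, s₁⟩ := h2 σ₁ e
    exact (h3 σ₁ θ₁ s₁ e).1 dec
  · obtain ⟨σ₁, e, dec⟩ := h1 _ (Nat.pos_of_ne_zero (qq_ne L)) g hg h
    obtain ⟨θ₁, s₁⟩ := h2 σ₁ e
    exact (h3 σ₁ θ₁ s₁ e).2 dec

end rows

end Vale.Agent.P022K.FI.Hk
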