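import Vale.Agent.P022K.FI.Br4
import Vale.Agent.P022K.FI.AllB
import Vale.Agent.P022K.FI.Arix
import Vale.Agent.P022K.FI.Hk3

/-!
# P022K, block FI, bridge: strong approximation and the arithmetic of ordinary points
-/

set_option autoImplicit false
set_option linter.unusedSectionVars false
set_option linter.style.haveILetI false

noncomputable section

namespace Vale.Agent.P022K.FI.Br

open Vale.Agent.P022 Vale.Agent.P022K.Sh Vale.Agent.P022K.FI.Hk

variable {F : Type} [Field F] [NumberField F] {X : QD F}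

/-- strong approximation at every place -/
theorem sax (hL : X.tw.LEFT) : X.tw.AllL fun {_ _} _ _ _ _ _ L => ∀ w, X.IsPl w L → L.SA := by
  intro O K _ _ _ _ _ L w hw
  obtain ⟨j, io, hj⟩ := ex_emb X
  obtain ⟨P, hP, hb⟩ := H916.exists_above j w.asIdeal w.isPrime
  obtain ⟨p, _, D, hx, -⟩ := emb X (cmpx X) L w hw j io hj P hP hb
  letI := alg D
  exact sa_of (nlx hw).choose_spec (okx X.ok hL hw D hx).rSA.1

/-- the arithmetic of the torus of an ordinary point -/
theorem arx (hL : X.tw.LEFT) : X.tw.AllL fun {_ K} _ _ _ _ _ L => ∀ w, X.IsPl w L →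
    ∀ (e : K →+* ℂ) τ x, Ord L e τ x → Ari L τ x := arix X (sax hL)

end Vale.Agent.P022K.FI.Br
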