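import Vale.Agent.P025.R2.H816.J17
import Vale.Agent.P022K.Ih.Ps

/-! P022K, block FI, row ZETA (helper69): fixed places of a purely inseparable endomorphism of a
function field over the algebraic closure of a finite field. -/

set_option linter.all false

namespace Vale.Agent.P022K.FI

open Vale.Agent.P019P Vale.Agent.P022K.Ih

namespace Zt

section abstr

open PowerSeries

variable {P : Type*} (Z : ZDat P)

theorem ser {A : Multiset ℂ} (hsc : ∀ m, 0 < m →
      sc Z.σ (fun _ => (1 : ℂ)) m = 1 + (Z.q : ℂ) ^ m - (A.map fun a => a ^ m).sum)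
    {n : ℕ} (hn : 0 < n) :
    (1 - C (1 : ℂ) * X) * (1 - C ((Z.q : ℂ) ^ n) * X) * mk (ac (Z.σ ^ n) (fun _ => (1 : ℂ))) =
      ((A.map fun a => a ^ n).map fun a => (1 : ℂ⟦X⟧) - C a * X).prod := by
  have h1 := ((LD_lin (1 : ℂ)).mul (LD_lin ((Z.q : ℂ) ^ n))).mul
    (LD_ac (Z.σ ^ n) (Z.fin_pow n hn) (fun _ => (1 : ℂ)) rfl (fun _ _ => by simp) (fun _ => rfl))
  rw [pos_add, pos_add] at h1
  have hpos : (pos fun m => -(1 : ℂ) ^ m + -((Z.q : ℂ) ^ n) ^ m +
      sc (Z.σ ^ n) (fun _ => (1 : ℂ)) m) =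
      pos fun m => -((A.map fun a => a ^ n).map fun a => a ^ m).sum := by
    apply pos_congr
    intro m hm
    rw [zhn_sc_pow, hsc (n * m) (Nat.mul_pos hn hm), Multiset.map_map]
    have e1 : (A.map fun a => a ^ (n * m)) = A.map ((fun a => a ^ m) ∘ fun a => a ^ n) := by
      apply Multiset.map_congr rfl
      intro a _
      simp only [Function.comp_apply, pow_mul]
    rw [e1, pow_mul, one_pow]
    ring
  rw [hpos] at h1
  refine LD.left_unique ?_ ?_ h1 (LD_prod (R := ℂ) (A.map fun a => a ^ n))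
  · simp [ac_zero]
  · exact ZTw.constantCoeff_prod_lin _

theorem ne_q {A : Multiset ℂ} (hsc : ∀ m, 0 < m →
      sc Z.σ (fun _ => (1 : ℂ)) m = 1 + (Z.q : ℂ) ^ m - (A.map fun a => a ^ m).sum)
    {n : ℕ} (hn : 0 < n) {a : ℂ} (ha : a ∈ A) : a ^ n ≠ (Z.q : ℂ) ^ n := by
  intro e
  have h := ser Z hsc hn
  obtain ⟨B, hB⟩ := Multiset.exists_cons_of_mem (Multiset.mem_map_of_mem (fun a => a ^ n) ha)
  rw [hB, Multiset.map_cons, Multiset.prod_cons, e, mul_comm (1 - C (1 : ℂ) * X), mul_assoc,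
    ← coe_prod_lin] at h
  have h0 : (1 - C ((Z.q : ℂ) ^ n) * X : ℂ⟦X⟧) ≠ 0 := fun h0 => by
    simpa using congrArg constantCoeff h0
  have h1 := mul_left_cancel₀ h0 h
  set f : Polynomial ℂ := (B.map fun a => 1 - Polynomial.C a * Polynomial.X).prod
  set M := f.natDegree + 2 * Z.g with hM
  have h2 := congrArg (coeff (M + 1)) h1
  rw [Polynomial.coeff_coe, Polynomial.coeff_eq_zero_of_natDegree_lt (by omega), sub_mul, one_mul,
    map_sub, map_one, one_mul, coeff_succ_X_mul, coeff_mk, coeff_mk,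
    ← zhn_ac_cast _ (Z.fin_pow n hn), ← zhn_ac_cast _ (Z.fin_pow n hn), sub_eq_zero,
    Int.cast_inj] at h2
  have e1 := Z.an_large n hn M (by omega)
  have e2 := Z.an_large n hn (M + 1) (by omega)
  rw [h2, e1, show M + 1 + 1 - Z.g = M + 1 - Z.g + 1 by omega] at e2
  have hh : (Z.hh n : ℤ) ≠ 0 := by exact_mod_cast (Z.hh_pos n hn).ne'
  have e3 := sub_left_inj.1 (mul_left_cancel₀ hh e2)
  have hq : (1 : ℤ) < (Z.q : ℤ) ^ n :=
    one_lt_pow₀ (by exact_mod_cast Z.two_le) hn.ne'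
  exact absurd (pow_right_injective₀ (by omega) hq.ne' e3) (by omega)

theorem zdat : ∃ A : Multiset ℂ, A.card = 2 * Z.g ∧
    (∀ a ∈ A, a ≠ 0 ∧ ∀ n, 0 < n → a ^ n ≠ 1 ∧ a ^ n ≠ (Z.q : ℂ) ^ n) ∧
    ∀ j, 0 < j → ({p | (Z.σ ^ j) p = p}.ncard : ℂ) = 1 + (Z.q : ℂ) ^ j - ps A j := by
  classical
  obtain ⟨A, f, hd, h0, h1, hA, hh, hsc⟩ := Z.zeta
  refine ⟨A.filter (· ≠ 0), ?_, fun a ha => ?_, fun j hj => ?_⟩
  · have e1 : (A.map fun a => (1 - Polynomial.C a * Polynomial.X : Polynomial ℂ)).prod =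
        ((A.filter (· ≠ 0)).map fun a => 1 - Polynomial.C a * Polynomial.X).prod := by
      conv_lhs => rw [← Multiset.filter_add_not (· ≠ 0) A, Multiset.map_add, Multiset.prod_add]
      rw [Multiset.prod_eq_one (s := Multiset.map _ (Multiset.filter (fun a => ¬ a ≠ 0) A)),
        mul_one]
      intro x hx
      obtain ⟨a, ha, rfl⟩ := Multiset.mem_map.1 hx
      rw [not_not.1 (Multiset.mem_filter.1 ha).2]
      simp
    have e2 : ∀ a : ℂ, a ≠ 0 → (1 - Polynomial.C a * Polynomial.X : Polynomial ℂ).natDegree = 1 :=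
      fun a ha => by
        rw [Polynomial.natDegree_sub_eq_right_of_natDegree_lt] <;>
          simp [Polynomial.natDegree_C_mul_X a ha]
    have e3 := congrArg Polynomial.natDegree (hA.trans e1)
    rw [Polynomial.natDegree_multiset_prod, Multiset.map_map, Function.comp_def,
      Multiset.map_congr rfl (g := fun _ => 1) fun a ha => e2 a (Multiset.mem_filter.1 ha).2,
      Multiset.map_const', Multiset.sum_replicate, smul_eq_mul, mul_one] at e3
    · rw [← e3]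
      refine le_antisymm (Polynomial.natDegree_map_le.trans hd)
        (Polynomial.le_natDegree_of_ne_zero ?_)
      rw [Polynomial.coeff_map, h1]
      have := Z.two_le
      simp
      omega
    · intro h
      obtain ⟨a, ha, h⟩ := Multiset.mem_map.1 h
      have := e2 a (Multiset.mem_filter.1 ha).2
      rw [h] at this
      simp at this
  · obtain ⟨ha, ha0⟩ := Multiset.mem_filter.1 ha
    refine ⟨ha0, fun n hn => ⟨fun e => ?_, ne_q Z hsc hn ha⟩⟩
    have h2 := hh n hn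
    rw [Multiset.prod_eq_zero (Multiset.mem_map.2 ⟨a, ha, by rw [e, sub_self]⟩)] at h2
    exact (Z.hh_pos n hn).ne' (by exact_mod_cast h2)
  · have e1 : ps (A.filter (· ≠ 0)) j = (A.map fun a => a ^ j).sum := by
      conv_rhs => rw [← Multiset.filter_add_not (· ≠ 0) A, Multiset.map_add, Multiset.sum_add]
      rw [Multiset.sum_eq_zero (s := Multiset.map _ (Multiset.filter (fun a => ¬ a ≠ 0) A)),
        add_zero, ps]
      intro x hx
      obtain ⟨a, ha, rfl⟩ := Multiset.mem_map.1 hx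
      rw [not_not.1 (Multiset.mem_filter.1 ha).2, zero_pow hj.ne']
    rw [e1, ← hsc j hj, sc, finsum_mem_eq_finite_toFinset_sum _ (Z.fin j hj),
      Set.ncard_eq_toFinset_card _ (Z.fin j hj)]
    simp

end abstr

end Zt

variable {k K : Type*} [Field k] [Field K] [Algebra k K]

/-- the places fixed by an endomorphism -/
def Fx (φ : K →ₐ[k] K) : Set (Plk k K) := {P | ∀ x, φ x ∈ P.1 ↔ x ∈ P.1}

/-- the image of `φ` is the field of `Q`-th powers -/
def Pw {L : Type*} [Field L] [Algebra k L] (φ : K →ₐ[k] L) (Q : ℕ) : Prop :=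
  (∀ x, ∃ y, φ y = x ^ Q) ∧ ∀ y, ∃ x, φ y = x ^ Q

theorem Pw.comp {L M : Type*} [Field L] [Algebra k L] [Field M] [Algebra k M] {φ : K →ₐ[k] L}
    {ψ : L →ₐ[k] M} {Q R : ℕ} (h : Pw φ Q) (h' : Pw ψ R) : Pw (ψ.comp φ) (Q * R) := by
  refine ⟨fun x => ?_, fun y => ?_⟩
  · obtain ⟨y, hy⟩ := h'.1 x
    obtain ⟨z, hz⟩ := h.1 y
    exact ⟨z, by rw [AlgHom.comp_apply, hz, map_pow, hy, ← pow_mul, mul_comm]⟩
  · obtain ⟨x, hx⟩ := h.2 y
    obtain ⟨z, hz⟩ := h'.2 x
    exact ⟨z, by rw [AlgHom.comp_apply, hx, map_pow, hz, ← pow_mul, mul_comm]⟩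

theorem Pw.pow {φ : K →ₐ[k] K} {Q : ℕ} (h : Pw φ Q) (j : ℕ) : Pw (φ ^ j) (Q ^ j) := by
  induction j with
  | zero => exact ⟨fun x => ⟨x, by simp⟩, fun x => ⟨x, by simp⟩⟩
  | succ j ih => rw [pow_succ', pow_succ]; exact ih.comp h

theorem Fx.mul {φ ψ : K →ₐ[k] K} {P : Plk k K} (h : P ∈ Fx φ) (h' : P ∈ Fx ψ) : P ∈ Fx (φ * ψ) :=
  fun x => (h (ψ x)).trans (h' x)

theorem Fx.pow {φ : K →ₐ[k] K} {P : Plk k K} (h : P ∈ Fx φ) (j : ℕ) : P ∈ Fx (φ ^ j) := by
  induction j with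
  | zero => exact fun x => Iff.rfl
  | succ j ih => rw [pow_succ]; exact Fx.mul ih h

theorem pow_mem_iff (O : ValuationSubring K) {N : ℕ} (hN : N ≠ 0) (x : K) : x ^ N ∈ O ↔ x ∈ O := by
  rw [← O.valuation_le_one_iff, ← O.valuation_le_one_iff, map_pow, pow_le_one_iff hN]

variable {p m : ℕ} [Fact p.Prime] [CharP k p]

/-- the semilinear isomorphism `φ⁻¹ ∘ Frob` -/
theorem Pw.exists_sig {L : Type*} [Field L] [Algebra k L] {φ : K →ₐ[k] L} (h : Pw φ (p ^ m)) :
    ∃ σ : L ≃+* K, (∀ x, φ (σ x) = x ^ p ^ m) ∧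
      ∀ a : k, σ (algebraMap k L a) = algebraMap k K (a ^ p ^ m) := by
  haveI : CharP L p := charP_of_injective_algebraMap (algebraMap k L).injective p
  choose s hs using h.1
  have inj : Function.Injective φ := φ.toRingHom.injective
  let σ : L →+* K :=
    { toFun := s
      map_one' := inj (by rw [hs, one_pow, map_one])
      map_mul' := fun x y => inj (by rw [map_mul, hs, hs, hs, mul_pow])
      map_zero' := inj (by rw [hs, zero_pow (pow_ne_zero _ (Fact.out : p.Prime).ne_zero), map_zero])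
      map_add' := fun x y => inj (by rw [map_add, hs, hs, hs, add_pow_char_pow]) }
  refine ⟨RingEquiv.ofBijective σ ⟨σ.injective, fun y => ?_⟩, hs, fun a => inj ?_⟩
  · obtain ⟨x, hx⟩ := h.2 y
    exact ⟨x, inj ((hs x).trans hx.symm)⟩
  · exact (hs _).trans (by rw [φ.commutes, map_pow])

variable [CFF k K]

namespace Zt

variable {φ : K →ₐ[k] K} {σ : K ≃+* K} {σ₀ : k ≃+* k}
  {h : ∀ a, σ (algebraMap k K a) = algebraMap k K (σ₀ a)}

theorem fx_iff {N : ℕ} (hN : N ≠ 0) (hσ : ∀ x, φ (σ x) = x ^ N) (P : Plk k K) :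
    P ∈ Fx φ ↔ plEquiv σ σ₀ h P = P := by
  have e : ∀ z, φ z ∈ P.1 ↔ z ∈ (plEquiv σ σ₀ h P).1 := fun z => by
    rw [AuxFAct.mem_plEquiv, ← pow_mem_iff P.1 hN (σ.symm z), ← hσ, σ.apply_symm_apply]
  refine ⟨fun H => Subtype.ext (ValuationSubring.ext _ _ fun z => (e z).symm.trans (H z)),
    fun H z => ?_⟩
  rw [e, H]

omit [CFF k K] in
theorem sig_pow {N : ℕ} (hσ : ∀ x, φ (σ x) = x ^ N) (j : ℕ) (x : K) :
    (φ ^ j) ((σ ^ j) x) = x ^ N ^ j := by
  induction j with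
  | zero => simp
  | succ j ih =>
    rw [pow_succ φ, pow_succ' σ, AlgHom.mul_apply, RingAut.mul_apply, hσ, map_pow, ih, ← pow_mul,
      pow_succ]

theorem fx_pow {N : ℕ} (hN : N ≠ 0) (hσ : ∀ x, φ (σ x) = x ^ N) (j : ℕ) :
    Fx (φ ^ j) = {P | ((plEquiv σ σ₀ h : Equiv.Perm (Plk k K)) ^ j) P = P} := by
  ext P
  rw [plEquiv_pow]
  exact fx_iff (pow_ne_zero j hN) (sig_pow hσ j) P

/-- Lang: a non constant fixed function. -/
theorem exists_fix (hm : 0 < m) (h0 : ∀ a : k, σ₀ a = a ^ p ^ m) {P0 : Plk k K}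
    (hP : plEquiv σ σ₀ h P0 = P0) : ∃ x : K, (∀ a : k, x ≠ algebraMap k K a) ∧ σ x = x := by
  haveI : IsAlgClosed k := CFF.ac K
  set D : Plk k K →₀ ℤ := Finsupp.single P0 (max (dg (can k K) + 1) (gen k K + 1)) with hD
  have hDs : D.mapDomain (plEquiv σ σ₀ h) = D := by rw [hD, Finsupp.mapDomain_single, hP]
  have hl : 2 ≤ Module.finrank k (LL k D) := by
    have h1 : dg D = max (dg (can k K) + 1) (gen k K + 1) := dg_single _ _
    have h2 := RR_large (k := k) (F := K) (D := D) (by omega)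
    omega
  have hmem : ∀ z ∈ LL k D, σ z ∈ LL k D := by
    intro z hz
    by_cases hz0 : z = 0
    · rw [hz0, map_zero]; exact Submodule.zero_mem _
    · rw [mem_LL_dv ((map_ne_zero σ).2 hz0), dv_plEquiv σ σ₀ h, ← hDs, ← Finsupp.mapDomain_add]
      exact fcount_nonneg _ ((mem_LL_dv hz0).1 hz)
  let ψ : LL k D →+ LL k D :=
    { toFun := fun z => ⟨σ z, hmem z z.2⟩
      map_zero' := by ext; simp
      map_add' := fun z w => by ext; simp }
  have hc := lang_card (k := k) (p := p) hm ψ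
    (fun z w e => Subtype.ext (σ.injective (congrArg Subtype.val e))) fun a v => Subtype.ext (by
      show σ (a • v.1) = a ^ p ^ m • σ v.1
      rw [Algebra.smul_def, Algebra.smul_def, map_mul, h, h0])
  by_contra! H
  have H' : ∀ v : {v : LL k D // ψ v = v}, ∃ a : k, a ^ p ^ m = a ∧ v.1.1 = algebraMap k K a := by
    intro v
    have e : σ v.1.1 = v.1.1 := congrArg Subtype.val v.2
    by_contra! H2
    refine H v.1.1 (fun a ha => H2 a ?_ ha) e
    rw [ha, h, h0] at e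
    exact (algebraMap k K).injective e
  choose c hc1 hc2 using H'
  have hQ : 1 < p ^ m := Nat.one_lt_pow hm.ne' (Fact.out : p.Prime).one_lt
  have h3 := AuxFLang.card_fixed (k := k) (p := p) hm
  haveI : Finite {a : k // a ^ p ^ m = a} := Nat.finite_of_card_ne_zero (by omega)
  have h4 := Nat.card_le_card_of_injective (fun v => (⟨c v, hc1 v⟩ : {a : k // a ^ p ^ m = a}))
    fun v w e => Subtype.ext (Subtype.ext (by rw [hc2, hc2, Subtype.mk.inj e]))
  rw [hc, h3] at h4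
  have h5 : (p ^ m) ^ 1 < _ := Nat.pow_lt_pow_right hQ hl
  rw [pow_one] at h5
  omega

theorem exists_Z (hf : ∀ a : k, a ≠ 0 → ∃ n : ℕ, 0 < n ∧ a ^ n = 1) (hm : 0 < m)
    (h0 : ∀ a : k, σ₀ a = a ^ p ^ m) {P0 : Plk k K} (hP : plEquiv σ σ₀ h P0 = P0) :
    ∃ Z : ZDat (Plk k K), Z.σ = plEquiv σ σ₀ h ∧ Z.g = gen k K ∧ Z.q = p ^ m ∧
      Z.prin = prn k K := by
  obtain ⟨x, hx, hσx⟩ := exists_fix hm h0 hP
  refine ⟨{ σ := plEquiv σ σ₀ h
            q := p ^ m
            g := gen k K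
            prin := prn k K
            l := fun D => Module.finrank k (LL k D)
            κ := can k K
            P0 := P0
            two_le := Nat.one_lt_pow hm.ne' (Fact.out : p.Prime).one_lt
            fix0 := hP
            per := pl_per hf σ σ₀ h0 h hx hσx
            fin := fun n hn => pl_fin hm σ σ₀ h0 h hx hσx hn
            deg_prin := ?_
            sig_prin := mapDomain_mem_prn _ _ _
            rr := RR
            l_neg := fun D => LL_neg
            l_prin := fun D => LL_prin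
            l_zero := fun D => LL_zero
            count := ?_ }, rfl, rfl, rfl, rfl⟩
  · rintro _ ⟨z, _, rfl⟩
    exact dg_dv z
  · intro n hn D hD
    rw [plEquiv_pow σ σ₀ h n] at hD ⊢
    have := count_eff (p := p) (Nat.mul_pos hm hn) (σ ^ n) (σ₀ ^ n) (AuxFPer.pow_c h0 n)
      (semi_pow h n) D hD
    rw [← pow_mul, pow_mul (p ^ m), ← pow_mul p]
    exact this

end Zt

/-- **ZETA**: the number of places fixed by the powers of a Frobenius endomorphism. -/
theorem zeta (hf : ∀ a : k, a ≠ 0 → ∃ n : ℕ, 0 < n ∧ a ^ n = 1) (hm : 0 < m) {φ : K →ₐ[k] K}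
    (hφ : Pw φ (p ^ m)) {P0 : Plk k K} (hP : P0 ∈ Fx φ) :
    ∃ A : Multiset ℂ, A.card = 2 * gen k K ∧
      (∀ a ∈ A, a ≠ 0 ∧ ∀ n, 0 < n → a ^ n ≠ 1 ∧ a ^ n ≠ ((p : ℂ) ^ m) ^ n) ∧
      ∀ j, 0 < j → (Fx (φ ^ j)).Finite ∧
        ((Fx (φ ^ j)).ncard : ℂ) = 1 + ((p : ℂ) ^ m) ^ j - ps A j := by
  haveI : IsAlgClosed k := CFF.ac K
  haveI : PerfectRing k p := PerfectField.toPerfectRing p
  obtain ⟨σ, hσ, hσk⟩ := hφ.exists_sig
  have h0 : ∀ a : k, iterateFrobeniusEquiv k p m a = a ^ p ^ m := iterateFrobeniusEquiv_def k p m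
  have h : ∀ a, σ (algebraMap k K a) = algebraMap k K (iterateFrobeniusEquiv k p m a) :=
    fun a => by rw [hσk, h0]
  have hN : p ^ m ≠ 0 := pow_ne_zero _ (Fact.out : p.Prime).ne_zero
  obtain ⟨Z, e1, e2, e3, -⟩ := Zt.exists_Z hf hm h0 ((Zt.fx_iff (h := h) hN hσ P0).1 hP)
  obtain ⟨A, h1, h2, h3⟩ := Zt.zdat Z
  rw [e3, Nat.cast_pow] at h2 h3
  refine ⟨A, e2 ▸ h1, h2, fun j hj => ?_⟩
  rw [Zt.fx_pow (h := h) hN hσ, ← e1]
  exact ⟨Z.fin j hj, h3 j hj⟩

section insep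

open IntermediateField

variable {L : Type*} [Field L] [Algebra k L] [CFF k L]

theorem exists_nc (k K : Type*) [Field k] [Field K] [Algebra k K] [CFF k K] :
    ∃ x : K, ∀ a : k, x ≠ algebraMap k K a := by
  obtain ⟨x, hx, -⟩ := CFF.ex (k := k) (F := K)
  exact ⟨x, fun a ha => hx (ha ▸ isAlgebraic_algebraMap a)⟩

theorem nc_pow {x : K} (hx : ∀ a : k, x ≠ algebraMap k K a) {N : ℕ} (hN : N ≠ 0) (a : k) :
    x ^ N ≠ algebraMap k K a := fun e =>
  (finite_of_notMem hx).1 (IsAlgebraic.of_pow (Nat.pos_of_ne_zero hN)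
    (e ▸ isAlgebraic_algebraMap a))

theorem finrank_pow {x : K} (hx : ∀ a : k, x ≠ algebraMap k K a) {N : ℕ} (hN : N ≠ 0) :
    Module.finrank k⟮x ^ N⟯ K = N * Module.finrank k⟮x⟯ K := by
  have e : pol k (x ^ N) = N • pol k x := by
    ext P
    rw [Finsupp.smul_apply, pol_apply, pol_apply, ord_pow, nsmul_eq_mul,
      mul_max_of_nonneg _ _ (Int.natCast_nonneg N), mul_zero, mul_neg]
  have h1 := dg_pol (nc_pow hx hN)
  rw [e, map_nsmul, dg_pol hx, nsmul_eq_mul] at h1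
  exact_mod_cast h1.symm

omit [CFF k K] [CFF k L] in
/-- degrees along a semilinear embedding -/
theorem finrank_map (f : K →+* L) (hf : f '' Set.range (algebraMap k K) = Set.range (algebraMap k L))
    (x : K) :
    Module.finrank k⟮f x⟯ L = Module.finrank k⟮x⟯ K * Module.finrank f.fieldRange L := by
  have e : (k⟮x⟯.toSubfield).map f = k⟮f x⟯.toSubfield := by
    rw [adjoin_toSubfield, adjoin_toSubfield, RingHom.map_field_closure, Set.image_union, hf,
      Set.image_singleton]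
  have e2 : (k⟮f x⟯.toSubfield).comap f = k⟮x⟯.toSubfield := by
    rw [← e, Subfield.comap_map]
  have h1 := Subfield.finrank_comap k⟮f x⟯.toSubfield f
  have h2 := Subfield.relfinrank_mul_finrank_top (A := k⟮f x⟯.toSubfield) (B := f.fieldRange)
    (by rw [← e]; rintro _ ⟨y, -, rfl⟩; exact ⟨y, rfl⟩)
  rw [← h1, e2] at h2
  exact h2.symm

/-- the field of `p ^ e`-th powers has index `p ^ e` -/
theorem finrank_frob (k L : Type*) [Field k] [Field L] [Algebra k L] [CFF k L] [CharP L p]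
    (e : ℕ) :
    Module.finrank (iterateFrobenius L p e).fieldRange L = p ^ e := by
  haveI : IsAlgClosed k := CFF.ac L
  obtain ⟨x, hx⟩ := exists_nc k L
  have hN : p ^ e ≠ 0 := pow_ne_zero _ (Fact.out : p.Prime).ne_zero
  have h1 := finrank_map (k := k) (iterateFrobenius L p e) (by
    ext y
    constructor
    · rintro ⟨_, ⟨a, rfl⟩, rfl⟩
      exact ⟨a ^ p ^ e, by rw [map_pow, iterateFrobenius_def]⟩
    · rintro ⟨a, rfl⟩
      obtain ⟨b, rfl⟩ := IsAlgClosed.exists_pow_nat_eq a (Nat.pos_of_ne_zero hN)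
      exact ⟨_, ⟨b, rfl⟩, by rw [map_pow, iterateFrobenius_def]⟩) x
  rw [iterateFrobenius_def, finrank_pow hx hN, mul_comm] at h1
  haveI := (finite_of_notMem hx).2
  exact (Nat.eq_of_mul_eq_mul_left Module.finrank_pos h1).symm

omit [CFF k K] in
theorem Pw.finrank {φ : K →ₐ[k] L} (h : Pw φ (p ^ m)) :
    Module.finrank φ.fieldRange L = p ^ m := by
  haveI : CharP L p := charP_of_injective_algebraMap (algebraMap k L).injective p
  have e : φ.fieldRange.toSubfield = (iterateFrobenius L p m).fieldRange := by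
    ext x
    constructor
    · rintro ⟨y, rfl⟩
      obtain ⟨z, hz⟩ := h.2 y
      exact ⟨z, hz.symm⟩
    · rintro ⟨y, rfl⟩
      exact h.1 y
  rw [← finrank_frob k L m, ← e]
  rfl

theorem finite_range (φ : K →ₐ[k] L) : FiniteDimensional φ.fieldRange L := by
  obtain ⟨x, hx⟩ := exists_nc k K
  have hx' : ∀ a : k, φ x ≠ algebraMap k L a := fun a e =>
    hx a (φ.toRingHom.injective (e.trans (φ.commutes a).symm))
  haveI := (finite_of_notMem hx').2
  have h1 := finrank_map (k := k) (φ : K →+* L) (by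
    rw [← Set.range_comp]
    congr 1
    exact funext φ.commutes) x
  have h2 : 0 < Module.finrank k⟮φ x⟯ L := Module.finrank_pos
  exact FiniteDimensional.of_finrank_pos (Nat.pos_of_mul_pos_left (h1 ▸ h2 :))

/-- a purely inseparable embedding has as image a field of `p ^ e`-th powers -/
theorem pw_exists {φ : K →ₐ[k] L} (h : ∀ x : L, ∃ (e : ℕ) (y : K), φ y = x ^ p ^ e) :
    ∃ e, Pw φ (p ^ e) := by
  haveI : CharP L p := charP_of_injective_algebraMap (algebraMap k L).injective p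
  haveI : ExpChar φ.fieldRange p := ExpChar.prime Fact.out
  haveI := finite_range φ
  haveI : IsPurelyInseparable φ.fieldRange L := (isPurelyInseparable_iff_pow_mem _ p).2 fun x => by
    obtain ⟨e, y, hy⟩ := h x
    exact ⟨e, ⟨φ y, y, rfl⟩, hy⟩
  obtain ⟨e, he⟩ := IsPurelyInseparable.finrank_eq_pow φ.fieldRange L p
  have h1 : ∀ x : L, ∃ y, φ y = x ^ p ^ e := fun x => by
    obtain ⟨n, y, hy⟩ := IsPurelyInseparable.minpoly_eq_X_pow_sub_C φ.fieldRange p x
    have h2 := minpoly.aeval φ.fieldRange x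
    have h3 := minpoly.degree_dvd (K := φ.fieldRange) (x := x) (IsIntegral.of_finite _ x)
    rw [hy] at h2 h3
    rw [Polynomial.natDegree_X_pow_sub_C, he] at h3
    obtain ⟨c, hc⟩ := h3
    obtain ⟨z, hz⟩ := y.2
    refine ⟨z ^ c, ?_⟩
    simp only [map_sub, map_pow, Polynomial.aeval_X, Polynomial.aeval_C, sub_eq_zero] at h2
    rw [hc, pow_mul, h2, map_pow]
    exact congrArg (· ^ c) hz
  refine ⟨e, h1, fun y => ?_⟩
  have hle : (iterateFrobenius L p e).fieldRange ≤ φ.fieldRange.toSubfield := by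
    rintro _ ⟨x, rfl⟩
    exact h1 x
  have h2 := Subfield.relfinrank_mul_finrank_top hle
  have h3 : Module.finrank φ.fieldRange.toSubfield L = p ^ e := he
  rw [finrank_frob k L, h3] at h2
  have h4 := Subfield.relfinrank_eq_one_iff.1
    (Nat.eq_of_mul_eq_mul_right (pow_pos (Fact.out : p.Prime).pos e) (h2.trans (one_mul _).symm))
  obtain ⟨x, hx⟩ := h4 (show φ y ∈ φ.fieldRange.toSubfield from ⟨y, rfl⟩)
  exact ⟨x, hx.symm⟩

theorem pw_of_insep {φ : K →ₐ[k] L} (h : ∀ x : L, ∃ (e : ℕ) (y : K), φ y = x ^ p ^ e)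
    (hd : Module.finrank φ.fieldRange L = p ^ m) : Pw φ (p ^ m) := by
  obtain ⟨e, he⟩ := pw_exists h
  rwa [← hd, he.finrank]

/-- the ramification index is the degree at every place: `P` lies over `R` -/
theorem Pw.ord {φ : K →ₐ[k] L} (h : Pw φ (p ^ m)) {P : Plk k L} {R : Plk k K}
    (hP : ∀ x, φ x ∈ P.1 ↔ x ∈ R.1) (y : K) : ord P (φ y) = p ^ m * ord R y := by
  haveI : IsAlgClosed k := CFF.ac K
  haveI : PerfectRing k p := PerfectField.toPerfectRing p
  obtain ⟨σ, hσ, hσk⟩ := h.exists_sig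
  have h1 : ∀ a, σ (algebraMap k L a) = algebraMap k K (iterateFrobeniusEquiv k p m a) :=
    fun a => by rw [hσk, iterateFrobeniusEquiv_def]
  have e : plEquiv σ _ h1 P = R := Subtype.ext (ValuationSubring.ext _ _ fun z => by
    rw [AuxFAct.mem_plEquiv, ← pow_mem_iff P.1 (pow_ne_zero m (Fact.out : p.Prime).ne_zero),
      ← hσ, σ.apply_symm_apply, hP])
  obtain ⟨x, rfl⟩ := σ.surjective y
  rw [hσ, ord_pow, ← e, ord_plEquiv, Nat.cast_pow]

theorem pw_of_ord {φ : K →ₐ[k] L} (h : ∀ x : L, ∃ (e : ℕ) (y : K), φ y = x ^ p ^ e)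
    {P : Plk k L} {R : Plk k K} (hP : ∀ x, φ x ∈ P.1 ↔ x ∈ R.1) {y : K} (hy : ord R y ≠ 0)
    (hd : ord P (φ y) = p ^ m * ord R y) : Pw φ (p ^ m) := by
  obtain ⟨e, he⟩ := pw_exists h
  rw [he.ord hP] at hd
  have : p ^ e = p ^ m := by exact_mod_cast mul_right_cancel₀ hy hd
  rwa [← this]

/-- a purely inseparable embedding is a bijection on places -/
theorem Pw.existsUnique {φ : K →ₐ[k] L} (h : Pw φ (p ^ m)) (R : Plk k K) :
    ∃! P : Plk k L, ∀ x, φ x ∈ P.1 ↔ x ∈ R.1 := by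
  haveI : IsAlgClosed k := CFF.ac K
  haveI : PerfectRing k p := PerfectField.toPerfectRing p
  obtain ⟨σ, hσ, hσk⟩ := h.exists_sig
  have h1 : ∀ a, σ (algebraMap k L a) = algebraMap k K (iterateFrobeniusEquiv k p m a) :=
    fun a => by rw [hσk, iterateFrobeniusEquiv_def]
  have e : ∀ (P : Plk k L) z, φ z ∈ P.1 ↔ z ∈ (plEquiv σ _ h1 P).1 := fun P z => by
    rw [AuxFAct.mem_plEquiv, ← pow_mem_iff P.1 (pow_ne_zero m (Fact.out : p.Prime).ne_zero)
      (σ.symm z), ← hσ, σ.apply_symm_apply]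
  refine ⟨(plEquiv σ _ h1).symm R, fun x => by rw [e, Equiv.apply_symm_apply], fun P hP => ?_⟩
  rw [Equiv.eq_symm_apply]
  exact Subtype.ext (ValuationSubring.ext _ _ fun z => (e P z).symm.trans (hP z))

theorem Pw.gen_eq {φ : K →ₐ[k] L} (h : Pw φ (p ^ m)) : gen k L = gen k K := by
  haveI : IsAlgClosed k := CFF.ac K
  haveI : PerfectRing k p := PerfectField.toPerfectRing p
  obtain ⟨σ, -, hσk⟩ := h.exists_sig
  exact P019P.gen_eq σ (iterateFrobeniusEquiv k p m) fun a => by rw [hσk, iterateFrobeniusEquiv_def]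

end insep

section per

open IntermediateField

namespace Zt

variable {τ : K ≃+* K} {τ₀ : k ≃+* k} {h : ∀ a, τ (algebraMap k K a) = algebraMap k K (τ₀ a)}

/-- every function is rational over a finite field -/
theorem fn_per (hf : ∀ a : k, a ≠ 0 → ∃ n : ℕ, 0 < n ∧ a ^ n = 1) (hm : 0 < m)
    (h0 : ∀ a : k, τ₀ a = a ^ p ^ m) {P0 : Plk k K} (hP : plEquiv τ τ₀ h P0 = P0) (z : K) :
    ∃ n, 0 < n ∧ (τ ^ n) z = z := by
  by_cases hz : z = 0
  · exact ⟨1, one_pos, by rw [hz, map_zero]⟩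
  obtain ⟨Z, e1, -, -, -⟩ := exists_Z hf hm h0 hP
  obtain ⟨n, hn, hD⟩ := Z.exists_fix (dv k z)
  rw [e1, plEquiv_pow, ← dv_plEquiv] at hD
  obtain ⟨c, hc, hcz⟩ := (dv_eq_iff hz ((map_ne_zero _).2 hz)).1 hD.symm
  obtain ⟨d, hd, hcd⟩ := hf c hc
  have fin : ((fun a : k => a • z) '' {a | a ^ d = 1}).Finite := by
    refine Set.Finite.image _ ((Polynomial.nthRoots d (1 : k)).finite_toSet.subset fun a ha => ?_)
    exact (Polynomial.mem_nthRoots hd).2 ha
  obtain ⟨r, hr, h1⟩ := AuxFPer.per_of_finite (τ ^ n).toEquiv fin (by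
    rintro _ ⟨a, ha, rfl⟩
    refine ⟨(τ₀ ^ n) a * c, ?_, ?_⟩
    · show _ = _
      rw [mul_pow, hcd, mul_one, ← map_pow, show a ^ d = 1 from ha, map_one]
    · show (_ * c) • z = (τ ^ n) (a • z)
      rw [Algebra.smul_def a, map_mul, semi_pow h, hcz, mul_smul, Algebra.smul_def])
    (a := z) ⟨1, one_pow d, one_smul _ _⟩
  refine ⟨n * r, Nat.mul_pos hn hr, ?_⟩
  rw [pow_mul]
  have e : ∀ r : ℕ, ((τ ^ n).toEquiv ^ r : Equiv.Perm K) z = ((τ ^ n) ^ r) z := fun r => by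
    induction r with
    | zero => rfl
    | succ r ih => rw [pow_succ', pow_succ', Equiv.Perm.mul_apply, RingAut.mul_apply, ih]; rfl
  rw [← e, h1]

/-- finitely many generators -/
theorem exists_gen (k K : Type*) [Field k] [Field K] [Algebra k K] [CFF k K] :
    ∃ x y : K, ∀ f g : K →+* K, (∀ a, f (algebraMap k K a) = g (algebraMap k K a)) →
      f x = g x → f y = g y → f = g := by
  obtain ⟨x, hx, hfin, hsep⟩ := exists_sep k K
  obtain ⟨y, hy⟩ := Field.exists_primitive_element k⟮x⟯ K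
  refine ⟨x, y, fun f g ha hx hy' => RingHom.ext fun z => ?_⟩
  have hK : ∀ a : k⟮x⟯, algebraMap k⟮x⟯ K a ∈ f.eqLocusField g := fun a =>
    (adjoin_simple_le_iff (K := (f.eqLocusField g).toIntermediateField ha)).2 hx a.2
  have h2 : k⟮x⟯⟮y⟯ ≤ (f.eqLocusField g).toIntermediateField hK := adjoin_simple_le_iff.2 hy'
  rw [hy] at h2
  exact h2 (show z ∈ (⊤ : IntermediateField k⟮x⟯ K) from IntermediateField.mem_top)

end Zt

/-- every place is periodic -/
theorem per (hf : ∀ a : k, a ≠ 0 → ∃ n : ℕ, 0 < n ∧ a ^ n = 1) {φ : K →ₐ[k] K}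
    (hφ : Pw φ (p ^ m)) (P : Plk k K) : ∃ n, 0 < n ∧ P ∈ Fx (φ ^ n) := by
  haveI : IsAlgClosed k := CFF.ac K
  haveI : PerfectRing k p := PerfectField.toPerfectRing p
  obtain ⟨σ, hσ, hσk⟩ := hφ.exists_sig
  have h : ∀ a, σ (algebraMap k K a) = algebraMap k K (iterateFrobeniusEquiv k p m a) :=
    fun a => by rw [hσk, iterateFrobeniusEquiv_def]
  obtain ⟨r, τ, w, hr, hτk, hw, hτw⟩ := exists_frob k K hf (p := p)
  have h0 : ∀ a : k, iterateFrobeniusEquiv k p r a = a ^ p ^ r := iterateFrobeniusEquiv_def k p r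
  have ht : ∀ a, τ (algebraMap k K a) = algebraMap k K (iterateFrobeniusEquiv k p r a) :=
    fun a => by rw [hτk, h0]
  obtain ⟨N, hN, hP⟩ := pl_per hf τ _ h0 ht hw hτw P
  obtain ⟨x, y, hxy⟩ := Zt.exists_gen k K
  have hz : ∀ z : K, ∃ n, 0 < n ∧ ∀ j, (τ ^ (N * (n * j))) z = z := fun z => by
    obtain ⟨n, hn, h1⟩ := Zt.fn_per (h := semi_pow ht N) hf (Nat.mul_pos hr hN)
      (AuxFPer.pow_c h0 N) (P0 := P) (by rw [← plEquiv_pow]; exact hP) z
    exact ⟨n, hn, fun j => by rw [pow_mul, pow_mul]; exact AuxFPer.pow_x h1 j⟩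
  obtain ⟨a, ha, h1⟩ := hz x
  obtain ⟨b, hb, h2⟩ := hz y
  obtain ⟨c, hc, h3⟩ := hz (σ x)
  obtain ⟨d, hd, h4⟩ := hz (σ y)
  set M := N * (a * (b * c * d)) with hM
  have hcomm : ∀ z, (τ ^ M) (σ z) = σ ((τ ^ M) z) := fun z =>
    RingHom.congr_fun (hxy ((τ ^ M : K ≃+* K).toRingHom.comp σ.toRingHom)
      (σ.toRingHom.comp (τ ^ M : K ≃+* K).toRingHom)
      (fun a => by
        show (τ ^ M) (σ _) = σ ((τ ^ M) _)
        rw [hσk, semi_pow ht, semi_pow ht, hσk, map_pow])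
      (by
        show (τ ^ M) (σ _) = σ ((τ ^ M) _)
        rw [h1, hM, show a * (b * c * d) = c * (a * b * d) by ring, h3])
      (by
        show (τ ^ M) (σ _) = σ ((τ ^ M) _)
        have e := h2 (a * c * d)
        rw [show b * (a * c * d) = a * (b * c * d) by ring] at e
        rw [e, hM, show a * (b * c * d) = d * (a * b * c) by ring, h4])) z
  have hM0 : 0 < M := by positivity
  obtain ⟨n, hn, hPn⟩ := AuxFPer.per_of_finite (plEquiv σ _ h) (pl_fin hr τ _ h0 ht hw hτw hM0)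
    (fun Q hQ => by
      rw [Set.mem_setOf_eq, plEquiv_pow] at hQ ⊢
      refine Subtype.ext (ValuationSubring.ext _ _ fun z => ?_)
      conv_rhs => rw [← hQ]
      rw [AuxFAct.mem_plEquiv, AuxFAct.mem_plEquiv, AuxFAct.mem_plEquiv, AuxFAct.mem_plEquiv]
      have e : σ.symm ((τ ^ M).symm z) = (τ ^ M).symm (σ.symm z) := by
        rw [RingEquiv.symm_apply_eq, RingEquiv.symm_apply_eq, hcomm, RingEquiv.apply_symm_apply,
          RingEquiv.apply_symm_apply]
      rw [e]) (a := P) (by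
      rw [Set.mem_setOf_eq, hM, pow_mul]
      exact Function.IsFixedPt.perm_pow hP _)
  refine ⟨n, hn, ?_⟩
  rw [Zt.fx_pow (h := h) (pow_ne_zero _ (Fact.out : p.Prime).ne_zero) hσ]
  exact hPn

/-- **ZETA** without a rational place: pass to a power of `φ`. -/
theorem zeta_pow (hf : ∀ a : k, a ≠ 0 → ∃ n : ℕ, 0 < n ∧ a ^ n = 1) (hm : 0 < m) {φ : K →ₐ[k] K}
    (hφ : Pw φ (p ^ m)) : ∃ N, 0 < N ∧ ∀ M, 0 < M → N ∣ M →
      ∃ A : Multiset ℂ, A.card = 2 * gen k K ∧
        (∀ a ∈ A, a ≠ 0 ∧ ∀ n, 0 < n → a ^ n ≠ 1 ∧ a ^ n ≠ ((p : ℂ) ^ (m * M)) ^ n) ∧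
        ∀ j, 0 < j → (Fx (φ ^ (M * j))).Finite ∧
          ((Fx (φ ^ (M * j))).ncard : ℂ) = 1 + ((p : ℂ) ^ (m * M)) ^ j - ps A j := by
  obtain ⟨P⟩ := exists_place_cff k K
  obtain ⟨N, hN, hP⟩ := per hf hφ P
  refine ⟨N, hN, ?_⟩
  rintro _ hM ⟨c, rfl⟩
  have h1 := hφ.pow (N * c)
  rw [← pow_mul] at h1
  simp only [pow_mul φ (N * c)]
  exact zeta hf (Nat.mul_pos hm hM) h1 (P0 := P) (by rw [pow_mul]; exact Fx.pow hP c)

/-- the fixed places are finite in number -/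
theorem fx_finite (hf : ∀ a : k, a ≠ 0 → ∃ n : ℕ, 0 < n ∧ a ^ n = 1) (hm : 0 < m)
    {φ : K →ₐ[k] K} (hφ : Pw φ (p ^ m)) : (Fx φ).Finite := by
  rcases (Fx φ).eq_empty_or_nonempty with h | ⟨P, hP⟩
  · rw [h]; exact Set.finite_empty
  · obtain ⟨A, -, -, h⟩ := zeta hf hm hφ hP
    simpa using (h 1 one_pos).1

end per

end Vale.Agent.P022K.FI
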