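import Vale.Agent.P022K.FI.Res2
import Vale.Agent.P022K.FI.Zeta
import Vale.Agent.P027M.I.Act

/-!
# P022K, block FI, RES 3: dynamics on discs

`Dk.lim`: two discs with a common sequence of places which tends to both boundaries have the same
norm and branch.  `Dk.step`: functions without pole and of degree at least two contract.
-/

set_option autoImplicit false
set_option linter.unusedSectionVars false
set_option linter.style.haveILetI false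

open PowerSeries Vale.Agent.P019P P025H746 P025H492 Filter Topology Module
open scoped LaurentSeries

noncomputable section

namespace Vale.Agent.P022K.FI.Res

/-! ## pull back of places -/

section pull

variable {k F F' : Type*} [Field k] [Field F] [Algebra k F] [CFF k F] [Field F'] [Algebra k F']
  [CFF k F']

theorem pos_iff {P : Plk k F} {x : F} : 0 < ord P x ↔ x⁻¹ ∉ P.1 := by
  rw [mem_ord, ord_inv]
  omega

/-- the place below `P` -/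
def pb (φ : F →ₐ[k] F') (P : Plk k F') : Plk k F :=
  ⟨P.1.comap (φ : F →+* F'), fun a => by
    rw [ValuationSubring.mem_comap]
    exact (φ.commutes a).symm ▸ P.2.1 a, fun e => by
    have h1 : ∀ x, φ x ∈ P.1 := fun x => by
      have : x ∈ P.1.comap (φ : F →+* F') := e ▸ ValuationSubring.mem_top x
      exact this
    obtain ⟨x, hx⟩ := FI.exists_nc k F
    have h2 : φ x - algebraMap k F' (vl P (φ x)) ≠ 0 := by
      rw [← φ.commutes, ← map_sub, _root_.map_ne_zero, sub_ne_zero]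
      exact hx _
    have h3 := pos_iff.1 ((vl_mem (h1 x)).resolve_left h2)
    rw [← φ.commutes, ← map_sub, ← map_inv₀] at h3
    exact h3 (h1 _)⟩

theorem mem_pb {φ : F →ₐ[k] F'} {P : Plk k F'} {x : F} : x ∈ (pb φ P).1 ↔ φ x ∈ P.1 := Iff.rfl

theorem pb_eq {φ : F →ₐ[k] F'} {P : Plk k F'} {R : Plk k F} (h : ∀ x, φ x ∈ P.1 ↔ x ∈ R.1) :
    pb φ P = R := Subtype.ext (SetLike.ext h)

theorem pos_pb {φ : F →ₐ[k] F'} {P : Plk k F'} {x : F} : 0 < ord (pb φ P) x ↔ 0 < ord P (φ x) := by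
  rw [pos_iff, pos_iff, mem_pb, map_inv₀]

theorem vl_pb {φ : F →ₐ[k] F'} {P : Plk k F'} {x : F} (h : φ x ∈ P.1) :
    vl (pb φ P) x = vl P (φ x) := by
  refine vl_eq ?_
  rcases vl_mem h with e | e
  · rw [← φ.commutes, ← map_sub, _root_.map_eq_zero] at e
    exact Or.inl e
  · rw [← φ.commutes, ← map_sub] at e
    exact Or.inr (pos_pb.2 e)

theorem poles_finite (x : F) : {P : Plk k F | x ∉ P.1}.Finite := by
  by_cases h : x = 0
  · simp [h]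
  · exact (dv_finite h).subset fun P hP e => hP (mem_ord.2 e.ge)

end pull

/-! ## two elementary lemmas -/

theorem tend_one {r : ℕ → ℝ} {c : ℝ} (hc : c < 1) (h0 : ∀ l, 0 ≤ r l) (h1 : ∀ l, r l < 1)
    (h2 : ∀ l, r l ≤ max c (r (l + 1)) * r (l + 1)) {l₀ : ℕ} (h3 : 0 < r l₀) :
    Tendsto r atTop (𝓝 1) := by
  have hm : Monotone r := monotone_nat_of_le_succ fun l =>
    (h2 l).trans (mul_le_of_le_one_left (h0 _) (max_le hc.le (h1 _).le))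
  have hb : BddAbove (Set.range r) := ⟨1, by rintro _ ⟨l, rfl⟩; exact (h1 l).le⟩
  have ht := tendsto_atTop_ciSup hm hb
  have ht' := (tendsto_add_atTop_iff_nat 1).2 ht
  have h4 := le_of_tendsto_of_tendsto' ht ((tendsto_const_nhds.max ht').mul ht') h2
  have h5 : 0 < ⨆ l, r l := h3.trans_le (le_ciSup hb l₀)
  have h6 : ⨆ l, r l ≤ 1 := ciSup_le fun l => (h1 l).le
  have h7 : 1 ≤ max c (⨆ l, r l) := le_of_mul_le_mul_right (by rwa [one_mul]) h5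
  rwa [le_antisymm h6 ((le_max_iff.1 h7).resolve_left (not_le.2 hc))] at ht

variable {C : Type} [NontriviallyNormedField C] [IsUltrametricDist C] [CompleteSpace C]
  [IsAlgClosed C] {K : Type} [Field K] [Algebra C K] [CFF C K]

theorem exists_cyc {ι : Type} [Finite ι] (σ : ι ≃ ι) (ψ : ι → C → C) {r : ℝ} (h0 : 0 ≤ r)
    (hr : r < 1) (h1 : ∀ i a, ‖a‖ ≤ r → ‖ψ i a‖ ≤ r)
    (h2 : ∀ i a a', ‖a‖ ≤ r → ‖a'‖ ≤ r → ‖ψ i a - ψ i a'‖ ≤ r * ‖a - a'‖) :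
    ∃ a : ι → C, ∀ i, ‖a i‖ ≤ r ∧ a (σ i) = ψ i (a i) := by
  haveI := Fintype.ofFinite ι
  let f : (ι → C) → ι → C := fun a i => ψ (σ.symm i) (a (σ.symm i))
  have hm : Set.MapsTo f (Metric.closedBall 0 r) (Metric.closedBall 0 r) := fun a ha => by
    rw [mem_closedBall_zero_iff, pi_norm_le_iff_of_nonneg h0] at ha ⊢
    exact fun i => h1 _ _ (ha _)
  have hf : ContractingWith ⟨r, h0⟩ (hm.restrict f _ _) := by
    refine ⟨hr, LipschitzWith.of_dist_le_mul fun a b => ?_⟩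
    have ha := (pi_norm_le_iff_of_nonneg h0).1 (mem_closedBall_zero_iff.1 a.2)
    have hb := (pi_norm_le_iff_of_nonneg h0).1 (mem_closedBall_zero_iff.1 b.2)
    rw [Subtype.dist_eq, Subtype.dist_eq, dist_eq_norm, dist_eq_norm,
      pi_norm_le_iff_of_nonneg (by positivity)]
    exact fun i => (h2 _ _ _ (ha _) (hb _)).trans
      (mul_le_mul_of_nonneg_left (norm_le_pi_norm (a.1 - b.1) _) h0)
  obtain ⟨a, ha, h3, -⟩ := hf.exists_fixedPoint' Metric.isClosed_closedBall.isComplete hm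
    (Metric.mem_closedBall_self h0) (edist_ne_top _ _)
  refine ⟨a, fun i => ⟨(pi_norm_le_iff_of_nonneg h0).1 (mem_closedBall_zero_iff.1 ha) i, ?_⟩⟩
  have := congrFun h3 (σ i)
  simpa only [f, Equiv.symm_apply_apply] using this.symm

/-! ## effective divisors -/

variable {j j' : C → Plk C K} {h : K} {D : C →₀ ℤ} {η η' : NV C K}

theorem nP_nonneg (D : C →₀ ℤ) (a : C) : 0 ≤ nP D a :=
  Finset.prod_nonneg fun _ _ => zpow_nonneg (norm_nonneg _) _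

theorem nP_zero {a : C} (h : D a ≠ 0) : nP D a = 0 :=
  Finset.prod_eq_zero (Finsupp.mem_support_iff.2 h) (by
    beta_reduce
    rw [sub_self, norm_zero, zero_zpow _ h])

theorem nP_le {a : C} {ρ : ℝ} (hρ : 0 < ρ) (h0 : 0 ≤ D) (h : ∀ b ∈ D.support, ‖a - b‖ ≤ ρ) :
    nP D a ≤ ρ ^ dgD D := by
  rw [← prod_zpow hρ.ne']
  exact Finset.prod_le_prod (fun _ _ => zpow_nonneg (norm_nonneg _) _)
    fun b hb => zpow_le_zpow_left₀ (h0 b) (norm_nonneg _) (h b hb)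

theorem nP_eq {a : C} (h0 : 0 < ‖a‖) (h : ∀ b ∈ D.support, ‖b‖ < ‖a‖) :
    nP D a = ‖a‖ ^ dgD D := by
  rw [← prod_zpow h0.ne']
  exact Finsupp.prod_congr fun b hb => by rw [norm_sub_of_lt (h b hb)]

theorem dgD_nonneg (h0 : 0 ≤ D) : 0 ≤ dgD D := Finset.sum_nonneg fun b _ => h0 b

theorem dgD_sub (D : C →₀ ℤ) (a : C) : dgD (D - Finsupp.single a 1) = dgD D - 1 := by
  rw [dgD_eq, map_sub, dg_sgl, dgD_eq]

theorem sub_nonneg' (h0 : 0 ≤ D) {a : C} (h : 0 < D a) : 0 ≤ D - Finsupp.single a 1 := by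
  classical
  refine sub_nonneg.2 fun b => ?_
  rw [Finsupp.single_apply]
  split_ifs with e'
  · exact e' ▸ h
  · exact h0 b

theorem nP_split {a a₀ : C} (h : D a = 0) (h' : a ≠ a₀) :
    nP D a = ‖a - a₀‖ * nP (D - Finsupp.single a₀ 1) a := by
  classical
  conv_lhs => rw [← add_sub_cancel (Finsupp.single a₀ 1) D]
  rw [nP, nP, Finsupp.prod_add_index (fun _ _ => zpow_zero _), Finsupp.prod_single_index
    (zpow_zero _), zpow_one]
  refine fun b hb _ _ => zpow_add₀ ?_ _ _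
  rw [norm_ne_zero_iff, sub_ne_zero]
  rintro rfl
  simp [h, h'] at hb

theorem exists_rad (hD : ∀ b ∈ D.support, ‖b‖ < 1) :
    ∃ r : ℝ, 0 < r ∧ r < 1 ∧ ∀ b ∈ D.support, ‖b‖ ≤ r := by
  have : ∀ᶠ r in 𝓝[<] (1 : ℝ), (0 < r ∧ ∀ b ∈ D.support, ‖b‖ ≤ r) ∧ r < 1 :=
    (((eventually_gt_nhds one_pos).and ((eventually_all_finset _).2
      fun b hb => eventually_ge_nhds (hD b hb))).filter_mono nhdsWithin_le_nhds).and
      self_mem_nhdsWithin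
  obtain ⟨r, h1, h2⟩ := this.exists
  exact ⟨r, h1.1, h2, h1.2⟩

theorem Dk.val (H : Dk η j) (h0 : h ≠ 0) (hD : Dv j h D) {a : C} (ha : ‖a‖ < 1) (e : 0 ≤ D a) :
    ‖vl (j a) h‖ = η h * nP D a := by
  rcases e.eq_or_lt with e | e
  · exact H.fac.val h0 hD ha e.symm
  · rw [nP_zero e.ne', mul_zero, vl_of_pos (by rwa [hD.2 a ha]), norm_zero]

theorem nP_lt (hD : ∀ b ∈ D.support, ‖b‖ < 1) (h0 : 0 ≤ D) {a : C} (ha : ‖a‖ < 1) :
    nP D a ≤ 1 ∧ (0 < dgD D → nP D a < 1) := by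
  obtain ⟨r, h1, h2, h3⟩ := exists_rad hD
  have h4 := nP_le (a := a) (lt_max_of_lt_left h1 : 0 < max r ‖a‖) h0
    fun b hb => norm_sub_le' (le_max_right _ _) (le_max_of_le_left (h3 b hb))
  exact ⟨h4.trans (zpow_le_one₀ (lt_max_of_lt_left h1) (max_lt h2 ha).le (dgD_nonneg h0)),
    fun h => h4.trans_lt (zpow_lt_one₀ (lt_max_of_lt_left h1) (max_lt h2 ha) h)⟩

theorem Dk.vl_le (H : Dk η j) (hp : ∀ a, ‖a‖ < 1 → h ∈ (j a).1) {a : C} (ha : ‖a‖ < 1) :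
    ‖vl (j a) h‖ ≤ η h := by
  by_cases h0 : h = 0
  · simp [h0, vl_zero]
  obtain ⟨D, hD⟩ := H.dv h0
  rw [H.val h0 hD ha (hD.nonneg hp a)]
  exact mul_le_of_le_one_right (η.av.nonneg h) (nP_lt hD.1 (hD.nonneg hp) ha).1

/-- **LIM** -/
theorem Dk.lim (H : Dk η j) (H' : Dk η' j') {a a' : ℕ → C} (ha : Tendsto a atTop (bF C))
    (ha' : Tendsto a' atTop (bF C)) (e : ∀ l, j (a l) = j' (a' l)) :
    η' = η ∧ ∀ h D D', η h = 1 → Dv j h D → Dv j' h D' → (0 ≤ dgD D' ↔ 0 ≤ dgD D) := by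
  have e1 : η' = η := NV.ext (AbsoluteValue.ext fun h => by
    refine tendsto_nhds_unique ((H'.tend h).comp ha') (((H.tend h).comp ha).congr fun l => ?_)
    simp only [Function.comp, e])
  subst e1
  refine ⟨rfl, fun h D D' h1 hD hD' => ?_⟩
  rw [← H.bd_iff ha h1 hD, ← H'.bd_iff ha' h1 hD']
  simp only [e]

theorem cred_eq {a c : C} (hc : ‖c‖ ≤ 1) (h : ‖a - c‖ < 1) : cred a = cred c := by
  rw [← sub_add_cancel a c, cred_add h.le hc, (cred_eq_zero h.le).2 h, zero_add]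

variable [CFF (kC C) (kap η)] {z : Plk (kC C) (kap η)}

theorem Dk.vl_lt (hC : GF C) (H : Dk η j) (B : Bz η j z) (h1 : η h ≤ 1)
    (hp : ∀ a, ‖a‖ < 1 → h ∈ (j a).1) (h2 : η.red h ∈ Mge z 1) {a : C} (ha : ‖a‖ < 1) :
    ‖vl (j a) h‖ < 1 := by
  rcases h1.lt_or_eq with e | e
  · exact (H.vl_le hp ha).trans_lt e
  obtain ⟨D, hD⟩ := H.dv (ne_of_one e)
  rw [H.val (ne_of_one e) hD ha (hD.nonneg hp a), e, one_mul]
  refine (nP_lt hD.1 (hD.nonneg hp) ha).2 ?_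
  rw [← B.ord_eq hC H e hD]
  exact h2.resolve_left (NV.red_ne_zero e)

/-- **VALD**: values of functions without pole -/
theorem Dk.vald (hC : GF C) (H : Dk η j) (B : Bz η j z) (h1 : η h ≤ 1)
    (hp : ∀ a, ‖a‖ < 1 → h ∈ (j a).1) : η.red h ∈ z.1 ∧ ∀ a, ‖a‖ < 1 →
      ‖vl (j a) h‖ ≤ 1 ∧ cred (vl (j a) h) = vl z (η.red h) := by
  have h2 : η.red h ∈ z.1 := by
    rcases h1.lt_or_eq with e | e
    · exact NV.red_of_lt e ▸ zero_mem _
    · obtain ⟨D, hD⟩ := H.dv (ne_of_one e)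
      exact (B h D e hD).2 (dgD_nonneg (hD.nonneg hp))
  refine ⟨h2, fun a ha => ⟨(H.vl_le hp ha).trans h1, ?_⟩⟩
  obtain ⟨c, hc, e⟩ := cred_surj (vl z (η.red h))
  have h3 : η (algebraMap C K c) ≤ 1 := by rwa [η.ext']
  rw [← e]
  refine cred_eq hc ?_
  rw [← vl_sub_const (hp a ha)]
  refine H.vl_lt hC B (NV.sub_le h1 h3) (fun b hb => sub_mem (hp b hb) (const_mem _ _)) ?_ ha
  rw [NV.red_sub h1 h3, NV.red_algebraMap hc, e]
  exact vl_mem h2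

theorem Dk.shift (hC : GF C) (H : Dk η j) (B : Bz η j z) (h1 : η h = 1)
    (hp : ∀ a, ‖a‖ < 1 → h ∈ (j a).1) {b : C} (hb : ‖b‖ < 1) :
    η (h - algebraMap C K b) = 1 ∧ ∃ D, Dv j (h - algebraMap C K b) D ∧ 0 ≤ D ∧
      dgD D = ord z (η.red h) ∧ ∀ a, ‖a‖ < 1 → ‖vl (j a) h - b‖ = nP D a ∧
        (0 < D a ↔ vl (j a) h = b) := by
  have h2 : η (algebraMap C K b) < 1 := by rwa [η.ext']
  have h3 : η.red (h - algebraMap C K b) = η.red h := by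
    rw [NV.red_sub h1.le h2.le, NV.red_of_lt h2, sub_zero]
  have h4 : η (h - algebraMap C K b) = 1 := (NV.sub_le h1.le h2.le).eq_of_not_lt fun e =>
    NV.red_ne_zero h1 (h3 ▸ NV.red_of_lt e)
  obtain ⟨D, hD⟩ := H.dv (ne_of_one h4)
  have h5 : ∀ a, ‖a‖ < 1 → h - algebraMap C K b ∈ (j a).1 :=
    fun a ha => sub_mem (hp a ha) (const_mem _ _)
  refine ⟨h4, D, hD, hD.nonneg h5, by rw [← B.ord_eq hC H h4 hD, h3], fun a ha => ⟨?_, ?_⟩⟩
  · rw [← vl_sub_const (hp a ha), H.val (ne_of_one h4) hD ha (hD.nonneg h5 a), h4, one_mul]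
  · rw [← hD.2 a ha, ← sub_eq_zero (b := b), ← vl_sub_const (hp a ha)]
    exact ⟨vl_of_pos, pos_of_vl (ne_of_one h4) (h5 a ha)⟩

/-- **STEP** -/
theorem Dk.step (hC : GF C) (H : Dk η j) (B : Bz η j z) (h1 : η h = 1)
    (hp : ∀ a, ‖a‖ < 1 → h ∈ (j a).1) (h2 : 2 ≤ ord z (η.red h)) :
    (∀ b, ‖b‖ < 1 → ∃ a, ‖a‖ < 1 ∧ vl (j a) h = b) ∧ (∀ a, ‖a‖ < 1 → ‖vl (j a) h‖ < 1) ∧
    (∀ᶠ r in 𝓝[<] (1 : ℝ), ∀ a₀, ‖a₀‖ ≤ r → ‖vl (j a₀) h‖ ≤ r ∧ ∀ a, ‖a‖ < 1 →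
      ‖vl (j a) h - vl (j a₀) h‖ ≤ max r ‖a - a₀‖ * ‖a - a₀‖) ∧
    ∀ a₀ t, ‖a₀‖ < 1 → η t = 1 → Dv j t (Finsupp.single a₀ 1) →
      (h - algebraMap C K (vl (j a₀) h)) / t ∈ (j a₀).1 ∧
      ‖vl (j a₀) ((h - algebraMap C K (vl (j a₀) h)) / t)‖ < 1 ∧
      (vl (j a₀) ((h - algebraMap C K (vl (j a₀) h)) / t) ≠ 0 →
        ∃ b, ‖b‖ < 1 ∧ b ≠ a₀ ∧ vl (j b) h = vl (j a₀) h) := by
  have hl : ∀ a, ‖a‖ < 1 → ‖vl (j a) h‖ < 1 := fun a ha =>
    H.vl_lt hC B h1.le hp (Or.inr (by omega)) ha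
  refine ⟨fun b hb => ?_, hl, ?_, fun a₀ t ha₀ ht hT => ?_⟩
  · obtain ⟨-, D, hD, -, h3, h4⟩ := H.shift hC B h1 hp hb
    obtain ⟨a, ha⟩ := exists_pos_of_dgD (D := D) (by omega)
    have h5 := hD.1 a (Finsupp.mem_support_iff.2 ha.ne')
    exact ⟨a, h5, (h4 a h5).2.1 ha⟩
  · obtain ⟨-, D, hD, h0, h3, h4⟩ := H.shift hC B h1 hp (b := 0) (by simp)
    simp only [sub_zero] at h4
    obtain ⟨r₀, hr₀, hr₁, hr₂⟩ := exists_rad hD.1
    filter_upwards [nhdsWithin_le_nhds (eventually_ge_nhds hr₁), self_mem_nhdsWithin]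
      with r hr (hr' : r < 1) a₀ ha₀
    have hp0 : 0 < r := hr₀.trans_le hr
    have h5 : ‖vl (j a₀) h‖ ≤ r ^ dgD D := by
      rw [(h4 a₀ (ha₀.trans_lt hr')).1]
      exact nP_le hp0 h0 fun b hb => norm_sub_le' ha₀ ((hr₂ b hb).trans hr)
    refine ⟨h5.trans ((zpow_le_zpow_right_of_le_one₀ hp0 hr'.le (show 1 ≤ dgD D by omega)).trans_eq
      (zpow_one r)), fun a ha => ?_⟩
    obtain ⟨-, D₁, hD₁, h6, h7, h8⟩ := H.shift hC B h1 hp (hl a₀ (ha₀.trans_lt hr'))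
    have h9 : ∀ b ∈ D₁.support, ‖b‖ ≤ r := fun b hb => not_lt.1 fun e => by
      have hb1 := hD₁.1 b hb
      have e1 := (h8 b hb1).2.1 ((h6 b).lt_of_ne' (Finsupp.mem_support_iff.1 hb))
      rw [← e1, (h4 b hb1).1, nP_eq (hp0.trans e) fun c hc => ((hr₂ c hc).trans hr).trans_lt e] at h5
      exact absurd (zpow_lt_zpow_left₀ (by omega) hp0.le e) (not_lt.2 h5)
    have h10 := (h8 a₀ (ha₀.trans_lt hr')).2.2 rfl
    rw [(h8 a ha).1]
    by_cases e : D₁ a = 0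
    · have hm : 0 < max r ‖a - a₀‖ := lt_max_of_lt_left hp0
      have hm1 : max r ‖a - a₀‖ ≤ 1 := max_le hr'.le (norm_sub_le' ha.le (ha₀.trans hr'.le))
      rw [nP_split (a₀ := a₀) e (fun e' => h10.ne' (e' ▸ e)), mul_comm]
      refine mul_le_mul_of_nonneg_right ((nP_le hm (sub_nonneg' h6 h10) fun b hb => ?_).trans
        ((zpow_le_zpow_right_of_le_one₀ hm hm1 (show 1 ≤ _ by rw [dgD_sub]; omega)).trans_eq
          (zpow_one _))) (norm_nonneg _)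
      by_cases eb : b = a₀
      · exact eb ▸ le_max_right _ _
      · rw [show a - b = a - a₀ - (b - a₀) by ring]
        refine norm_sub_le' (le_max_right _ _) (le_max_of_le_left (norm_sub_le' (h9 b ?_) ha₀))
        rwa [Finsupp.mem_support_iff, Finsupp.sub_apply, Finsupp.single_eq_of_ne eb, sub_zero,
          ← Finsupp.mem_support_iff] at hb
    · rw [nP_zero e]
      positivity
  · obtain ⟨h3, D, hD, h0, h4, h5⟩ := H.shift hC B h1 hp (hl a₀ ha₀)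
    have h6 := hD.mul hT.inv (ne_of_one h3) (inv_ne_zero (ne_of_one ht))
    rw [← div_eq_mul_inv, ← sub_eq_add_neg] at h6
    have h7 := sub_nonneg' h0 ((h5 a₀ ha₀).2.2 rfl)
    have h8 : η ((h - algebraMap C K (vl (j a₀) h)) / t) = 1 := by rw [map_div₀, h3, ht, div_one]
    have h9 : 0 < dgD (D - Finsupp.single a₀ 1) := by rw [dgD_sub]; omega
    refine ⟨mem_ord.2 ((h7 a₀).trans (h6.2 a₀ ha₀).ge), ?_, fun h10 => ?_⟩
    · rw [H.val (ne_of_one h8) h6 ha₀ (h7 a₀), h8, one_mul]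
      exact (nP_lt h6.1 h7 ha₀).2 h9
    · obtain ⟨b, hb⟩ := exists_pos_of_dgD h9
      have hb1 := h6.1 b (Finsupp.mem_support_iff.2 hb.ne')
      have hb2 : b ≠ a₀ := by
        rintro rfl
        exact h10 (vl_of_pos (by rwa [h6.2 b hb1]))
      rw [Finsupp.sub_apply, Finsupp.single_eq_of_ne hb2, sub_zero] at hb
      exact ⟨b, hb1, hb2, (h5 b hb1).2.1 hb⟩

/-! ## discs with a coordinate -/

/-- a disc with the coordinate `s - s₀` -/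
structure Cd (η : NV C K) (s : K) (s₀ : C) (j : C → Plk C K) (z : Plk (kC C) (kap η)) : Prop where
  dk : Dk η j
  bz : Bz η j z
  val : ∀ a, ‖a‖ < 1 → s ∈ (j a).1 ∧ vl (j a) s = a + s₀

theorem cd_of (hC : GF C) {ε : K →ₐ[C] C⸨X⸩} (H : Dsc ε j) (G : Gs ε η) (B : Brn ε η z) {s : K}
    {s₀ : C} (e : ε s = ((X + PowerSeries.C s₀ : C⟦X⟧) : C⸨X⸩)) : Cd η s s₀ j z := by
  refine ⟨dsc_dk H G, (brn_iff hC H G).1 B, fun a ha => ?_⟩
  have h1 : IsRestricted ‖a‖ (X + PowerSeries.C s₀ : C⟦X⟧) :=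
    isRestricted.add _ (An4.res_X _) (res_C _ _)
  have h2 : An4.ev a (X + PowerSeries.C s₀ : C⟦X⟧) = a + s₀ := by
    rw [An4.ev_add le_rfl (An4.res_X _) (res_C _ _), An4.ev_X, An4.ev_C]
  have h3 : s ∈ (j a).1 := by_contra fun hs => by
    have h4 : 0 < ord (j a) s⁻¹ := pos_iff.2 (by rwa [inv_inv])
    obtain ⟨P, Q, p1, p2, p3, p4, p5⟩ := dsc_ev H ha (mem_ord.2 h4.le)
    have h5 : ε s ≠ 0 := (_root_.map_ne_zero _).2 fun e => hs (e ▸ zero_mem _)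
    have h6 : Q = P * (X + PowerSeries.C s₀) := HahnSeries.ofPowerSeries_injective (Γ := ℤ) (by
      rw [map_mul, ← p4, ← e, map_inv₀, mul_right_comm, inv_mul_cancel₀ h5, one_mul])
    rw [vl_of_pos h4, zero_mul] at p5
    exact p3 (by rw [h6, An4.ev_mul le_rfl p1 h1, p5, zero_mul])
  have h4 : An4.ev a (1 : C⟦X⟧) = 1 := by simpa using An4.ev_C a (1 : C)
  exact ⟨h3, (dsc_ev H ha h3).unique ⟨_, 1, h1, isRestricted_one _, by rw [h4]; exact one_ne_zero,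
    by rw [map_one, mul_one, e], by rw [h2, h4, mul_one]⟩⟩

theorem Cd.par (hC : GF C) {s : K} {s₀ : C} (H : Cd η s s₀ j z) {a₀ : C} (ha₀ : ‖a₀‖ < 1) :
    η (s - algebraMap C K (a₀ + s₀)) = 1 ∧
      Dv j (s - algebraMap C K (a₀ + s₀)) (Finsupp.single a₀ 1) := by
  haveI := bF_ne hC.onto
  have h1 : ∀ a, ‖a‖ < 1 → s - algebraMap C K (a₀ + s₀) ∈ (j a).1 ∧
      vl (j a) (s - algebraMap C K (a₀ + s₀)) = a - a₀ := fun a ha =>
    ⟨sub_mem (H.val a ha).1 (const_mem _ _), by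
      rw [vl_sub_const (H.val a ha).1, (H.val a ha).2]; ring⟩
  have h0 : s - algebraMap C K (a₀ + s₀) ≠ 0 := fun e => by
    obtain ⟨a, h2, h3⟩ := ((bF_lt (C := C)).and (bF_gt ha₀)).exists
    have := (h1 a h2).2
    rw [e, vl_zero, eq_comm, sub_eq_zero] at this
    exact lt_irrefl _ (this ▸ h3)
  obtain ⟨D, hD⟩ := H.dk.dv h0
  have h2 := mono_eq hC.onto (c := 1) (c' := η (s - algebraMap C K (a₀ + s₀))) one_ne_zero
    (n := 1) (n' := dgD D) (by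
      filter_upwards [H.dk.fac.evt h0 hD, bF_lt, bF_gt ha₀] with a e1 e2 e3
      rw [← e1, (h1 a e2).2, norm_sub_of_lt e3, zpow_one, one_mul])
  have h3 := hD.nonneg fun a ha => (h1 a ha).1
  have h4 : 0 < D a₀ := by
    rw [← hD.2 a₀ ha₀]
    exact pos_of_vl h0 (h1 a₀ ha₀).1 (by rw [(h1 a₀ ha₀).2, sub_self])
  refine ⟨h2.1.symm, ?_⟩
  rwa [eq_of_le_of_dg_le (sub_nonneg.1 (sub_nonneg' h3 h4)) (by rw [dg_sgl, ← dgD_eq, ← h2.2])]

/-- the description of the points of a generic disc -/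
def Mem (η : NV C K) [CFF (kC C) (kap η)] (s f : K) (z : Plk (kC C) (kap η)) (P : Plk C K) : Prop :=
  s ∈ P.1 ∧ f ∈ P.1 ∧ ‖vl P s‖ ≤ 1 ∧ ‖vl P f‖ ≤ 1 ∧ cred (vl P s) = vl z (η.red s) ∧
    cred (vl P f) = vl z (η.red f)

theorem gen' [CharZero C] (hC : GF C) (hG : GEN C) (η : NV C K) [CFF (kC C) (kap η)] {s : K}
    (hs : η s ≤ 1) {z₀ : Plk (kC C) (kap η)} (h0 : ord z₀ (η.red s) = 1) :
    ∃ (f : K) (Z : Set (Plk (kC C) (kap η))), Z.Finite ∧ η f ≤ 1 ∧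
      (∀ P, {z | z ∉ Z ∧ Mem η s f z P}.Subsingleton) ∧ ∀ z ∉ Z, η.red s ∈ z.1 ∧
        ∀ s₀ : C, ‖s₀‖ ≤ 1 → cred s₀ = vl z (η.red s) →
          ∃ j, Cd η s s₀ j z ∧ ∀ P, (∃ a, ‖a‖ < 1 ∧ j a = P) ↔ Mem η s f z P := by
  obtain ⟨f, Z, h1, h2, h3⟩ := hG hC K η s hs ⟨z₀, 0, by rwa [map_zero, sub_zero]⟩
  refine ⟨f, Z, h1, h2, fun P z hz z' hz' => (h3 z hz.1).2.2.1 z' hz'.1
    (hz.2.2.2.2.2.1.symm.trans hz'.2.2.2.2.2.1) (hz.2.2.2.2.2.2.symm.trans hz'.2.2.2.2.2.2),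
    fun z hz => ⟨(h3 z hz).1, fun s₀ h4 h5 => ?_⟩⟩
  obtain ⟨ε, j, p1, p2, p3, p4, p5⟩ := (h3 z hz).2.2.2 s₀ h4 h5
  exact ⟨j, cd_of hC p1 p2 p3 p4, p5⟩

/-! ## correspondences -/

section corr

variable {Y Y' : Type} [Field Y] [Algebra C Y] [CFF C Y] [Field Y'] [Algebra C Y'] [CFF C Y']
  {η : NV C Y} {η' : NV C Y'}

open Vale.Agent.P027M.I

/-- the map of the residue fields -/
def rA (φ : Y →ₐ[C] Y') (h : ∀ y, η' (φ y) = η y) : kap η →ₐ[kC C] kap η' :=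
  { rm (φ : Y →+* Y') h with
    commutes' := fun c => by
      obtain ⟨c, hc, rfl⟩ := cred_surj c
      exact rm_const (s := RingEquiv.refl C) (φ : Y →+* Y') h φ.commutes (fun _ => rfl) hc }

theorem rA_red (φ : Y →ₐ[C] Y') (h : ∀ y, η' (φ y) = η y) (y : Y) :
    rA φ h (η.red y) = η'.red (φ y) := rm_red (φ : Y →+* Y') h y

variable [CFF (kC C) (kap η)] [CFF (kC C) (kap η')]

theorem pb_disc (hC : GF C) {φ : Y →ₐ[C] Y'} (hφ : ∀ y, η' (φ y) = η y) {j : C → Plk C Y}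
    {j' : C → Plk C Y'} {z' : Plk (kC C) (kap η')} (H' : Dk η' j') (B' : Bz η' j' z') {s f : Y}
    (hs : η s ≤ 1) (hf : η f ≤ 1) {s₀ : C} (H : Cd η s s₀ j (pb (rA φ hφ) z'))
    (hM : ∀ P, (∃ a, ‖a‖ < 1 ∧ j a = P) ↔ Mem η s f (pb (rA φ hφ) z') P)
    (h1 : ∀ a, ‖a‖ < 1 → φ s ∈ (j' a).1) (h2 : ∀ a, ‖a‖ < 1 → φ f ∈ (j' a).1) {a : C}
    (ha : ‖a‖ < 1) : j (vl (j' a) (φ s) - s₀) = pb φ (j' a) := by
  obtain ⟨p1, p2⟩ := H'.vald hC B' (by rwa [hφ]) h1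
  obtain ⟨p3, p4⟩ := H'.vald hC B' (by rwa [hφ]) h2
  rw [← rA_red φ hφ] at p1 p2 p3 p4
  obtain ⟨b, hb, e⟩ := (hM (pb φ (j' a))).2 ⟨h1 a ha, h2 a ha, by
    rw [vl_pb (h1 a ha), vl_pb (h2 a ha), vl_pb p1, vl_pb p3]
    exact ⟨(p2 a ha).1, (p4 a ha).1, (p2 a ha).2, (p4 a ha).2⟩⟩
  rw [← vl_pb (h1 a ha), ← e, (H.val b hb).2, add_sub_cancel_right]

/-- chains of places -/
def Ch (α β : Y →ₐ[C] Y') : ℕ → Plk C Y → Plk C Y → Prop
  | 0, P, P' => P = P'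
  | n + 1, P, P' => ∃ R, Ch α β n P (pb β R) ∧ pb α R = P'

theorem orbit {P : Type} {τ : P → P} (hp : ∀ z, ∃ n, 0 < n ∧ τ^[n] z = z) {Z₀ : Set P}
    (h0 : Z₀.Finite) : {z | ∃ i, τ^[i] z ∈ Z₀}.Finite ∧ ∀ z, ∃ (ι : Type) (_ : Finite ι)
      (σ : ι ≃ ι) (w : ι → P) (i₀ : ι), w i₀ = z ∧ (∀ i, w (σ i) = τ (w i)) ∧
        (∀ i, ∃ n, w i = τ^[n] z) ∧ ∃ k, 0 < k ∧ σ^[k] i₀ = i₀ := by
  have h1 : ∀ z, (Set.range fun i => τ^[i] z).Finite := fun z => by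
    obtain ⟨n, hn, e⟩ := hp z
    refine ((Set.finite_lt_nat n).image fun i => τ^[i] z).subset ?_
    rintro _ ⟨i, rfl⟩
    exact ⟨i % n, Nat.mod_lt _ hn, Function.IsPeriodicPt.iterate_mod_apply e i⟩
  have h2 : ∀ z i, ∃ l, τ^[l] (τ^[i] z) = z := fun z i => by
    obtain ⟨n, hn, e⟩ := hp z
    refine ⟨n * i - i, ?_⟩
    rw [← Function.iterate_add_apply, Nat.sub_add_cancel (Nat.le_mul_of_pos_left i hn)]
    exact Function.IsPeriodicPt.mul_const e i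
  refine ⟨(h0.biUnion fun w _ => h1 w).subset ?_, fun z => ?_⟩
  · rintro z ⟨i, hi⟩
    exact Set.mem_biUnion hi (h2 z i)
  · haveI := (h1 z).to_subtype
    let f : (Set.range fun i => τ^[i] z) → (Set.range fun i => τ^[i] z) := fun w => ⟨τ w, by
      obtain ⟨_, i, rfl⟩ := w
      exact ⟨i + 1, Function.iterate_succ_apply' _ _ _⟩⟩
    have hf : Function.Surjective f := by
      rintro ⟨w, i, rfl⟩
      obtain ⟨n, hn, e⟩ := hp z
      refine ⟨⟨_, i + (n - 1), rfl⟩, Subtype.ext ?_⟩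
      show τ (τ^[i + (n - 1)] z) = τ^[i] z
      rw [← Function.iterate_succ_apply' τ, show (i + (n - 1)).succ = i + n by omega,
        Function.iterate_add_apply, e]
    obtain ⟨k, hk, e⟩ := hp z
    refine ⟨_, this, Equiv.ofBijective f hf.bijective_of_finite, Subtype.val, ⟨z, 0, rfl⟩, rfl,
      fun _ => rfl, fun i => i.2.imp fun _ h => h.symm, k, hk, Subtype.ext ?_⟩
    exact (Function.Semiconj.iterate_right (f := Subtype.val) (ga := f) (gb := τ)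
      (fun _ => rfl) k ⟨z, 0, rfl⟩).trans e

/-- the data of an attracting cycle of a correspondence, in a cycle of discs -/
def Cyc (α β : Y →ₐ[C] Y') (j : C → Plk C Y) : Prop :=
  ∃ k, 0 < k ∧ ∃ (R : ℕ → Plk C Y') (t : ℕ → Y), R k = R 0 ∧ t k = t 0 ∧
    (∀ i, pb β (R i) = pb α (R (i + 1))) ∧ 0 < ord (R 0) (α (t 0)) ∧
    (∀ i, t i ≠ 0 ∧ β (t (i + 1)) / α (t i) ∈ (R i).1 ∧
      ‖vl (R i) (β (t (i + 1)) / α (t i))‖ < 1) ∧
    (vl (R 0) (β (t 1) / α (t 0)) ≠ 0 → ∃ a : ℕ → C, (∀ l, ‖a l‖ < 1) ∧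
      Tendsto a atTop (bF C) ∧ j (a 0) = pb α (R 0) ∧ a 1 ≠ a 0 ∧
        ∀ l, Ch α β k (j (a l)) (j (a (l + 1))))

theorem cyc_of (hC : GF C) {α β : Y →ₐ[C] Y'} {ι : Type} [Finite ι] (σ : ι ≃ ι) {i₀ : ι} {k : ℕ}
    (hk : 0 < k) (hσ : σ^[k] i₀ = i₀) {s : Y} {s₀ : ι → C} {J : ι → C → Plk C Y}
    {J' : ι → C → Plk C Y'} {z' : ι → Plk (kC C) (kap η')}
    (H' : ∀ i, Cd η' (α s) (s₀ i) (J' i) (z' i))
    (ha : ∀ i a, ‖a‖ < 1 → pb α (J' i a) = J i a)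
    (hb : ∀ i a, ‖a‖ < 1 → pb β (J' i a) = J (σ i) (vl (J' i a) (β s) - s₀ (σ i)))
    (hp : ∀ i a, ‖a‖ < 1 → β s ∈ (J' i a).1)
    (h1 : ∀ i, η' (β s - algebraMap C Y' (s₀ (σ i))) = 1)
    (h2 : ∀ i, 2 ≤ ord (z' i) (η'.red (β s - algebraMap C Y' (s₀ (σ i))))) : Cyc α β (J i₀) := by
  have hp' : ∀ i a, ‖a‖ < 1 → β s - algebraMap C Y' (s₀ (σ i)) ∈ (J' i a).1 :=
    fun i a h => sub_mem (hp i a h) (const_mem _ _)
  have S := fun i => (H' i).dk.step hC (H' i).bz (h1 i) (hp' i) (h2 i)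
  set ψ : ι → C → C := fun i a => vl (J' i a) (β s - algebraMap C Y' (s₀ (σ i))) with hψ
  have hb' : ∀ i a, ‖a‖ < 1 → pb β (J' i a) = J (σ i) (ψ i a) := fun i a h => by
    rw [hb i a h, ← vl_sub_const (hp i a h)]
  obtain ⟨r, ⟨hr, hr0⟩, (hr1 : r < 1)⟩ := (((eventually_all.2 fun i => (S i).2.2.1).and
    (nhdsWithin_le_nhds (eventually_gt_nhds one_pos))).and self_mem_nhdsWithin).exists
  obtain ⟨c, hc⟩ := exists_cyc σ ψ hr0.le hr1 (fun i a h => (hr i a h).1) fun i a a' h h' =>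
    ((hr i a' h').2 a (h.trans_lt hr1)).trans_eq (by rw [max_eq_left (norm_sub_le' h h')])
  have hc1 : ∀ i, ‖c i‖ < 1 := fun i => (hc i).1.trans_lt hr1
  have est : ∀ i a, ‖a‖ < 1 → ‖ψ i a - c (σ i)‖ ≤ max r ‖a - c i‖ * ‖a - c i‖ := fun i a h => by
    rw [(hc i).2]
    exact (hr i _ (hc i).1).2 a h
  have P := fun i => (H' i).par hC (hc1 i)
  have T := fun i => (S i).2.2.2 (c i) _ (hc1 i) (P i).1 (P i).2
  have e1 : ∀ i, β s - algebraMap C Y' (s₀ (σ i)) - algebraMap C Y' (ψ i (c i)) =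
      β (s - algebraMap C Y (c (σ i) + s₀ (σ i))) := fun i => by
    rw [map_sub, β.commutes, map_add, (hc i).2]
    ring
  have e2 : ∀ i, α s - algebraMap C Y' (c i + s₀ i) = α (s - algebraMap C Y (c i + s₀ i)) :=
    fun i => by rw [map_sub, α.commutes]
  have ch1 : ∀ n i b, ‖b‖ < 1 → ∃ a, ‖a‖ < 1 ∧ Ch α β n (J (σ^[n] i) b) (J i a) ∧
      ‖b - c (σ^[n] i)‖ ≤ ‖a - c i‖ ∧ (0 < n → ‖b - c (σ^[n] i)‖ ≤ max r ‖a - c i‖ * ‖a - c i‖) := by
    intro n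
    induction n with
    | zero => exact fun i b h => ⟨b, h, rfl, le_rfl, fun h => absurd h (lt_irrefl 0)⟩
    | succ n ih =>
      intro i b h
      obtain ⟨a₁, p1, p2, p3, -⟩ := ih (σ i) b h
      obtain ⟨a, p4, p5⟩ := (S i).1 a₁ p1
      have p6 := est i a p4
      rw [show ψ i a = a₁ from p5] at p6
      refine ⟨a, p4, ⟨J' i a, ?_, ha i a p4⟩, (p3.trans p6).trans (mul_le_of_le_one_left
        (norm_nonneg _) (max_le hr1.le (norm_sub_le' p4.le (hc1 i).le))), fun _ => p3.trans p6⟩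
      rw [hb' i a p4, show ψ i a = a₁ from p5]
      exact p2
  have ch2 : ∀ n i a, ‖a‖ < 1 → ψ i a = c (σ i) →
      Ch α β (n + 1) (J (σ^[n + 1] i) (c (σ^[n + 1] i))) (J i a) := by
    intro n
    induction n with
    | zero => exact fun i a h e => ⟨J' i a, by rw [hb' i a h, e]; rfl, ha i a h⟩
    | succ n ih =>
      exact fun i a h e => ⟨J' i a, by
        rw [hb' i a h, e]
        exact ih (σ i) _ (hc1 _) (hc _).2.symm, ha i a h⟩
  refine ⟨k, hk, fun n => J' (σ^[n] i₀) (c (σ^[n] i₀)),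
    fun n => s - algebraMap C Y (c (σ^[n] i₀) + s₀ (σ^[n] i₀)), by simp only [hσ]; rfl,
    by simp only [hσ]; rfl, fun n => ?_, ?_, fun n => ?_, fun h => ?_⟩
  · rw [hb' _ _ (hc1 _), ha _ _ (hc1 _), Function.iterate_succ_apply', (hc _).2]
  · show 0 < ord (J' i₀ (c i₀)) (α (s - algebraMap C Y (c i₀ + s₀ i₀)))
    rw [← e2, (P i₀).2.2 _ (hc1 _), Finsupp.single_eq_same]
    exact one_pos
  · beta_reduce
    rw [Function.iterate_succ_apply', ← e1, ← e2]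
    refine ⟨fun e => ne_of_one (P (σ^[n] i₀)).1 (by rw [e2, e, map_zero]), (T _).1, (T _).2.1⟩
  · obtain ⟨x, x1, x2, x3⟩ := (T i₀).2.2 (by rwa [e1, e2])
    choose! g g1 g2 g3 g4 using ch1 k i₀
    rw [hσ] at g2 g4
    have g5 : ∀ l, ‖g^[l] x‖ < 1 := fun l => by
      induction l with
      | zero => exact x1
      | succ l ih => rw [Function.iterate_succ_apply']; exact g1 _ ih
    let a : ℕ → C := fun l => Nat.casesOn l (c i₀) fun l => g^[l] x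
    have a1 : ∀ l, ‖a l‖ < 1 := fun l => by
      rcases l with _ | l
      exacts [hc1 _, g5 l]
    have a2 := tend_one (r := fun l => ‖a l - c i₀‖) hr1 (fun _ => norm_nonneg _)
      (fun l => norm_sub_lt' (a1 l) (hc1 _)) (fun l => by
        rcases l with _ | l
        · show ‖c i₀ - c i₀‖ ≤ _
          rw [sub_self, norm_zero]
          positivity
        · show ‖g^[l] x - c i₀‖ ≤ max r ‖g^[l + 1] x - c i₀‖ * ‖g^[l + 1] x - c i₀‖
          rw [Function.iterate_succ_apply']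
          exact g4 _ (g5 l) hk) (l₀ := 1) (norm_pos_iff.2 (sub_ne_zero.2 x2))
    refine ⟨a, a1, tend_bF a1 (a2.congr' ?_), (ha _ _ (hc1 _)).symm, x2, fun l => ?_⟩
    · filter_upwards [a2.eventually_const_lt (hc1 i₀)] with l hl
      have := norm_sub_of_lt (a := a l - c i₀) (b := -c i₀) (by rwa [norm_neg])
      rw [← this, sub_neg_eq_add, sub_add_cancel]
    · rcases l with _ | l
      · obtain ⟨n, rfl⟩ := Nat.exists_eq_succ_of_ne_zero hk.ne'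
        have := ch2 n i₀ x x1 (x3.trans (hc i₀).2.symm)
        rwa [hσ] at this
      · show Ch α β k (J i₀ (g^[l] x)) (J i₀ (g^[l + 1] x))
        rw [Function.iterate_succ_apply']
        exact g2 _ (g5 l)

/-- **almost all branches carry a disc with an attracting cycle** -/
theorem lift [CharZero C] (hC : GF C) (hG : GEN C) {α β : Y →ₐ[C] Y'} {p m : ℕ} [Fact p.Prime]
    [CharP (kC C) p] (hm : 0 < m) (ha : ∀ h, η' (α h) = η h) (hb : ∀ h, η' (β h) = η h)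
    (hd : ∀ h', η' h' ≤ 1 → ∃ h, η' (h' - α h) < 1)
    (h1 : ∀ h, η h ≤ 1 → ∃ h₁, η h₁ ≤ 1 ∧ η' (β h - α h₁ ^ p ^ m) < 1)
    (h2 : ∀ h₁, η h₁ ≤ 1 → ∃ h, η' (β h - α h₁ ^ p ^ m) < 1) :
    ∃ Z : Set (Plk (kC C) (kap η)), Z.Finite ∧ ∀ z ∉ Z, ∃ j, Dk η j ∧ Bz η j z ∧ Cyc α β j := by
  let e : kap η ≃ₐ[kC C] kap η' := AlgEquiv.ofBijective (rA α ha)
    ⟨RingHom.injective _, rm_surj (α : Y →+* Y') ha hd⟩
  have he : ∀ x, e x = rA α ha x := fun _ => rfl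
  have key : ∀ h h₁, η h₁ ≤ 1 → η' (β h - α h₁ ^ p ^ m) < 1 →
      rA β hb (η.red h) = e (η.red h₁) ^ p ^ m := fun h h₁ p1 p2 => by
    have p3 : η' (α h₁) ≤ 1 := by rwa [ha]
    have p4 := NV.pow_le_one' p3 (p ^ m)
    rw [he, rA_red, rA_red, ← NV.red_pow p3, red_eq_iff (le_one_of_sub p4 (by
      rwa [← NV.map_neg', neg_sub])) p4]
    exact p2
  have pb' : Pw (rA β hb) (p ^ m) := ⟨fun x => by
    obtain ⟨y, rfl⟩ := e.surjective x
    obtain ⟨h₁, p1, rfl⟩ := NV.red_surj y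
    obtain ⟨h, p2⟩ := h2 h₁ p1
    exact ⟨_, key h h₁ p1 p2⟩, fun y => by
    obtain ⟨h, p1, rfl⟩ := NV.red_surj y
    obtain ⟨h₁, p2, p3⟩ := h1 h p1
    exact ⟨_, key h h₁ p2 p3⟩⟩
  have pa : Pw (rA α ha) (p ^ 0) :=
    ⟨fun x => ⟨e.symm x, by rw [← he]; simp⟩, fun y => ⟨e y, by rw [← he]; simp⟩⟩
  let F : kap η →ₐ[kC C] kap η := (e.symm : kap η' →ₐ[kC C] kap η).comp (rA β hb)
  have pF : Pw F (p ^ m) := by
    have := pb'.comp (ψ := (e.symm : kap η' →ₐ[kC C] kap η)) (R := 1)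
      ⟨fun x => ⟨e x, by simp⟩, fun y => ⟨e.symm y, by simp⟩⟩
    rwa [mul_one] at this
  let up : Plk (kC C) (kap η) → Plk (kC C) (kap η') := pb (e.symm : kap η' →ₐ[kC C] kap η)
  have u1 : ∀ w, pb (rA α ha) (up w) = w := fun w => pb_eq fun x => by
    rw [mem_pb, ← he]
    simp
  have u2 : ∀ w, pb (rA β hb) (up w) = pb F w := fun _ => rfl
  have u3 : Function.Injective up := Function.LeftInverse.injective u1
  have hit : ∀ n w, (pb F)^[n] w = pb (F ^ n) w := fun n w => by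
    induction n with
    | zero => rfl
    | succ n ih => rw [Function.iterate_succ_apply', ih, pow_succ]; rfl
  obtain ⟨z₀⟩ := nonempty_Plk (kC C) (kap η)
  obtain ⟨s', -, hs'⟩ := exists_unif z₀
  obtain ⟨s, hs, rfl⟩ := NV.red_surj s'
  obtain ⟨f, Z, hZ, hf, -, G⟩ := gen' hC hG η hs hs'
  obtain ⟨f', Z', hZ', -, G0, G'⟩ := gen' hC hG η' (s := α s) (by rwa [ha]) (z₀ := up z₀) (by
    rw [← rA_red α ha, pa.ord (R := z₀) (fun x => by rw [← mem_pb, u1]), hs']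
    simp)
  let Z₀ : Set (Plk (kC C) (kap η)) := Z ∪ up ⁻¹' (Z' ∪ ⋃ P ∈ ({P | α f ∉ P.1} ∪ {P | β s ∉ P.1} ∪
    {P | β f ∉ P.1} : Set (Plk C Y')), {z | z ∉ Z' ∧ Mem η' (α s) f' z P})
  have hZ₀ : Z₀.Finite := hZ.union ((hZ'.union ((((poles_finite _).union (poles_finite _)).union
    (poles_finite _)).biUnion fun P _ => (G0 P).finite)).preimage u3.injOn)
  obtain ⟨o1, o2⟩ := orbit (τ := pb F) (fun z => by
    obtain ⟨n, hn, e⟩ := per hC.tor pF z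
    exact ⟨n, hn, (hit n z).trans (pb_eq e)⟩) hZ₀
  refine ⟨_, o1, fun z hz => ?_⟩
  obtain ⟨ι, _, σ, w, i₀, w0, w1, w2, k, hk, hσ⟩ := o2 z
  have w3 : ∀ i, w i ∉ Z₀ := fun i h => by
    obtain ⟨n, e⟩ := w2 i
    exact hz ⟨n, e ▸ h⟩
  have w4 : ∀ i, w i ∉ Z := fun i h => w3 i (Or.inl h)
  have w5 : ∀ i, up (w i) ∉ Z' := fun i h => w3 i (Or.inr (Or.inl h))
  choose s₀ s1 s2 using fun i => cred_surj (vl (w i) (η.red s))
  choose J J1 J2 using fun i => (G _ (w4 i)).2 (s₀ i) (s1 i) (s2 i)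
  choose J' J1' J2' using fun i => (G' _ (w5 i)).2 (s₀ i) (s1 i) (by
    rw [s2, ← rA_red α ha, ← vl_pb (by rw [← mem_pb, u1]; exact (G _ (w4 i)).1), u1])
  have w6 : ∀ i a, ‖a‖ < 1 → α f ∈ (J' i a).1 ∧ β s ∈ (J' i a).1 ∧ β f ∈ (J' i a).1 := by
    intro i a h
    by_contra hc
    refine w3 i (Or.inr (Or.inr (Set.mem_biUnion (x := J' i a) ?_
      ⟨w5 i, (J2' i _).1 ⟨a, h, rfl⟩⟩)))
    simp only [Set.mem_union, Set.mem_ofPred_eq]
    tauto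
  have P := fun i => (J1 i).par hC (a₀ := 0) (by simp)
  simp only [zero_add] at P
  have e1 : ∀ i, β s - algebraMap C Y' (s₀ i) = β (s - algebraMap C Y (s₀ i)) :=
    fun i => by rw [map_sub, β.commutes]
  refine ⟨J i₀, (J1 i₀).dk, w0 ▸ (J1 i₀).bz, cyc_of hC σ hk hσ J1' (fun i a h => ?_)
    (fun i a h => ?_) (fun i a h => (w6 i a h).2.1) (fun i => ?_) fun i => ?_⟩
  · rw [← pb_disc hC ha (J1' i).dk (J1' i).bz hs hf ((u1 (w i)).symm ▸ J1 i)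
      ((u1 (w i)).symm ▸ J2 i) (fun b hb => ((J1' i).val b hb).1) (fun b hb => (w6 i b hb).1) h,
      ((J1' i).val a h).2, add_sub_cancel_right]
  · have e2 : w (σ i) = pb (rA β hb) (up (w i)) := w1 i
    exact (pb_disc hC hb (J1' i).dk (J1' i).bz hs hf (e2 ▸ J1 (σ i)) (e2 ▸ J2 (σ i))
      (fun b hb => (w6 i b hb).2.1) (fun b hb => (w6 i b hb).2.2) h).symm
  · rw [e1, hb, (P _).1]
  · rw [e1, ← rA_red β hb, pb'.ord (R := w (σ i)) (fun x => by rw [← mem_pb, u2, w1]),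
      (J1 _).bz.ord_eq hC (J1 _).dk (P _).1 (P _).2, dgD_eq, dg_sgl, mul_one]
    exact_mod_cast Nat.one_lt_pow hm.ne' (Fact.out : p.Prime).one_lt

end corr

end Vale.Agent.P022K.FI.Res
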