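import Vale.Agent.P022K.FI.Cof1
import Vale.Agent.P022K.FI.Res3

/-!
# P022K, block FI, row COF: almost all branches of an ordinary norm are basins
-/

set_option autoImplicit false
set_option linter.unusedSectionVars false
set_option linter.style.haveILetI false

open PowerSeries Vale.Agent.P019P P025H746 P025H492 Filter Topology
open scoped MatrixGroups LaurentSeries

noncomputable section

namespace Vale.Agent.P022K.FI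

open Vale.Agent.P022K.Sh Mx Vale.Agent.P027M.I

variable {C L Γ O E : Type} [NontriviallyNormedField C] [IsUltrametricDist C] [CompleteSpace C]
  [IsAlgClosed C] [CharZero C] [Field L] [Algebra C L] [Group Γ] [CommRing O] [IsDomain O]
  [IsDiscreteValuationRing O] [Field E] [Algebra O E] [Algebra E C] {A : AT C L Γ O E}

namespace Res

/-! ## values at places of the full field -/

/-- `v` is the value of `h` at `y` -/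
def Vl (y : Plk C L) (h : L) (v : C) : Prop := h - algebraMap C L v ∈ y.1.nonunits

theorem Vl.mul {y : Plk C L} {h h' : L} {v v' : C} (H : Vl y h v) (H' : Vl y h' v') :
    Vl y (h * h') (v * v') := by
  rw [Vl, ValuationSubring.mem_nonunits_iff] at H H' ⊢
  have c := fun a : C => (y.1.valuation_le_one_iff _).2 (y.2.1 a)
  have h1 : y.1.valuation h' ≤ 1 := by
    rw [← sub_add_cancel h' (algebraMap C L v')]
    exact y.1.valuation.map_add_le H'.le (c v')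
  rw [show h * h' - algebraMap C L (v * v') = (h - algebraMap C L v) * h' +
    algebraMap C L v * (h' - algebraMap C L v') by rw [map_mul]; ring]
  refine y.1.valuation.map_add_lt ?_ ?_ <;> rw [map_mul]
  exacts [(mul_le_of_le_one_right' h1).trans_lt H, (mul_le_of_le_one_left' (c v)).trans_lt H']

theorem vl_sm {γ : Γ} {y : Plk C L} {h : L} {v : C} :
    Vl (A.sm γ y) h v ↔ Vl y (A.act γ⁻¹ h) v := by
  have e : A.act γ⁻¹ h - algebraMap C L v = A.act γ⁻¹ (h - algebraMap C L v) := by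
    rw [map_sub, AlgEquiv.commutes]
  rw [Vl, Vl, ValuationSubring.mem_nonunits_iff_or, ValuationSubring.mem_nonunits_iff_or, A.mem_sm,
    e, map_inv₀, EmbeddingLike.map_eq_zero_iff]

theorem vl_ly {M : IntermediateField C L} [CFF C M] {y : Plk C L} {P : Plk C M} (hy : AT.Ly y P)
    {h : M} (hm : h ∈ P.1) : Vl y h (vl P h) := by
  rw [Vl, ValuationSubring.mem_nonunits_iff_or]
  rcases vl_mem hm with e | e
  · exact Or.inl (congrArg Subtype.val e)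
  · exact Or.inr fun e' => pos_iff.1 e ((hy _).2 e')

theorem chart_pos {x : Plk C L} {θ : L →ₐ[C] C⸨X⸩} {g : GL (Fin 2) E} (H : A.CM x θ g) {h : L}
    (h1 : h⁻¹ ∉ x.1) : θ h ≠ 0 ∧ 0 < (θ h).order := by
  have h0 : h ≠ 0 := fun e => h1 (by rw [e, inv_zero]; exact zero_mem _)
  have h2 : θ h ≠ 0 := (_root_.map_ne_zero θ).2 h0
  have h3 := HahnSeries.order_mul h2 ((_root_.map_ne_zero θ).2 (inv_ne_zero h0))
  rw [← map_mul, mul_inv_cancel₀ h0, map_one, HahnSeries.order_one] at h3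
  rw [H.pl] at h1
  exact ⟨h2, by omega⟩

theorem chart_mul {x : Plk C L} {θ : L →ₐ[C] C⸨X⸩} {g : GL (Fin 2) E} (H : A.CM x θ g) {T t : L}
    {v : C} (h : Vl x T v) (ht : θ t ≠ 0) :
    (θ (T * t)).coeff (θ t).order = v * (θ t).coeff (θ t).order := by
  have e : θ (T * t) = θ (T - algebraMap C L v) * θ t + v • θ t := by
    rw [map_mul, map_sub, θ.commutes, ← HahnSeries.C_mul_eq_smul, LaurentSeries.algebraMap_apply]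
    ring
  rw [e, HahnSeries.coeff_add, HahnSeries.coeff_smul, smul_eq_mul, add_eq_right]
  rcases (ValuationSubring.mem_nonunits_iff_or _).1 h with e | e
  · rw [e, map_zero, zero_mul, HahnSeries.coeff_zero]
  · obtain ⟨h1, h2⟩ := chart_pos H e
    exact HahnSeries.coeff_eq_zero_of_lt_order (by rw [HahnSeries.order_mul h1 ht]; omega)

/-! ## chains in the tower -/

section chain

variable {W S S' : Subgroup Γ} {g : GL (Fin 2) E} {γ : Γ} {ρ : ℝ} [CFF C (A.K S)] [CFF C (A.K S')]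
  {α β : A.K S →ₐ[C] A.K S'}

theorem ly_pb {φ : A.K S →ₐ[C] A.K S'} {δ : Γ} (hφ : ∀ h, (φ h : L) = A.act δ⁻¹ h) {y : Plk C L}
    {R : Plk C (A.K S')} (hy : AT.Ly y R) : AT.Ly (A.sm δ y) (pb φ R) := fun h => by
  rw [mem_pb, hy, hφ, A.mem_sm]

theorem ly_conj (hA : A.Ok) (hS : A.Lv S) {y y' : Plk C L} {P : Plk C (A.K S)} (h : AT.Ly y P)
    (h' : AT.Ly y' P) : ∃ u ∈ S, y' = A.sm u y := by
  obtain ⟨u, hu, -, e⟩ := hS.conj hA le_rfl (y := y) (y' := y')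
    fun f hf => (h ⟨f, hf⟩).symm.trans (h' ⟨f, hf⟩)
  exact ⟨u, hu, e⟩

theorem ly_sm {y : Plk C L} {P : Plk C (A.K S)} (h : AT.Ly y P) {u : Γ} (hu : u ∈ S) :
    AT.Ly (A.sm u y) P := fun f => by
  rw [A.mem_sm, A.mem_K.1 f.2 _ (inv_mem hu)]
  exact h f

variable (hA : A.Ok) (hS : A.Lv S) (hS' : A.Lv S')
  (hU : ∀ u, u ∈ S ↔ u ∈ W ∧ Mo C 1 (g⁻¹ * A.π u * g)) (hγ : γ ∈ W)
  (hρ : Mo C ρ (g⁻¹ * A.π γ * g)) (hα : ∀ h, (α h : L) = h) (hβ : ∀ h, (β h : L) = A.act γ⁻¹ h)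

theorem mo_mul {r r' : ℝ} {δ δ' : Γ} (h : Mo C r (g⁻¹ * A.π δ * g))
    (h' : Mo C r' (g⁻¹ * A.π δ' * g)) : Mo C (r * r') (g⁻¹ * A.π (δ * δ') * g) := by
  convert h.mul h' using 1
  rw [map_mul]
  group

include hα in
theorem ly_al {y : Plk C L} {R : Plk C (A.K S')} (hy : AT.Ly y R) : AT.Ly y (pb α R) := fun h => by
  rw [mem_pb, hy, hα]

include hA hS hS' hU hγ hρ hα hβ

theorem ch_rel (n : ℕ) {P P' : Plk C (A.K S)} (h : Ch α β n P P') {y : Plk C L} (hy : AT.Ly y P) :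
    ∃ y' τ, AT.Ly y' P' ∧ y = A.sm τ y' ∧ τ ∈ W ∧ Mo C (ρ ^ n) (g⁻¹ * A.π τ * g) := by
  induction n generalizing P' with
  | zero =>
    exact ⟨y, 1, (show P = P' from h) ▸ hy, (A.sm_one y).symm, one_mem _, by
      simpa using mo_z (C := C) (E := E) (one_mem _)⟩
  | succ n ih =>
    obtain ⟨R, h1, rfl⟩ := h
    obtain ⟨y₁, τ, h2, h3, h4, h5⟩ := ih h1
    obtain ⟨y', h6⟩ := hS'.over hA le_rfl R
    obtain ⟨u, hu, e⟩ := ly_conj hA hS (ly_pb hβ h6) h2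
    refine ⟨y', τ * (u * γ), ly_al hα h6, by rw [A.sm_mul, A.sm_mul, ← e, h3],
      mul_mem h4 (mul_mem ((hU u).1 hu).1 hγ), ?_⟩
    simpa only [pow_succ, one_mul] using mo_mul h5 (mo_mul ((hU u).1 hu).2 hρ)

theorem cyc_rel {R : ℕ → Plk C (A.K S')} {t : ℕ → A.K S}
    (h1 : ∀ i, pb β (R i) = pb α (R (i + 1)))
    (h2 : ∀ i, t i ≠ 0 ∧ β (t (i + 1)) / α (t i) ∈ (R i).1) {y : Plk C L} (hy : AT.Ly y (R 0))
    (n : ℕ) : ∃ δ ∈ W, Mo C (ρ ^ n) (g⁻¹ * A.π δ * g) ∧ AT.Ly (A.sm δ y) (R n) ∧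
      Vl y (A.act δ⁻¹ (t n) / t 0)
        (∏ i ∈ Finset.range n, vl (R i) (β (t (i + 1)) / α (t i))) := by
  have h0 : ∀ i, (t i : L) ≠ 0 := fun i e => (h2 i).1 (Subtype.ext e)
  induction n with
  | zero =>
    refine ⟨1, one_mem _, by simpa using mo_z (C := C) (E := E) (one_mem _), by rwa [A.sm_one], ?_⟩
    simp [Vl, div_self (h0 0)]
  | succ n ih =>
    obtain ⟨δ, p1, p2, p3, p4⟩ := ih
    obtain ⟨y', p5⟩ := hS'.over hA le_rfl (R (n + 1))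
    obtain ⟨u, hu, e⟩ := ly_conj hA hS (h1 n ▸ ly_pb hβ p3) (ly_al hα p5)
    refine ⟨u * γ * δ, mul_mem (mul_mem ((hU u).1 hu).1 hγ) p1, ?_,
      by rwa [A.sm_mul, A.sm_mul, ← e], ?_⟩
    · simpa only [pow_succ', one_mul] using mo_mul (mo_mul ((hU u).1 hu).2 hρ) p2
    · have p6 := vl_sm.1 (vl_ly p3 (h2 n).2)
      rw [Finset.prod_range_succ]
      convert p4.mul p6 using 1
      have p7 : A.act δ⁻¹ (t n) ≠ 0 := (_root_.map_ne_zero _).2 (h0 n)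
      rw [IntermediateField.coe_div, hα, hβ, map_div₀, mul_inv_rev, mul_inv_rev, A.act_mul,
        A.act_mul, A.mem_K.1 (t (n + 1)).2 _ (inv_mem hu)]
      field_simp

end chain

/-! ## walking back in a basin -/

theorem norm_ev_le {f : C⟦X⟧} (hf : Ig f) (h0 : constantCoeff f = 0) {a : C} (ha : ‖a‖ ≤ 1) :
    ‖An4.ev a f‖ ≤ max ‖coeff 1 f‖ ‖a‖ * ‖a‖ := by
  refine An4.Bnd.ev (r := ‖a‖) (fun n => ?_) le_rfl
  rcases n with _ | _ | n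
  · rw [coeff_zero_eq_constantCoeff_apply, h0, norm_zero, zero_mul]
    positivity
  · rw [zero_add, pow_one]
    exact mul_le_mul_of_nonneg_right (le_max_left _ _) (norm_nonneg a)
  · rw [pow_succ, pow_succ, ← mul_assoc, ← mul_assoc]
    refine mul_le_mul_of_nonneg_right (le_max_of_le_right (mul_le_of_le_one_left (norm_nonneg a)
      (mul_le_one₀ (hf _) (by positivity) (pow_le_one₀ (norm_nonneg a) ha)))) (norm_nonneg a)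

theorem norm_ev_le' {f : C⟦X⟧} (hf : Ig f) (h0 : constantCoeff f = 0) {a : C} (ha : ‖a‖ ≤ 1) :
    ‖An4.ev a f‖ ≤ ‖a‖ :=
  (norm_ev_le hf h0 ha).trans (mul_le_of_le_one_left (norm_nonneg a) (max_le (hf 1) ha))

theorem f_ok (hA : A.Ok) {D : LTD C O E} (hD : D.Ok A.ϖ) :
    Ig D.f ∧ constantCoeff D.f = 0 ∧ ‖coeff 1 D.f‖ < 1 := by
  obtain ⟨p, -, hp⟩ := hA.lf.irr
  obtain ⟨l, e, hl, -, he, hq⟩ := char_ex hA.lf
  refine ⟨hD.f_br p hp ▸ hD.br_ig p, hD.f_br p hp ▸ hD.br0 p, ?_⟩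
  have := hD.f_red 1
  rwa [map_sub, coeff_X_pow, if_neg (by rw [hq]; exact (Nat.one_lt_pow he.ne' hl.one_lt).ne),
    sub_zero] at this

theorem pos_of_nn (hA : A.Ok) {μ : Eˣ} (hμ : nn C (μ : E) < 1) :
    ∃ (m : ℕ) (o : Oˣ), 0 < m ∧ (μ : E) = A.ϖ ^ (m : ℤ) * algebraMap O E o ∧
      nn C (μ : E) = nn C (A.ϖ : E) ^ (m : ℤ) := by
  obtain ⟨m, o, e⟩ := exists_unit hA.lf μ
  have h1 : nn C (μ : E) = nn C (A.ϖ : E) ^ m := by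
    rw [e, nn_mul, (unit_iff hA.lf).1 o.isUnit, mul_one, ← nn_zpow, Units.val_zpow_eq_zpow_val]
  have h2 : 0 < m := by
    rwa [h1, zpow_lt_one_iff_right_of_lt_one₀ (nn_upos _) (nn_pi_lt hA.lf)] at hμ
  obtain ⟨m, rfl⟩ := Int.eq_ofNat_of_zero_le h2.le
  exact ⟨m, o, by exact_mod_cast h2, e, h1⟩

theorem back (hA : A.Ok) (hR : A.SRN) (hO : A.OVU) {D : LTD C O E} (hD : D.Ok A.ϖ) {x : Plk C L}
    {θ : L →ₐ[C] C⸨X⸩} {g : GL (Fin 2) E} {b : C} {ε : ℤ → L →ₐ[C] C⸨X⸩} (B : A.Bas D x θ g b ε)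
    {W : Subgroup Γ} (hW : W ∈ A.Wl) {δ : Γ} (hδ : δ ∈ W) (hx : δ ∈ A.St x) {μ : Eˣ}
    (hμ : Fm g (A.π δ) (dg μ)) (h1 : nn C (μ : E) < 1) {y : Plk C L} {τ : Γ} (hτ : τ ∈ W)
    (h2 : Mo C (nn C (μ : E)) (g⁻¹ * A.π τ * g)) {t : C} (ht : A.Ov g ε 0 t (A.sm τ y)) :
    ∃ u ∈ W, Mo C 1 (g⁻¹ * A.π u * g) ∧ ∃ t₁, A.Ov g ε 0 t₁ (A.sm u y) ∧
      ‖t‖ ≤ max ‖coeff 1 D.f‖ ‖t₁‖ * ‖t₁‖ := by
  have V := hO D hD _ _ _ _ _ B
  obtain ⟨f1, f2, -⟩ := f_ok hA hD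
  obtain ⟨c, hc, h3⟩ := h2.dec rfl
  obtain ⟨γ, hγ, h4⟩ := (hR _ _ _ B.cm B.hyp).1 c
  obtain ⟨m, o, hm, e, -⟩ := pos_of_nn hA h1
  refine ⟨δ⁻¹ * γ⁻¹ * τ, mul_mem (mul_mem (inv_mem hδ) (inv_mem (Gn.mem_H.1 hγ W hW))) hτ, ?_, ?_⟩
  · refine h3.fm ?_
    rw [map_mul, map_mul, map_inv, map_inv, h4]
    exact (hμ.inv.mul (fm_self g _).inv).mul (fm_self' g _)
  have h5 : A.Ov g ε 0 t (A.sm γ⁻¹ (A.sm τ y)) := by
    refine ((V 0).2.2.2.2.1 γ hγ c (h4 ▸ fm_self g _) t _).2 ⟨t, ht, ?_⟩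
    rw [hD.tr_int _ (by simpa using (io_iff hA.lf).2 hc), An4.ev_X]
  have h6 := (V 0).2.2.2.2.2.1 δ⁻¹ (inv_mem hx) (-m) o⁻¹ μ⁻¹ (by
    rw [Units.val_inv_eq_inv_val, e, mul_inv, zpow_neg, map_units_inv]) (by
    rw [map_inv, dg_inv]
    exact hμ.inv) t _ h5
  have h7 := (V (0 + -m)).2.2.2.2.2.1 δ hx m o μ e hμ _ _ h6
  rw [← A.sm_mul, mul_inv_cancel, A.sm_one, zero_add, neg_add_cancel] at h7
  have h8 := (V 0).2.2.2.1 _ _ _ h5 h7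
  have h9 := norm_ev_le' (hD.br_ig o) (hD.br0 o) h6.1.le
  rw [← h8] at h9
  rw [← A.sm_mul, ← A.sm_mul] at h6
  have up : ∀ (k : ℕ) (n : ℤ) a y, A.Ov g ε n a y → ∃ a₁, A.Ov g ε (n + k) a₁ y ∧ ‖a‖ ≤ ‖a₁‖ ∧
      (0 < k → ‖a‖ ≤ max ‖coeff 1 D.f‖ ‖a₁‖ * ‖a₁‖) := by
    intro k n a y h
    induction k with
    | zero => exact ⟨a, by simpa using h, le_rfl, fun h => absurd h (lt_irrefl 0)⟩
    | succ k ih =>
      obtain ⟨a₁, p1, p2, -⟩ := ih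
      obtain ⟨a₂, rfl, p3⟩ := (V (n + k)).2.2.1 a₁ y p1
      exact ⟨a₂, by rwa [Nat.cast_succ, ← add_assoc], p2.trans (norm_ev_le' f1 f2 p3.1.le),
        fun _ => p2.trans (norm_ev_le f1 f2 p3.1.le)⟩
  obtain ⟨t₁, p1, -, p2⟩ := up m _ _ _ h6
  rw [zero_add, neg_add_cancel] at p1
  exact ⟨t₁, p1, h9.trans (p2 hm)⟩

/-! ## the steps towards the end -/

theorem fro_it {D : LTD C O E} (hD : D.Ok A.ϖ) (hP : A.FRO) {ν : NV C L} {g : GL (Fin 2) E}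
    (h : A.Ord D ν g) {W : Subgroup Γ} (hW : W ∈ A.Wl) (m : ℕ) :
    (∀ h ∈ A.Kv W (g * dg (A.ϖ ^ (-m : ℤ))), ν h ≤ 1 → ∃ h' ∈ A.Kv W (g * dg (A.ϖ ^ (0 : ℤ))),
      ν h' ≤ 1 ∧ ν.red h = ν.red h' ^ qq O ^ m) ∧
    ∀ h' ∈ A.Kv W (g * dg (A.ϖ ^ (0 : ℤ))), ν h' ≤ 1 → ∃ h ∈ A.Kv W (g * dg (A.ϖ ^ (-m : ℤ))),
      ν h ≤ 1 ∧ ν.red h = ν.red h' ^ qq O ^ m := by
  induction m with
  | zero => exact ⟨fun h h1 h2 => ⟨h, h1, h2, by simp⟩, fun h h1 h2 => ⟨h, h1, h2, by simp⟩⟩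
  | succ m ih =>
    obtain ⟨-, -, p1, p2⟩ := hP D hD ν g h W hW (-m)
    rw [show (-((m + 1 : ℕ) : ℤ)) = -m - 1 by omega]
    refine ⟨fun h h1 h2 => ?_, fun h' h1 h2 => ?_⟩
    · obtain ⟨h₁, q1, q2, q3⟩ := p1 h h1 h2
      obtain ⟨h', q4, q5, q6⟩ := ih.1 h₁ q1 q2
      refine ⟨h', q4, q5, ?_⟩
      rw [(red_eq_iff h2 (NV.pow_le_one' q2 _)).2 q3, NV.red_pow q2, q6, ← pow_mul, pow_succ]
    · obtain ⟨h₁, q1, q2, q3⟩ := ih.2 h' h1 h2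
      obtain ⟨h, q4, q5⟩ := p2 h₁ q1 q2
      have q6 := le_one_of_sub (NV.pow_le_one' q2 (qq O)) (by rwa [← NV.map_neg', neg_sub])
      refine ⟨h, q4, q6, ?_⟩
      rw [(red_eq_iff q6 (NV.pow_le_one' q2 _)).2 q5, NV.red_pow q2, q3, ← pow_mul, pow_succ]

/-! ## from a cycle to a basin -/

theorem bas_frame (hA : A.Ok) (hF : A.FRM) {D : LTD C O E} (hD : D.Ok A.ϖ) {x : Plk C L}
    {θ : L →ₐ[C] C⸨X⸩} {g : GL (Fin 2) E} {b : C} {ε : ℤ → L →ₐ[C] C⸨X⸩} (B : A.Bas D x θ g b ε)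
    (a : Eˣ) : ∃ b' ε', A.Bas D x θ (g * dg a) b' ε' := by
  obtain ⟨m, o, e⟩ := exists_unit hA.lf a
  obtain ⟨ε', B', -⟩ := (hF D hD _ _ _ _ _ ((hF D hD _ _ _ _ _ B).2.2.1 m)).2.2.2 o
    (Units.map (algebraMap O E : O →* E) o) rfl
  rw [mul_assoc, ← dg_mul, show A.ϖ ^ m * Units.map (algebraMap O E : O →* E) o = a from
    Units.ext (by rw [e, Units.val_mul, Units.val_zpow_eq_zpow_val]; rfl)] at B'
  exact ⟨_, _, B'⟩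

theorem bas_of_cyc (hA : A.Ok) (hR : A.SRN) (hB : A.BAS) (hC : A.CAL) (hF : A.FRM) (hO : A.OVU)
    (hS : A.DSC) {D : LTD C O E} (hD : D.Ok A.ϖ) {W : Subgroup Γ} (hW : W ∈ A.Wl)
    {V : Subgroup (GL (Fin 2) E)} (hV : Ll O V) {g : GL (Fin 2) E}
    (hg : ∀ k, k ∈ V ↔ Mo C 1 (g⁻¹ * k * g)) {S' : Subgroup Γ} (hS' : A.Lv S')
    (hle : S' ≤ A.U W V) [CFF C (A.K (A.U W V))] [CFF C (A.K S')] {γ : Γ} (hγ : γ ∈ W) {ρ : ℝ}
    (hρ0 : 0 ≤ ρ) (hρ1 : ρ < 1) (hρ : Mo C ρ (g⁻¹ * A.π γ * g))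
    {α β : A.K (A.U W V) →ₐ[C] A.K S'} (hα : ∀ h, (α h : L) = h)
    (hβ : ∀ h, (β h : L) = A.act γ⁻¹ h) {η : NV C (A.K (A.U W V))} {j : C → Plk C (A.K (A.U W V))}
    {z : Plk (kC C) (kap η)} (H : Dk η j) (Z : Bz η j z) (h : Cyc α β j) :
    ∃ x θ g' b ε, A.Bas D x θ g' b ε ∧ g⁻¹ * g' ∈ KZ O E ∧
      Gs ((ε 0).comp (A.K (A.U W V)).val) η ∧ Brn ((ε 0).comp (A.K (A.U W V)).val) η z := by
  have hL := AT.lv_U hW hV
  have hU : ∀ u, u ∈ A.U W V ↔ u ∈ W ∧ Mo C 1 (g⁻¹ * A.π u * g) := fun u => by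
    rw [Gn.mem_U, hg]
  obtain ⟨k, hk, R, t, r1, r2, r3, r4, r5, r6⟩ := h
  obtain ⟨y, hy⟩ := hS'.over hA le_rfl (R 0)
  obtain ⟨δ₀, d1, d2, d3, d4⟩ := cyc_rel hA hL hS' hU hγ hρ hα hβ r3
    (fun i => ⟨(r5 i).1, (r5 i).2.1⟩) hy k
  obtain ⟨u, hu, e⟩ := ly_conj hA hS' (r1 ▸ d3) hy
  have hu' := (hU u).1 (hle hu)
  have d5 : u * δ₀ ∈ W := mul_mem hu'.1 d1
  have d6 : u * δ₀ ∈ A.St y := by rw [AT.mem_St, A.sm_mul, ← e]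
  have d7 : Mo C (ρ ^ k) (g⁻¹ * A.π (u * δ₀) * g) := by simpa only [one_mul] using mo_mul hu'.2 d2
  have d8 : ρ ^ k < 1 := pow_lt_one₀ hρ0 hρ1 hk.ne'
  have hyp : A.Hyp y := ⟨W, hW, _, d5, d6, fun h => by
    have h1 := d7.lt d8
    rw [Gn.zl_conj (hA.zs _ h), (mem_Z_iff.1 (hA.zs _ h)).2.2] at h1
    exact lt_irrefl _ h1⟩
  obtain ⟨θ, g₀, cm⟩ := hA.cm y hyp
  obtain ⟨μ, m1, m2⟩ := cm.lin _ d6
  obtain ⟨c1, c2⟩ := chart_pos cm (h := t 0) fun h => pos_iff.1 r4 ((hy _).2 (by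
    rwa [IntermediateField.coe_inv, hα]))
  have c3 := chart_mul cm d4 c1
  have c4 := m2 (A.act (u * δ₀)⁻¹ (t 0)) (θ (t 0)).order
  rw [A.act_inv', mul_inv_rev, A.act_mul, A.mem_K.1 (t 0).2 _ (inv_mem (hle hu))] at c4
  rw [div_mul_cancel₀ _ (fun e => c1 (by rw [e, map_zero])), r2, ← c4, mul_comm] at c3
  have c5 := mul_right_cancel₀ (HahnSeries.coeff_order_eq_zero.not.2 c1) c3
  have c6 : nn C (μ : E) < 1 := by
    refine not_le.1 fun h => absurd (one_le_zpow₀ h c2.le) (not_le.2 ?_)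
    rw [nn, ← norm_zpow, c5, norm_prod]
    obtain ⟨n, rfl⟩ := Nat.exists_eq_succ_of_ne_zero hk.ne'
    rw [Finset.prod_range_succ]
    exact mul_lt_one_of_nonneg_of_lt_one_right
      (Finset.prod_le_one (fun _ _ => norm_nonneg _) fun i _ => (r5 i).2.2.le) (norm_nonneg _)
      (r5 n).2.2
  obtain ⟨a, a1, a2, a3, a4, a5⟩ := r6 (Finset.prod_ne_zero_iff.1 (c5 ▸ zpow_ne_zero _
    ((_root_.map_ne_zero _).2 μ.ne_zero)) 0 (Finset.mem_range.2 hk))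
  obtain ⟨e1, s, e2⟩ := d7.eig d8 c6 (n := g⁻¹ * g₀) (by
    have := (Gn.fm_conj g⁻¹).2 m1
    rwa [inv_inv] at this)
  obtain ⟨b₀, ε₀, B₀⟩ := hB D hD y θ g₀ cm hyp
  obtain ⟨b, ε, B⟩ := bas_frame hA hF hD B₀ s
  rw [mul_assoc] at e2
  set g' := g₀ * dg s with hg'
  have tr : ∀ {r : ℝ} {k : GL (Fin 2) E}, Mo C r (g⁻¹ * k * g) ↔ Mo C r (g'⁻¹ * k * g') :=
    ⟨fun h => by convert (e2.inv.left h).right e2 using 1; group,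
      fun h => by convert (e2.left h).right e2.inv using 1; group⟩
  have m3 : Fm g' (A.π (u * δ₀)) (dg μ) := by
    have := m1.frame (dg s)
    rwa [← dg_inv, ← dg_mul, ← dg_mul, inv_mul_cancel_comm] at this
  obtain ⟨jB, b1, b2⟩ := hS D hD _ _ _ _ _ B 0 W hW V hV fun c => by
    rw [hg, tr, show g'⁻¹ * (g' * un c * g'⁻¹) * g' = un c by group, mo_un, zpow_zero,
      Units.val_one, div_one, io_iff hA.lf]
  obtain ⟨η', G⟩ := dsc_gs hA.gf b1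
  have H' := dsc_dk b1 G
  have step : ∀ l (w : C), (∃ y', A.Ov g' ε 0 w y' ∧ AT.Ly y' (j (a l))) → ∃ w₁,
      (∃ y', A.Ov g' ε 0 w₁ y' ∧ AT.Ly y' (j (a (l + 1)))) ∧
        ‖w‖ ≤ max ‖coeff 1 D.f‖ ‖w₁‖ * ‖w₁‖ := by
    rintro l w ⟨y', p1, p2⟩
    obtain ⟨y₁, τ, q1, rfl, q2, q3⟩ := ch_rel hA hL hS' hU hγ hρ hα hβ k (a5 l) p2
    obtain ⟨v, q4, q5, w₁, q6, q7⟩ := back hA hR hO hD B hW d5 d6 m3 c6 q2 (e1 ▸ tr.1 q3) p1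
    exact ⟨w₁, ⟨_, q6, ly_sm q1 ((hU v).2 ⟨q4, tr.2 q5⟩)⟩, q7⟩
  choose! nx n1 n2 using step
  let w : ℕ → C := fun l => Nat.rec 0 nx l
  have w0 : A.Ov g' ε 0 0 y := (hC D hD _ _ _ _ _ B).2.2.1 0
  have w1 : ∀ l, ∃ y', A.Ov g' ε 0 (w l) y' ∧ AT.Ly y' (j (a l)) := fun l => by
    induction l with
    | zero => exact ⟨y, w0, a3 ▸ ly_al hα hy⟩
    | succ l ih => exact n1 l _ ih
  have w2 : ∀ l, j (a l) = jB (w l) := fun l => by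
    obtain ⟨y', p1, p2⟩ := w1 l
    exact p2.unique (b2 _ _ p1)
  have w3 : ∀ l, ‖w l‖ < 1 := fun l => (w1 l).choose_spec.1.1
  have w4 := tend_one (f_ok hA hD).2.2 (fun _ => norm_nonneg _) w3 (fun l => n2 l _ (w1 l))
    (l₀ := 1) (norm_pos_iff.2 fun e => a4 (H.inj (a1 1) (a1 0) (by rw [w2, w2, e]; rfl)))
  obtain ⟨rfl, l2⟩ := H.lim H' a2 (tend_bF w3 w4) w2
  refine ⟨y, θ, g', b, ε, B, e2.kz hA.lf, G, (brn_iff hA.gf b1 G).2 fun h D' h1 h2 => ?_⟩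
  obtain ⟨D₀, h3⟩ := H.dv (ne_of_one h1)
  rw [l2 h D₀ D' h1 h3 h2]
  exact Z h D₀ h1 h3

theorem lift_sub (hC : GF C) (hG : GEN C) (ν : NV C L) {M Y Y' : IntermediateField C L} [CFF C M]
    [CFF C Y] [CFF C Y'] (k1 : M ≤ Y) (k2 : Y ≤ Y') {σ : L ≃ₐ[C] L} (inv : ∀ h, ν (σ h) = ν h)
    (hσ : ∀ h : Y, σ h ∈ Y') (den : ∀ h ∈ Y', ν h ≤ 1 → ∃ h' ∈ M, ν (h - h') < 1) {p m : ℕ}
    [Fact p.Prime] [CharP (kC C) p] (hm : 0 < m)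
    (f1 : ∀ h ∈ M, ν h ≤ 1 → ∃ h' ∈ M, ν h' ≤ 1 ∧ ν.red (σ h) = ν.red h' ^ p ^ m)
    (f2 : ∀ h' ∈ M, ν h' ≤ 1 → ∃ h ∈ M, ν h ≤ 1 ∧ ν.red (σ h) = ν.red h' ^ p ^ m) :
    ∃ α β : Y →ₐ[C] Y', (∀ h, (α h : L) = h) ∧ (∀ h, (β h : L) = σ h) ∧
      ∃ Z : Set (Plk (kC C) (kap (ν.comap M))), Z.Finite ∧ ∀ z ∉ Z, ∃ j w, Dk (ν.comap Y) j ∧
        Bz (ν.comap Y) j w ∧ Cyc α β j ∧ ∀ h : M, (ν.comap M).red h ∈ z.1 ↔
          (ν.comap Y).red (IntermediateField.inclusion k1 h) ∈ w.1 := by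
  let β : Y →ₐ[C] Y' := ((σ : L →ₐ[C] L).comp Y.val).codRestrict Y'.toSubalgebra hσ
  haveI := Dk.cff hC (ν.comap Y)
  haveI := Dk.cff hC (ν.comap Y')
  haveI := Dk.cff hC (ν.comap M)
  have ri : ∀ h h', ν h ≤ 1 → ν (h - h') < 1 → ν.red (σ h) = ν.red (σ h') :=
    fun h h' p1 p2 => (red_eq_iff (by rwa [inv]) (by rw [inv]; exact le_one_of_sub p1 p2)).2
      (by rwa [← map_sub, inv])
  obtain ⟨Z, hZ, H⟩ := lift hC hG (α := IntermediateField.inclusion k2) (β := β) (η := ν.comap Y)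
    (η' := ν.comap Y') (p := p) hm (fun _ => rfl) (fun h => inv h) (fun h' p1 => by
      obtain ⟨h, p2, p3⟩ := den h' h'.2 p1
      exact ⟨⟨h, k1 p2⟩, p3⟩) (fun h p1 => by
      obtain ⟨h₀, p2, p3⟩ := den h (k2 h.2) p1
      obtain ⟨h₁, p5, p6, p7⟩ := f1 _ p2 (le_one_of_sub p1 p3)
      refine ⟨⟨h₁, k1 p5⟩, p6, ?_⟩
      show ν (σ h - h₁ ^ p ^ m) < 1
      rw [← red_eq_iff (by rw [inv]; exact p1) (NV.pow_le_one' p6 _), ri h h₀ p1 p3, p7,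
        NV.red_pow p6]) fun h₁ p1 => by
      obtain ⟨h₀, p2, p3⟩ := den h₁ (k2 h₁.2) p1
      obtain ⟨h, p4, p5, p6⟩ := f2 h₀ p2 (le_one_of_sub p1 p3)
      refine ⟨⟨h, k1 p4⟩, ?_⟩
      show ν (σ h - (h₁ : L) ^ p ^ m) < 1
      have p7 : ν h₁ ≤ 1 := p1
      rw [← red_eq_iff (by rwa [inv]) (NV.pow_le_one' p7 _), p6, NV.red_pow p7,
        (red_eq_iff p7 (le_one_of_sub p1 p3)).2 p3]
  have hι : ∀ h, ν.comap Y (IntermediateField.inclusion k1 h) = ν.comap M h := fun _ => rfl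
  let q : kap (ν.comap M) ≃ₐ[kC C] kap (ν.comap Y) :=
    AlgEquiv.ofBijective (rA _ hι) ⟨RingHom.injective _,
      rm_surj (IntermediateField.inclusion k1 : M →+* Y) hι fun h' p1 => by
        obtain ⟨h, p2, p3⟩ := den h' (k2 h'.2) p1
        exact ⟨⟨h, p2⟩, p3⟩⟩
  refine ⟨IntermediateField.inclusion k2, β, fun _ => rfl, fun _ => rfl, _,
    hZ.image (pb (rA _ hι)), fun z hz => ?_⟩
  have hq : pb (rA _ hι) (pb (q.symm : kap (ν.comap Y) →ₐ[kC C] kap (ν.comap M)) z) = z :=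
    pb_eq fun x => by
      rw [mem_pb]
      exact iff_of_eq (congrArg (· ∈ z.1) (q.symm_apply_apply x))
  obtain ⟨j, j1, j2, j3⟩ := H _ fun h => hz ⟨_, h, hq⟩
  exact ⟨j, _, j1, j2, j3, fun h => by rw [← rA_red _ hι, ← mem_pb, hq]⟩

section fr

variable (hA : A.Ok) {W : Subgroup Γ} {g : GL (Fin 2) E} {γ : Γ} (hγ : γ ∈ W) {μ : Eˣ}
  (m1 : Fm g (A.π γ) (dg μ)) {m : ℕ} (m4 : nn C (μ : E) = nn C (A.ϖ : E) ^ (m : ℤ))

include m1 in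
theorem cj_dg (u : Γ) :
    g⁻¹ * A.π (γ⁻¹⁻¹ * u * γ⁻¹) * g = dg μ * (g⁻¹ * A.π u * g) * (dg μ)⁻¹ := by
  obtain ⟨z, hz, e⟩ := Gn.fm_iff.1 m1
  have e' : z * A.π u = A.π u * z := (Gn.zl_comm hz _).symm
  rw [inv_inv, map_mul, map_mul, map_inv, e, mul_assoc _ z, e']
  group

include hA hγ m1 m4

theorem act_Kp (h : A.Kp W g (-1) 0) : A.act γ⁻¹ h ∈ A.Kp W g (-1 - m) 0 := by
  refine A.mem_K.2 fun u hu => ?_
  obtain ⟨p1, p2⟩ := (mem_path hA.lf (by omega)).1 (Gn.mem_U.1 hu).2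
  have p3 : γ⁻¹⁻¹ * u * γ⁻¹ ∈ A.U W (Vx O (g * dg (A.ϖ ^ (-1 : ℤ))) ⊓
      Vx O (g * dg (A.ϖ ^ (0 : ℤ)))) := by
    refine Gn.mem_U.2 ⟨mul_mem (mul_mem (inv_mem (inv_mem hγ)) (Gn.mem_U.1 hu).1) (inv_mem hγ),
      (mem_iw hA.lf).2 ?_⟩
    rw [cj_dg m1]
    refine p1.conj ?_ (p2.trans_lt (mul_lt_mul_of_pos_right ?_ p1.pos)) <;> rw [m4]
    · exact zpow_le_one₀ (nn_upos _) (nn_pi_lt hA.lf).le (by omega)
    · exact zpow_lt_zpow_right_of_lt_one₀ (nn_upos _) (nn_pi_lt hA.lf) (by omega)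
  rw [← A.act_mul, show u * γ⁻¹ = γ⁻¹ * (γ⁻¹⁻¹ * u * γ⁻¹) by group, A.act_mul,
    A.mem_K.1 h.2 _ p3]

theorem act_Kv (h : L) : h ∈ A.Kv W (g * dg (A.ϖ ^ (0 : ℤ))) ↔
    A.act γ⁻¹ h ∈ A.Kv W (g * dg (A.ϖ ^ (-m : ℤ))) := by
  refine Gn.mem_K_conj (fun u => ?_) h
  have p1 : dg μ * dg (A.ϖ ^ (-m : ℤ)) ∈ KZ O E := by
    rw [← dg_mul, dg_mem_KZ hA.lf, Units.val_mul, nn_mul, nn_zpow, m4, zpow_neg,
      mul_inv_cancel₀ (zpow_ne_zero _ (nn_upos _).ne')]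
  rw [Gn.mem_U, Gn.mem_U, Vx, Vx, mem_cj, mem_cj, zpow_zero, dg_one, mul_one, cj_dg m1,
    mul_mem_cancel_right (inv_mem hγ), mul_mem_cancel_left (inv_mem (inv_mem hγ)),
    ← mul_mem_cancel_left p1, ← mul_mem_cancel_right (inv_mem p1)]
  refine and_congr_right fun _ => iff_of_eq (congrArg (· ∈ KZ O E) ?_)
  group

end fr

end Res

open Res

/-- **COF** -/
theorem cof (hA : A.Ok) (hG : GEN C) (hH : A.HYP) (hR : A.SRN) (hB : A.BAS) (hC : A.CAL)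
    (hF : A.FRM) (hN : A.NUE) (hO : A.OVU) (hS : A.DSC) (hP : A.FRO) : A.COF := by
  intro D hD ν g hν W hW
  obtain ⟨x, θ, b, ε, B, G⟩ := id hν
  obtain ⟨γ, hγ, hx, μ, m1, m2⟩ := (hH _ _ _ B.cm).1 B.hyp W hW
  obtain ⟨m, o, hm, m3, m4⟩ := pos_of_nn hA m2
  obtain ⟨p, e, hp, _, he, hq⟩ := char_ex hA.lf
  haveI := Fact.mk hp
  have inv := ((hN D hD _ _ _ _ _ B).2 ν G).1 γ⁻¹ (inv_mem hx)
  have lv := fun n : ℤ => ll_inf hA.lf (ll_Vx hA.lf (g * dg (A.ϖ ^ n)))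
    (ll_Vx hA.lf (g * dg (A.ϖ ^ (0 : ℤ))))
  have hL := fun n : ℤ => AT.lv_U hW (lv n)
  haveI := (hL (-1)).cff hA
  haveI := (hL (-1 - m)).cff hA
  haveI := (AT.lv_U hW (ll_Vx hA.lf g)).cff hA
  have hle : A.U W (Vx O (g * dg (A.ϖ ^ (-1 - m : ℤ))) ⊓ Vx O (g * dg (A.ϖ ^ (0 : ℤ)))) ≤
      A.U W (Vx O (g * dg (A.ϖ ^ (-1 : ℤ))) ⊓ Vx O (g * dg (A.ϖ ^ (0 : ℤ)))) := fun u hu =>
    Gn.mem_U.2 ⟨(Gn.mem_U.1 hu).1,
      (mem_iw hA.lf).2 ((mem_path hA.lf (by omega)).1 (Gn.mem_U.1 hu).2).1⟩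
  have e0 : A.Kv W (g * dg (A.ϖ ^ (0 : ℤ))) = A.Kv W g := by rw [zpow_zero, dg_one, mul_one]
  have k1 : A.Kv W g ≤ A.Kp W g (-1) 0 :=
    e0 ▸ Gn.K_anti (inf_le_inf_left _ (Subgroup.comap_mono inf_le_right))
  obtain ⟨f1, f2⟩ := fro_it hD hP hν hW m
  have kv := act_Kv hA hγ m1 m4
  have den := (hP D hD ν g hν W hW 0).2.1 (-1 - m) (by omega)
  rw [e0] at f1 f2 kv den
  rw [hq, ← pow_mul] at f1 f2
  obtain ⟨α, β, hα, hβ, Z, hZ, H⟩ := lift_sub hA.gf hG ν k1 (Gn.K_anti hle) inv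
    (act_Kp hA hγ m1 m4) den (Nat.mul_pos he hm)
    (fun h p1 p2 => f1 _ ((kv h).1 p1) (by rwa [inv])) fun h' p1 p2 => by
      obtain ⟨h, p3, p4, p5⟩ := f2 h' p1 p2
      exact ⟨A.act γ h, (kv _).2 (by rwa [A.act_inv]), by rwa [← inv, A.act_inv],
        by rwa [A.act_inv]⟩
  refine ⟨Z, hZ, fun z hz => ?_⟩
  obtain ⟨j, w, j1, j2, j3, j4⟩ := H z hz
  obtain ⟨x', θ', g', b', ε', B', t1, t2, t3⟩ := bas_of_cyc hA hR hB hC hF hO hS hD hW (lv (-1))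
    (fun _ => mem_iw hA.lf) (hL (-1 - m)) hle hγ (nn_nonneg _) m2 ((mo_dg m2.le).fm m1)
    hα hβ j1 j2 j3
  exact ⟨x', θ', g', b', ε', B', t1, fun h c D' hf => t2 (IntermediateField.inclusion k1 h) c D' hf,
    fun h c D' hf hc => (j4 h).trans (t3 (IntermediateField.inclusion k1 h) c D' hf hc)⟩

end Vale.Agent.P022K.FI
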