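import Vale.Agent.P022K.FI.Hk0
import Vale.Agent.P022K.F0.Cf.Rows
import Mathlib.GroupTheory.CosetCover

/-!
# P022K, block FI, bridge: the group and the field of one component of the full tower
-/

set_option autoImplicit false
set_option linter.unusedSectionVars false
set_option linter.style.haveILetI false

open UpperHalfPlane Polynomial
open scoped MatrixGroups

noncomputable section

namespace Vale.Agent.P022K.FI.Br

open Vale.Agent.P022K.Sh Vale.Agent.P022.H218.L3 Vale.Agent.P019P Vale.Agent.P022K.F0.Cf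
  Vale.Agent.P022K.FI.Hk

section orbit

variable {k L Γ : Type*} [Field k] [Field L] [Algebra k L] [Group Γ] (a : Γ →* (L ≃ₐ[k] L))
  {S S' : Subgroup Γ} {f : L}

theorem orb_finite (h : S'.relIndex S ≠ 0) (hf : ∀ γ ∈ S', a γ f = f) :
    (Set.range fun γ : S => a γ f).Finite := by
  haveI : (S'.subgroupOf S).FiniteIndex := ⟨h⟩
  refine (Set.finite_range fun c : S ⧸ S'.subgroupOf S => a (c.out : S) f).subset ?_
  rintro _ ⟨γ, rfl⟩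
  obtain ⟨u, hu⟩ := QuotientGroup.mk_out_eq_mul (S'.subgroupOf S) γ
  exact ⟨γ, by simp only [hu, Subgroup.coe_mul, map_mul, AlgEquiv.mul_apply,
    hf _ (Subgroup.mem_subgroupOf.1 u.2)]⟩

theorem orb_poly (hf : (Set.range fun γ : S => a γ f).Finite) : ∃ P : L[X], P.Monic ∧
    (∀ n, ∀ γ ∈ S, a γ (P.coeff n) = P.coeff n) ∧ ∀ z, P.eval z = 0 ↔ ∃ γ ∈ S, a γ f = z := by
  classical
  refine ⟨∏ z ∈ hf.toFinset, (X - C z), monic_prod_of_monic _ _ fun z _ => monic_X_sub_C z,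
    fun n γ hγ => ?_, fun z => ?_⟩
  · have : (∏ z ∈ hf.toFinset, (X - C z)).map (a γ : L →+* L) = ∏ z ∈ hf.toFinset, (X - C z) := by
      simp only [Polynomial.map_prod, Polynomial.map_sub, map_X, map_C]
      refine Finset.prod_equiv (a γ).toEquiv (fun z => ?_) fun z _ => rfl
      simp only [Set.Finite.mem_toFinset, Set.mem_range]
      constructor
      · rintro ⟨τ, rfl⟩
        exact ⟨⟨γ, hγ⟩ * τ, by rw [Subgroup.coe_mul, map_mul]; rfl⟩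
      · rintro ⟨τ, e⟩
        refine ⟨⟨γ, hγ⟩⁻¹ * τ, ?_⟩
        rw [Subgroup.coe_mul, map_mul, AlgEquiv.mul_apply, e, Subgroup.coe_inv, map_inv]
        exact (a γ).symm_apply_apply z
    have h2 := congrArg (fun p => p.coeff n) this
    simp only [coeff_map] at h2
    exact h2
  · simp only [eval_prod, Finset.prod_eq_zero_iff, Set.Finite.mem_toFinset, eval_sub, eval_X,
      eval_C, sub_eq_zero]
    exact ⟨fun ⟨_, ⟨γ, e⟩, e'⟩ => ⟨γ, γ.2, e.trans e'.symm⟩,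
      fun ⟨γ, hγ, e⟩ => ⟨z, ⟨⟨γ, hγ⟩, e⟩, rfl⟩⟩

theorem orb_mem (hf : (Set.range fun γ : S => a γ f).Finite) (B : ValuationSubring L)
    (hB : ∀ x, (∀ γ ∈ S, a γ x = x) → x ∈ B) : f ∈ B := by
  obtain ⟨P, h1, h2, h3⟩ := orb_poly a hf
  obtain ⟨Q, e, -, hQ⟩ := lifts_and_natDegree_eq_and_monic
    ((lifts_iff_coeff_lifts (f := algebraMap B L) P).2 fun n => ⟨⟨_, hB _ (h2 n)⟩, rfl⟩) h1
  obtain ⟨y, hy⟩ := IsIntegrallyClosed.isIntegral_iff.1 (show IsIntegral B f from ⟨Q, hQ, by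
    rw [← eval_map, e, h3]
    exact ⟨1, one_mem _, by rw [map_one, AlgEquiv.one_apply]⟩⟩)
  exact hy ▸ y.2

theorem orb_conj (hf : (Set.range fun γ : S => a γ f).Finite) (σ : L ≃ₐ[k] L)
    (hσ : ∀ x, (∀ γ ∈ S, a γ x = x) → σ x = x) : ∃ γ ∈ S, a γ f = σ f := by
  obtain ⟨P, -, h2, h3⟩ := orb_poly a hf
  have e : P.map (σ : L →+* L) = P := Polynomial.ext fun n => by
    rw [coeff_map]; exact hσ _ (h2 n)
  rw [← h3, ← e]
  refine (eval_map_apply (σ : L →+* L) f).trans ?_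
  rw [(h3 f).2 ⟨1, one_mem _, by rw [map_one, AlgEquiv.one_apply]⟩, map_zero]

theorem orb_uniform [Infinite k] (h : S'.relIndex S ≠ 0) (σ : L ≃ₐ[k] L)
    (hσ : ∀ x, (∀ γ ∈ S, a γ x = x) → σ x = x) :
    ∃ γ ∈ S, ∀ x, (∀ γ ∈ S', a γ x = x) → a γ x = σ x := by
  haveI : (S'.subgroupOf S).FiniteIndex := ⟨h⟩
  let M : Submodule k L :=
    { carrier := {x | ∀ γ ∈ S', a γ x = x}
      add_mem' := fun hx hy γ hγ => by rw [map_add, hx γ hγ, hy γ hγ]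
      zero_mem' := fun γ _ => map_zero _
      smul_mem' := fun c x hx γ hγ => by rw [map_smul, hx γ hγ] }
  obtain ⟨c, hc⟩ := Subspace.exists_eq_top_of_iUnion_eq_univ (k := k) (E := M)
    (p := fun c : S ⧸ S'.subgroupOf S =>
      (LinearMap.eqLocus (a (c.out : S)).toLinearMap σ.toLinearMap).comap M.subtype)
    (Set.eq_univ_of_forall fun x => by
      obtain ⟨γ, hγ, e⟩ := orb_conj a (orb_finite a h x.2) σ hσ
      obtain ⟨u, hu⟩ := QuotientGroup.mk_out_eq_mul (S'.subgroupOf S) ⟨γ, hγ⟩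
      refine Set.mem_iUnion.2 ⟨(⟨γ, hγ⟩ : S), ?_⟩
      show a _ x.1 = σ x.1
      simp only [hu, Subgroup.coe_mul, map_mul, AlgEquiv.mul_apply,
        x.2 _ (Subgroup.mem_subgroupOf.1 u.2), e])
  exact ⟨c.out, c.out.2, fun x hx => (Submodule.eq_top_iff'.1 hc ⟨x, hx⟩ :)⟩

theorem mem_dir {ι : Type*} [Nonempty ι] (t : ι → IntermediateField k L)
    (h : ∀ i j, ∃ l, t i ≤ t l ∧ t j ≤ t l) {x : L} (hx : x ∈ ⨆ i, t i) : ∃ i, x ∈ t i := by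
  rwa [← SetLike.mem_coe, IntermediateField.coe_iSup_of_directed h, Set.mem_iUnion] at hx

end orbit

variable {G0 G : Type} [Group G0] [Group G] {T : Tw G0 G} {U U' : Subgroup G}

theorem mem_Gam1 {γ : G0} : γ ∈ T.Gam U 1 ↔ T.j γ ∈ U := by
  rw [Tw.mem_Gam, inv_one, one_mul, mul_one]

theorem Gam_cj (U : Subgroup G) (g x : G) : T.Gam (cj g U) x = T.Gam U (x * g) :=
  Subgroup.ext fun γ => by simp only [Tw.mem_Gam, mem_cj, mul_inv_rev, mul_assoc]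

theorem neat_cj (h : T.Neat U) (g : G) : T.Neat (cj g U) := fun x => by
  rw [Gam_cj]
  exact h (x * g)

theorem KX_cj (U : Subgroup G) (x : G) : KX T (cj x U) 1 = KX T U x := by
  rw [KX, Gam_cj, one_mul]

theorem KX_mono (h : U ≤ U') (x : G) : KX T U' x ≤ KX T U x := fun _ hf =>
  T.mem_KF.2 fun γ hγ => T.mem_KF.1 hf γ (T.mem_Gam.2 (h (T.mem_Gam.1 hγ)))

theorem act_KX {f : Mer} {x : G} (h : f ∈ KX T U x) (γ : G0) :
    T.act γ f ∈ KX T U (T.j γ * x) := T.mem_KF.2 fun δ hδ => by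
  have : γ⁻¹ * δ * γ ∈ T.Gam U x := by
    rw [Tw.mem_Gam] at hδ ⊢
    convert hδ using 1
    simp only [map_mul, map_inv]
    group
  conv_rhs => rw [← T.mem_KF.1 h _ this, ← Tw.act_mul]
  rw [← Tw.act_mul]
  congr 2
  group

theorem Z_le (hU : U ∈ T.Lev) : T.Z ≤ U := sInf_le hU

theorem mem_Z {z : G} : z ∈ T.Z ↔ ∀ U ∈ T.Lev, z ∈ U := Subgroup.mem_sInf

theorem reg_act {τ : ℍ} {f : Mer} (γ : G0) : Reg (T.r γ • τ) (T.act γ f) ↔ Reg τ f :=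
  reg_ac (T.r γ)

theorem reg_inv {τ : ℍ} {f : Mer} (γ : G0) : Reg τ (T.act γ⁻¹ f) ↔ Reg (T.r γ • τ) f := by
  rw [← reg_act (T := T) γ, ← Tw.act_mul, mul_inv_cancel, Tw.act_one]

/-- the function field separates the orbits -/
theorem fu_eq {Γ : Subgroup G0} (h : T.Fu Γ) {a b : ℍ}
    (e : ∀ y ∈ T.KF Γ, Reg a y ↔ Reg b y) : ∃ γ ∈ Γ, T.r γ • a = b := by
  obtain ⟨_, ⟨γ, hγ, rfl⟩, e⟩ := h.cf.pt_eq.1 (show h.cf.pt a = h.cf.pt b from
    Subtype.ext (ValuationSubring.ext _ _ fun y => e y.1 (by rw [T.KF_eq]; exact y.2)))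
  exact ⟨γ, hγ, e⟩

/-- every place is a point -/
theorem fu_onto {Γ : Subgroup G0} (h : T.Fu Γ) (P : Plk ℂ (T.KF Γ)) :
    ∃ a, ∀ y : T.KF Γ, y ∈ P.1 ↔ Reg a y := by
  have key : ∀ K : IntermediateField ℂ Mer, K = F0.Cf.KF (Γ.map T.rho) → ∀ P : Plk ℂ K,
      ∃ a, ∀ y : K, y ∈ P.1 ↔ Reg a y := by
    rintro _ rfl P
    obtain ⟨a, rfl⟩ := h.cf.pt_onto P
    exact ⟨a, fun y => h.cf.mem_pt⟩
  exact key _ (T.KF_eq Γ) P

theorem fu_one {Γ : Subgroup G0} (h : T.Fu Γ) (hf : T.Fr Γ) (a : ℍ) :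
    ∃ x ∈ T.KF Γ, od a x = 1 := T.KF_eq Γ ▸ (hf.gen a).ex_one h.cf

variable (hT : T.Ok)

/-- the closure of `j G0` -/
def Gm : Subgroup G where
  carrier := {g | ∀ U ∈ T.Lev, ∃ γ, (T.j γ)⁻¹ * g ∈ U}
  mul_mem' {g g'} h h' U hU := by
    obtain ⟨γ', h2⟩ := h' U hU
    obtain ⟨γ, h1⟩ := h _ (hT.conj U hU (T.j γ'))
    refine ⟨γ * γ', ?_⟩
    convert mul_mem (mem_cj.1 h1) h2 using 1
    rw [map_mul]
    group
  one_mem' U _ := ⟨1, by simp⟩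
  inv_mem' {g} h U hU := by
    obtain ⟨γ, h1⟩ := h _ (hT.conj U hU g⁻¹)
    refine ⟨γ⁻¹, ?_⟩
    convert inv_mem (mem_cj.1 h1) using 1
    rw [map_inv]
    group

theorem j_mem (γ : G0) : T.j γ ∈ Gm hT := fun U _ => ⟨γ, by simp⟩

theorem Z_le_Gm : T.Z ≤ Gm hT := fun z hz U hU => ⟨1, by simpa using Z_le hU hz⟩

/-- `j` with values in the closure -/
def jm' : G0 →* Gm hT := T.j.codRestrict _ (j_mem hT)

theorem coe_jm' (γ : G0) : (jm' hT γ : G) = T.j γ := rfl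

include hT

theorem Z0_le (hU : U ∈ T.Lev) {γ : G0} (h : γ ∈ T.Z0) : T.j γ ∈ U := Z_le hU ((hT.z0 γ).1 h)

theorem Z_conj {z : G} (hz : z ∈ T.Z) (x : G) : x⁻¹ * z * x = z := by
  rw [Subgroup.mem_center_iff.1 (hT.zc hz) x⁻¹, inv_mul_cancel_right]

theorem mem_LW {f : Mer} : f ∈ LW T ↔ ∃ U ∈ T.Lev, f ∈ KX T U 1 := by
  obtain ⟨U0, h0, -⟩ := hT.neat
  haveI : Nonempty T.Lev := ⟨⟨U0, h0⟩⟩
  refine ⟨fun h => ?_, fun ⟨U, hU, h⟩ => KX_le hT hU 1 h⟩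
  obtain ⟨U, hU⟩ := mem_dir (fun U : T.Lev => T.KF (T.Gam U 1)) (fun U U' =>
    ⟨⟨U ⊓ U', hT.inf _ U.2 _ U'.2⟩, KX_mono inf_le_left 1, KX_mono inf_le_right 1⟩) h
  exact ⟨U, U.2, hU⟩

theorem ex_lev (f : LW T) : ∃ U ∈ T.Lev, (f : Mer) ∈ KX T U 1 := (mem_LW hT).1 f.2

theorem ex_lev2 (f f' : LW T) : ∃ U ∈ T.Lev, (f : Mer) ∈ KX T U 1 ∧ (f' : Mer) ∈ KX T U 1 := by
  obtain ⟨U, hU, h⟩ := ex_lev hT f
  obtain ⟨U', hU', h'⟩ := ex_lev hT f'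
  exact ⟨_, hT.inf U hU U' hU', KX_mono inf_le_left 1 h, KX_mono inf_le_right 1 h'⟩

theorem act_LW {f : Mer} (h : f ∈ LW T) (γ : G0) : T.act γ f ∈ LW T := by
  obtain ⟨U, hU, h⟩ := (mem_LW hT).1 h
  exact KX_le hT hU _ (act_KX h γ)

theorem ex_seq (hU : U ∈ T.Lev) : ∃ u : ℕ → Subgroup G, Antitone u ∧ (∀ n, u n ∈ T.Lev) ∧
    (∀ U ∈ T.Lev, ∃ n, u n ≤ U) ∧ ∀ n, u n ≤ U := by
  obtain ⟨u, h1, h2, h3⟩ := hT.seq
  exact ⟨fun n => u n ⊓ U, fun _ _ h => inf_le_inf_right _ (h1 h), fun n => hT.inf _ (h2 n) _ hU,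
    fun V hV => (h3 V hV).imp fun _ h => inf_le_left.trans h, fun _ => inf_le_right⟩

theorem ex_lim {u : ℕ → Subgroup G} (h1 : Antitone u) (h2 : ∀ n, u n ∈ T.Lev)
    (h3 : ∀ U ∈ T.Lev, ∃ n, u n ≤ U) (γ : ℕ → G0) (h : ∀ n, T.j ((γ n)⁻¹ * γ (n + 1)) ∈ u n) :
    ∃ x : Gm hT, ∀ n, (T.j (γ n))⁻¹ * x ∈ u n := by
  obtain ⟨x, hx⟩ := hT.cpl u h1 h2 h3 (fun n => T.j (γ n)) fun n => by simpa using h n
  exact ⟨⟨x, fun U hU => (h3 U hU).elim fun n hn => ⟨γ n, hn (hx n)⟩⟩, hx⟩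

/-- the action on functions -/
def ac (g : Gm hT) (f : LW T) : LW T :=
  ⟨T.act (g.2 _ (ex_lev hT f).choose_spec.1).choose f, act_LW hT f.2 _⟩

variable {hT}

theorem ac_eq {g : Gm hT} {f : LW T} {γ : G0} (hU : U ∈ T.Lev) (hf : (f : Mer) ∈ KX T U 1)
    (hγ : (T.j γ)⁻¹ * g ∈ U) : (ac hT g f : Mer) = T.act γ f := by
  have key : ∀ {V γ δ}, (f : Mer) ∈ KX T V 1 → (T.j γ)⁻¹ * g ∈ V → (T.j δ)⁻¹ * g ∈ V →
      T.act γ (f : Mer) = T.act δ f := fun {V γ δ} h h1 h2 => by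
    have : γ⁻¹ * δ ∈ T.Gam V 1 := mem_Gam1.2 (by
      convert mul_mem h1 (inv_mem h2) using 1
      rw [map_mul, map_inv]
      group)
    conv_lhs => rw [← T.mem_KF.1 h _ this, ← Tw.act_mul, mul_inv_cancel_left]
  obtain ⟨δ, hδ⟩ := g.2 _ (hT.inf _ hU _ (ex_lev hT f).choose_spec.1)
  exact (key (ex_lev hT f).choose_spec.2 (g.2 _ (ex_lev hT f).choose_spec.1).choose_spec
    hδ.2).trans (key hf hδ.1 hγ)

theorem ac_j (γ : G0) (f : LW T) : (ac hT (jm' hT γ) f : Mer) = T.act γ f := by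
  obtain ⟨U, hU, h⟩ := ex_lev hT f
  exact ac_eq hU h (by simp [coe_jm'])

theorem ac_fix {g : Gm hT} {f : LW T} (hU : U ∈ T.Lev) (hf : (f : Mer) ∈ KX T U 1)
    (hg : (g : G) ∈ U) : ac hT g f = f :=
  Subtype.ext ((ac_eq (γ := 1) hU hf (by simpa using hg)).trans (Tw.act_one _))

theorem ac_one (f : LW T) : ac hT 1 f = f := by
  obtain ⟨U, hU, h⟩ := ex_lev hT f
  exact ac_fix hU h (one_mem U)

theorem ac_mul (g g' : Gm hT) (f : LW T) : ac hT (g * g') f = ac hT g (ac hT g' f) := by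
  obtain ⟨U, hU, h⟩ := ex_lev hT f
  obtain ⟨γ', h2⟩ := g'.2 U hU
  obtain ⟨γ, h1⟩ := g.2 _ (hT.conj U hU (T.j γ'))
  have e := ac_eq hU h h2
  refine Subtype.ext ?_
  rw [ac_eq (γ := γ * γ') hU h, ac_eq (hT.conj U hU (T.j γ')) _ h1, e, Tw.act_mul]
  · rw [KX_cj, e]
    simpa using act_KX h γ'
  · convert mul_mem (mem_cj.1 h1) h2 using 1
    rw [map_mul, Subgroup.coe_mul]
    group

theorem ac_RU {φ : G → Mer} (hU : U ∈ T.Lev) (hφ : φ ∈ T.RU U) (g : Gm hT) (x : G) {f : LW T}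
    (e : (f : Mer) = φ x) : (ac hT g f : Mer) = φ (g * x) := by
  obtain ⟨γ, h1⟩ := g.2 _ (hT.conj U hU x)
  rw [ac_eq (hT.conj U hU x) (by rw [KX_cj, e]; exact RU_mem hφ x) h1, e,
    ← Tw.RU_val hφ γ x (mem_cj.1 h1)]
  congr 1
  group

variable {p : ℕ} [Fact p.Prime] (ι : ℂ ≃+* CS p)

variable (hT) in
/-- the action on the field of the tower -/
def aL : Gm hT →* (LW T ≃ₐ[Cx ι] LW T) where
  toFun g :=
    { toFun := ac hT g
      invFun := ac hT g⁻¹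
      left_inv := fun f => by rw [← ac_mul, inv_mul_cancel, ac_one]
      right_inv := fun f => by rw [← ac_mul, mul_inv_cancel, ac_one]
      map_mul' := fun f f' => by
        obtain ⟨U, hU, h, h'⟩ := ex_lev2 hT f f'
        obtain ⟨γ, hγ⟩ := g.2 U hU
        refine Subtype.ext ?_
        rw [ac_eq hU (mul_mem h h') hγ, IntermediateField.coe_mul, IntermediateField.coe_mul,
          ac_eq hU h hγ, ac_eq hU h' hγ, map_mul]
      map_add' := fun f f' => by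
        obtain ⟨U, hU, h, h'⟩ := ex_lev2 hT f f'
        obtain ⟨γ, hγ⟩ := g.2 U hU
        refine Subtype.ext ?_
        rw [ac_eq hU (add_mem h h') hγ, IntermediateField.coe_add, IntermediateField.coe_add,
          ac_eq hU h hγ, ac_eq hU h' hγ, map_add]
      commutes' := fun c => Subtype.ext ((T.act _).commutes c) }
  map_one' := AlgEquiv.ext ac_one
  map_mul' g g' := AlgEquiv.ext (ac_mul g g')

theorem aL_apply (g : Gm hT) (f : LW T) : aL hT ι g f = ac hT g f := rfl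

theorem fix_iff (hU : U ∈ T.Lev) {f : LW T} :
    (∀ g ∈ U.subgroupOf (Gm hT), aL hT ι g f = f) ↔ (f : Mer) ∈ KX T U 1 :=
  ⟨fun h => T.mem_KF.2 fun γ hγ => (ac_j γ f).symm.trans
    (congrArg Subtype.val (h (jm' hT γ) (mem_Gam1.1 hγ))), fun h _ hg => ac_fix hU h hg⟩

theorem idx_ne (hU : U ∈ T.Lev) (hU' : U' ∈ T.Lev) :
    (U.subgroupOf (Gm hT)).relIndex (U'.subgroupOf (Gm hT)) ≠ 0 :=
  Subgroup.relIndex_comap_ne_zero _ (hT.fi U hU U' hU')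

theorem orb_fin (hU : U ∈ T.Lev) (f : LW T) :
    (Set.range fun g : U.subgroupOf (Gm hT) => aL hT ι g f).Finite := by
  obtain ⟨V, hV, h⟩ := ex_lev hT f
  exact orb_finite _ (idx_ne hV hU) ((fix_iff ι hV).2 h)

variable (hT) in
/-- an element of a neat group which fixes a point of a smaller level lies in that level -/
theorem faith (hU : U ∈ T.Lev) (hn : T.Neat U') (le : U ≤ U') {δ : G0} (hδ : T.j δ ∈ U')
    {τ : ℍ} (h : ∀ y ∈ KX T U 1, Reg τ y ↔ Reg (T.r δ • τ) y) : T.j δ ∈ U := by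
  obtain ⟨β, hβ, e⟩ := fu_eq (hT.fu U hU 1) h
  have h1 : δ⁻¹ * β ∈ T.Z0 := hn 1 _ (mul_mem (inv_mem (mem_Gam1.2 hδ))
    (mem_Gam1.2 (le (mem_Gam1.1 hβ)))) τ (by rw [map_mul, mul_smul, e, map_inv, inv_smul_smul])
  have h2 := mul_mem (mem_Gam1.1 hβ) (inv_mem (Z0_le hT hU h1))
  simpa using h2

/-- **Galois theory**: the automorphisms over a neat level -/
theorem gal (hU : U ∈ T.Lev) (hn : T.Neat U) (σ : LW T ≃ₐ[Cx ι] LW T)
    (hσ : ∀ f : LW T, (f : Mer) ∈ KX T U 1 → σ f = f) :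
    ∃ g : Gm hT, (g : G) ∈ U ∧ aL hT ι g = σ := by
  obtain ⟨u, h1, h2, h3, h4⟩ := ex_seq hT hU
  have key : ∀ n, ∃ γ, T.j γ ∈ U ∧ ∀ f : LW T, (f : Mer) ∈ KX T (u n) 1 →
      T.act γ (f : Mer) = σ f := fun n => by
    obtain ⟨g, hg, e⟩ := orb_uniform (aL hT ι) (idx_ne (h2 n) hU) σ
      fun f hf => hσ f ((fix_iff ι hU).1 hf)
    obtain ⟨γ, hγ⟩ := g.2 _ (h2 n)
    refine ⟨γ, by simpa using mul_mem (Subgroup.mem_subgroupOf.1 hg) (inv_mem (h4 n hγ)),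
      fun f hf => ?_⟩
    rw [← ac_eq (h2 n) hf hγ, ← e f ((fix_iff ι (h2 n)).2 hf), aL_apply]
  choose γ k1 k2 using key
  obtain ⟨x, hx⟩ := ex_lim hT h1 h2 h3 γ fun n => faith hT (τ := I) (h2 n) hn (h4 n)
    (by simpa using mul_mem (inv_mem (k1 n)) (k1 (n + 1))) fun y hy => by
      have e1 := k2 n ⟨y, KX_le hT (h2 n) 1 hy⟩ hy
      have e2 := k2 (n + 1) ⟨y, KX_le hT (h2 n) 1 hy⟩ (KX_mono (h1 n.le_succ) 1 hy)
      rw [← reg_act (T := T) ((γ n)⁻¹ * γ (n + 1)), Tw.act_mul, e2, ← e1, ← Tw.act_mul,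
        inv_mul_cancel, Tw.act_one]
  refine ⟨x, by simpa using mul_mem (k1 0) (h4 0 (hx 0)), AlgEquiv.ext fun f => Subtype.ext ?_⟩
  obtain ⟨V, hV, h⟩ := ex_lev hT f
  obtain ⟨n, hn⟩ := h3 V hV
  rw [aL_apply, ac_eq (h2 n) (KX_mono hn 1 h) (hx n), k2 n f (KX_mono hn 1 h)]

variable (hT) in
/-- the place of a point -/
def plL (τ : ℍ) : Plk (Cx ι) (LW T) :=
  ⟨(F0.Cf.pl τ).comap (algebraMap (LW T) Mer), fun c => reg_const τ c, fun e => by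
    obtain ⟨U, hU, hn⟩ := hT.neat
    obtain ⟨x, h1, h2⟩ := fu_one (hT.fu U hU 1) (hn 1) τ
    have h3 : (⟨x⁻¹, inv_mem (KX_le hT hU 1 h1)⟩ : LW T) ∈
        (F0.Cf.pl τ).comap (algebraMap (LW T) Mer) := e ▸ ValuationSubring.mem_top _
    have h4 : Reg τ x⁻¹ := h3
    rw [reg_iff, od_inv, inv_eq_zero] at h4
    rcases h4 with h4 | h4
    · rw [h4, od_zero] at h2
      exact zero_ne_one h2
    · omega⟩

theorem mem_plL {τ : ℍ} {f : LW T} : f ∈ (plL hT ι τ).1 ↔ Reg τ f := Iff.rfl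

variable (hT) in
/-- the restriction of a place to a level is a point -/
theorem ex_res (hU : U ∈ T.Lev) (y : Plk (Cx ι) (LW T)) :
    ∃ τ, ∀ f : LW T, (f : Mer) ∈ KX T U 1 → (f ∈ y.1 ↔ Reg τ f) := by
  obtain ⟨τ, h⟩ := fu_onto (hT.fu U hU 1)
    ⟨y.1.comap (IntermediateField.inclusion (KX_le hT hU 1) : KX T U 1 →+* LW T),
      fun c => y.2.1 c, fun e => y.2.2 (eq_top_iff.2 fun f _ =>
        orb_mem (aL hT ι) (orb_fin ι hU f) _ fun x hx => by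
          have : (⟨x, (fix_iff ι hU).1 hx⟩ : KX T U 1) ∈ y.1.comap
            (IntermediateField.inclusion (KX_le hT hU 1) : KX T U 1 →+* LW T) :=
              e ▸ ValuationSubring.mem_top _
          exact this)⟩
  exact ⟨τ, fun f hf => h ⟨f, hf⟩⟩

/-- **places**: every place is a translate of the place of a point -/
theorem ex_place (y : Plk (Cx ι) (LW T)) :
    ∃ (g : Gm hT) (τ : ℍ), ∀ f, f ∈ y.1 ↔ Reg τ (ac hT g⁻¹ f : Mer) := by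
  obtain ⟨U, hU, hn⟩ := hT.neat
  obtain ⟨u, h1, h2, h3, h4⟩ := ex_seq hT hU
  obtain ⟨τ, hτ⟩ := ex_res hT ι hU y
  have key : ∀ n, ∃ δ, T.j δ ∈ U ∧ ∀ f : LW T, (f : Mer) ∈ KX T (u n) 1 →
      (f ∈ y.1 ↔ Reg τ (T.act δ (f : Mer))) := fun n => by
    obtain ⟨τ', hτ'⟩ := ex_res hT ι (h2 n) y
    obtain ⟨δ, hδ, e⟩ := fu_eq (a := τ') (b := τ) (hT.fu U hU 1) fun f hf =>
      (hτ' ⟨f, KX_le hT hU 1 hf⟩ (KX_mono (h4 n) 1 hf)).symm.trans (hτ ⟨f, KX_le hT hU 1 hf⟩ hf)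
    exact ⟨δ, mem_Gam1.1 hδ, fun f hf => by rw [hτ' f hf, ← e, reg_act]⟩
  choose δ k1 k2 using key
  obtain ⟨x, hx⟩ := ex_lim hT h1 h2 h3 δ fun n => by
    have := faith hT (τ := T.r (δ (n + 1))⁻¹ • τ) (δ := (δ n)⁻¹ * δ (n + 1)) (h2 n) hn (h4 n)
      (by simpa using mul_mem (inv_mem (k1 n)) (k1 (n + 1))) fun z hz => by
        have e1 := k2 n ⟨z, KX_le hT (h2 n) 1 hz⟩ hz
        have e2 := k2 (n + 1) ⟨z, KX_le hT (h2 n) 1 hz⟩ (KX_mono (h1 n.le_succ) 1 hz)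
        rw [← mul_smul, ← map_mul, mul_inv_cancel_right, ← reg_inv, ← reg_inv, inv_inv, inv_inv]
        exact e2.symm.trans e1
    exact this
  refine ⟨x⁻¹, τ, fun f => ?_⟩
  obtain ⟨V, hV, h⟩ := ex_lev hT f
  obtain ⟨n, hn⟩ := h3 V hV
  rw [inv_inv, ac_eq (h2 n) (KX_mono hn 1 h) (hx n), k2 n f (KX_mono hn 1 h)]

/-- **stabilisers** -/
theorem stab_iff {g : Gm hT} {τ τ' : ℍ} : (∀ f : LW T, Reg τ (ac hT g⁻¹ f : Mer) ↔ Reg τ' f) ↔
    ∃ γ, T.r γ • τ = τ' ∧ (T.j γ)⁻¹ * g ∈ T.Z := by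
  constructor
  · intro h
    have key : ∀ V ∈ T.Lev, ∃ s, T.r s • τ = τ' ∧ (T.j s)⁻¹ * g ∈ V := fun V hV => by
      have hV' := hT.conj V hV g
      obtain ⟨γ, hγ⟩ := g⁻¹.2 _ hV'
      obtain ⟨β, hβ, e⟩ := fu_eq (a := T.r γ⁻¹ • τ) (b := τ') (hT.fu _ hV' 1) fun f hf => by
        rw [← h ⟨f, KX_le hT hV' 1 hf⟩, ac_eq hV' hf hγ, ← reg_inv, inv_inv]
      refine ⟨β * γ⁻¹, by rw [map_mul, mul_smul, e], ?_⟩
      convert inv_mem (mem_cj.1 (mul_mem (mem_Gam1.1 hβ) hγ)) using 1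
      simp only [map_mul, map_inv, Subgroup.coe_inv]
      group
    obtain ⟨U, hU, hn⟩ := hT.neat
    obtain ⟨s, h1, h2⟩ := key U hU
    refine ⟨s, h1, mem_Z.2 fun V hV => ?_⟩
    obtain ⟨s', h3, h4⟩ := key _ (hT.inf U hU V hV)
    have h5 : s⁻¹ * s' ∈ T.Z0 := hn 1 _ (mem_Gam1.2 (by
      simpa using mul_mem h2 (inv_mem h4.1))) τ
      (by rw [map_mul, mul_smul, h3, ← h1, map_inv, inv_smul_smul])
    simpa [mul_assoc] using mul_mem (Z0_le hT hV h5) h4.2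
  · rintro ⟨γ, rfl, h⟩ f
    obtain ⟨V, hV, hf⟩ := ex_lev hT f
    rw [ac_eq (γ := γ⁻¹) hV hf, reg_inv]
    have := Z_le hV (inv_mem h)
    rw [← Z_conj hT (inv_mem h) (T.j γ)⁻¹] at this
    simpa [mul_assoc] using this

/-- **the kernel** -/
theorem mem_ker {g : Gm hT} : g ∈ (aL hT ι).ker ↔ (g : G) ∈ T.Z := by
  constructor
  · intro h
    have key : ∀ τ, ∃ γ, T.r γ • τ = τ ∧ (T.j γ)⁻¹ * g ∈ T.Z := fun τ => stab_iff.1 fun f => by
      rw [← aL_apply ι, MonoidHom.mem_ker.1 (inv_mem h), AlgEquiv.one_apply]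
    obtain ⟨γ, -, h2⟩ := key I
    have h3 : γ ∈ T.Z0 := Tw.mem_Z0.2 fun τ => by
      obtain ⟨δ, h4, h5⟩ := key τ
      have h6 : δ⁻¹ * γ ∈ T.Z0 := (hT.z0 _).2 (by simpa using mul_mem h5 (inv_mem h2))
      have := Tw.mem_Z0.1 h6 τ
      rw [map_mul, mul_smul, map_inv, inv_smul_eq_iff, h4] at this
      exact this
    simpa using mul_mem ((hT.z0 _).1 h3) h2
  · intro h
    refine MonoidHom.mem_ker.2 (AlgEquiv.ext fun f => ?_)
    obtain ⟨V, hV, hf⟩ := ex_lev hT f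
    exact ac_fix hV hf (Z_le hV h)

end Vale.Agent.P022K.FI.Br
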