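import Vale.Agent.P022K.FI.St2
import Vale.Agent.P022K.FI.Br1
import Vale.Agent.P022K.FI.Na0

/-!
# P022K, block FI: the rows which join the abstract tower and the reduction data
-/

set_option autoImplicit false
set_option linter.unusedSectionVars false

open PowerSeries Vale.Agent.P019P P025H746 Module Function UpperHalfPlane
open scoped MatrixGroups LaurentSeries

noncomputable section

namespace Vale.Agent.P022K.FI

open Vale.Agent.P022K.Sh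

open Hk Br

variable {G0 G : Type} [Group G0] [Group G] {T : Tw G0 G}

variable (T) in
/-- **OMG**: holomorphic forms and genera -/
def OMG : Prop := ∀ U ∈ T.Lev, T.Neat U → ∀ [∀ x, CFF ℂ (KX T U x)],
  ∑ᶠ c : Cp T U, gen ℂ (KX T U c.out) ≤ finrank ℂ (T.Om U)

variable (hT : T.Ok) {O K : Type} [CommRing O] [IsDomain O] [IsDiscreteValuationRing O] [Field K]
  [Algebra O K] {w : T.Lc O K} {p : ℕ} [Fact p.Prime] (D : Emb w p) [Algebra K (Cx D.ι)]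
  (A : AT (Cx D.ι) (LW T) (Gm hT) O K)

/-- the dictionary between the two towers -/
structure Dic : Prop where
  act : A.act = aL hT D.ι
  pi : ∀ g, A.π g = w.π g
  uni : A.ϖ = w.ϖ
  lev : ∀ U ∈ T.Lev, T.Neat U → w.At (KK O K) U → ∀ x, ∃ W ∈ A.Wl, ∀ k,
    A.U W (Vx O (w.π x * k)) = (cj (x * w.ι k) U).subgroupOf (Gm hT)
  onto : ∀ W ∈ A.Wl, ∃ U ∈ T.Lev, T.Neat U ∧ w.At (KK O K) U ∧ ∀ k,
    A.U W (Vx O k) = (cj (w.ι k) U).subgroupOf (Gm hT)
  cm : ∀ τ x, Ord w D.e τ x → A.Hyp (plL hT D.ι τ) ∧ ∃ θ, A.CM (plL hT D.ι τ) θ (w.π x)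
  hyp : ∀ y, A.Hyp y → ∃ g τ x, y = A.sm g (plL hT D.ι τ) ∧ Ord w D.e τ x
  H : ∀ g ∈ A.H, (w.ι (w.π g))⁻¹ * g ∈ T.Z
  sa : A.SA → w.SA

/-- **FAMX**: the family of a level, for any choice `b` of base points of the components -/
def FAMX : Prop := A.Ok → A.MAT → A.HYP → Dic hT D A → EXO w D.e → ∀ U ∈ T.Lev, T.Neat U →
  w.At (KK O K) U → ∀ b : Cp T U → G, (∀ c, cm T U (b c) = c) →
  ∃ F : Fam A (OP w D.e U) (Cp T U), F.Ok ∧ F.φ = fw w D.e U ∧
    (∀ c, F.S c = (cj (b c) U).subgroupOf (Gm hT)) ∧ ∀ c, F.fr c = w.π (b c)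

/-- **LOCX**: the ordinary norm of a point has the local properties -/
def LOCX : Prop := Dic hT D A → ∀ LD : LTD (Cx D.ι) O K, LD.Ok A.ϖ → A.One LD →
  ∀ U ∈ T.Lev, T.Neat U → w.At (KK O K) U → ∀ [∀ x, CFF ℂ (KX T U x)], ∀ τ x, Ord w D.e τ x →
    ∀ θ b ε ν, A.Bas LD (plL hT D.ι τ) θ (w.π x) b ε → A.Gv (w.π x) ε ν → Loc D U ν τ x

/-- **INJX**: reduction is injective on ordinary points, which are infinite in number -/
def INJX : Prop := Dic hT D A → EXO w D.e → ∀ LD : LTD (Cx D.ι) O K, LD.Ok A.ϖ → A.One LD →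
  ∀ U ∈ T.Lev, T.Neat U → w.At (KK O K) U → ∀ [∀ x, CFF ℂ (KX T U x)],
    (∀ (x : G) (η : NV (Cx D.ι) (KX T U x)) [CFF (kC (Cx D.ι)) (kap η)], Hk.Gv η →
      ∀ (y y' : OP w D.e U) τ τ' R, y.1 = pm T U τ x → y'.1 = pm T U τ' x → Rd η τ R →
        Rd η τ' R → y = y') ∧
    ∀ x, {y : OP w D.e U | PU.cp T y.1 = cm T U x}.Infinite

end Vale.Agent.P022K.FI
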