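import Vale.Agent.P022K.FI.Br3
import Vale.Agent.P022K.FI.St3

/-!
# P022K, block FI, bridge: the dictionary
-/

set_option autoImplicit false
set_option linter.unusedSectionVars false

open UpperHalfPlane
open scoped MatrixGroups LaurentSeries

noncomputable section

namespace Vale.Agent.P022K.FI.Br

open Vale.Agent.P022K.Sh Vale.Agent.P019P Vale.Agent.P022K.FI.Hk Lv

variable {G0 G : Type} [Group G0] [Group G] {T : Tw G0 G}
variable {O K : Type} [CommRing O] [IsDomain O] [IsDiscreteValuationRing O] [Field K] [Algebra O K]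
variable {w : T.Lc O K} {hT : T.Ok} {p : ℕ} [Fact p.Prime] {D : Emb w p} [Algebra K (Cx D.ι)]
  {U : Subgroup G}

/-- being ordinary depends on the component at `w` only -/
theorem ord_congr {e : K →+* ℂ} {τ : ℍ} {x x' : G} (h : Ord w e τ x) (hx : w.π x = w.π x') :
    Ord w e τ x' := by
  have := h.right (g := x⁻¹ * x') (by rw [map_mul, map_inv, hx, inv_mul_cancel, ← d2_one])
  rwa [mul_inv_cancel_left] at this

variable (ha : ∀ c, algebraMap K (Cx D.ι) c = Cx.of D.ι (D.e c))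

include ha

theorem U_Vx (h : Nl w U) (x : G) (k : GL (Fin 2) K) :
    (tw w hT D.ι).U (Wx w hT D.ι U x) (Vx O (w.π x * k)) =
      (cj (x * w.ι k) U).subgroupOf (Gm hT) := by
  have := U_Wx (w := w) (hT := hT) (ι := D.ι) (V := KZ O K) h.lev le_sup_right (KZ_le_Ev (lf ha))
    (x * w.ι k)
  rwa [Wx_iota, map_mul, w.πι, h.set_KZ] at this

/-- a special point with the frame `π x` is an ordinary point on the component of `x` -/
theorem ord_of_cm (hd : DEN w D.e) (hH : (tw w hT D.ι).HYP) {y : Plk (Cx D.ι) (LW T)}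
    {θ : LW T →ₐ[Cx D.ι] (Cx D.ι)⸨X⸩} {x : G} (h : (tw w hT D.ι).CM y θ (w.π x))
    (hy : (tw w hT D.ι).Hyp y) : ∃ (g : Gm hT) (τ : ℍ),
      y = (tw w hT D.ι).sm g (plL hT D.ι τ) ∧ Ord w D.e τ ((g : G)⁻¹ * x) := by
  obtain ⟨g, τ, x₀, rfl, h0⟩ := ord_of_hyp' ha hy
  obtain ⟨h1, h2⟩ := (hH _ _ _ (cm_sm (cm_of_ord ha hd h0) g)).2.2 _ _ h
  obtain ⟨a, d, e⟩ := eq_d2 h2 h1
  refine ⟨g, τ, rfl, ord_congr (h0.right (w.πι (d2 a d))) ?_⟩
  rw [map_mul, map_mul, w.πι, ← e, map_inv, tw_pi]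
  group

/-- **the dictionary** -/
theorem dic (hf : FF T) (hU : Nl w U) (hd : DEN w D.e) : Dic hT D (tw w hT D.ι) where
  act := rfl
  pi _ := rfl
  uni := rfl
  lev _ h1 h2 h3 x := ⟨_, Wx_mem ⟨h1, h2, h3⟩ x, U_Vx ha ⟨h1, h2, h3⟩ x⟩
  onto := by
    rintro _ ⟨V, hV, rfl⟩
    refine ⟨V, hV.lev, hV.neat, hV.mx, fun k => ?_⟩
    have := U_Vx (hT := hT) ha hV 1 k
    rwa [Wx_one, map_one, one_mul, one_mul] at this
  cm _ _ h := ⟨hyp_of_ord ha hf hU h, _, cm_of_ord ha hd h⟩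
  hyp _ := ord_of_hyp' ha
  H g hg := by
    have := ((mem_H hU).1 hg).1
    rwa [← Z_conj hT this (w.ι (w.π g)), aw_eq, mul_assoc, inv_mul_cancel_right] at this
  sa h := sa_of hU h.1

end Vale.Agent.P022K.FI.Br
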