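import Vale.Agent.P022K.FI.St3

/-!
# P022K, block FI: the row FAMX (the family of curves of a level)
-/

set_option autoImplicit false
set_option linter.unusedSectionVars false

open PowerSeries Vale.Agent.P019P P025H746 Module Function UpperHalfPlane
open scoped MatrixGroups LaurentSeries

noncomputable section

namespace Vale.Agent.P022K.FI

open Vale.Agent.P022K.Sh

open Hk Br

namespace Fm0

section tower

variable {C L Γ O E : Type} [NontriviallyNormedField C] [IsUltrametricDist C] [CharZero C]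
  [Field L] [Algebra C L] [Group Γ] [CommRing O] [IsDomain O] [IsDiscreteValuationRing O]
  [Field E] [Algebra O E] [Algebra E C] {A : AT C L Γ O E} {x : Plk C L} {θ : L →ₐ[C] C⸨X⸩}
  {g : GL (Fin 2) E}

theorem mem_St_sm {γ t : Γ} : t ∈ A.St (A.sm γ x) ↔ γ⁻¹ * t * γ ∈ A.St x := by
  rw [AT.mem_St, AT.mem_St, A.sm_mul, A.sm_mul]
  refine ⟨fun h => by rw [h, ← A.sm_mul, inv_mul_cancel, A.sm_one], fun h => ?_⟩
  conv_rhs => rw [← h, ← A.sm_mul, mul_inv_cancel, A.sm_one]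

theorem fm_act {γ t : Γ} {k₀ : GL (Fin 2) E} :
    Fm (A.π γ * g) (A.π t) k₀ ↔ Fm g (A.π (γ⁻¹ * t * γ)) k₀ := by
  simp only [Fm, map_mul, map_inv, mul_inv_rev, mul_assoc]

theorem cm_act (h : A.CM x θ g) (γ : Γ) :
    A.CM (A.sm γ x) (θ.comp (A.act γ⁻¹ : L →ₐ[C] L)) (A.π γ * g) := by
  refine ⟨fun s => h.pl _, h.uni.elim fun s hs => ⟨A.act γ s, ?_⟩, fun t ht => ?_, fun c e he => ?_⟩
  · show (θ (A.act γ⁻¹ (A.act γ s))).order = 1
    rwa [A.act_inv]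
  · obtain ⟨μ, h1, h2⟩ := h.lin _ (mem_St_sm.1 ht)
    refine ⟨μ, fm_act.2 h1, fun s n => ?_⟩
    show (θ (A.act γ⁻¹ (A.act t s))).coeff n * _ = (θ (A.act γ⁻¹ s)).coeff n
    rw [← h2 (A.act γ⁻¹ s), A.act_mul, A.act_mul, A.act_inv']
  · obtain ⟨t, ht, μ, h1, h2⟩ := h.den c e he
    have : γ⁻¹ * (γ * t * γ⁻¹) * γ = t := by group
    exact ⟨γ * t * γ⁻¹, mem_St_sm.2 (this.symm ▸ ht), μ, fm_act.2 (this.symm ▸ h1), h2⟩

theorem hyp_act (hA : A.Ok) (h : A.Hyp x) (γ : Γ) : A.Hyp (A.sm γ x) := by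
  obtain ⟨W, hW, δ, h1, h2, h3⟩ := h
  have : γ⁻¹ * (γ * δ * γ⁻¹) * γ = δ := by group
  refine ⟨cj γ W, hA.conj W hW γ, γ * δ * γ⁻¹, mem_cj.2 (this.symm ▸ h1),
    mem_St_sm.2 (this.symm ▸ h2), fun e => h3 ?_⟩
  simpa [mul_assoc] using (MonoidHom.normal_ker A.act).conj_mem _ e γ⁻¹

end tower

variable {G0 G : Type} [Group G0] [Group G] {T : Tw G0 G} {hT : T.Ok} {O K : Type} [CommRing O]
  [IsDomain O] [IsDiscreteValuationRing O] [Field K] [Algebra O K] {w : T.Lc O K} {p : ℕ}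
  [Fact p.Prime] {D : Emb w p} [Algebra K (Cx D.ι)] {A : AT (Cx D.ι) (LW T) (Gm hT) O K}
  {U : Subgroup G}

theorem cj_right (x : G) {u : G} (hu : u ∈ U) : cj (x * u) U = cj x U := by
  ext y
  rw [mem_cj, mem_cj, show (x * u)⁻¹ * y * (x * u) = u⁻¹ * (x⁻¹ * y * x) * u by group,
    mul_mem_cancel_right hu, mul_mem_cancel_left (inv_mem hu)]

theorem cj_left (g : Gm hT) (x : G) :
    (cj (g * x) U).subgroupOf (Gm hT) = cj g ((cj x U).subgroupOf (Gm hT)) := by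
  ext y
  simp only [Subgroup.mem_subgroupOf, mem_cj, Subgroup.coe_mul, Subgroup.coe_inv, mul_inv_rev,
    mul_assoc]

theorem cm_left (hU : U ∈ T.Lev) (g : Gm hT) (x : G) : cm T U (g * x) = cm T U x := by
  obtain ⟨γ, h⟩ := g.2 _ (hT.conj U hU x)
  exact (cm_eq.2 ⟨γ, _, mem_cj.1 h, by group⟩).symm

theorem io_mem (hU : U ∈ T.Lev) (h : w.At (KK O K) U) {k : GL (Fin 2) K} (hk : k ∈ KZ O K) :
    w.ι k ∈ U :=
  (sup_le h.1 fun z hz => Z_le hU (w.cen z hz) : KK O K ⊔ Zl K ≤ U.comap w.ι) hk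

theorem tt_eq : tt w = dg w.ϖ⁻¹ * d2 w.ϖ w.ϖ := by
  ext i j
  fin_cases i <;> fin_cases j <;> simp [tt, d2_val, Sh.dg, Matrix.mul_apply, Fin.sum_univ_two]

/-- stabilisers of places -/
theorem sm_iff (hD : Dic hT D A) {g : Gm hT} {τ τ' : ℍ} :
    A.sm g (plL hT D.ι τ) = plL hT D.ι τ' ↔ ∃ γ, T.r γ • τ = τ' ∧ (T.j γ)⁻¹ * g ∈ T.Z := by
  rw [← stab_iff]
  refine (Subtype.ext_iff.trans SetLike.ext_iff).trans (forall_congr' fun f => ?_)
  rw [AT.mem_sm, hD.act]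
  rfl

theorem sm_j (hD : Dic hT D A) (γ : G0) (τ : ℍ) :
    A.sm (jm' hT γ) (plL hT D.ι τ) = plL hT D.ι (T.r γ • τ) :=
  (sm_iff hD).2 ⟨γ, rfl, by simp [coe_jm']⟩

/-- a frame of a special place comes from an ordinary point -/
theorem ord_of (hH : A.HYP) (hD : Dic hT D A) {τ : ℍ} {x : G} (h : Ord w D.e τ x) {g₀ : Gm hT}
    {θ : LW T →ₐ[Cx D.ι] (Cx D.ι)⸨X⸩} {g : GL (Fin 2) K} (hc : A.CM (A.sm g₀ (plL hT D.ι τ)) θ g)
    {x₁ : G} (h1 : w.π x₁ = g) : Ord w D.e τ ((g₀⁻¹ : Gm hT) * x₁) := by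
  obtain ⟨-, θ', h2⟩ := hD.cm τ x h
  obtain ⟨k1, k2⟩ := (hH _ _ _ (cm_act h2 g₀)).2.2 θ g hc
  obtain ⟨a, d, e⟩ := eq_d2 k2 k1
  have := h.right (g := x⁻¹ * ((g₀⁻¹ : Gm hT) * x₁)) (a' := a) (d' := d) (by
    rw [← e, hD.pi, map_mul, map_mul, map_inv, Subgroup.coe_inv, map_inv, h1]
    group)
  rwa [mul_inv_cancel_left] at this

variable (D A U) in
/-- the family -/
def fam (b : Cp T U → G) : Fam A (OP w D.e U) (Cp T U) where
  S c := (cj (b c) U).subgroupOf (Gm hT)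
  fr c := w.π (b c)
  cp y := PU.cp T y.1
  φ := fw w D.e U
  Rp y Y := ∃ (g : Gm hT) (τ : ℍ) (x : G), y.1 = pm T U τ x ∧ Y = A.sm g (plL hT D.ι τ) ∧
    (b (PU.cp T y.1))⁻¹ * g * x ∈ U

variable {b : Cp T U → G}

theorem rep (hD : Dic hT D A) {y : OP w D.e U} {Y : Plk (Cx D.ι) (LW T)}
    (h : (fam D A U b).Rp y Y) {τ : ℍ} {x : G} (e : y.1 = pm T U τ x) :
    ∃ g : Gm hT, Y = A.sm g (plL hT D.ι τ) ∧ (b (PU.cp T y.1))⁻¹ * g * x ∈ U := by
  obtain ⟨g, τ', x', h1, rfl, h2⟩ := h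
  obtain ⟨γ, u, hu, rfl, rfl⟩ := pm_eq.1 (e.symm.trans h1)
  refine ⟨g * jm' hT γ, by rw [A.sm_mul, sm_j hD], ?_⟩
  convert mul_mem h2 (inv_mem hu) using 1
  rw [Subgroup.coe_mul, coe_jm']
  group

theorem fam_ok (hA : A.Ok) (hH : A.HYP) (hD : Dic hT D A) (hE : EXO w D.e) (hU : U ∈ T.Lev)
    (hn : T.Neat U) (hw : w.At (KK O K) U) (hb : ∀ c, cm T U (b c) = c) : (fam D A U b).Ok where
  vt c := by
    obtain ⟨W, hW, h⟩ := hD.lev U hU hn hw (b c)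
    have := h 1
    rw [map_one, mul_one, mul_one] at this
    exact ⟨W, hW, this.symm⟩
  sur c := by
    obtain ⟨τ, x, h⟩ := hE.1
    obtain ⟨k, k1, k2⟩ := hE.2 U hU hw x (b c)
    exact ⟨om w D.e U (h.right (k1.trans d2_one.symm)), k2.trans (hb c)⟩
  ex y := by
    obtain ⟨τ, x, e, -⟩ := y.2
    obtain ⟨γ, u, hu, h⟩ := cm_eq.1 (show cm T U x = cm T U (b (PU.cp T y.1)) by
      rw [hb, e, PU.cp_pm])
    refine ⟨_, jm' hT γ, τ, x, e, rfl, ?_⟩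
    convert inv_mem hu using 1
    rw [h, coe_jm']
    group
  cnj y Y Y' h := by
    obtain ⟨g, τ, x, e, rfl, h1⟩ := h
    constructor
    · intro h'
      obtain ⟨g', rfl, h2⟩ := rep hD h' e
      refine ⟨g' * g⁻¹, Subgroup.mem_subgroupOf.2 (mem_cj.2 ?_), by
        rw [← A.sm_mul, inv_mul_cancel_right]⟩
      convert mul_mem h2 (inv_mem h1) using 1
      simp only [fam, Subgroup.coe_mul, Subgroup.coe_inv]
      group
    · rintro ⟨s, hs, rfl⟩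
      refine ⟨s * g, τ, x, e, (A.sm_mul _ _ _).symm, ?_⟩
      convert mul_mem (mem_cj.1 (Subgroup.mem_subgroupOf.1 hs)) h1 using 1
      simp only [fam, Subgroup.coe_mul]
      group
  inj y y' Y hc h h' := by
    obtain ⟨g, τ, x, e, rfl, h1⟩ := h
    obtain ⟨g', τ', x', e', h2, h3⟩ := h'
    have hc' : PU.cp T y.1 = PU.cp T y'.1 := hc
    rw [← hc'] at h3
    obtain ⟨γ, k1, k2⟩ := (sm_iff hD (g := g'⁻¹ * g) (τ := τ) (τ' := τ')).1 (by
      rw [A.sm_mul, h2, ← A.sm_mul, inv_mul_cancel, A.sm_one])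
    refine Subtype.ext (e.trans (Eq.trans (pm_eq.2 ⟨γ, x⁻¹ * (T.j γ)⁻¹ * x', ?_, k1.symm, by
      group⟩) e'.symm))
    have k3 := Z_le hU k2
    rw [← Z_conj hT k2 x] at k3
    convert mul_mem k3 (mul_mem (inv_mem h1) h3) using 1
    simp only [Subgroup.coe_mul, Subgroup.coe_inv]
    group
  cm y Y h := by
    obtain ⟨τ, x, e, ho⟩ := y.2
    obtain ⟨g, rfl, h1⟩ := rep hD h e
    obtain ⟨h2, θ, h3⟩ := hD.cm τ x ho
    refine ⟨hyp_act hA h2 g, _, _, cm_act h3 g, ?_⟩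
    have h4 := hw.2 _ h1
    simp only [map_mul, map_inv, mul_assoc] at h4
    rw [hD.pi]
    exact h4
  pt c Y θ g h1 h2 h3 := by
    obtain ⟨g₀, τ, x, rfl, ho⟩ := hD.hyp Y h1
    have h4 := ord_of hH hD ho h2 (x₁ := b c * w.ι ((w.π (b c))⁻¹ * g)) (by
      rw [map_mul, w.πι, mul_inv_cancel_left])
    have h5 : PU.cp T (om w D.e U h4).1 = c := by
      rw [om, PU.cp_pm, cm_left hU, ← hb c]
      exact (cm_eq.2 ⟨1, _, io_mem hU hw h3, by rw [hb, map_one, one_mul]; rfl⟩).symm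
    refine ⟨om w D.e U h4, h5, g₀, τ, _, rfl, rfl, ?_⟩
    convert io_mem hU hw h3 using 1
    rw [h5, Subgroup.coe_inv]
    simp only [fam]
    group
  st c g h := by
    obtain ⟨W, hW, hl⟩ := hD.lev U hU hn hw (b c)
    obtain ⟨k, hk⟩ : ∃ k, k = (w.π (b c))⁻¹ * g := ⟨_, rfl⟩
    have h0 : w.ι k ∈ U := io_mem hU hw (hk ▸ h)
    have e0 : w.π (b c) * k = g := by rw [hk, mul_inv_cancel_left]
    obtain ⟨γ, u, hu, e1⟩ := cm_eq.1 (hb (cm T U (b c * w.ι k * w.ι (tt w)))).symm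
    have hz : w.ι (d2 w.ϖ w.ϖ) ∈ U := Z_le hU (w.cen _ (mem_Zl.2 ⟨_, rfl⟩))
    have e2 : b (cm T U (b c * w.ι k * w.ι (tt w))) =
        T.j γ * (b c * w.ι (k * dg w.ϖ⁻¹)) * (w.ι (d2 w.ϖ w.ϖ) * u) := by
      rw [e1, tt_eq, map_mul, map_mul]
      group
    refine ⟨cm T U (b c * w.ι k * w.ι (tt w)), jm' hT γ, W, hW, ?_, ?_, ?_,
      fun y Y θ hy h1 h2 => ?_⟩
    · rw [← e0, hl, cj_right _ h0]
      rfl
    · rw [hD.uni, ← e0, mul_assoc (w.π _), hl, ← cj_left, coe_jm', ← cj_right _ (mul_mem hz hu), ← e2]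
      rfl
    · refine (congrArg (· ∈ KZ O K) ?_).mp (hw.2 _ (inv_mem (mul_mem hz hu)))
      simp only [fam]
      rw [e2, hD.uni, hD.pi, coe_jm', ← e0]
      simp only [map_mul, map_inv, w.πι]
      group
    · obtain ⟨τ, x, e, ho⟩ := y.2
      obtain ⟨g₀, rfl, h3⟩ := rep hD h1 e
      have hy' : PU.cp T y.1 = c := hy
      rw [hy'] at h3
      have h4 := ord_of hH hD ho h2 (x₁ := b c * w.ι k) (by rw [map_mul, w.πι, e0])
      have h5 : y = om w D.e U h4 := Subtype.ext (e.trans (pm_eq.2 ⟨1, _,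
        mul_mem (inv_mem h3) h0, by simp, by rw [map_one, Subgroup.coe_inv]; group⟩))
      have h6 : (fam D A U b).φ y = om w D.e U h4.step := h5 ▸ fw_om hT D.cmp U h4
      have h7 : PU.cp T (om w D.e U h4.step).1 = cm T U (b c * w.ι k * w.ι (tt w)) := by
        rw [om, PU.cp_pm, mul_assoc, cm_left hU]
      rw [h6]
      refine ⟨h7, jm' hT γ * g₀, τ, _, rfl, (A.sm_mul _ _ _).symm, ?_⟩
      convert inv_mem hu using 1
      rw [h7, e1, Subgroup.coe_mul, Subgroup.coe_inv, coe_jm']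
      group

end Fm0

/-- **FAMX** -/
theorem famx {G0 G : Type} [Group G0] [Group G] {T : Tw G0 G} (hT : T.Ok) {O K : Type}
    [CommRing O] [IsDomain O] [IsDiscreteValuationRing O] [Field K] [Algebra O K] {w : T.Lc O K}
    {p : ℕ} [Fact p.Prime] (D : Emb w p) [Algebra K (Cx D.ι)]
    (A : AT (Cx D.ι) (LW T) (Gm hT) O K) : FAMX hT D A :=
  fun hA _ hH hD hE U hU hn hw b hb =>
    ⟨Fm0.fam D A U b, Fm0.fam_ok hA hH hD hE hU hn hw hb, rfl, fun _ => rfl, fun _ => rfl⟩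

end Vale.Agent.P022K.FI
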