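import Vale.Agent.P022K.FI.Good
import Vale.Agent.P027M.I.Trb
import Vale.Agent.P025.R2.H816.J05

/-!
# P022K FI, complements to GOOD: several absolute values, uniqueness

`sum_gen_le` : the genus inequality for any finite family of absolute values whose residue fields
are function fields.  `good_unique` : in genus at least two there is at most one absolute value of
full genus; it is fixed by all isometric semilinear automorphisms (`good_fixed`).
-/

set_option linter.unusedSectionVars false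
set_option linter.style.haveILetI false

noncomputable section

namespace Vale.Agent.P022K.FI

open Polynomial IntermediateField Module P025H373 P025H746 P025H458 Vale.Agent.P019P
open Vale.Agent.P027M

theorem bad_finite {k F : Type*} [Field k] [Field F] [Algebra k F] [CFF k F] (f y : F) :
    {c : k | ¬pol k f ⊔ pol k y ≤ pol k (f + c • y)}.Finite := by
  have h1 : ∀ P : Plk k F, {c : k | pol k (f + c • y) P < (pol k f ⊔ pol k y) P}.Subsingleton := by
    intro P c hc c' hc'
    by_contra hne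
    simp only [Set.mem_ofPred_eq, Finsupp.sup_apply, pol_apply] at hc hc'
    set m := max 0 (-ord P f) ⊔ max 0 (-ord P y) with hm
    have e1 : f + c • y ∈ Mge P (-m + 1) := Or.inr (by omega)
    have e2 : f + c' • y ∈ Mge P (-m + 1) := Or.inr (by omega)
    have e3 : y ∈ Mge P (-m + 1) := by
      have := (Mge P (-m + 1)).smul_mem (c - c')⁻¹ (sub_mem e1 e2)
      rwa [add_sub_add_left_eq_sub, ← sub_smul, inv_smul_smul₀ (sub_ne_zero.2 hne)] at this
    have e4 : f ∈ Mge P (-m + 1) := by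
      have := sub_mem e1 ((Mge P (-m + 1)).smul_mem c e3)
      rwa [add_sub_cancel_right] at this
    have e5 : ∀ z : F, z ∈ Mge P (-m + 1) → max 0 (-ord P z) < m := by
      rintro z (rfl | h)
      · rw [ord_zero]; omega
      · omega
    have := e5 _ e3
    have := e5 _ e4
    omega
  refine ((pol k f ⊔ pol k y).support.finite_toSet.biUnion fun P _ => (h1 P).finite).subset
    fun c hc => ?_
  obtain ⟨P, h⟩ := not_forall.1 hc
  exact Set.mem_biUnion (Finsupp.mem_support_iff.2
    ((pol_nonneg _ P).trans_lt (not_le.1 h)).ne') (not_le.1 h)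

variable {C K : Type} [NontriviallyNormedField C] [IsUltrametricDist C] [IsAlgClosed C]
  [Field K] [Algebra C K] [CFF C K]

section family

variable {ι : Type} [Fintype ι] (w : ι → NV C K) [∀ i, CFF (kC C) (kap (w i))]

/-- a common parameter -/
theorem exists_overG (hw : Function.Injective w) [Nonempty ι] : ∃ T, ∀ i, (w i).OverG T := by
  classical
  choose t ht using fun i => (CFF.ex (k := kC C) (F := kap (w i)))
  choose x h1 h2 using fun i => NV.red_surj (t i)
  choose y h3 h4 using fun i => exists_approx (C := C) (fun i => (w i).av) (fun i => (w i).na)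
    (fun i => (w i).ext') (fun i j e => hw (NV.ext e)) i (x i) one_pos
  have h5 : ∀ i, w i (∑ j, y j - x i) < 1 := fun i => by
    rw [← Finset.add_sum_erase _ _ (Finset.mem_univ i), add_sub_right_comm]
    exact NV.add_lt (h3 i) (NV.sum_lt one_pos fun j hj => h4 j i (Finset.ne_of_mem_erase hj).symm)
  refine ⟨∑ j, y j, fun i => ?_⟩
  have h6 : w i (∑ j, y j) ≤ 1 := by
    have := NV.add_le (h5 i).le (h1 i)
    rwa [sub_add_cancel] at this
  refine G.overG_of_transc h6 ?_
  rw [(I.red_eq_iff h6 (h1 i)).2 (h5 i), h2]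
  exact (ht i).1

/-- the degrees of the reductions add up to at most the degree -/
theorem sum_dg_red_le (hw : Function.Injective w) {x : K} (hx : ∀ i, w i x ≤ 1) :
    ∑ i, dg (pol (kC C) ((w i).red x)) ≤ dg (pol C x) := by
  classical
  let p : ι → Prop := fun i => ∀ a, (w i).red x ≠ algebraMap (kC C) (kap (w i)) a
  have h0 : ∀ i, ¬p i → dg (pol (kC C) ((w i).red x)) = 0 := fun i h => by
    obtain ⟨a, ha⟩ := not_forall.1 h
    rw [not_not.1 ha, pol_const, map_zero]
  rw [← Fintype.sum_subtype_add_sum_subtype p, Finset.sum_eq_zero fun (i : {i // ¬p i}) _ =>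
    h0 i i.2, add_zero]
  rcases isEmpty_or_nonempty {i // p i} with h | ⟨⟨i⟩⟩
  · rw [Fintype.sum_empty]
    exact (map_zero dg).ge.trans (dg_mono (pol_nonneg x))
  have h1 : ∀ i : {i // p i}, (w i).OverG x := fun i =>
    G.overG_of_transc (hx i) (finite_of_notMem i.2).1
  have h2 : ∀ a, x ≠ algebraMap C K a := fun a e => (h1 i).transc (e ▸ isAlgebraic_algebraMap a)
  haveI := (finite_of_notMem h2).2
  have := sum_finrank_le (fun i : {i // p i} => w i) (hw.comp Subtype.val_injective) h1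
  rw [Finset.sum_congr rfl fun (i : {i // p i}) _ => dg_pol i.2, dg_pol h2]
  exact_mod_cast this

/-- a function whose reductions have all the poles -/
theorem exists_top_fam (hw : Function.Injective w) {D : Plk C K →₀ ℤ} (hD : 0 ≤ D) :
    ∃ f ∈ LL C D, (∀ i, w i f ≤ 1) ∧ ∀ x ∈ LL C D, (∀ i, w i x ≤ 1) →
      ∀ i, pol (kC C) ((w i).red x) ≤ pol (kC C) ((w i).red f) := by
  obtain ⟨_, ⟨f, hf, hf1, rfl⟩, hmax⟩ := Int.exists_greatest_of_bdd
    (P := fun m => ∃ f ∈ LL C D, (∀ i, w i f ≤ 1) ∧ ∑ i, dg (pol (kC C) ((w i).red f)) = m)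
    ⟨dg D, by
      rintro _ ⟨y, hy, h1, rfl⟩
      exact (sum_dg_red_le w hw h1).trans (dg_mono (pol_le_of_mem hD hy))⟩
    ⟨_, 0, zero_mem _, fun i => by simp, rfl⟩
  refine ⟨f, hf, hf1, fun x hx hx1 i => ?_⟩
  obtain ⟨a, ha⟩ := (Set.finite_iUnion fun i => bad_finite (k := kC C) ((w i).red f)
    ((w i).red x)).exists_notMem
  obtain ⟨c, hc, rfl⟩ := cred_surj a
  have h1 : ∀ i, w i (c • x) ≤ 1 := fun i => by
    rw [Gs.w_smul]; exact mul_le_one₀ hc ((w i).av.nonneg _) (hx1 i)
  have h2 : ∀ i, pol (kC C) ((w i).red f) ⊔ pol (kC C) ((w i).red x) ≤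
      pol (kC C) ((w i).red (f + c • x)) := fun i => by
    rw [NV.red_add (hf1 i) (h1 i), Gs.red_smul hc (hx1 i)]
    exact not_not.1 fun h => ha (Set.mem_iUnion.2 ⟨i, h⟩)
  have h3 := hmax _ ⟨_, add_mem hf ((LL C D).smul_mem c hx), fun i => NV.add_le (hf1 i) (h1 i), rfl⟩
  have h4 := (Finset.sum_eq_sum_iff_of_le fun i _ => dg_mono (le_sup_left.trans (h2 i))).1
    (le_antisymm (Finset.sum_le_sum fun i _ => dg_mono (le_sup_left.trans (h2 i))) h3) i
    (Finset.mem_univ i)
  rw [eq_of_le_of_dg_le (le_sup_left.trans (h2 i)) h4.ge]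
  exact le_sup_right.trans (h2 i)

/-- **the genus inequality for any finite family** -/
theorem sum_gen_le (hC : Sph C) (hn : ∀ r : ℝ, 0 ≤ r → ∃ x : C, ‖x‖ = r)
    (hw : Function.Injective w) [Nonempty ι] :
    ∑ i, ((gen (kC C) (kap (w i)) : ℤ) - 1) ≤ (gen C K : ℤ) - 1 := by
  obtain ⟨T, hT⟩ := exists_overG w hw
  obtain ⟨N, hN⟩ : ∃ N : ℕ, ∀ i, dg (can (kC C) (kap (w i))) < N := by
    obtain ⟨M, hM⟩ := (Set.finite_range fun i => dg (can (kC C) (kap (w i)))).bddAbove
    exact ⟨M.toNat + 1, fun i => by have := hM ⟨i, rfl⟩; simp only at this; omega⟩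
  have h0 : 0 ≤ N • pol C T := nsmul_nonneg (pol_nonneg T) N
  obtain ⟨f, hf, hf1, H⟩ := exists_top_fam w hw h0
  have h1 : ∀ i, (finrank (kC C) (LL (kC C) (pol (kC C) ((w i).red f))) : ℤ) =
      dg (pol (kC C) ((w i).red f)) + 1 - gen (kC C) (kap (w i)) := fun i => by
    refine RR_large ((hN i).trans_le (le_trans ?_ (dg_mono (H _ (I.pow_mem_LL T N)
      (fun i => NV.pow_le_one' (hT i).apply_T.le N) i))))
    have e : pol (kC C) ((w i).red T ^ N) = N • pol (kC C) ((w i).red T) := by
      ext P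
      rw [Finsupp.smul_apply, pol_apply, pol_apply, ord_pow, nsmul_eq_mul,
        mul_max_of_nonneg _ _ (Int.natCast_nonneg N), mul_zero, mul_neg]
    haveI := (finite_of_notMem (hT i).red_ne).2
    rw [NV.red_pow (hT i).apply_T.le, e, map_nsmul, dg_pol (hT i).red_ne, nsmul_eq_mul]
    exact le_mul_of_one_le_right (Int.natCast_nonneg N) (by exact_mod_cast finrank_pos)
  have h2 := P025H992.finrank_le_sum hC hn w (LL C (N • pol C T))
    (fun i => LL (kC C) (pol (kC C) ((w i).red f))) fun x hx h i => mem_LL_of_pol (H x hx h i)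
  have h3 := (sum_dg_red_le w hw hf1).trans (dg_mono (pol_le_of_mem h0 hf))
  have h4 := RR (N • pol C T)
  have h5 : ∑ i, (finrank (kC C) (LL (kC C) (pol (kC C) ((w i).red f))) : ℤ) =
      ∑ i, dg (pol (kC C) ((w i).red f)) - ∑ i, ((gen (kC C) (kap (w i)) : ℤ) - 1) := by
    rw [← Finset.sum_sub_distrib]
    exact Finset.sum_congr rfl fun i _ => by rw [h1]; ring
  have h6 : (finrank C (LL C (N • pol C T)) : ℤ) ≤
      ∑ i, (finrank (kC C) (LL (kC C) (pol (kC C) ((w i).red f))) : ℤ) := by exact_mod_cast h2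
  omega

end family

theorem gen_add_le (hC : Sph C) (hn : ∀ r : ℝ, 0 ≤ r → ∃ x : C, ‖x‖ = r) {v w : NV C K}
    [CFF (kC C) (kap v)] [CFF (kC C) (kap w)] (h : v ≠ w) :
    gen (kC C) (kap v) + gen (kC C) (kap w) ≤ gen C K + 1 := by
  haveI : ∀ i : Bool, CFF (kC C) (kap (cond i v w)) := fun i => by cases i <;> assumption
  have := sum_gen_le (fun i : Bool => cond i v w) hC hn (by
    rintro (_ | _) (_ | _) e
    exacts [rfl, absurd e.symm h, absurd e h, rfl])
  rw [Fintype.sum_bool] at this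
  change (gen (kC C) (kap v) : ℤ) - 1 + (gen (kC C) (kap w) - 1) ≤ _ at this
  omega

/-- **uniqueness of good reduction** -/
theorem good_unique (hC : Sph C) (hn : ∀ r : ℝ, 0 ≤ r → ∃ x : C, ‖x‖ = r)
    {v w : NV C K} [CFF (kC C) (kap v)] [CFF (kC C) (kap w)] (hv : 2 ≤ gen (kC C) (kap v))
    (hw : gen C K ≤ gen (kC C) (kap w)) : v = w := by
  by_contra h
  have := gen_add_le hC hn h
  omega

section semi

variable {K' : Type} [Field K'] [Algebra C K'] [CFF C K'] {s : C ≃+* C}

/-- the automorphism of the residue field induced by an isometry -/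
def kEq (s : C ≃+* C) (hs : ∀ c, ‖s c‖ = ‖c‖) : kC C ≃+* kC C :=
  IsLocalRing.ResidueField.mapEquiv
    { toFun := fun x => ⟨s x, (hs x).trans_le x.2⟩
      invFun := fun x => ⟨s.symm x, by
        rw [mem_OC, ← hs, s.apply_symm_apply]; exact x.2⟩
      left_inv := fun x => Subtype.ext (s.symm_apply_apply x)
      right_inv := fun x => Subtype.ext (s.apply_symm_apply x)
      map_mul' := fun x y => Subtype.ext (map_mul s _ _)
      map_add' := fun x y => Subtype.ext (map_add s _ _) }

theorem kEq_cred (hs : ∀ c, ‖s c‖ = ‖c‖) (c : C) : kEq s hs (cred c) = cred (s c) := by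
  by_cases hc : ‖c‖ ≤ 1
  · rw [cred_of hc, cred_of ((hs c).trans_le hc)]
    rfl
  · rw [cred, dif_neg hc, map_zero, cred, dif_neg (by rwa [hs])]

/-- the isomorphism of residue fields induced by an isometric isomorphism -/
def resEq (g : K ≃+* K') {w : NV C K} {w' : NV C K'} (h : ∀ y, w' (g y) = w y) :
    kap w ≃+* kap w' :=
  RingEquiv.ofBijective (I.rm (g : K →+* K') h) ⟨RingHom.injective _,
    I.rm_surj _ h fun y _ => ⟨g.symm y, by simp⟩⟩

theorem resEq_red (g : K ≃+* K') {w : NV C K} {w' : NV C K'} (h : ∀ y, w' (g y) = w y) (y : K) :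
    resEq g h (w.red y) = w'.red (g y) := I.rm_red (g : K →+* K') h y

theorem resEq_const (g : K ≃+* K') {w : NV C K} {w' : NV C K'} (h : ∀ y, w' (g y) = w y)
    (hg : ∀ c, g (algebraMap C K c) = algebraMap C K' (s c)) (hs : ∀ c, ‖s c‖ = ‖c‖) (a : kC C) :
    resEq g h (algebraMap (kC C) (kap w) a) = algebraMap (kC C) (kap w') (kEq s hs a) := by
  obtain ⟨c, hc, rfl⟩ := cred_surj a
  rw [kEq_cred]
  exact I.rm_const (g : K →+* K') h hg hs hc

theorem exists_overG_one (w : NV C K) [CFF (kC C) (kap w)] : ∃ T, w.OverG T := by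
  obtain ⟨T, hT⟩ := exists_overG (fun _ : Unit => w) fun _ _ _ => rfl
  exact ⟨T, hT ()⟩

theorem cff_of_overG {w : NV C K} {T : K} (h : w.OverG T) : CFF (kC C) (kap w) :=
  haveI := (finite_of_notMem (I.nc_of_transc h.transc)).2
  h.cff

theorem cff_pull (g : K ≃+* K') (hg : ∀ c, g (algebraMap C K c) = algebraMap C K' (s c))
    (hs : ∀ c, ‖s c‖ = ‖c‖) (w' : NV C K') [CFF (kC C) (kap w')] :
    CFF (kC C) (kap (I.pullNV (g : K →+* K') hg hs w')) := by
  obtain ⟨T, hT⟩ := exists_overG_one w'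
  exact cff_of_overG (I.pullNV_overG (T := g.symm T) _ hg hs (by simpa using hT))

/-- **isometric semilinear isomorphisms respect the absolute values of good reduction** -/
theorem good_fixed (hC : Sph C) (hn : ∀ r : ℝ, 0 ≤ r → ∃ x : C, ‖x‖ = r) (g : K ≃+* K')
    (hg : ∀ c, g (algebraMap C K c) = algebraMap C K' (s c)) (hs : ∀ c, ‖s c‖ = ‖c‖)
    {w : NV C K} {w' : NV C K'} [CFF (kC C) (kap w)] [CFF (kC C) (kap w')]
    (hw : gen C K ≤ gen (kC C) (kap w)) (hw' : 2 ≤ gen (kC C) (kap w')) (y : K) :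
    w' (g y) = w y := by
  haveI := cff_pull g hg hs w'
  have h1 := gen_eq (resEq g (w := I.pullNV (g : K →+* K') hg hs w') (w' := w') fun _ => rfl)
    (kEq s hs) (resEq_const g _ hg hs)
  rw [← good_unique hC hn (h1 ▸ hw') hw]
  rfl

end semi

section up

variable {K' : Type} [Field K'] [Algebra C K'] [CFF C K'] [Algebra K K'] [IsScalarTower C K K']
  [FiniteDimensional K K']

/-- in a Galois extension an absolute value of good reduction is inert -/
theorem good_inert (hC : Sph C) (hn : ∀ r : ℝ, 0 ≤ r → ∃ x : C, ‖x‖ = r) [IsGalois K K']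
    (w : NV C K) (w' : NV C K') [h : NVExt w w'] [CFF (kC C) (kap w)] [CFF (kC C) (kap w')]
    (h2 : 2 ≤ gen C K') (hw' : gen C K' ≤ gen (kC C) (kap w')) :
    (∀ v : NV C K', NVExt w v → v = w') ∧ finrank (kap w) (kap w') = finrank K K' := by
  obtain ⟨T, hT⟩ := exists_overG_one w
  haveI := (finite_of_notMem (I.nc_of_transc hT.transc)).2
  haveI : FiniteDimensional C⟮algebraMap K K' T⟯ K' := finite_adjoin_map
  have h1 : ∀ v : NV C K', NVExt w v → v = w' := fun v hv => by
    obtain ⟨g, hg⟩ := I.Trb.trans_w (C := C) (T := T) ⟨v, NVExt.overG.2 hT⟩ ⟨w', NVExt.overG.2 hT⟩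
      fun y => (hv.1 y).trans (h.1 y).symm
    refine NV.ext (AbsoluteValue.ext fun y => (hg y).symm.trans ?_)
    exact good_fixed (s := RingEquiv.refl C) hC hn (g : K' ≃+* K')
      (fun c => (g.restrictScalars C).commutes c) (fun _ => rfl) hw' (h2.trans hw') y
  refine ⟨h1, ?_⟩
  letI : Unique {v : NV C K' // NVExt w v} := ⟨⟨⟨w', h⟩⟩, fun v => Subtype.ext (h1 v.1 v.2)⟩
  have := sum_resdeg_eq (W := K') hC hn w hT
  rwa [Fintype.sum_unique] at this

end up

end Vale.Agent.P022K.FI
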