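import Vale.Agent.P025.R2.H746.Stab
import Vale.Agent.P022K.FI.Zeta

/-!
# P022K, block FI, row INS: an extension of degree `q + 1` with `q` congruent embeddings
-/

set_option autoImplicit false
set_option linter.unusedSectionVars false

open Vale.Agent.P019P P025H746 Module
open scoped IntermediateField

noncomputable section

namespace Vale.Agent.P022K.FI.Ins

section emb

variable {K W M I : Type*} [Field K] [Field W] [Field M] [Algebra K W] [Algebra K M]
  [FiniteDimensional K W] [Algebra.IsSeparable K W] [Fintype I]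

/-- trace and norm from a full set of embeddings -/
theorem tr_nm (s : I → W →ₐ[K] M) (hs : Function.Injective s)
    (hc : Fintype.card I = finrank K W) (x : W) :
    algebraMap K M (Algebra.trace K W x) = ∑ i, s i x ∧
      algebraMap K M (Algebra.norm K x) = ∏ i, s i x := by
  let E := AlgebraicClosure M
  let f : M →ₐ[K] E := IsScalarTower.toAlgHom K M E
  have hf : Function.Injective f := f.toRingHom.injective
  have hb : Function.Bijective fun i => f.comp (s i) :=
    (Fintype.bijective_iff_injective_and_card _).2 ⟨fun i j h => hs (AlgHom.ext fun y =>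
      hf (DFunLike.congr_fun h y)), by rw [hc, AlgHom.card]⟩
  refine ⟨hf ?_, hf ?_⟩
  · rw [f.commutes, trace_eq_sum_embeddings E, map_sum]
    exact (hb.sum_comp fun σ => σ x).symm
  · rw [f.commutes, Algebra.norm_eq_prod_embeddings K E, map_prod]
    exact (hb.prod_comp fun σ => σ x).symm

theorem tr_nm' (s0 : W →ₐ[K] M) (s : I → W →ₐ[K] M) (hs : Function.Injective s)
    (h0 : ∀ i, s i ≠ s0) (hc : finrank K W = Fintype.card I + 1) (x : W) :
    algebraMap K M (Algebra.trace K W x) = s0 x + ∑ i, s i x ∧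
      algebraMap K M (Algebra.norm K x) = s0 x * ∏ i, s i x := by
  have h := tr_nm (I := Option I) (fun o => o.elim s0 s) (by
    rintro (_ | i) (_ | j) h
    · rfl
    · exact absurd h.symm (h0 j)
    · exact absurd h (h0 i)
    · exact congrArg some (hs h)) (by rw [hc, Fintype.card_option]) x
  rwa [Fintype.sum_option, Fintype.prod_option] at h

end emb

variable {C K W M I : Type*} [NontriviallyNormedField C] [IsUltrametricDist C] [IsAlgClosed C]
  [Field K] [Field W] [Field M] [Algebra C K] [Algebra C W] [Algebra C M] [Algebra K W]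
  [Algebra K M] [IsScalarTower C K W] [IsScalarTower C K M]

/-- the pull back of a norm -/
def pb (ω : NV C M) (s : W →ₐ[K] M) : NV C W where
  av := ω.av.comp (f := (s : W →+* M)) (s : W →+* M).injective
  na x y := by
    change ω (s (x + y)) ≤ max (ω (s x)) (ω (s y))
    rw [map_add]
    exact ω.na _ _
  ext' c := by
    change ω (s (algebraMap C W c)) = ‖c‖
    rw [IsScalarTower.algebraMap_apply C K W, s.commutes, ← IsScalarTower.algebraMap_apply,
      ω.ext']

theorem pb_apply (ω : NV C M) (s : W →ₐ[K] M) (x : W) : pb ω s x = ω (s x) := rfl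

instance (ω : NV C M) (s : W →ₐ[K] M) : NVExt (ω.comap K) (pb ω s) :=
  ⟨fun x => by rw [pb_apply, s.commutes, NV.comap_apply]⟩

theorem nv_eq {v v' : NV C W} (h : ∀ x, v x ≤ 1 ↔ v' x ≤ 1) : v = v' :=
  NV.ext (P025H458.eq_of_isEquiv v.av v'.av v.ext' v'.ext' fun x y => by
    rcases eq_or_ne y 0 with rfl | hy
    · simp
    · rw [← div_le_one (v.av.pos hy), ← div_le_one (v'.av.pos hy), ← map_div₀, ← map_div₀, h])

theorem prod_sub_lt {ω : NV C M} {ι : Type*} (t : Finset ι) {a : ι → M} {b : M} (hb : ω b ≤ 1)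
    (h : ∀ i ∈ t, ω (a i - b) < 1) : ω (∏ i ∈ t, a i - b ^ t.card) < 1 := by
  classical
  induction t using Finset.induction_on with
  | empty => simp
  | insert i t hi ih =>
    have h1 := h i (Finset.mem_insert_self i t)
    have h2 := ih fun j hj => h j (Finset.mem_insert_of_mem hj)
    have h3 : ω (a i) ≤ 1 := by simpa using NV.add_le h1.le hb
    rw [Finset.prod_insert hi, Finset.card_insert_of_notMem hi,
      show a i * ∏ j ∈ t, a j - b ^ (t.card + 1) =
        a i * (∏ j ∈ t, a j - b ^ t.card) + b ^ t.card * (a i - b) by ring]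
    refine NV.add_lt ?_ ?_ <;> rw [map_mul]
    · exact mul_lt_one_of_nonneg_of_lt_one_right h3 (ω.av.nonneg _) h2
    · exact mul_lt_one_of_nonneg_of_lt_one_right (NV.pow_le_one' hb _) (ω.av.nonneg _) h1

theorem approx {u0 u1 : NV C W} (h : u0 ≠ u1) (x : W) : ∃ y, u0 (y - x) < 1 ∧ u1 y < 1 := by
  obtain ⟨y, h1, h2⟩ := P025H458.exists_approx (fun b : Bool => (cond b u0 u1).av)
    (fun b => (cond b u0 u1).na) (fun b => (cond b u0 u1).ext') (by
      rintro (_ | _) (_ | _) e
      · rfl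
      · exact absurd (NV.ext e).symm h
      · exact absurd (NV.ext e) h
      · rfl) true x one_pos
  exact ⟨y, h1, h2 false Bool.false_ne_true⟩

variable [FiniteDimensional K W] [Algebra.IsSeparable K W] [Fintype I]

/-- every extension is the pull back along one of the embeddings -/
theorem ext_eq (ω : NV C M) (s : I → W →ₐ[K] M)
    (ht : ∀ x, algebraMap K M (Algebra.trace K W x) = ∑ i, s i x) (v : NV C W)
    [hv : NVExt (ω.comap K) v] : ∃ i, v = pb ω (s i) := by
  classical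
  by_contra hc
  push Not at hc
  let S : Set (NV C W) := insert v (Set.range fun i => pb ω (s i))
  have hS : Finite S := (Set.finite_range _).insert v
  obtain ⟨e, -, he1, he2⟩ := P025H458.exists_idem (fun u : S => u.1.av) (fun u => u.1.na)
    (fun u => u.1.ext') (fun u u' h => Subtype.ext (NV.ext h)) ⟨v, Set.mem_insert _ _⟩
  have h3 : ∀ i, ω (s i e) < 1 := fun i =>
    he2 ⟨pb ω (s i), Set.mem_insert_of_mem _ ⟨i, rfl⟩⟩ fun h => hc i (congrArg Subtype.val h).symm
  let b := Module.finBasis K W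
  have h4 : ∀ (a : ℝ) (r : ℝ), 0 ≤ r → r < 1 → ∀ᶠ n in Filter.atTop, r ^ n * a < 1 :=
    fun a r h0 h1 => by
      have := (tendsto_pow_atTop_nhds_zero_of_lt_one h0 h1).mul_const a
      rw [zero_mul] at this
      exact this.eventually (gt_mem_nhds one_pos)
  obtain ⟨n, hn⟩ := (Filter.eventually_all.2 fun k => Filter.eventually_all.2 fun i =>
    h4 (ω (s i (b k)) * v (b.traceDual k)) _ (ω.av.nonneg _) (h3 i)).exists
  have h5 : v (e ^ n) < 1 := by
    rw [← b.traceDual.sum_repr (e ^ n)]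
    refine NV.sum_lt one_pos fun k _ => ?_
    have h6 : 0 < v (b.traceDual k) := v.av.pos (b.traceDual.ne_zero k)
    rw [Algebra.smul_def, map_mul, hv.out, NV.comap_apply, Basis.traceDual_repr_apply,
      Algebra.traceForm_apply, ht, ← lt_div_iff₀ h6]
    refine NV.sum_lt (div_pos one_pos h6) fun i _ => ?_
    rw [lt_div_iff₀ h6, map_mul, map_mul, map_pow, map_pow, mul_assoc]
    exact hn k i
  rw [map_pow, show v e = 1 from he1, one_pow] at h5
  exact lt_irrefl _ h5

omit [Algebra.IsSeparable K W] in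
theorem deg_one {w : NV C K} {v : NV C W} [NVExt w v] :
    finrank (kap w) (kap v) = 1 ↔ ∀ x, v x ≤ 1 → ∃ y, w y ≤ 1 ∧ v (x - algebraMap K W y) < 1 := by
  rw [Algebra.finrank_eq_one_iff_bijective_algebraMap]
  refine ⟨fun h x hx => ?_, fun h => ⟨RingHom.injective _, fun a => ?_⟩⟩
  · obtain ⟨c, hc⟩ := h.2 (v.red x)
    obtain ⟨y, hy, rfl⟩ := NV.red_surj c
    have hy' : v (algebraMap K W y) ≤ 1 := by rwa [NVExt.out (w := w)]
    refine ⟨y, hy, (NV.red_eq_zero (NV.sub_le hx hy')).1 ?_⟩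
    rw [NV.red_sub hx hy', red_algebraMap' (w := w) hy, hc, sub_self]
  · obtain ⟨x, hx, rfl⟩ := NV.red_surj a
    obtain ⟨y, hy, h1⟩ := h x hx
    have hy' : v (algebraMap K W y) ≤ 1 := by rwa [NVExt.out (w := w)]
    refine ⟨w.red y, ?_⟩
    rw [← red_algebraMap' hy, eq_comm, ← sub_eq_zero, ← NV.red_sub hx hy', NV.red_of_lt h1]

/-- the conclusion -/
structure Out (η : NV C K) (u0 u1 : NV C W) (q : ℕ) : Prop where
  e0 : NVExt η u0
  e1 : NVExt η u1
  ne : u0 ≠ u1
  all : ∀ v : NV C W, NVExt η v → v = u0 ∨ v = u1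
  den : ∀ x, u0 x ≤ 1 → ∃ y, η y ≤ 1 ∧ u0 (x - algebraMap K W y) < 1
  pw1 : ∀ x, u1 x ≤ 1 → ∃ y, η y ≤ 1 ∧ u1 (algebraMap K W y - x ^ q) < 1
  pw2 : ∀ y, η y ≤ 1 → ∃ x, u1 x ≤ 1 ∧ u1 (algebraMap K W y - x ^ q) < 1
  d0 : finrank (kap η) (kap u0) = 1
  d1 : finrank (kap η) (kap u1) = q
  pw : Pw (IsScalarTower.toAlgHom (kC C) (kap η) (kap u1)) q
  one : ∀ v : NV C W, NVExt η v →
    (∀ x, v x ≤ 1 → ∃ y, v (x - algebraMap K W y) < 1) → v = u0

/-- **INS** -/
theorem ins (hC : P025H458.Sph C) (hn : ∀ r : ℝ, 0 ≤ r → ∃ x : C, ‖x‖ = r) {p e : ℕ}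
    [Fact p.Prime] [CharP (kC C) p] (he : 0 < e) (ω : NV C M) (s0 : W →ₐ[K] M)
    (s : I → W →ₐ[K] M) (hI : Fintype.card I = p ^ e) (hd : finrank K W = p ^ e + 1)
    (hs : Function.Injective s) (h0 : ∀ i, s i ≠ s0)
    (hω : ∀ x i i', ω (s i x) ≤ 1 → ω (s i' x - s i x) < 1) {T : K} [FiniteDimensional C⟮T⟯ K]
    (hT : (ω.comap K).OverG T) (i₀ : I) :
    (∀ i, pb ω (s i) = pb ω (s i₀)) ∧ Out (ω.comap K) (pb ω s0) (pb ω (s i₀)) (p ^ e) := by
  classical
  have hp : p.Prime := Fact.out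
  have hq : 1 < p ^ e := Nat.one_lt_pow he.ne' hp.one_lt
  have tn := tr_nm' s0 s hs h0 (hd.trans (by rw [hI]))
  have a1 : ∀ x i i', ω (s i x) ≤ 1 → ω (s i' x) ≤ 1 := fun x i i' h => by
    simpa using NV.add_le (hω x i i' h).le h
  have a2 : ∀ i, pb ω (s i) = pb ω (s i₀) := fun i => nv_eq fun x => ⟨a1 x _ _, a1 x _ _⟩
  have all : ∀ v : NV C W, NVExt (ω.comap K) v → v = pb ω s0 ∨ v = pb ω (s i₀) := fun v hv => by
    obtain ⟨_ | i, h⟩ := ext_eq (I := Option I) ω (fun o => o.elim s0 s)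
      (fun x => by rw [Fintype.sum_option]; exact (tn x).1) v
    exacts [Or.inl h, Or.inr (h.trans (a2 i))]
  have hqω : ω ((p ^ e : ℕ) : M) < 1 := by
    have h1 : ‖((p ^ e : ℕ) : C)‖ ≤ 1 := IsUltrametricDist.norm_natCast_le_one C _
    rw [← map_natCast (algebraMap C M), ω.ext', ← cred_eq_zero h1, cred_of h1]
    refine (map_natCast (IsLocalRing.residue (OC C)) (p ^ e)).trans ?_
    rw [Nat.cast_pow, CharP.cast_eq_zero, zero_pow he.ne']
  have a3 : ∀ x, ω (s i₀ x) ≤ 1 → pb ω s0 (x - algebraMap K W (Algebra.trace K W x)) < 1 :=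
    fun x hx => by
      rw [pb_apply, map_sub, s0.commutes, (tn x).1, show s0 x - (s0 x + ∑ i, s i x) =
        -(∑ i, (s i x - s i₀ x) + ((p ^ e : ℕ) : M) * s i₀ x) by
          rw [Finset.sum_sub_distrib, Finset.sum_const, Finset.card_univ, hI, nsmul_eq_mul]
          ring, NV.map_neg']
      refine NV.add_lt (NV.sum_lt one_pos fun i _ => hω x _ _ hx) ?_
      rw [map_mul]
      exact mul_lt_one_of_nonneg_of_lt_one_left (ω.av.nonneg _) hqω hx
  have a4 : ∀ {v : NV C W} [NVExt (ω.comap K) v] {x y}, v x ≤ 1 → v (x - algebraMap K W y) < 1 →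
      ω.comap K y ≤ 1 := fun {v} hv x y hx h => by
    rw [← hv.out]
    simpa using NV.sub_le hx h.le
  have : Finite {v : NV C W // NVExt (ω.comap K) v} :=
    finite_ext _ fun x => exists_norm_eq hT x
  let _ : Fintype {v : NV C W // NVExt (ω.comap K) v} := Fintype.ofFinite _
  have hsum := sum_resdeg_eq (W := W) hC hn _ hT
  let v0 : {v : NV C W // NVExt (ω.comap K) v} := ⟨pb ω s0, inferInstance⟩
  let v1 : {v : NV C W // NVExt (ω.comap K) v} := ⟨pb ω (s i₀), inferInstance⟩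
  have ne : pb ω s0 ≠ pb ω (s i₀) := fun h => by
    have h1 : finrank (kap (ω.comap K)) (kap (pb ω s0)) = 1 := deg_one.2 fun x hx =>
      have h2 := a3 x (h ▸ hx : pb ω (s i₀) x ≤ 1)
      ⟨_, a4 hx h2, h2⟩
    rw [Finset.sum_eq_single v0 (fun v _ hv => absurd
      (Subtype.ext ((all v.1 v.2).elim id fun h' => h'.trans h.symm)) hv) (by simp), hd] at hsum
    have := h1.symm.trans hsum
    omega
  have den : ∀ x, pb ω s0 x ≤ 1 → ∃ y, ω.comap K y ≤ 1 ∧ pb ω s0 (x - algebraMap K W y) < 1 :=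
    fun x hx => by
      obtain ⟨y, h1, h2⟩ := approx ne x
      have h3 : pb ω s0 (x - algebraMap K W (Algebra.trace K W y)) < 1 := by
        simpa using NV.sub_lt (a3 y h2.le) h1
      exact ⟨_, a4 hx h3, h3⟩
  have d0 := deg_one.2 den
  have d1 : finrank (kap (ω.comap K)) (kap (pb ω (s i₀))) = p ^ e := by
    rw [Finset.sum_eq_add_of_mem v0 v1 (Finset.mem_univ _) (Finset.mem_univ _) (fun h => ne (congrArg Subtype.val h))
      (fun v _ hv => ((all v.1 v.2).elim (fun h => hv.1 (Subtype.ext h))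
        fun h => hv.2 (Subtype.ext h)).elim), hd] at hsum
    have h1 : finrank (kap (ω.comap K)) (kap (pb ω s0)) +
      finrank (kap (ω.comap K)) (kap (pb ω (s i₀))) = p ^ e + 1 := hsum
    omega
  have pw1 : ∀ x, pb ω (s i₀) x ≤ 1 →
      ∃ y, ω.comap K y ≤ 1 ∧ pb ω (s i₀) (algebraMap K W y - x ^ p ^ e) < 1 := fun x hx => by
    obtain ⟨z, h1, h2⟩ := approx ne.symm (x - 1)
    have h3 : ∀ i ∈ Finset.univ, ω (s i (z + 1) - s i₀ x) < 1 := fun i _ => by
      have h4 : ω (s i₀ (z + 1) - s i₀ x) < 1 := by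
        rw [← map_sub, show z + 1 - x = z - (x - 1) by ring]
        exact h1
      have h5 : ω (s i₀ (z + 1)) ≤ 1 := by simpa using NV.add_le h4.le hx
      simpa only [sub_add_sub_cancel] using NV.add_lt (hω _ _ i h5) h4
    have h4 := prod_sub_lt (ω := ω) _ hx h3
    rw [Finset.card_univ, hI] at h4
    have h5 : ω (∏ i, s i (z + 1)) ≤ 1 := by
      simpa using NV.add_le h4.le (NV.pow_le_one' (w := ω) hx (p ^ e))
    have h6 : pb ω (s i₀) (algebraMap K W (Algebra.norm K (z + 1)) - x ^ p ^ e) < 1 := by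
      rw [pb_apply, map_sub, map_pow, (s i₀).commutes, (tn _).2, map_add s0, map_one, add_mul,
        one_mul, add_sub_assoc]
      refine NV.add_lt ?_ h4
      rw [map_mul]
      exact mul_lt_one_of_nonneg_of_lt_one_left (ω.av.nonneg _) h2 h5
    refine ⟨_, a4 (NV.pow_le_one' hx (p ^ e)) ?_, h6⟩
    rwa [← NV.map_neg', neg_sub]
  have : CFF (kC C) (kap (ω.comap K)) := hT.cff
  have : FiniteDimensional C⟮algebraMap K W T⟯ W := finite_adjoin_map
  have : CFF (kC C) (kap (pb ω (s i₀))) := (NVExt.overG.2 hT).cff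
  have pw : Pw (IsScalarTower.toAlgHom (kC C) (kap (ω.comap K)) (kap (pb ω (s i₀)))) (p ^ e) := by
    refine pw_of_insep (fun a => ?_) ?_
    · obtain ⟨x, hx, rfl⟩ := NV.red_surj a
      obtain ⟨y, hy, h1⟩ := pw1 x hx
      refine ⟨e, (ω.comap K).red y, ?_⟩
      have hy' : pb ω (s i₀) (algebraMap K W y) ≤ 1 := by rwa [NVExt.out (w := ω.comap K)]
      rw [IsScalarTower.toAlgHom_apply, ← red_algebraMap' hy, ← NV.red_pow hx, ← sub_eq_zero,
        ← NV.red_sub hy' (NV.pow_le_one' hx _), NV.red_of_lt h1]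
    · rw [← d1]
      exact (Algebra.finrank_eq_of_equiv_equiv (AlgEquiv.ofInjectiveField _).toRingEquiv
        (RingEquiv.refl _) rfl).symm
  refine ⟨a2, inferInstance, inferInstance, ne, all, den, pw1, fun y hy => ?_, d0, d1, pw,
    fun v hv h => (all v hv).resolve_right ?_⟩
  · obtain ⟨a, ha⟩ := pw.2 ((ω.comap K).red y)
    obtain ⟨x, hx, rfl⟩ := NV.red_surj a
    have hy' : pb ω (s i₀) (algebraMap K W y) ≤ 1 := by rwa [NVExt.out (w := ω.comap K)]
    refine ⟨x, hx, (NV.red_eq_zero (NV.sub_le hy' (NV.pow_le_one' hx _))).1 ?_⟩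
    rw [NV.red_sub hy' (NV.pow_le_one' hx _), red_algebraMap' hy, NV.red_pow hx, ← ha,
      IsScalarTower.toAlgHom_apply, sub_self]
  · rintro rfl
    have h1 : finrank (kap (ω.comap K)) (kap (pb ω (s i₀))) = 1 := deg_one.2 fun x hx =>
      have ⟨y, hy⟩ := h x hx
      ⟨y, a4 hx hy, hy⟩
    omega

end Vale.Agent.P022K.FI.Ins
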