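import Vale.Agent.P022K.FI.X0A
import Vale.Agent.P027M.G.Brid

/-!
# P022K FI, row X0, part NOD: two good curves and a correspondence which reduces to the graphs of
two inseparable maps give a nodal curve
-/

set_option linter.unusedSectionVars false
set_option linter.style.haveILetI false

noncomputable section

open IntermediateField Vale.Agent.P019P P025H746 P025H492 Module Vale.Agent.P027M
  Vale.Agent.P027M.I

namespace Vale.Agent.P022K.FI.X0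

section cff

variable {k K : Type} [Field k] [Field K] [Algebra k K] [CFF k K] {t z : K}

theorem vl_ne_of_ord {x : Plk k K} (h0 : z ≠ 0) (h : ord x z = 0) : z ∈ x.1 ∧ vl x z ≠ 0 := by
  have h1 : z ∈ x.1 := (mem_iff_ord x z).2 (Or.inr h.ge)
  refine ⟨h1, fun e => ?_⟩
  rcases (vl_eq_zero_iff h1).1 e with e | e
  · exact h0 e
  · omega

theorem sep_fn (ht : ∀ a : k, t ≠ algebraMap k K a) {x y : Plk k K} (hx : t ∈ x.1) (hy : t ∈ y.1)
    (hne : y ≠ x) : ∃ u, (∀ P : Plk k K, t ∈ P.1 → u ∈ P.1) ∧ u ∈ Mge y 1 ∧ vl x u ≠ 0 := by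
  obtain ⟨Q, hQ⟩ := exists_pole ht
  have h1 : ∀ P : Plk k K, t ∈ P.1 → P ≠ Q := fun P hP e => by
    have := ord_nonneg_of_mem P hP
    rw [e] at this
    omega
  obtain ⟨u, hu0, hu1, hu2⟩ := h4_exact
    (D := Finsupp.single Q (2 * gen k K + 1 : ℤ) - Finsupp.single y 1) x (by
      rw [map_sub, dg_sgl, dg_sgl]; omega)
  rw [Finsupp.sub_apply, h4RRA_single_ne (h1 x hx), h4RRA_single_ne hne.symm] at hu2
  refine ⟨u, fun P hP => (mem_iff_ord P u).2 (Or.inr ?_), Or.inr ?_,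
    (vl_ne_of_ord hu0 (by simpa using hu2)).2⟩
  · have := hu1 P
    rw [Finsupp.sub_apply, h4RRA_single_ne (h1 P hP)] at this
    by_cases e : P = y
    · rw [e, h4RRA_single_self] at this; rw [e]; omega
    · rw [h4RRA_single_ne e] at this; omega
  · have := hu1 y
    rw [Finsupp.sub_apply, h4RRA_single_ne (h1 y hy), h4RRA_single_self] at this
    omega

/-- the local ring is a localisation of the ring of the chart -/
theorem loc_frac (ht : ∀ a : k, t ≠ algebraMap k K a) {x : Plk k K} (hx : t ∈ x.1) (hz : z ∈ x.1) :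
    ∃ s, (∀ P : Plk k K, t ∈ P.1 → s ∈ P.1 ∧ z * s ∈ P.1) ∧ vl x s ≠ 0 := by
  classical
  choose! u hu1 hu2 hu3 using fun (y : Plk k K) (hy : t ∈ y.1 ∧ y ≠ x) => sep_fn ht hx hy.1 hy.2
  choose n hn using fun P : Plk k K => exists_Mge P z
  let A := (poles_finite (k := k) z).toFinset.filter fun P => t ∈ P.1
  have hA : ∀ P, P ∈ A ↔ z ∉ P.1 ∧ t ∈ P.1 := fun P => by simp [A]
  have h0 : ∀ P ∈ A, t ∈ P.1 ∧ P ≠ x := fun P hP =>
    ⟨((hA P).1 hP).2, fun e => ((hA P).1 hP).1 (e ▸ hz)⟩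
  have h1 : ∀ P : Plk k K, t ∈ P.1 → ∀ Q ∈ A, u Q ^ n Q ∈ P.1 := fun P hP Q hQ =>
    pow_mem (hu1 Q (h0 Q hQ) P hP) _
  refine ⟨∏ P ∈ A, u P ^ n P, fun P hP => ⟨prod_mem (h1 P hP), ?_⟩, ?_⟩
  · by_cases e : P ∈ A
    · rw [← Finset.mul_prod_erase _ _ e, ← mul_assoc]
      exact mul_mem (mul_pow_mem (hu2 P (h0 P e)) (hn P))
        (prod_mem fun Q hQ => h1 P hP Q (Finset.mem_of_mem_erase hQ))
    · rw [hA, not_and', not_not] at e
      exact mul_mem (e hP) (prod_mem (h1 P hP))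
  · rw [vl_prod' _ _ (h1 x hx), Finset.prod_ne_zero_iff]
    intro P hP
    rw [vl_pow' (hu1 P (h0 P hP) x hx)]
    exact pow_ne_zero _ (hu3 P (h0 P hP))

/-- the places fixed by an endomorphism -/
def Fxd (k : Type) [Field k] [Algebra k K] (Φ : K →+* K) : Set (Plk k K) :=
  {x | ∀ z, Φ z ∈ x.1 ↔ z ∈ x.1}

theorem map_Mge {Φ : K →+* K} {x x' : Plk k K} (h : ∀ z, Φ z ∈ x.1 ↔ z ∈ x'.1) :
    Φ z ∈ Mge x 1 ↔ z ∈ Mge x' 1 := by
  rw [mem_Mge_one_iff, mem_Mge_one_iff, ← map_inv₀, h, map_eq_zero]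

theorem fxd_finite {Φ : K →+* K} (hc : ∀ a, Φ (algebraMap k K a) = algebraMap k K a)
    (ht : t ≠ Φ t) : (Fxd k Φ).Finite := by
  refine ((poles_finite t).union (dv_finite (k := k) (sub_ne_zero.2 ht))).subset fun x hx => ?_
  by_cases h1 : t ∈ x.1
  · have h2 := sub_vl h1
    have h3 := (map_Mge hx).2 h2
    rw [map_sub, hc] at h3
    have h4 := sub_mem h2 h3
    rw [sub_sub_sub_cancel_right] at h4
    refine Or.inr fun e => ?_
    rcases h4 with h4 | h4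
    · exact sub_ne_zero.2 ht h4
    · omega
  · exact Or.inl h1

theorem fxd_finite' {Φ : K →+* K} (hc : ∀ a, Φ (algebraMap k K a) = algebraMap k K a) {q : ℕ}
    (hq : 1 < q) (hp : ∀ z, ∃ y, Φ z = y ^ q) : (Fxd k Φ).Finite := by
  obtain ⟨x⟩ := nonempty_Plk (k := k) (F := K)
  obtain ⟨t, -, ht⟩ := exists_unif x
  obtain ⟨y, hy⟩ := hp t
  refine fxd_finite hc (t := t) fun e => ?_
  rw [e, hy, ord_pow] at ht
  have := Int.eq_one_of_mul_eq_one_right (by omega) ht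
  omega

theorem exists_gen {Φ : K →+* K} (hc : ∀ a, Φ (algebraMap k K a) = algebraMap k K a) {q : ℕ}
    (hq : 1 < q) (hp : ∀ z, ∃ y, Φ z = y ^ q) (x : Plk k K) : ∃ t, t ∈ x.1 ∧ Φ t ∈ x.1 ∧
      t - Φ t ≠ 0 ∧ (ord x (t - Φ t) = 0 ∨ (x ∈ Fxd k Φ ∧ ord x (t - Φ t) = 1)) := by
  have key : ∀ t, t ∈ Mge x 1 → Φ t ∈ x.1 → vl x (Φ t) ≠ 0 → ∃ t, t ∈ x.1 ∧ Φ t ∈ x.1 ∧
      t - Φ t ≠ 0 ∧ (ord x (t - Φ t) = 0 ∨ (x ∈ Fxd k Φ ∧ ord x (t - Φ t) = 1)) :=
    fun t h1 h2 h3 => by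
      have h4 := mem_Mge0.1 (Mge_mono x zero_le_one h1)
      have h5 : vl x (t - Φ t) ≠ 0 := by
        rwa [vl_sub' h4 h2, (vl_eq_zero_iff h4).2 h1, zero_sub, neg_ne_zero]
      have h6 := ord_nonneg_of_mem x (sub_mem h4 h2)
      have h7 := ord_nonneg_of_mem x (inv_mem_of_vl (sub_mem h4 h2) h5)
      rw [ord_inv] at h7
      exact ⟨t, h4, h2, ne_zero_of_vl h5, Or.inl (by omega)⟩
  obtain ⟨t, ht0, ht⟩ := exists_unif x
  have ht1 : t ∈ Mge x 1 := Or.inr ht.ge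
  by_cases h : x ∈ Fxd k Φ
  · obtain ⟨y, hy⟩ := hp t
    have h1 : Φ t ∈ Mge x (ord x t + 1) := by
      refine ((map_Mge h).2 ht1).imp_right fun h2 => ?_
      rw [hy, ord_pow] at h2 ⊢
      have h3 : 0 < ord x y := by
        by_contra h3
        have := mul_nonpos_of_nonneg_of_nonpos (Int.natCast_nonneg q) (not_lt.1 h3)
        omega
      nlinarith
    have h2 := ord_add_of_lt ht0 (neg_mem h1)
    rw [← sub_eq_add_neg] at h2
    have h3 := mem_Mge0.1 (Mge_mono x zero_le_one ht1)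
    exact ⟨t, h3, (h t).2 h3, h2.1, Or.inr ⟨h, h2.2.trans ht⟩⟩
  by_cases c : x.1.comap Φ = ⊤
  · have h1 : ∀ z, Φ z ∈ x.1 := fun z => by
      rw [← ValuationSubring.mem_comap, c]; exact ValuationSubring.mem_top _
    refine key t ht1 (h1 t) fun e => ?_
    rw [vl_eq_zero_iff (h1 t), mem_Mge_one_iff, ← map_inv₀, map_eq_zero] at e
    exact e.elim ht0 fun e => e (h1 _)
  · let x' : Plk k K := ⟨x.1.comap Φ, fun a => by
      rw [ValuationSubring.mem_comap, hc]; exact x.2.1 a, c⟩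
    have h1 : ∀ z, Φ z ∈ x.1 ↔ z ∈ x'.1 := fun _ => Iff.rfl
    obtain ⟨w, h2, h3⟩ := CAppr_one x' {x} (by
      rw [Finset.mem_singleton]; intro e; exact h fun z => by rw [h1, e]) 1
    have h4 := (map_Mge h1).2 h2
    rw [map_sub, map_one, ← map_one (algebraMap k K)] at h4
    exact key w (h3 x (Finset.mem_singleton_self x))
      ((mem_iff_ord _ _).2 (Or.inr (ord_nonneg_of_sub h4))) (by rw [vl_eq h4]; exact one_ne_zero)

theorem inv_sub_mem {x : Plk k K} {c : k} (h : vl x t ≠ c) : (t - algebraMap k K c)⁻¹ ∈ x.1 := by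
  by_cases h1 : t ∈ x.1
  · exact inv_mem_of_vl (sub_mem h1 (x.2.1 c)) (by
      rw [vl_sub' h1 (x.2.1 c), vl_const]; exact sub_ne_zero.2 h)
  · refine (x.1.mem_or_inv_mem _).resolve_left fun e => h1 ?_
    have := add_mem e (x.2.1 c)
    rwa [sub_add_cancel] at this

theorem exists_eps (ht : t ≠ 0) (A : Finset (Plk k K)) (hA : ∀ x ∈ A, t ∈ x.1) :
    ∃ ε, ∀ x : Plk k K, t⁻¹ ∈ x.1 → ε ∈ x.1 ∧ (ε - 1) * t ∈ x.1 ∧ (x ∈ A → ε ∈ Mge x 1) := by
  classical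
  induction A using Finset.induction_on with
  | empty => exact ⟨1, fun x _ => ⟨one_mem _, by simp, by simp⟩⟩
  | insert a s _ ih =>
    obtain ⟨ε, hε⟩ := ih fun x hx => hA x (Finset.mem_insert_of_mem hx)
    refine ⟨ε * (1 - algebraMap k K (vl a t) * t⁻¹), fun x hx => ?_⟩
    obtain ⟨h1, h2, h3⟩ := hε x hx
    have h4 : algebraMap k K (vl a t) * t⁻¹ ∈ x.1 := mul_mem (x.2.1 _) hx
    have h5 := sub_mem (one_mem _) h4
    refine ⟨mul_mem h1 h5, ?_, fun h => ?_⟩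
    · rw [show (ε * (1 - algebraMap k K (vl a t) * t⁻¹) - 1) * t =
        (ε - 1) * t - ε * algebraMap k K (vl a t) by field_simp; ring]
      exact sub_mem h2 (mul_mem h1 (x.2.1 _))
    · rcases Finset.mem_insert.1 h with rfl | h
      · have h6 := hA x (Finset.mem_insert_self _ _)
        rw [← vl_eq_zero_iff (mul_mem h1 h5), vl_mul' h1 h5, vl_sub' (one_mem _) h4,
          vl_mul' (x.2.1 _) hx, vl_const, ← vl_mul' h6 hx, mul_inv_cancel₀ ht, sub_self, mul_zero]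
      · simpa using mul_mem_Mge (h3 h) (mem_Mge0.2 h5)

theorem mul_inv_pow_mem (ht : t ≠ 0) {n : ℕ} (hz : z ∈ LL k (n • pol k t)) (x : Plk k K)
    (hx : t⁻¹ ∈ x.1) : z * t⁻¹ ^ n ∈ x.1 := by
  by_cases h0 : z = 0
  · simp [h0]
  have h1 := (mem_LL.1 hz).resolve_left h0 x
  have h2 := ord_nonneg_of_mem x hx
  rw [ord_inv] at h2
  rw [Finsupp.smul_apply, pol_apply, max_eq_right h2, nsmul_eq_mul] at h1
  rw [mem_iff_ord, ord_mul x h0 (pow_ne_zero _ (inv_ne_zero ht)), ord_pow, ord_inv]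
  exact Or.inr (by linarith)

theorem mem_LL_of (ht : t ≠ 0) {n : ℕ} (h1 : ∀ x : Plk k K, t ∈ x.1 → z ∈ x.1)
    (h2 : ∀ x : Plk k K, t ∉ x.1 → z * t⁻¹ ^ n ∈ x.1) : z ∈ LL k (n • pol k t) := by
  by_cases h0 : z = 0
  · simp [h0]
  refine mem_LL.2 (Or.inr fun x => ?_)
  rw [Finsupp.smul_apply, pol_apply, nsmul_eq_mul]
  by_cases h : t ∈ x.1
  · have h3 := ord_nonneg_of_mem x h
    have h4 := ord_nonneg_of_mem x (h1 x h)
    rw [max_eq_left (by omega)]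
    simpa using h4
  · have h3 := ord_nonneg_of_mem x (h2 x h)
    rw [ord_mul x h0 (pow_ne_zero _ (inv_ne_zero ht)), ord_pow, ord_inv] at h3
    have h4 : ¬ 0 ≤ ord x t := fun e => h ((mem_iff_ord _ _).2 (Or.inr e))
    rw [max_eq_right (by omega)]
    linarith

end cff

variable {C : Type} [NontriviallyNormedField C] [IsUltrametricDist C] [IsAlgClosed C]
variable {K K' F : Type} [Field K] [Algebra C K] [CFF C K] [Field K'] [Algebra C K'] [CFF C K']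
  [Field F] [Algebra C F] [CFF C F]

section good

variable {T : K} [FiniteDimensional C⟮T⟯ K]

theorem good_lift (hF : Full C T) (h0 : cd C T = 0) (w : WW C T) {z : kap w.1}
    (hz : ∀ x : Plk (kC C) (kap w.1), w.1.red T ∈ x.1 → z ∈ x.1) :
    ∃ f, BB C T f ∧ w.1.red f = z := by
  classical
  obtain ⟨hs, n₀, hn⟩ := (surj' C K T hF).2 h0.le
  obtain ⟨n, h1⟩ := exists_LL hz
  obtain ⟨f, hf, hf1, e⟩ := hn (max n n₀) (le_max_right _ _) (x := Function.update 0 w z)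
    (mem_Pn.2 fun v => by
      obtain rfl : v = w := Subsingleton.elim _ _
      rw [Function.update_self]
      exact LL_pol_mono (le_max_left _ _) h1)
  exact ⟨f, BB_of_LL hf hf1, (congrFun e w).trans (Function.update_self _ _ _)⟩

theorem good_ob (hF : Full C T) (h0 : cd C T = 0) (b : Br C T) {z : kap b.w.1} (hz : z ∈ b.x.1) :
    ∃ a, Ob b a ∧ b.w.1.red a = z := by
  obtain ⟨s, h1, h2⟩ := loc_frac b.w.2.red_ne b.fin hz
  obtain ⟨f, hf, e⟩ := good_lift hF h0 b.w fun x hx => (h1 x hx).2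
  obtain ⟨g, hg, e'⟩ := good_lift hF h0 b.w fun x hx => (h1 x hx).1
  have h3 : b.ev (redv C T g) ≠ 0 := by
    change vl b.x (b.w.1.red g) ≠ 0
    rwa [e']
  have h4 := (Ob.of_bb hg).inv h3
  refine ⟨f * g⁻¹, (Ob.of_bb hf).mul h4, ?_⟩
  rw [NV.red_mul (hf.1 _) h4.le, NV.red_inv (Ob.unit hg h3), e, e',
    mul_inv_cancel_right₀ (ne_zero_of_vl h2)]

end good

theorem overG_map (p : K →ₐ[C] F) {u : NV C K} {v : NV C F} (h : ∀ y, v (p y) = u y) {T : K} :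
    v.OverG (p T) ↔ u.OverG T :=
  forall_congr' fun P => by rw [Polynomial.aeval_algHom_apply, h]

/-- the restriction of an absolute value -/
def res (p : K →ₐ[C] F) (v : NV C F) : NV C K :=
  pullNV (p : K →+* F) (s := RingEquiv.refl C) p.commutes (fun _ => rfl) v

theorem bb_up (p : K →ₐ[C] F) {T f : K} (hf : BB C T f) : BB C (p T) (p f) := by
  refine ⟨fun w => hf.1 ⟨res p w.1, (overG_map p fun _ => rfl).1 w.2⟩, fun P hP => ?_⟩
  by_cases c : P.1.comap (p : K →+* F) = ⊤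
  · have : f ∈ P.1.comap (p : K →+* F) := c ▸ ValuationSubring.mem_top f
    exact this
  · exact hf.2 ⟨P.1.comap (p : K →+* F), fun a => by
      change p (algebraMap C K a) ∈ P.1
      rw [p.commutes]
      exact P.2.1 a, c⟩ hP

/-- a good curve below `F`, with the two extensions `v` (degree one) and `v'` (inseparable) -/
structure Sd (p : K →ₐ[C] F) (u : NV C K) (v v' : NV C F) (q : ℕ) : Prop where
  good : ∃ T, G.Good u T
  e0 : ∀ y, v (p y) = u y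
  e1 : ∀ y, v' (p y) = u y
  all : ∀ w : NV C F, (∀ y, w (p y) = u y) → w = v ∨ w = v'
  den : ∀ y, v y ≤ 1 → ∃ y₁, v (y - p y₁) < 1
  fro : ∀ y, u y ≤ 1 → ∃ z, v' z ≤ 1 ∧ v' (p y - z ^ q) < 1

theorem fin_of_transc {T : F} (h : Transcendental C T) : FiniteDimensional C⟮T⟯ F :=
  (finite_of_notMem (nc_of_transc h)).2

/-- a good parameter which is finite at finitely many given places -/
theorem exists_par {u : NV C K} {T : K} (h : G.Good u T) {A : Set (kC C)} (hA : A.Finite) :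
    ∃ T', G.Good u T' ∧ ∀ (p : K →ₐ[C] F) (w : NV C F), (∀ y, w (p y) = u y) →
      ∀ [CFF (kC C) (kap w)] (x : Plk (kC C) (kap w)), vl x (w.red (p T)) ∈ A →
        w.red (p T') ∈ x.1 := by
  obtain ⟨a, ha⟩ := hA.exists_notMem
  obtain ⟨c, hc, rfl⟩ := cred_surj a
  refine ⟨_, (h.shift hc).inv, fun p w hw _ x hx => ?_⟩
  rw [map_inv₀, NV.red_inv (by rw [hw]; exact (h.shift hc).og.apply_T), map_sub, p.commutes,
    NV.red_sub (by rw [hw]; exact h.og.apply_T.le) (by rw [w.ext']; exact hc),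
    NV.red_algebraMap hc]
  exact inv_sub_mem fun e => ha (e ▸ hx)

namespace Sd

variable {p : K →ₐ[C] F} {p' : K' →ₐ[C] F} {u : NV C K} {u' : NV C K'} {v v' : NV C F} {q : ℕ}

theorem overG (h : Sd p u v v' q) {T : K} (hT : G.Good u T) (w : NV C F) :
    w.OverG (p T) ↔ w = v ∨ w = v' := by
  haveI := fin_of_transc hT.og.transc
  refine ⟨fun hw => h.all w fun y => ?_, ?_⟩
  · rw [← (G.br C K T u hT).2.2 ⟨res p w, (overG_map p fun _ => rfl).1 hw⟩]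
    rfl
  · rintro (rfl | rfl)
    exacts [(overG_map p h.e0).2 hT.og, (overG_map p h.e1).2 hT.og]

theorem surj (h : Sd p u v v' q) (z : kap v) : ∃ y, u y ≤ 1 ∧ v.red (p y) = z := by
  obtain ⟨a, ha⟩ := rm_surj (p : K →+* F) h.e0 h.den z
  obtain ⟨y, hy, rfl⟩ := NV.red_surj a
  exact ⟨y, hy, (rm_red (p : K →+* F) h.e0 y).symm.trans ha⟩

/-- the map between the two residue fields -/
def mp (h : Sd p u v v' q) : kap v →+* kap v' :=
  (rm (p : K →+* F) h.e1).comp (RingEquiv.ofBijective (rm (p : K →+* F) h.e0)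
    ⟨(rm _ h.e0).injective, rm_surj _ h.e0 h.den⟩).symm.toRingHom

theorem mp_red (h : Sd p u v v' q) (y : K) : h.mp (v.red (p y)) = v'.red (p y) := by
  refine Eq.trans (congrArg (rm (p : K →+* F) h.e1) ?_) (rm_red (p : K →+* F) h.e1 y)
  exact (RingEquiv.symm_apply_eq _).2 (rm_red (p : K →+* F) h.e0 y).symm

theorem mp_const (h : Sd p u v v' q) (a : kC C) :
    h.mp (algebraMap (kC C) (kap v) a) = algebraMap (kC C) (kap v') a := by
  obtain ⟨c, hc, rfl⟩ := cred_surj a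
  rw [← NV.red_algebraMap hc, ← NV.red_algebraMap hc, ← p.commutes, mp_red]

theorem mp_pow (h : Sd p u v v' q) (z : kap v) : ∃ y, h.mp z = y ^ q := by
  obtain ⟨y, hy, rfl⟩ := h.surj z
  obtain ⟨a, h1, h2⟩ := h.fro y hy
  exact ⟨v'.red a, by
    rw [mp_red, ← NV.red_pow h1, red_eq_iff (by rw [h.e1]; exact hy) (NV.pow_le_one' h1 q)]
    exact h2⟩

variable {T : F} [FiniteDimensional C⟮T⟯ F]

theorem ext (h : Sd p u v v' q) (hW : ∀ w : NV C F, w.OverG T ↔ w = v ∨ w = v') (w : WW C T)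
    (y : K) : w.1 (p y) = u y := by
  rcases (hW _).1 w.2 with e | e <;> rw [e]
  exacts [h.e0 y, h.e1 y]

/-- functions from below which are regular at a branch lift to its local ring -/
theorem lock (h : Sd p u v v' q) (hF : Full C T) (hW : ∀ w : NV C F, w.OverG T ↔ w = v ∨ w = v')
    (b : Br C T) {y : K} (hy : u y ≤ 1) (hb : b.w.1.red (p y) ∈ b.x.1) :
    ∃ a, u a ≤ 1 ∧ u (a - y) < 1 ∧ Ob b (p a) := by
  obtain ⟨T₀, hT₀⟩ := h.good
  obtain ⟨T', hT', h1⟩ := exists_par (F := F) hT₀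
    (A := (fun c : Br C T => vl c.x (c.w.1.red (p T₀))) '' {c | Glue b c})
    (((N0p.fin_val (b.ev (redv C T T))).subset fun c hc => (hc T BB.self).symm).image _)
  have h2 : ∀ c, Glue b c → c.w.1.red (p T') ∈ c.x.1 := fun c hc =>
    h1 p c.w.1 (h.ext hW c.w) c.x ⟨c, hc, rfl⟩
  haveI := fin_of_transc hT'.og.transc
  haveI := fin_of_transc ((overG_map p h.e0).2 hT'.og).transc
  obtain ⟨hF', h0, -⟩ := G.br C K T' u hT'
  obtain ⟨⟨w, x, hx⟩, e, ht⟩ := exists_down (p : K →+* F) (s := RingEquiv.refl C) p.commutes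
    (fun _ => rfl) b ⟨u, hT'.og⟩ (h.ext hW b.w) (h2 b (Glue.refl b))
  dsimp only at e
  subst e
  obtain ⟨a, ha, e⟩ := good_ob hF' h0 _ ((ht.2 y hy).1 hb)
  have h3 : ∀ f, BB C T' f → Ob b (p f) := fun f hf =>
    ob_of_bb hF (fun w => (hW w).trans (h.overG hT' w).symm) h2 (bb_up p hf)
  refine ⟨a, ha.le, (red_eq_iff ha.le hy).1 e, ?_⟩
  obtain ⟨g, hg, hg0, hg1⟩ := ha
  have h4 : b.ev (redv C T (p g)) ≠ 0 := fun e => hg0 ((ht.ev_zero (hg.1 _) (hg.red_mem _)).1 e)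
  have h5 := (h3 _ hg1).mul ((h3 g hg).inv h4)
  have h6 : p g ≠ 0 := fun e => by
    rw [e] at h4
    exact ne_zero_of_vl h4 NV.red_zero
  rwa [map_mul, mul_inv_cancel_right₀ h6] at h5

theorem red_eq (h : Sd p u v v' q) (hW : ∀ w : NV C F, w.OverG T ↔ w = v ∨ w = v') (w : WW C T)
    {a y : K} (ha : u a ≤ 1) (hy : u y ≤ 1) (e : u (a - y) < 1) :
    w.1.red (p a) = w.1.red (p y) := by
  rw [red_eq_iff (by rw [h.ext hW]; exact ha) (by rw [h.ext hW]; exact hy), ← map_sub, h.ext hW]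
  exact e

/-- glued branches lie over the same place of the curve below -/
theorem same (h : Sd p u v v' q) (hF : Full C T) (hW : ∀ w : NV C F, w.OverG T ↔ w = v ∨ w = v')
    {b b' : Br C T} (hg : Glue b b') {y : K} (hy : u y ≤ 1) (hb : b.w.1.red (p y) ∈ b.x.1) :
    b'.w.1.red (p y) ∈ b'.x.1 := by
  obtain ⟨a, h1, h2, h3⟩ := h.lock hF hW b hy hb
  rw [← h.red_eq hW b'.w h1 hy h2]
  exact (h3.glue hg).mem

end Sd

section two

variable {p : K →ₐ[C] F} {p' : K' →ₐ[C] F} {u : NV C K} {u' : NV C K'} {q : ℕ}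
  {T : F} [FiniteDimensional C⟮T⟯ F] {v v' : WW C T}

theorem sep_of (h : Sd p u v.1 v'.1 q) (hF : Full C T)
    (hW : ∀ w : NV C F, w.OverG T ↔ w = v.1 ∨ w = v'.1) {b b' : Br C T} (e : b.w = v)
    (e' : b'.w = v) (hg : Glue b b') : b = b' := by
  obtain ⟨w, x, hx⟩ := b
  obtain ⟨w', x', hx'⟩ := b'
  dsimp only at e e'
  subst e e'
  obtain rfl : x = x' := Plk.eq_of_le fun z hz => by
    obtain ⟨y, hy, rfl⟩ := h.surj z
    exact h.same hF hW hg hy hz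
  rfl

theorem gen_loc (h : Sd p u v.1 v'.1 q) (h' : Sd p' u' v'.1 v.1 q) (hq : 1 < q) (hF : Full C T)
    (hW : ∀ w : NV C F, w.OverG T ↔ w = v.1 ∨ w = v'.1) (x : Plk (kC C) (kap v.1))
    (hx : v.1.red T ∈ x.1) : ∃ f, Ob (⟨v, x, hx⟩ : Br C T) f ∧ v'.1 f < 1 ∧ v.1.red f ≠ 0 ∧
      (ord x (v.1.red f) = 0 ∨ (x ∈ Fxd (kC C) (h'.mp.comp h.mp) ∧ ord x (v.1.red f) = 1)) := by
  have hW' : ∀ w : NV C F, w.OverG T ↔ w = v'.1 ∨ w = v.1 := fun w => (hW w).trans or_comm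
  obtain ⟨t, h1, h2, h3, h4⟩ := exists_gen (Φ := h'.mp.comp h.mp)
    (fun a => by rw [RingHom.comp_apply, h.mp_const, h'.mp_const]) hq (fun z => h'.mp_pow _) x
  obtain ⟨y, hy, rfl⟩ := h.surj t
  obtain ⟨y', hy', e⟩ := h'.surj (v'.1.red (p y))
  rw [RingHom.comp_apply, h.mp_red, ← e, h'.mp_red] at h2 h3 h4
  obtain ⟨a, a1, a2, a3⟩ := h.lock hF hW ⟨v, x, hx⟩ hy h1
  obtain ⟨a', a1', a2', a3'⟩ := h'.lock hF hW' ⟨v, x, hx⟩ hy' h2
  have e1 : v.1.red (p a - p' a') = v.1.red (p y) - v.1.red (p' y') := by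
    rw [NV.red_sub a3.le a3'.le, h.red_eq hW v a1 hy a2, h'.red_eq hW' v a1' hy' a2']
  refine ⟨p a - p' a', a3.sub a3', ?_, by rwa [e1], by rwa [e1]⟩
  rw [← red_eq_iff (by rw [h.e1]; exact a1) (by rw [h'.e0]; exact a1'), h.red_eq hW v' a1 hy a2,
    h'.red_eq hW' v' a1' hy' a2', e]

/-- functions on one component which vanish at the fixed places extend by zero -/
theorem side (h : Sd p u v.1 v'.1 q) (h' : Sd p' u' v'.1 v.1 q) (hq : 1 < q) (hF : Full C T)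
    (hW : ∀ w : NV C F, w.OverG T ↔ w = v.1 ∨ w = v'.1) {z : kap v.1}
    (hz : ∀ x : Plk (kC C) (kap v.1), v.1.red T ∈ x.1 → z ∈ x.1 ∧
      (x ∈ Fxd (kC C) (h'.mp.comp h.mp) → z ∈ Mge x 1)) :
    ∃ f, BB C T f ∧ v.1.red f = z ∧ v'.1 f < 1 := by
  let J : Ideal (EE v) :=
    { carrier := {s | ∃ f, BB C T f ∧ v.1.red f = z * s ∧ v'.1 f < 1}
      add_mem' := by
        rintro a b ⟨f, hf, e, h1⟩ ⟨g, hg, e', h2⟩
        exact ⟨f + g, hf.add hg, by
          rw [NV.red_add (hf.1 v) (hg.1 v), e, e', ← mul_add]; rfl, NV.add_lt h1 h2⟩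
      zero_mem' := ⟨0, BB.zero, by simp, by simp⟩
      smul_mem' := by
        rintro ⟨_, g, hg, rfl⟩ b ⟨f, hf, e, h1⟩
        exact ⟨f * g, hf.mul hg, by
          rw [NV.red_mul (hf.1 v) (hg.1 v), e, mul_assoc, mul_comm (b : kap v.1)]; rfl,
          Side.mul_lt h1 (hg.1 v')⟩ }
  have loc : ∀ x : Plk (kC C) (kap v.1), v.1.red T ∈ x.1 → ∃ s ∈ J, vl x (s : kap v.1) ≠ 0 := by
    intro x hx
    obtain ⟨f, h1, h2, h3, h4⟩ := gen_loc h h' hq hF hW x hx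
    have h5 : z * (v.1.red f)⁻¹ ∈ x.1 := by
      have h6 : z ∈ Mge x (ord x (v.1.red f)) := by
        rcases h4 with e | ⟨e', e⟩ <;> rw [e]
        exacts [mem_Mge0.2 (hz x hx).1, (hz x hx).2 e']
      have h7 := mul_mem_Mge h6 (Or.inr (ord_inv x (v.1.red f)).ge)
      rwa [add_neg_cancel, mem_Mge0] at h7
    obtain ⟨y, hy, e⟩ := h.surj (z * (v.1.red f)⁻¹)
    obtain ⟨a, a1, a2, a3⟩ := h.lock hF hW ⟨v, x, hx⟩ hy (by rw [← e] at h5; exact h5)
    obtain ⟨g, g1, g2, g3⟩ := h1.mul a3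
    refine ⟨⟨_, g, g1, rfl⟩, ⟨_, g3, ?_,
      Side.mul_lt (Side.mul_lt h2 (by rw [h.e1]; exact a1)) (g1.1 v')⟩, g2⟩
    rw [NV.red_mul (h1.mul a3).le (g1.1 v), NV.red_mul h1.le a3.le, h.red_eq hW v a1 hy a2, e,
      mul_comm z, mul_inv_cancel_left₀ h3]
  have top : J = ⊤ := by
    by_contra hJ
    obtain ⟨x₀, h0⟩ := exists_zero v.2.red_ne
    obtain ⟨s, hs, h1⟩ := loc x₀ ((mem_iff_ord _ _).2 (Or.inr h0.le))
    obtain ⟨x, h2, h3⟩ := exists_plk (EE v) (const_mem_EE v) J hJ hs (ne_zero_of_vl h1)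
    obtain ⟨s, hs, h4⟩ := loc x (h2 _ ⟨T, BB.self, rfl⟩)
    exact h4 ((vl_eq_zero_iff (h2 _ s.2)).2 (h3 s hs))
  obtain ⟨f, h1, h2, h3⟩ := (Ideal.eq_top_iff_one J).1 top
  exact ⟨f, h1, by simpa using h2, h3⟩

/-- pairs of functions which vanish at the fixed places are reductions -/
theorem both (h : Sd p u v.1 v'.1 q) (h' : Sd p' u' v'.1 v.1 q) (hq : 1 < q) (hF : Full C T)
    (hW : ∀ w : NV C F, w.OverG T ↔ w = v.1 ∨ w = v'.1) {z : kap v.1} {z' : kap v'.1}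
    (hz : ∀ x : Plk (kC C) (kap v.1), v.1.red T ∈ x.1 → z ∈ x.1 ∧
      (x ∈ Fxd (kC C) (h'.mp.comp h.mp) → z ∈ Mge x 1))
    (hz' : ∀ x : Plk (kC C) (kap v'.1), v'.1.red T ∈ x.1 → z' ∈ x.1 ∧
      (x ∈ Fxd (kC C) (h.mp.comp h'.mp) → z' ∈ Mge x 1)) :
    ∃ f, BB C T f ∧ v.1.red f = z ∧ v'.1.red f = z' := by
  obtain ⟨f, h1, h2, h3⟩ := side h h' hq hF hW hz
  obtain ⟨g, h4, h5, h6⟩ := side h' h hq hF (fun w => (hW w).trans or_comm) hz'
  exact ⟨f + g, h1.add h4, by rw [NV.red_add (h1.1 v) (h4.1 v), h2, NV.red_of_lt h6, add_zero],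
    by rw [NV.red_add (h1.1 v') (h4.1 v'), h5, NV.red_of_lt h3, zero_add]⟩

theorem pole_aux {k κ : Type} [Field k] [Field κ] [Algebra k κ] [CFF k κ] {t y ε e : κ}
    (ht : t ≠ 0) {n j : ℕ} (hy : y ∈ LL k ((n + 1) • pol k t))
    (he : e ∈ LL k ((n + 1 + j) • pol k t)) (h : e = y * t⁻¹ ^ (n + 1) * ε * t ^ (n + 1 + j))
    (hε : ∀ x : Plk k κ, t⁻¹ ∈ x.1 → (ε - 1) * t ∈ x.1) :
    e - t ^ j * y ∈ LL k ((n + j) • pol k t) := by
  refine mem_LL_of ht (fun x hx => sub_mem (mem_of_LL he hx)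
    (mul_mem (pow_mem hx _) (mem_of_LL hy hx))) fun x hx => ?_
  have h1 := (x.1.mem_or_inv_mem t).resolve_left hx
  rw [show (e - t ^ j * y) * t⁻¹ ^ (n + j) = y * t⁻¹ ^ (n + 1) * ((ε - 1) * t) by
    rw [h, inv_pow, inv_pow]; field_simp; ring]
  exact mul_mem (mul_inv_pow_mem ht hy x h1) (hε x h1)

theorem nodal [FiniteDimensional C⟮T⁻¹⟯ F] (h : Sd p u v.1 v'.1 q) (h' : Sd p' u' v'.1 v.1 q)
    (hq : 1 < q) (hF : Full C T) (hF' : Full C T⁻¹)
    (hW : ∀ w : NV C F, w.OverG T ↔ w = v.1 ∨ w = v'.1)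
    (h1 : ∀ x ∈ Fxd (kC C) (h'.mp.comp h.mp), v.1.red T ∈ x.1)
    (h2 : ∀ x ∈ Fxd (kC C) (h.mp.comp h'.mp), v'.1.red T ∈ x.1) :
    (∀ b b' : Br C T, b.w = b'.w → Glue b b' → b = b') ∧ ∃ S : Finset (Br C T), Nodal C T S := by
  classical
  have hW' : ∀ w : NV C F, w.OverG T ↔ w = v'.1 ∨ w = v.1 := fun w => (hW w).trans or_comm
  have hall : ∀ w : WW C T, w = v ∨ w = v' := fun w =>
    ((hW _).1 w.2).imp Subtype.ext Subtype.ext
  have hsep : ∀ b b' : Br C T, b.w = b'.w → Glue b b' → b = b' := fun b b' e hg => by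
    rcases hall b.w with e1 | e1
    exacts [sep_of h hF hW e1 (e ▸ e1) hg, sep_of h' hF hW' e1 (e ▸ e1) hg]
  have f1 := fxd_finite' (k := kC C) (Φ := h'.mp.comp h.mp)
    (fun a => by rw [RingHom.comp_apply, h.mp_const, h'.mp_const]) hq fun z => h'.mp_pow _
  have f2 := fxd_finite' (k := kC C) (Φ := h.mp.comp h'.mp)
    (fun a => by rw [RingHom.comp_apply, h'.mp_const, h.mp_const]) hq fun z => h.mp_pow _
  have hT0 : T ≠ 0 := fun e => hF.transc (e ▸ isAlgebraic_zero)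
  have t0 : ∀ w : WW C T, w.1.red T ≠ 0 := fun w => NV.red_ne_zero w.2.apply_T
  have ti : ∀ w : WW C T, w.1.red T⁻¹ = (w.1.red T)⁻¹ := fun w => NV.red_inv w.2.apply_T
  obtain ⟨n₀, hn₀⟩ := inf' C F T hF fun n y hy => by
    obtain ⟨ε, hε⟩ := exists_eps (t0 v) f1.toFinset fun x hx => h1 x (f1.mem_toFinset.1 hx)
    obtain ⟨ε', hε'⟩ := exists_eps (t0 v') f2.toFinset fun x hx => h2 x (f2.mem_toFinset.1 hx)
    obtain ⟨f, hf, e, e'⟩ := both (T := T⁻¹) (v := ⟨v.1, v.2.inv⟩) (v' := ⟨v'.1, v'.2.inv⟩) h h' hq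
      hF' (fun w => overG_inv.trans (hW w)) (z := y v * (v.1.red T)⁻¹ ^ (n + 1) * ε)
      (z' := y v' * (v'.1.red T)⁻¹ ^ (n + 1) * ε') (fun x hx => by
        rw [ti v] at hx
        have h3 := mul_inv_pow_mem (t0 v) (mem_Pn.1 hy v) x hx
        exact ⟨mul_mem h3 (hε x hx).1, fun h4 => by
          simpa using mul_mem_Mge (mem_Mge0.2 h3) ((hε x hx).2.2 (f1.mem_toFinset.2 h4))⟩)
      (fun x hx => by
        rw [ti v'] at hx
        have h3 := mul_inv_pow_mem (t0 v') (mem_Pn.1 hy v') x hx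
        exact ⟨mul_mem h3 (hε' x hx).1, fun h4 => by
          simpa using mul_mem_Mge (mem_Mge0.2 h3) ((hε' x hx).2.2 (f2.mem_toFinset.2 h4))⟩)
    obtain ⟨j, hj⟩ := exists_LL hf.2
    have i1 : Itg C T f := fun w => hf.1 ⟨w.1, w.2.inv⟩
    have h3 : redv C T (f * T ^ (n + 1 + j)) ∈ En C T (n + 1 + j) :=
      ⟨_, mem_LL_of hT0 (fun P hP => by
        have h4 := mul_inv_pow_mem (inv_ne_zero hT0) hj P (by rwa [inv_inv])
        rw [inv_inv] at h4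
        rw [add_comm _ j, pow_add, ← mul_assoc]
        exact mul_mem h4 (pow_mem hP _)) fun P hP => by
        rw [inv_pow, mul_inv_cancel_right₀ (pow_ne_zero _ hT0)]
        exact hf.2 P ((P.1.mem_or_inv_mem T).resolve_left hP), i1.mul (Itg.self.pow _), rfl⟩
    refine ⟨j, _, h3, mem_Pn.2 fun w => ?_⟩
    have h4 := mem_Pn.1 (En_le_Pn _ h3) w
    have h5 : redv C T (f * T ^ (n + 1 + j)) w = w.1.red f * w.1.red T ^ (n + 1 + j) := by
      rw [redv_mul i1 (Itg.self.pow _), redv_pow Itg.self]; rfl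
    rcases hall w with rfl | rfl
    · exact pole_aux (t0 _) (mem_Pn.1 hy _) h4 (h5.trans (congrArg (· * _) e))
        fun x hx => (hε x hx).2.1
    · exact pole_aux (t0 _) (mem_Pn.1 hy _) h4 (h5.trans (congrArg (· * _) e'))
        fun x hx => (hε' x hx).2.1
  have f3 : {b : Br C T | b.ev (redv C T T) ∈ (fun x => vl x (v.1.red T)) ''
      Fxd (kC C) (h'.mp.comp h.mp) ∪ (fun x => vl x (v'.1.red T)) ''
      Fxd (kC C) (h.mp.comp h'.mp)}.Finite :=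
    (((f1.image _).union (f2.image _)).biUnion fun c _ => N0p.fin_val (T := T) c).subset
      fun b hb => Set.mem_biUnion hb rfl
  refine ⟨hsep, van3 cod' onto0 sepf C F T hF f3.toFinset ⟨n₀, fun n hn y hy h0 => ?_⟩
    fun b _ b' _ b'' _ g1 g2 => ?_⟩
  · obtain ⟨f, hf, e, e'⟩ := both h h' hq hF hW (z := y v) (z' := y v')
      (fun x hx => ⟨Pn_reg hy ⟨v, x, hx⟩, fun h3 => (vl_eq_zero_iff (Pn_reg hy ⟨v, x, hx⟩)).1
        (h0 ⟨v, x, hx⟩ (f3.mem_toFinset.2 (Or.inl ⟨x, h3, rfl⟩)))⟩)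
      (fun x hx => ⟨Pn_reg hy ⟨v', x, hx⟩, fun h3 => (vl_eq_zero_iff (Pn_reg hy ⟨v', x, hx⟩)).1
        (h0 ⟨v', x, hx⟩ (f3.mem_toFinset.2 (Or.inr ⟨x, h3, rfl⟩)))⟩)
    have h8 : redv C T f = y := funext fun w => by
      rcases hall w with rfl | rfl
      exacts [e, e']
    rw [← h8] at hy ⊢
    exact hn₀ n hn f hf hy
  · by_contra hcon
    push Not at hcon
    obtain ⟨e1, e2, e3⟩ := hcon
    have a1 : b.w ≠ b'.w := fun e => e1 (hsep b b' e g1).symm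
    have a2 : b.w ≠ b''.w := fun e => e2 (hsep b b'' e g2).symm
    have a3 : b'.w ≠ b''.w := fun e => e3 (hsep b' b'' e (g1.symm.trans g2))
    rcases hall b.w with c1 | c1 <;> rcases hall b'.w with c2 | c2 <;>
      rcases hall b''.w with c3 | c3 <;> simp_all

end two

/-- **NOD** -/
theorem nod (hC : P025H458.Sph C) (hn : ∀ r : ℝ, 0 ≤ r → ∃ x : C, ‖x‖ = r) {p : K →ₐ[C] F}
    {p' : K' →ₐ[C] F} {u : NV C K} {u' : NV C K'} {v v' : NV C F} {q : ℕ} (h : Sd p u v v' q)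
    (h' : Sd p' u' v' v q) (hq : 1 < q) :
    ∃ (T : F) (_ : FiniteDimensional C⟮T⟯ F) (w : Fin 2 → WW C T), (w 0).1 = v ∧ (w 1).1 = v' ∧
      (∀ w', ∃ i, w' = w i) ∧ Full C T ∧ (∀ b b' : Br C T, b.w = b'.w → Glue b b' → b = b') ∧
      ∃ S : Finset (Br C T), Nodal C T S := by
  obtain ⟨T₀, hT₀⟩ := h.good
  have o0 := (overG_map p h.e0).2 hT₀.og
  haveI := fin_of_transc o0.transc
  haveI := o0.cff
  haveI := ((overG_map p h.e1).2 hT₀.og).cff
  have f1 := fxd_finite' (k := kC C) (Φ := h'.mp.comp h.mp)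
    (fun a => by rw [RingHom.comp_apply, h.mp_const, h'.mp_const]) hq fun z => h'.mp_pow _
  have f2 := fxd_finite' (k := kC C) (Φ := h.mp.comp h'.mp)
    (fun a => by rw [RingHom.comp_apply, h'.mp_const, h.mp_const]) hq fun z => h.mp_pow _
  obtain ⟨T, hT, h1⟩ := exists_par (F := F) hT₀
    ((f1.image fun x => vl x (v.red (p T₀))).union (f2.image fun x => vl x (v'.red (p T₀))))
  have o1 := (overG_map p h.e0).2 hT.og
  have o2 := (overG_map p h.e1).2 hT.og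
  haveI := fin_of_transc o1.transc
  haveI := fin_of_transc o1.inv.transc
  have hF : Full C (p T) := (stab hC hn o1.transc).1
  obtain ⟨h2, h3⟩ := nodal (T := p T) (v := ⟨v, o1⟩) (v' := ⟨v', o2⟩) h h' hq hF
    (stab hC hn o1.inv.transc).1 (h.overG hT)
    (fun x hx => h1 p v h.e0 x (Or.inl ⟨x, hx, rfl⟩))
    fun x hx => h1 p v' h.e1 x (Or.inr ⟨x, hx, rfl⟩)
  refine ⟨p T, inferInstance, ![⟨v, o1⟩, ⟨v', o2⟩], rfl, rfl, fun w => ?_, hF, h2, h3⟩
  rcases (h.overG hT _).1 w.2 with e | e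
  exacts [⟨0, Subtype.ext e⟩, ⟨1, Subtype.ext e⟩]

end Vale.Agent.P022K.FI.X0
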