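import Vale.Agent.P022K.FI.Fro0
import Vale.Agent.P022K.FI.Ins
import Vale.Agent.P022K.FI.Good2
import Vale.Agent.P022K.FI.X0C

/-!
# P022K, block FI, rows FRO and END; the two sides of an edge
-/

set_option autoImplicit false
set_option linter.unusedSectionVars false
set_option linter.style.haveILetI false

open Vale.Agent.P019P P025H746 P025H492 Module
open scoped MatrixGroups IntermediateField

noncomputable section

namespace Vale.Agent.P022K.FI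

open Vale.Agent.P022K.Sh

namespace Fro

variable {C L Γ O E : Type} [NontriviallyNormedField C] [IsUltrametricDist C] [CompleteSpace C]
  [IsAlgClosed C] [CharZero C] [Field L] [Algebra C L] [Group Γ] [CommRing O] [IsDomain O]
  [IsDiscreteValuationRing O] [Field E] [Algebra O E] [Algebra E C] {A : AT C L Γ O E}
  {W : Subgroup Γ} {g : GL (Fin 2) E} {D : LTD C O E} {ν : NV C L}

theorem exists_char {ϖ : Eˣ} (hF : LF O C ϖ) :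
    ∃ p e : ℕ, p.Prime ∧ CharP (kC C) p ∧ 0 < e ∧ qq O = p ^ e := by
  haveI := hF.fin
  haveI := Fintype.ofFinite (IsLocalRing.ResidueField O)
  obtain ⟨p, hp, e, h1, h2⟩ := FiniteField.card' (IsLocalRing.ResidueField O)
  refine ⟨p, e, h1, (CharP.charP_iff_prime_eq_zero h1).2 ?_, e.2, by
    rw [qq, Nat.card_eq_fintype_card, h2]⟩
  have h3 : (p : O) ∈ IsLocalRing.maximalIdeal O ^ 1 := by
    rw [pow_one, ← IsLocalRing.residue_eq_zero_iff, map_natCast, CharP.cast_eq_zero]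
  rw [Mx.mem_pow_iff hF, pow_one, map_natCast] at h3
  have h4 : ‖(p : C)‖ < 1 := by
    rw [← map_natCast (algebraMap E C)]; exact h3.trans_lt (Mx.nn_pi_lt hF)
  have h5 := (cred_eq_zero h4.le).2 h4
  rw [cred_of h4.le] at h5
  rw [← map_natCast (IsLocalRing.residue (OC C)), ← h5]
  congr 1

theorem one_lt_qq {ϖ : Eˣ} (hF : LF O C ϖ) : 1 < qq O := by
  obtain ⟨p, e, h1, -, h2, h3⟩ := exists_char hF
  rw [h3]
  exact Nat.one_lt_pow h2.ne' h1.one_lt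

theorem cff_res (hA : A.Ok) (hS : A.DSC) (hB : BRA C) (hD : D.Ok A.ϖ) (h : A.Ord D ν g)
    (hW : W ∈ A.Wl) {n : ℤ} {V : Subgroup (GL (Fin 2) E)} (hV : Ll O V)
    (hn : Np O g (A.ϖ ^ n) V) : CFF (kC C) (kap (ν.comap (A.K (A.U W V)))) := by
  obtain ⟨x, θ, b, ε, h1, h2⟩ := h
  haveI := hA.cff W hW V hV
  obtain ⟨j, hj, -⟩ := hS D hD x θ g b ε h1 n W hW V hV hn
  obtain ⟨η, h3, h4, -⟩ := hB hA.gf _ _ j hj
  have e : η = ν.comap (A.K (A.U W V)) := P025H992.nv_ext fun y => by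
    by_cases h0 : y = 0
    · rw [h0, map_zero, map_zero]
    obtain ⟨c, Dv, h5, -⟩ := hj.fac y h0
    exact (h3 y c Dv h5).trans
      (h2 n y (Gn.le_Ln hW hV.z (fun c hc => (hn c).2 hc) y.2) c Dv h5).symm
  exact e ▸ h4

theorem np_vx (hA : A.Ok) (g : GL (Fin 2) E) (n : ℤ) :
    Np O g (A.ϖ ^ n) (Vx O (g * dg (A.ϖ ^ n))) := by
  have := Mx.np_Vx hA.lf g (le_refl n)
  rwa [inf_idem] at this

theorem cff_v (hA : A.Ok) (hS : A.DSC) (hB : BRA C) (hD : D.Ok A.ϖ) (h : A.Ord D ν g)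
    (hW : W ∈ A.Wl) : CFF (kC C) (kap (ν.comap (A.Kv W g))) := by
  have h1 := np_vx hA g 0
  rw [zpow_zero, Mx.dg_one, mul_one, ← zpow_zero A.ϖ] at h1
  exact cff_res hA hS hB hD h hW (Mx.ll_Vx hA.lf g) h1

theorem Se_le : Se A W g ≤ A.U W (Vx O g) := fun _ h =>
  Gn.mem_U.2 ⟨(mem_Se.1 h).1, (mem_Se.1 h).2.2⟩

/-- the two extensions `ν`, `ν'` from the field of a vertex to the field of an edge -/
structure Edge (A : AT C L Γ O E) (S S₀ : Subgroup Γ) (ν ν' : NV C L) : Prop where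
  le : A.K S ≤ A.K S₀
  fix : ∀ y ∈ A.K S, ν' y = ν y
  ne : ν.comap (A.K S₀) ≠ ν'.comap _
  all : ∀ w : NV C (A.K S₀), (∀ y : A.K S₀, (y : L) ∈ A.K S → w y = ν y) →
    w = ν.comap _ ∨ w = ν'.comap _
  den : ∀ x ∈ A.K S₀, ν x ≤ 1 → ∃ y ∈ A.K S, ν (x - y) < 1
  pw1 : ∀ x ∈ A.K S₀, ν' x ≤ 1 → ∃ y ∈ A.K S, ν' (y - x ^ qq O) < 1
  pw2 : ∀ y ∈ A.K S, ν y ≤ 1 → ∃ x ∈ A.K S₀, ν' x ≤ 1 ∧ ν' (y - x ^ qq O) < 1

theorem Edge.sd {S S₀ : Subgroup Γ} {ν' : NV C L} (h : Edge A S S₀ ν ν') [CFF C (A.K S)]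
    [CFF C (A.K S₀)] {u : NV C (A.K S)} (hu : ∀ y, u y = ν y) (hg : ∃ T, P027M.G.Good u T) :
    X0.Sd (IntermediateField.inclusion h.le) u (ν.comap _) (ν'.comap _) (qq O) where
  good := hg
  e0 y := (hu y).symm
  e1 y := (h.fix y y.2).trans (hu y).symm
  all w hw := h.all w fun y hy => (hw ⟨y, hy⟩).trans (hu _)
  den x hx := by
    obtain ⟨y, h1, h2⟩ := h.den x x.2 hx
    exact ⟨⟨y, h1⟩, h2⟩
  fro y hy := by
    obtain ⟨x, h1, h2, h3⟩ := h.pw2 y y.2 (hu y ▸ hy)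
    exact ⟨⟨x, h1⟩, h2, h3⟩

theorem fix_refl (hA : A.Ok) (hW : W ∈ A.Wl) {s : Γ} (hs : s ∈ A.H)
    (hs' : A.π s = g * ww E * g⁻¹) {y : L} (hy : y ∈ A.Kv W g) : A.act s y = y :=
  A.mem_K.1 hy s (Gn.mem_U.2 ⟨Gn.mem_H.1 hs W hW, by
    rw [hs', mem_Vx, show g⁻¹ * (g * ww E * g⁻¹) * g = ww E by group]; exact ww_mem hA.lf⟩)

theorem nue_ord (hN : A.NUE) (hD : D.Ok A.ϖ) (h : A.Ord D ν g) {γ : Γ} (hγ : γ ∈ A.H) {c : E}
    (hc : Fm g (A.π γ) (un c)) (x : L) :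
    ν (A.act γ x) = ν x ∧ (ν x ≤ 1 → ν (A.act γ x - x) < 1) := by
  obtain ⟨x₀, θ, b, ε, h1, h2⟩ := h
  exact ((hN D hD x₀ θ g b ε h1).2 ν h2).2 γ hγ c hc x

theorem edge (hA : A.Ok) (hS : A.SA) (hN : A.NUE) (hD : D.Ok A.ϖ) (h : A.Ord D ν g)
    (hW : W ∈ A.Wl) [CFF (kC C) (kap (ν.comap (A.Kv W g)))] : ∃ s ∈ A.H,
      A.π s = g * ww E * g⁻¹ ∧ Edge A (A.U W (Vx O g)) (Se A W g) ν (tw A ν s) := by
  classical
  obtain ⟨s, t, hs, hs', ht, hr⟩ := exists_rep hA hS hW g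
  obtain ⟨p, e, hp, hc, he, hq⟩ := exists_char hA.lf
  haveI := Fact.mk hp
  haveI := hA.lf.fin
  haveI := Fintype.ofFinite (IsLocalRing.ResidueField O)
  have l1 := lv_Vx hA hW g
  have l0 : A.Lv (Se A W g) := lv_two hA hW _ _
  have hle : A.Kv W g ≤ A.K (Se A W g) := Gn.K_anti Se_le
  haveI := l1.cff hA
  letI : Algebra (A.Kv W g) (A.K (Se A W g)) := (IntermediateField.inclusion hle).toAlgebra
  haveI : IsScalarTower C (A.Kv W g) (A.K (Se A W g)) := IsScalarTower.of_algebraMap_eq fun _ => rfl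
  haveI : FiniteDimensional (A.Kv W g) (A.K (Se A W g)) := l1.fin hA l0 hle
  have hd : finrank (A.Kv W g) (A.K (Se A W g)) = p ^ e + 1 := by
    have := l1.finrank hA l0 Se_le
    rw [IntermediateField.relfinrank_eq_finrank_of_le hle, hr.index, Finite.card_option,
      ← qq, hq] at this
    exact this
  let σ : ∀ u ∈ A.U W (Vx O g), A.K (Se A W g) →ₐ[A.Kv W g] L := fun u hu =>
    { (A.act u : L →+* L).comp (A.K (Se A W g)).val.toRingHom with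
      commutes' := fun y => A.mem_K.1 y.2 u hu }
  have hσ : ∀ u hu u' hu', σ u hu = σ u' hu' → u⁻¹ * u' ∈ Se A W g := fun u hu u' hu' e =>
    l0.mem_of_fix hA fun x hx => by
      have h1 : A.act u x = A.act u' x := DFunLike.congr_fun e ⟨x, hx⟩
      rw [A.act_mul, ← h1, A.act_inv]
  have h1 : ∀ a x, ν (A.act (t a * s) x) = ν (A.act s x) ∧
      (ν (A.act s x) ≤ 1 → ν (A.act (t a * s) x - A.act s x) < 1) := fun a x => by
    obtain ⟨h2, c, h3⟩ := ht a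
    rw [A.act_mul]
    exact nue_ord hN hD h h2 h3 _
  obtain ⟨T, hT⟩ := exists_overG_one (ν.comap (A.Kv W g))
  haveI := X0.fin_of_transc hT.transc
  obtain ⟨-, o⟩ := Ins.ins hA.gf.sph hA.gf.onto he ν (σ 1 (one_mem _))
    (fun a => σ (t a * s) (hr.mem (some a))) (by rw [← hq, qq, Nat.card_eq_fintype_card]) hd
    (fun a b e => Option.some_injective _ (hr.inj (some a) (some b)
      (hσ _ (hr.mem (some a)) _ (hr.mem (some b)) e)))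
    (fun a e => by simpa using hr.inj (some a) none (hσ _ (hr.mem (some a)) _ (one_mem _) e))
    (fun x a b hx => by
      have h2 : ν (A.act s x) ≤ 1 := (h1 a x).1 ▸ hx
      have := NV.sub_lt ((h1 b x).2 h2) ((h1 a x).2 h2)
      rwa [sub_sub_sub_cancel_right] at this) hT 0
  have e0 : Ins.pb ν (σ 1 (one_mem _)) = ν.comap _ :=
    P025H992.nv_ext fun y => congrArg ν (A.act_one y)
  have e1 : Ins.pb ν (σ (t 0 * s) (hr.mem (some 0))) = (tw A ν s).comap _ :=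
    P025H992.nv_ext fun y => (h1 0 y).1
  rw [e0, e1, ← hq] at o
  refine ⟨s, hs, hs', hle, fun y hy => congrArg ν (fix_refl hA hW hs hs' hy), o.ne,
    fun w hw => o.all w ⟨fun y => hw _ y.2⟩, fun x hx h2 => ?_, fun x hx h2 => ?_,
    fun y hy h2 => ?_⟩
  · obtain ⟨y, -, h3⟩ := o.den ⟨x, hx⟩ h2
    exact ⟨y, y.2, h3⟩
  · obtain ⟨y, -, h3⟩ := o.pw1 ⟨x, hx⟩ h2
    exact ⟨y, y.2, h3⟩
  · obtain ⟨x, h3, h4⟩ := o.pw2 ⟨y, hy⟩ h2
    exact ⟨x, x.2, h3, h4⟩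

/-- the rows which are used -/
structure Hy (A : AT C L Γ O E) (D : LTD C O E) : Prop where
  ok : A.Ok
  sa : A.SA
  nue : A.NUE
  orb : A.ORB
  dsc : A.DSC
  bra : BRA C
  d : D.Ok A.ϖ

theorem pow_sub_lt {x y : L} (hx : ν x ≤ 1) (h : ν (x - y) < 1) (n : ℕ) :
    ν (x ^ n - y ^ n) < 1 := by
  have hy := P027M.I.le_one_of_sub hx h
  rw [← P027M.I.red_eq_iff hx hy] at h
  rw [← P027M.I.red_eq_iff (NV.pow_le_one' hx n) (NV.pow_le_one' hy n), NV.red_pow hx,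
    NV.red_pow hy, h]

theorem lt_trans' {x y z : L} (h : ν (x - y) < 1) (h' : ν (y - z) < 1) : ν (x - z) < 1 := by
  have := NV.add_lt h h'
  rwa [sub_add_sub_cancel] at this

theorem Se_dg : Se A W (g * dg A.ϖ) = A.U W (Vx O g ⊓ Vx O (g * dg A.ϖ)) := by
  rw [Se, Mx.dg_inv, mul_inv_cancel_right]

namespace Hy

variable (H : Hy A D)

include H

theorem up (h : A.Ord D ν g) {k : GL (Fin 2) E} (hk : k 1 0 = 0) : A.Ord D ν (g * k) :=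
  ((H.orb D H.d).2 ν g h).1 k hk

theorem tw_ord (h : A.Ord D ν g) (γ : Γ) : A.Ord D (tw A ν γ) ((A.π γ)⁻¹ * g) := by
  obtain ⟨ν', h1, h2⟩ := ((H.orb D H.d).2 ν g h).2.1 γ⁻¹
  have e : ν' = tw A ν γ := P025H992.nv_ext fun y => by
    rw [tw_apply, ← h1, A.act_inv]
  rwa [e, map_inv] at h2

theorem cff (h : A.Ord D ν g) (hW : W ∈ A.Wl) : CFF (kC C) (kap (ν.comap (A.Kv W g))) :=
  cff_v H.ok H.dsc H.bra H.d h hW

theorem edge (h : A.Ord D ν g) (hW : W ∈ A.Wl) : ∃ s ∈ A.H,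
    A.π s = g * ww E * g⁻¹ ∧ Edge A (A.U W (Vx O g)) (Se A W g) ν (tw A ν s) :=
  haveI := H.cff h hW
  Fro.edge H.ok H.sa H.nue H.d h hW

theorem up1 (h : A.Ord D ν g) (hW : W ∈ A.Wl) {y : L} (hy : y ∈ A.Kv W g) (h1 : ν y ≤ 1) :
    ∃ z ∈ A.Kv W (g * dg A.ϖ), ν z ≤ 1 ∧ ν (y - z ^ qq O) < 1 := by
  obtain ⟨s, hs, hs', o⟩ := H.edge h hW
  obtain ⟨_, -, -, o'⟩ := H.edge (H.up h (dg_low A.ϖ)) hW
  obtain ⟨x, h2, h3, h4⟩ := o.pw2 y hy h1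
  obtain ⟨z, h5, h6⟩ := o'.den (A.act s x) (Se_dg (A := A) ▸ (mem_K_refl H.ok hW hs hs' x).1 h2) h3
  rw [tw_apply, map_sub, map_pow, fix_refl H.ok hW hs hs' hy] at h4
  rw [tw_apply] at h3
  exact ⟨z, h5, P027M.I.le_one_of_sub h3 h6, lt_trans' h4 (pow_sub_lt h3 h6 _)⟩

theorem up2 (h : A.Ord D ν g) (hW : W ∈ A.Wl) {z : L} (hz : z ∈ A.Kv W (g * dg A.ϖ))
    (h1 : ν z ≤ 1) : ∃ y ∈ A.Kv W g, ν (y - z ^ qq O) < 1 := by
  obtain ⟨s, hs, hs', o⟩ := H.edge h hW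
  obtain ⟨y, h2, h3⟩ := o.pw1 (A.act s⁻¹ z) ((mem_K_refl H.ok hW hs hs' _).2 (by
    rw [A.act_inv']
    exact Gn.K_anti (fun γ hγ => Gn.mem_U.2 ⟨(Gn.mem_U.1 hγ).1,
      (Subgroup.mem_inf.1 (Gn.mem_U.1 hγ).2).2⟩) hz)) (by rwa [tw_apply, A.act_inv'])
  rw [tw_apply, map_sub, map_pow, fix_refl H.ok hW hs hs' h2, A.act_inv'] at h3
  exact ⟨y, h2, h3⟩

theorem not_ww (h : A.Ord D ν g) (h' : A.Ord D ν (g * ww E)) : False := by
  obtain ⟨W, hW⟩ := Gn.exists_W H.ok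
  haveI := H.cff (H.up h (dg_low A.ϖ)) hW
  obtain ⟨x⟩ := nonempty_Plk (k := kC C) (F := kap (ν.comap (A.Kv W (g * dg A.ϖ))))
  obtain ⟨t, -, ht⟩ := exists_unif x
  obtain ⟨z, hz, rfl⟩ := NV.red_surj t
  obtain ⟨_, -, -, o⟩ := H.edge h' hW
  obtain ⟨y, h1, h2⟩ := o.den z (Gn.K_anti (fun γ hγ => Gn.mem_U.2 ⟨(mem_Se.1 hγ).1, by
    have := (mem_Se.1 hγ).2.1
    rwa [Vx_ww H.ok.lf, inv_inv] at this⟩) z.2) hz
  rw [Vx_ww' H.ok.lf] at h1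
  obtain ⟨z', h3, h4, h5⟩ := H.up1 h hW h1 (P027M.I.le_one_of_sub (w := ν) hz h2)
  have h6 : (ν.comap (A.Kv W (g * dg A.ϖ))) ⟨z', h3⟩ ≤ 1 := h4
  rw [(P027M.I.red_eq_iff hz (NV.pow_le_one' h6 (qq O))).2 (lt_trans' (ν := ν) h2 h5),
    NV.red_pow h6,
    ord_pow] at ht
  have := Int.eq_one_of_mul_eq_one_right (by omega) ht
  have := one_lt_qq H.ok.lf
  omega

theorem end' {g' : GL (Fin 2) E} (h : A.Ord D ν g) (h' : A.Ord D ν g') :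
    (g⁻¹ * g' : GL (Fin 2) E) 1 0 = 0 := by
  by_contra h0
  refine H.not_ww (H.up h (un_low ((g⁻¹ * g' : GL (Fin 2) E) 0 0 / (g⁻¹ * g' : GL (Fin 2) E) 1 0))) ?_
  have := H.up h' (bru_low h0)
  rwa [mul_inv_rev, inv_inv, ← mul_assoc, mul_inv_cancel_left, ← mul_assoc] at this

/-- the decomposition group fixes the end -/
theorem dec (h : A.Ord D ν g) {u : Γ} (hu : ∀ x, ν (A.act u x) = ν x) :
    (g⁻¹ * A.π u * g : GL (Fin 2) E) 1 0 = 0 := by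
  have h1 := H.tw_ord h u
  rw [show tw A ν u = ν from P025H992.nv_ext hu] at h1
  have h2 := H.end' h1 h
  rwa [mul_inv_rev, inv_inv] at h2

theorem path (h : A.Ord D ν g) (hW : W ∈ A.Wl) {a : Eˣ} (ha : Mx.nn C (a : E) ≤ 1) {x : L}
    (hx : x ∈ A.K (A.U W (Vx O (g * dg a⁻¹) ⊓ Vx O g))) : ∃ y ∈ A.Kv W g, ν (x - y) < 1 :=
  den_of_dec H.ok (lv_Vx H.ok hW g) (lv_two H.ok hW _ _)
    (fun _ hγ => Gn.mem_U.2 ⟨(Gn.mem_U.1 hγ).1, (Subgroup.mem_inf.1 (Gn.mem_U.1 hγ).2).2⟩)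
    (fun _ hu hν => Gn.mem_U.2 ⟨(Gn.mem_U.1 hu).1, Subgroup.mem_inf.2
      ⟨up_mem H.ok.lf (Gn.mem_U.1 hu).2 (H.dec h hν) ha, (Gn.mem_U.1 hu).2⟩⟩) hx

theorem good (h1 : A.One D) (h : A.Ord D ν g) (hW : W ∈ A.Wl) [CFF C (A.Kv W g)] :
    ∃ T, P027M.G.Good (ν.comap (A.Kv W g)) T :=
  haveI := H.cff h hW
  FI.good _ H.ok.gf.sph H.ok.gf.onto (h1 W hW ν g h).2

/-- the two ends of the edge towards the end -/
theorem two (h1 : A.One D) (h : A.Ord D ν g) (hW : W ∈ A.Wl) : ∃ s ∈ A.H,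
    A.π s = g * ww E * g⁻¹ ∧ Edge A (A.U W (Vx O g)) (Se A W g) ν (tw A ν s) ∧
      Edge A (A.U W (Vx O (g * dg A.ϖ⁻¹))) (Se A W g) (tw A ν s) ν := by
  obtain ⟨s, hs, hs', o⟩ := H.edge h hW
  refine ⟨s, hs, hs', o, ?_⟩
  have h2 := H.up (H.tw_ord h s) (k := Mx.sc (-1) * dg A.ϖ)
    (by simp [Matrix.mul_apply, Fin.sum_univ_two, Mx.dg_val])
  have e : (A.π s)⁻¹ * g * (Mx.sc (-1) * dg A.ϖ) = g * ww E * dg A.ϖ := by
    rw [hs', ← ww_ww]; group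
  rw [e] at h2
  obtain ⟨s', -, -, o'⟩ := H.edge h2 hW
  have e1 : Se A W (g * ww E * dg A.ϖ) = Se A W g := by
    rw [Se_dg, Vx_ww' H.ok.lf, Vx_ww H.ok.lf, inf_comm]
  rw [e1, Vx_ww H.ok.lf] at o'
  have e2 : ∀ y ∈ A.Kv W (g * dg A.ϖ⁻¹), tw A ν s y = ν y :=
    (h1 W hW ν _ (H.up h (dg_low _))).1 _ _ h2 (by
      rw [Mx.dg_inv, show (g * (dg A.ϖ)⁻¹)⁻¹ * (g * ww E * dg A.ϖ) = dg A.ϖ * ww E * dg A.ϖ
        by group, dg_ww]
      exact mul_mem (ww_mem H.ok.lf) (Subgroup.mem_sup_right (Mx.sc_mem _)))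
  have e3 := (o'.all (ν.comap _) fun y hy => (e2 y hy).symm).resolve_left o.ne
  have e4 : ∀ x ∈ A.K (Se A W g), ν x = tw A (tw A ν s) s' x := fun x hx => NV.congr e3 ⟨x, hx⟩
  refine ⟨o'.le, fun y hy => (e2 y hy).symm, o.ne.symm, fun w hw => e3 ▸ o'.all w hw, o'.den,
    fun x hx h3 => ?_, fun y hy h3 => ?_⟩
  · obtain ⟨y, h4, h5⟩ := o'.pw1 x hx (e4 x hx ▸ h3)
    exact ⟨y, h4, (e4 _ (sub_mem (o'.le h4) (pow_mem hx _))).trans_lt h5⟩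
  · obtain ⟨x, h4, h5, h6⟩ := o'.pw2 y hy h3
    exact ⟨x, h4, (e4 x h4).trans_le h5, (e4 _ (sub_mem (o'.le hy) (pow_mem h4 _))).trans_lt h6⟩

/-- the nodal model of the curve of an edge -/
theorem nod (h1 : A.One D) (h : A.Ord D ν g) (hW : W ∈ A.Wl) [CFF C (A.K (Se A W g))] : ∃ s ∈ A.H,
    A.π s = g * ww E * g⁻¹ ∧ ∃ (T : A.K (Se A W g)) (_ : FiniteDimensional C⟮T⟯ (A.K (Se A W g)))
      (w : Fin 2 → P027M.I.WW C T), (w 0).1 = ν.comap _ ∧ (w 1).1 = (tw A ν s).comap _ ∧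
      w 0 ≠ w 1 ∧ (∀ w', ∃ i, w' = w i) ∧ P027M.I.Full C T ∧
      (∀ b b' : P027M.I.Br C T, b.w = b'.w → P027M.I.Glue b b' → b = b') ∧
      ∃ S : Finset (P027M.I.Br C T), P027M.I.Nodal C T S := by
  obtain ⟨s, hs, hs', o, o'⟩ := H.two h1 h hW
  haveI := (lv_Vx H.ok hW g).cff H.ok
  haveI := (lv_Vx H.ok hW (g * dg A.ϖ⁻¹)).cff H.ok
  obtain ⟨T, i, w, h2, h3, h4⟩ := X0.nod H.ok.gf.sph H.ok.gf.onto
    (o.sd (fun _ => rfl) (H.good h1 h hW))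
    (o'.sd (fun y => o'.fix y y.2) (H.good h1 (H.up h (dg_low _)) hW)) (one_lt_qq H.ok.lf)
  exact ⟨s, hs, hs', T, i, w, h2, h3, fun e => o.ne (by rw [← h2, ← h3, e]), h4⟩

end Hy

end Fro

open Fro

variable {C L Γ O E : Type} [NontriviallyNormedField C] [IsUltrametricDist C] [CompleteSpace C]
  [IsAlgClosed C] [CharZero C] [Field L] [Algebra C L] [Group Γ] [CommRing O] [IsDomain O]
  [IsDiscreteValuationRing O] [Field E] [Algebra O E] [Algebra E C] {A : AT C L Γ O E}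

/-- **END** -/
theorem end_fro (hA : A.Ok) (hS : A.SA) (hN : A.NUE) (hO : A.ORB) (hD : A.DSC) (hB : BRA C) :
    A.END := fun _ h _ _ _ h1 h2 => Hy.end' ⟨hA, hS, hN, hO, hD, hB, h⟩ h1 h2

/-- **FRO** -/
theorem fro (hA : A.Ok) (hS : A.SA) (hN : A.NUE) (hO : A.ORB) (hD : A.DSC) (hB : BRA C) :
    A.FRO := by
  intro D h ν g h1 W hW n
  have H : Hy A D := ⟨hA, hS, hN, hO, hD, hB, h⟩
  have e : g * dg (A.ϖ ^ n) = g * dg (A.ϖ ^ (n - 1)) * dg A.ϖ := by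
    rw [mul_assoc, ← Mx.dg_mul, ← zpow_add_one, sub_add_cancel]
  refine ⟨fun V hV hn => cff_res hA hD hB h h1 hW hV hn, fun m hm x hx _ => ?_,
    fun y hy h2 => ?_, fun z hz h2 => ?_⟩
  · refine H.path (H.up h1 (dg_low _)) hW (a := A.ϖ ^ (n - m)) ?_ ?_
    · rw [Mx.nn_zpow]
      simpa using Mx.pi_anti hA.lf (sub_nonneg.2 hm)
    · rwa [mul_assoc, ← Mx.dg_mul, ← zpow_neg, ← zpow_add, neg_sub, add_sub_cancel]
  · rw [e]; exact H.up1 (H.up h1 (dg_low _)) hW hy h2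
  · rw [e] at hz; exact H.up2 (H.up h1 (dg_low _)) hW hz h2

end Vale.Agent.P022K.FI
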