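import Vale.Agent.P022K.FI.Gen2

/-!
# P022K FI, row GEN: almost all branches are discs
-/

set_option linter.all false

noncomputable section

namespace Vale.Agent.P022K.FI

open Polynomial IntermediateField Module P025H373 P025H746 P025H492 Vale.Agent.P019P
open scoped PowerSeries LaurentSeries

namespace Ge

variable {C K : Type} [NontriviallyNormedField C] [IsUltrametricDist C] [IsAlgClosed C]
  [CompleteSpace C] [Field K] [Algebra C K] [CFF C K] {w : NV C K} [CFF (kC C) (kap w)]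

/-- functions which are holomorphic on a disc: values and reductions -/
theorem hol_red {ε : K →ₐ[C] C⸨X⸩} {j : C → Plk C K} {z : Plk (kC C) (kap w)} (hd : Dsc ε j)
    (hg : Gs ε w) (ho : ∀ h c D, Fac (ε h) c D → ‖c‖ = 1 → ord z (w.red h) = dgD D) {x : K}
    {g : C⟦X⟧} (hi : Ig g) (e : ε x = am C g) : w x ≤ 1 ∧ w.red x ∈ z.1 ∧ ∀ a, ‖a‖ < 1 →
      x ∈ (j a).1 ∧ ‖vl (j a) x‖ ≤ 1 ∧ cred (vl (j a) x) = vl z (w.red x) := by
  obtain ⟨b, hb⟩ : ∃ b, b = PowerSeries.constantCoeff g := ⟨_, rfl⟩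
  have b1 : ‖b‖ ≤ 1 := by simpa [hb] using hi 0
  have b2 : w (algebraMap C K b) ≤ 1 := by rwa [w.ext']
  have h1 : w (x - algebraMap C K b) ≤ 1 ∧ w.red (x - algebraMap C K b) ∈ Mge z 1 := by
    by_cases h0 : x - algebraMap C K b = 0
    · rw [h0]
      exact ⟨by simp, Or.inl NV.red_zero⟩
    obtain ⟨c, D, a1, -⟩ := hd.fac _ h0
    have a2 : Rd (ε (x - algebraMap C K b)) (am (kC C) (rd (g - PowerSeries.C b))) := by
      rw [map_sub, e, ε.commutes, ← am_C, ← map_sub]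
      exact (hi.sub (ig_C b1)).red
    refine ⟨(hg _ _ _ a1).trans_le (a1.le_of_rd a2), ?_⟩
    by_cases a3 : rd (g - PowerSeries.C b) = 0
    · exact Or.inl (NV.red_of_lt ((hg _ _ _ a1).trans_lt
        ((a1.rd_eq_zero a2).1 (by rw [a3, map_zero]))))
    obtain ⟨a4, a5⟩ := a1.rd_order a2 (am_ne a3)
    refine mem_Mge_one_of_pos ?_
    rw [ho _ _ _ a1 a4, ← a5]
    refine order_am_pos a3 ?_
    rw [← PowerSeries.coeff_zero_eq_constantCoeff_apply, coeff_rd, cred_eq_zero] <;> simp [hb]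
  have h2 : w x ≤ 1 := by simpa using NV.add_le h1.1 b2
  have h3 := h1.2
  rw [NV.red_sub h2 b2, NV.red_algebraMap b1] at h3
  refine ⟨h2, mem_of_ord (ord_nonneg_of_sub h3), fun a ha => ?_⟩
  obtain ⟨c1, c2⟩ := hd.vl_eq hi e ha
  rw [c2, P025H492.vl_eq h3]
  exact ⟨c1, hi.norm_ev_le ha, (cred_eq_iff (hi.norm_ev_le ha) b1).2 (hb ▸ hi.ev_sub_lt ha)⟩

/-- a plane model adapted to `w` -/
structure Md (w : NV C K) (s θ : K) (P : (OC C)[X][X]) : Prop where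
  og : w.OverG s
  th : w θ = 1
  mon : P.Monic
  ker : ∀ H, e2 (iK C K) s θ H = 0 ↔ P ∣ H
  der : w (e2 (iK C K) s θ (derivative P)) = 1
  lam : ∀ x, w x ≤ 1 → x ∈ Lam w s θ

variable {s θ : K} {P : (OC C)[X][X]} (h : Md w s θ P)
include h

theorem Md.rd (H : (OC C)[X][X]) : w (e2 (iK C K) s θ H) ≤ 1 ∧
    w.red (e2 (iK C K) s θ H) = e2 (ik C (kap w)) (w.red s) (w.red θ) H :=
  red_e2 h.og.apply_T.le h.th.le H

theorem Md.rat {x : K} (hx : w x ≤ 1) : ∃ H₁ H₂, x * e2 (iK C K) s θ H₂ = e2 (iK C K) s θ H₁ ∧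
    e2 (ik C (kap w)) (w.red s) (w.red θ) H₂ ≠ 0 ∧ w.red x =
      e2 (ik C (kap w)) (w.red s) (w.red θ) H₁ / e2 (ik C (kap w)) (w.red s) (w.red θ) H₂ := by
  obtain ⟨H₁, H₂, a1, a2⟩ := h.lam x hx
  have a3 := NV.red_ne_zero a1
  refine ⟨H₁, H₂, a2, (h.rd H₂).2 ▸ a3, ?_⟩
  rw [← (h.rd H₁).2, ← (h.rd H₂).2, ← a2, NV.red_mul hx a1.le, mul_div_cancel_right₀ _ a3]

theorem Md.genk (y : kap w) : ∃ H₁ H₂, y =
    e2 (ik C (kap w)) (w.red s) (w.red θ) H₁ / e2 (ik C (kap w)) (w.red s) (w.red θ) H₂ := by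
  obtain ⟨x, hx, rfl⟩ := NV.red_surj y
  obtain ⟨H₁, H₂, -, -, e⟩ := h.rat hx
  exact ⟨H₁, H₂, e⟩

theorem Md.genK (x : K) : ∃ H₁ H₂, x = e2 (iK C K) s θ H₁ / e2 (iK C K) s θ H₂ := by
  have h1 : ∀ x, w x ≤ 1 → ∃ H₁ H₂, x = e2 (iK C K) s θ H₁ / e2 (iK C K) s θ H₂ := fun x hx => by
    obtain ⟨H₁, H₂, a1, a2⟩ := h.lam x hx
    exact ⟨H₁, H₂, eq_div_of_mul_eq (fun e => by simp [e] at a1) a2⟩
  by_cases hx : w x ≤ 1
  · exact h1 x hx
  obtain ⟨H₁, H₂, e⟩ := h1 x⁻¹ (by rw [map_inv₀]; exact inv_le_one_of_one_le₀ (not_le.1 hx).le)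
  exact ⟨H₂, H₁, by rw [← inv_div, ← e, inv_inv]⟩

theorem Md.pk : e2 (ik C (kap w)) (w.red s) (w.red θ) P = 0 := by
  rw [← (h.rd P).2, (h.ker P).2 dvd_rfl, NV.red_zero]

theorem Md.nc (a : C) : s ≠ algebraMap C K a := fun e =>
  h.og.transc (e ▸ isAlgebraic_algebraMap a)

theorem Md.nck (a : kC C) : w.red s ≠ algebraMap _ _ a := fun e =>
  h.og.transc_red (e ▸ isAlgebraic_algebraMap a)

theorem Md.scale (x : K) : ∃ (c : C) (y : K), ‖c‖ = w x ∧ w y = 1 ∧ x = algebraMap C K c * y :=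
  haveI := (finite_of_notMem h.nc).2
  Ge.scale h.og x

variable {z : Plk (kC C) (kap w)} (hs : w.red s ∈ z.1) (hθ : w.red θ ∈ z.1)
  (hd : e2 (IsLocalRing.residue (OC C)) (vl z (w.red s)) (vl z (w.red θ)) (derivative P) ≠ 0)
  {s₀ : OC C} (h0 : IsLocalRing.residue (OC C) s₀ = vl z (w.red s))
include hs hθ hd h0

/-- the expansion along the branch through a smooth point of the reduction -/
theorem Md.branch : ∃ (Θ : (OC C)⟦X⟧) (ε : K →ₐ[C] C⸨X⸩),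
    IsLocalRing.residue (OC C) (PowerSeries.constantCoeff Θ) = vl z (w.red θ) ∧
    (∀ H, ε (e2 (iK C K) s θ H) =
      am C (PowerSeries.map (OC C).subtype (eb (RingHom.id _) s₀ Θ H))) ∧
    ∀ x, w x = 1 → ∃ D, Fac (ε x) 1 D ∧ ord z (w.red x) = dgD D := by
  have a0 : e2 (IsLocalRing.residue (OC C)) (vl z (w.red s)) (vl z (w.red θ)) P = 0 := by
    rw [← (vl_e2 _ hs hθ P).2]
    exact (congrArg (vl z) h.pk).trans (by simpa using vl_const z 0)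
  obtain ⟨θ₀, a1, a2⟩ := root_lift (h.mon.map (eval₂RingHom (RingHom.id (OC C)) s₀))
    (a := vl z (w.red θ)) (by rw [eval₂_map, e1_map, h0]; exact a0)
  obtain ⟨Θ, a3, a4⟩ := hensel_ps (RingHom.id (OC C)) h.mon (t₀ := s₀) (y₀ := θ₀)
    ((e2_eq _ _ _ _).trans a1) (by
      rw [← IsLocalRing.residue_ne_zero_iff_isUnit, e2_map, h0, a2]
      exact hd)
  have b1 : ∀ H, PowerSeries.map (IsLocalRing.residue (OC C)) (eb (RingHom.id _) s₀ Θ H) =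
      eb (IsLocalRing.residue (OC C)) (vl z (w.red s))
        (PowerSeries.map (IsLocalRing.residue (OC C)) Θ) H := fun H => by
    rw [map_eb, h0]; rfl
  obtain ⟨e, e0, b2, b3⟩ := exp_at (IsLocalRing.residue (OC C)) h.nck h.pk hs hθ hd
    (Θ := PowerSeries.map (IsLocalRing.residue (OC C)) Θ)
    ((congrArg _ a3).trans a2) (by rw [← b1, a4, map_zero])
  have b4 : ∀ H, e2 (iK C K) s θ H = 0 → eb (RingHom.id _) s₀ Θ H = 0 := fun H hH => by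
    obtain ⟨S, rfl⟩ := (h.ker H).1 hH
    rw [map_mul, a4, zero_mul]
  obtain ⟨ε₀, c1⟩ := hom_of_ker (((am C).comp (PowerSeries.map (OC C).subtype)).comp
    (eb (RingHom.id _) s₀ Θ)) (e2 (iK C K) s θ) (fun H => by
      rw [RingHom.comp_apply, RingHom.comp_apply, map_eq_zero_iff _ am_inj,
        map_eq_zero_iff _ (PowerSeries.map_injective _ (OC C).subtype_injective)]
      refine ⟨b4 H, fun hH => by_contra fun n => ?_⟩
      obtain ⟨c, y, d1, d2, d3⟩ := h.scale (e2 (iK C K) s θ H)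
      obtain ⟨H₁, H₂, d4, d5, d6⟩ := h.rat d2.le
      have d7 : ‖c‖ ≤ 1 := d1.trans_le (h.rd H).1
      have d8 := b4 (H * H₂ - Polynomial.C (Polynomial.C ⟨c, d7⟩) * H₁) (by
        rw [map_sub, map_mul, map_mul, e2_CC, ← d4, d3]
        change _ - algebraMap C K c * _ = 0
        ring)
      rw [map_sub, map_mul, hH, zero_mul, zero_sub, neg_eq_zero, map_mul, mul_eq_zero, eb,
        e2_CC] at d8
      rcases d8 with d8 | d8
      · have : c = 0 := congrArg (fun u => ((PowerSeries.constantCoeff u : OC C) : C)) d8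
        exact n (by rw [d3, this, map_zero, zero_mul])
      · refine NV.red_ne_zero d2 (d6.trans (div_eq_zero_iff.2 (Or.inl ((b2 H₁).2 ?_))))
        rw [← b1]
        exact (congrArg _ d8).trans (map_zero _)) h.genK
  have c2 : ∀ c : C, ‖c‖ ≤ 1 → ε₀ (algebraMap C K c) = algebraMap C _ c := fun c hc => by
    have := c1 (Polynomial.C (Polynomial.C ⟨c, hc⟩))
    rw [e2_CC, RingHom.comp_apply, eb, e2_CC] at this
    exact this.trans (congrArg (am C) (PowerSeries.map_C _ _))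
  have c3 : ∀ c : C, ε₀ (algebraMap C K c) = algebraMap C _ c := fun c => by
    by_cases hc : ‖c‖ ≤ 1
    · exact c2 c hc
    refine inv_injective ?_
    rw [← map_inv₀, ← map_inv₀, ← map_inv₀]
    exact c2 _ (by rw [norm_inv]; exact inv_le_one_of_one_le₀ (not_le.1 hc).le)
  have c4 : ∀ x, w x = 1 → ∃ D, Fac (ε₀ x) 1 D ∧ ord z (w.red x) = e * dgD D := fun x hx => by
    obtain ⟨H₁, H₂, d4, d5, d6⟩ := h.rat hx.le
    have d1 := mt (b2 H₂).2 d5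
    have d2 := mt (b2 H₁).2 fun n => NV.red_ne_zero hx (d6.trans (div_eq_zero_iff.2 (Or.inl n)))
    obtain ⟨D, d7, d8⟩ := Rd.fac (x := ε₀ x) ⟨_, _, ig_iff.2 ⟨eb (RingHom.id _) s₀ Θ H₁, rfl⟩,
      ig_iff.2 ⟨eb (RingHom.id _) s₀ Θ H₂, rfl⟩, by rwa [rd_map, b1], by
        have := congrArg ε₀ d4
        rwa [map_mul, c1, c1] at this, by
        rw [rd_map, rd_map, b1, b1]
        exact div_mul_cancel₀ _ (am_ne d1)⟩ (div_ne_zero (am_ne d2) (am_ne d1))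
    exact ⟨D, d7, by rw [d6, ← d8]; exact b3 H₁ H₂⟩
  obtain ⟨u, u0, u1⟩ := exists_unif z
  obtain ⟨x, hx, rfl⟩ := NV.red_surj u
  obtain ⟨D, -, u2⟩ := c4 x (hx.eq_or_lt.resolve_right fun n => u0 (NV.red_of_lt n))
  obtain rfl : e = 1 := Int.eq_one_of_mul_eq_one_right e0.le (u2.symm.trans u1)
  exact ⟨Θ, ⟨ε₀, c3⟩, by rw [a3, a2], c1, by simpa using c4⟩

/-- the disc of a smooth point of the reduction -/
theorem Md.disc : ∃ (ε : K →ₐ[C] C⸨X⸩) (j : C → Plk C K), Dsc ε j ∧ Gs ε w ∧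
    (∀ x c D, Fac (ε x) c D → ‖c‖ = 1 → ord z (w.red x) = dgD D) ∧
    ε s = am C (PowerSeries.X + PowerSeries.C (s₀ : C)) ∧
    (∀ x H₁ H₂, x * e2 (iK C K) s θ H₂ = e2 (iK C K) s θ H₁ →
      vl z (e2 (ik C (kap w)) (w.red s) (w.red θ) H₂) ≠ 0 → ∃ g, Ig g ∧ ε x = am C g) ∧
    ∀ Q : Plk C K, (∃ a, ‖a‖ < 1 ∧ j a = Q) ↔ (s ∈ Q.1 ∧ θ ∈ Q.1 ∧ ‖vl Q s‖ ≤ 1 ∧ ‖vl Q θ‖ ≤ 1 ∧
      cred (vl Q s) = vl z (w.red s) ∧ cred (vl Q θ) = vl z (w.red θ)) := by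
  obtain ⟨Θ, ε, a1, a2, a3⟩ := h.branch hs hθ hd h0
  have b1 : ∀ x, x ≠ 0 → ∃ c D, Fac (ε x) c D ∧ ‖c‖ = w x := fun x hx => by
    obtain ⟨c, y, d1, d2, rfl⟩ := h.scale x
    obtain ⟨D, d3, -⟩ := a3 y d2
    refine ⟨c * 1, D, ?_, by rw [mul_one, d1]⟩
    rw [map_mul, ε.commutes]
    exact d3.smul fun e => hx (by rw [e, map_zero, zero_mul])
  have b2 : ε s = am C (PowerSeries.X + PowerSeries.C (s₀ : C)) := by
    have := a2 (Polynomial.C X)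
    rwa [e2_CX, eb, e2_CX, map_add, PowerSeries.map_X, PowerSeries.map_C] at this
  have b3 : ε θ = am C (PowerSeries.map (OC C).subtype Θ) := by
    have := a2 X
    rwa [e2_X, eb, e2_X] at this
  obtain ⟨j, hj⟩ := dsc_of_fac (fun y hy => (b1 y hy).imp fun c => Exists.imp fun D => And.left)
    s₀.2 b2
  have b4 : Gs ε w := fun x c D hx => by
    obtain ⟨c', D', d1, d2⟩ := b1 x fun e => hx.ne (by rw [e, map_zero])
    rw [← d2, d1.norm_eq hx]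
  have b5 : ∀ x c D, Fac (ε x) c D → ‖c‖ = 1 → ord z (w.red x) = dgD D := fun x c D hx hc => by
    obtain ⟨D', d1, d2⟩ := a3 x ((b4 x c D hx).trans hc)
    rw [d2, (d1.unique hx).2]
  have i1 : Ig (PowerSeries.X + PowerSeries.C (s₀ : C)) := ig_X.add (ig_C s₀.2)
  have c1 := (hol_red hj b4 b5 i1 b2).2.2
  have c2 := (hol_red hj b4 b5 (ig_iff.2 ⟨Θ, rfl⟩) b3).2.2
  refine ⟨ε, j, hj, b4, b5, b2, fun x H₁ H₂ e1 e3 => ?_, fun Q => ⟨?_, ?_⟩⟩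
  · obtain ⟨v, hv⟩ : IsUnit (eb (RingHom.id _) s₀ Θ H₂) := by
      rw [PowerSeries.isUnit_iff_constantCoeff, ← IsLocalRing.residue_ne_zero_iff_isUnit, cc_eb,
        e2_map, h0, a1]
      exact (vl_e2 _ hs hθ H₂).2 ▸ e3
    refine ⟨_, ig_iff.2 ⟨eb (RingHom.id _) s₀ Θ H₁ * v⁻¹.1, rfl⟩, ?_⟩
    rw [map_mul, map_mul, ← a2, ← e1, map_mul, a2, ← hv, mul_assoc, ← map_mul, ← map_mul,
      v.mul_inv, map_one, map_one, mul_one]
  · rintro ⟨a, ha, rfl⟩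
    exact ⟨(c1 a ha).1, (c2 a ha).1, (c1 a ha).2.1, (c2 a ha).2.1, (c1 a ha).2.2, (c2 a ha).2.2⟩
  · rintro ⟨d1, d2, d3, d4, d5, d6⟩
    have ha : ‖vl Q s - s₀‖ < 1 := (cred_eq_iff d3 s₀.2).1 (by rw [d5, ← h0, res_eq])
    obtain ⟨f1, f2, f3⟩ := c2 _ ha
    obtain ⟨f4, f5⟩ := hj.vl_eq i1 b2 ha
    rw [ig_X.ev_add (ig_C s₀.2) ha, ev_X, ev_C] at f5
    replace f5 := f5.trans (sub_add_cancel _ _)
    have g1 : ∀ (R : Plk C K) (r1 : s ∈ R.1) (r2 : θ ∈ R.1) (r3 : ‖vl R θ‖ ≤ 1),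
        vl R s = vl Q s → e2 (RingHom.id (OC C)) ⟨vl Q s, d3⟩ ⟨vl R θ, r3⟩ P = 0 :=
      fun R r1 r2 r3 r4 => (OC C).subtype_injective (by
        have := (vl_e2 (OC C).subtype r1 r2 P).2
        rw [r4] at this
        rw [e2_map, map_zero]
        exact this.symm.trans ((congrArg (vl R) ((h.ker P).2 dvd_rfl)).trans
          (by simpa using vl_const R 0)))
    have g2 : IsUnit (e2 (RingHom.id (OC C)) ⟨vl Q s, d3⟩ ⟨vl Q θ, d4⟩ (derivative P)) := by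
      rw [← IsLocalRing.residue_ne_zero_iff_isUnit, e2_map, res_eq, res_eq, d5, d6]
      exact hd
    have g3 := root_unique _ (g1 Q d1 d2 d4 rfl) (g1 _ f4 f1 f2 f5) (by
      rw [← IsLocalRing.residue_ne_zero_iff_isUnit, map_sub, res_eq, res_eq, d6, f3, sub_self]
      exact not_not.2 rfl) g2
    refine ⟨_, ha, (plc_unique (OC C).subtype h.mon h.nc ((h.ker P).2 dvd_rfl) h.genK d1 d2 f4 f1
      f5.symm (congrArg Subtype.val g3) ?_).symm⟩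
    have := (g2.map (OC C).subtype).ne_zero
    rwa [e2_map] at this

end Ge

open Ge

variable {C : Type} [NontriviallyNormedField C] [IsUltrametricDist C] [CompleteSpace C]
  [IsAlgClosed C]

/-- **GEN** with a finite set of functions which have no poles on the discs -/
theorem gen_A (hC : P025H458.Sph C) (hn : ∀ r : ℝ, 0 ≤ r → ∃ x : C, ‖x‖ = r) {K : Type} [Field K]
    [Algebra C K] [CFF C K] (η : NV C K) [CFF (kC C) (kap η)] {s : K} (hs : η s ≤ 1)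
    (h1 : ∃ (z : Plk (kC C) (kap η)) (c : kC C), ord z (η.red s - algebraMap _ _ c) = 1)
    {A : Set K} (hA : A.Finite) (hA' : ∀ x ∈ A, η x ≤ 1) :
    ∃ (f : K) (Z : Set (Plk (kC C) (kap η))), Z.Finite ∧ η f ≤ 1 ∧ ∀ z ∉ Z,
      η.red s ∈ z.1 ∧ η.red f ∈ z.1 ∧
      (∀ z' ∉ Z, vl z (η.red s) = vl z' (η.red s) → vl z (η.red f) = vl z' (η.red f) → z = z') ∧
      ∀ s₀ : C, ‖s₀‖ ≤ 1 → cred s₀ = vl z (η.red s) → ∃ ε j, Dsc ε j ∧ Gs ε η ∧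
        (∀ x c D, Fac (ε x) c D → ‖c‖ = 1 → ord z (η.red x) = dgD D) ∧
        ε s = am C (PowerSeries.X + PowerSeries.C s₀) ∧ (∀ x ∈ A, ∃ g, Ig g ∧ ε x = am C g) ∧
        ∀ P : Plk C K, (∃ a, ‖a‖ < 1 ∧ j a = P) ↔
          (s ∈ P.1 ∧ f ∈ P.1 ∧ ‖vl P s‖ ≤ 1 ∧ ‖vl P f‖ ≤ 1 ∧ cred (vl P s) = vl z (η.red s) ∧
            cred (vl P f) = vl z (η.red f)) := by
  obtain ⟨z₀, c₀, h1⟩ := h1
  haveI := sep_of_ord h1
  have hw := og_of_transc hs (finite_of_notMem fun a e => by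
    rw [e, ← map_sub, ord_const] at h1
    exact zero_ne_one h1).1
  obtain ⟨θ, P, a1, a2, a3, a4, a5⟩ := model hC hn hw
  have h : Md η s θ P := ⟨hw, a1, a2, a3, a4, a5⟩
  choose! H₁ H₂ b1 b2 b3 using fun x (hx : η x ≤ 1) => h.rat hx
  let B : Set (kap η) := {η.red s, η.red θ, e2 (ik C (kap η)) (η.red s) (η.red θ) (derivative P)} ∪
    (fun x => e2 (ik C (kap η)) (η.red s) (η.red θ) (H₂ x)) '' A
  have hB : B.Finite := (Set.toFinite _).union (hA.image _)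
  have c1 : ∀ z ∉ ⋃ y ∈ B, {z : Plk (kC C) (kap η) | ord z y ≠ 0}, ∀ y ∈ B, ord z y = 0 :=
    fun z hz y hy => by_contra fun n => hz (Set.mem_biUnion hy n)
  have c2 : ∀ z ∉ ⋃ y ∈ B, {z : Plk (kC C) (kap η) | ord z y ≠ 0},
      η.red s ∈ z.1 ∧ η.red θ ∈ z.1 := fun z hz =>
    ⟨mem_of_ord (c1 z hz _ (by simp [B])).ge, mem_of_ord (c1 z hz _ (by simp [B])).ge⟩
  refine ⟨θ, _, hB.biUnion fun y _ => fin_ord y, a1.le, fun z hz => ?_⟩
  obtain ⟨d1, d2⟩ := c2 z hz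
  have d3 : e2 (IsLocalRing.residue (OC C)) (vl z (η.red s)) (vl z (η.red θ)) (derivative P) ≠ 0 :=
    (vl_e2 (IsLocalRing.residue (OC C)) d1 d2 _).2 ▸
      vl_ne_zero ((h.rd _).2 ▸ NV.red_ne_zero a4) (c1 z hz _ (Or.inl (Or.inr (Or.inr rfl))))
  refine ⟨d1, d2, fun z' hz' e1 e2' => plc_unique _ a2 h.nck h.pk h.genk d1 d2 (c2 z' hz').1
    (c2 z' hz').2 e1 e2' d3, fun s₀ s1 s2 => ?_⟩
  obtain ⟨ε, j, f1, f2, f3, f4, f5, f6⟩ := h.disc d1 d2 d3 (s₀ := ⟨s₀, s1⟩) ((res_eq _).trans s2)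
  exact ⟨ε, j, f1, f2, f3, f4, fun x hx => f5 x _ _ (b1 x (hA' x hx))
    (vl_ne_zero (b2 x (hA' x hx)) (c1 z hz _ (Or.inr ⟨x, hx, rfl⟩))), f6⟩

/-- **GEN** -/
theorem gen_row [CharZero C] : GEN C := by
  intro hC K _ _ _ η _ s hs h1
  obtain ⟨f, Z, a1, a2, a3⟩ := gen_A hC.sph hC.onto η hs h1 Set.finite_empty (by simp)
  refine ⟨f, Z, a1, a2, fun z hz => ?_⟩
  obtain ⟨b1, b2, b3, b4⟩ := a3 z hz
  refine ⟨b1, b2, b3, fun s₀ s1 s2 => ?_⟩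
  obtain ⟨ε, j, c1, c2, c3, c4, -, c5⟩ := b4 s₀ s1 s2
  exact ⟨ε, j, c1, c2, fun x c D hx hc => by rw [mem_iff_ord', c3 x c D hx hc], c4, c5⟩

end Vale.Agent.P022K.FI
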