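import Vale.Agent.P022K.FI.Br2
import Vale.Agent.P022K.FI.Na0

/-!
# P022K, block FI, bridge: the abstract tower of a tower of curves at a place, dictionary
-/

set_option autoImplicit false
set_option linter.unusedSectionVars false
set_option linter.style.haveILetI false

open UpperHalfPlane
open scoped MatrixGroups LaurentSeries

noncomputable section

namespace Vale.Agent.P022K.FI.Br

open Vale.Agent.P022K.Sh Vale.Agent.P022.H218.L3 Vale.Agent.P019P Vale.Agent.P022K.F0.Cf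
  Vale.Agent.P022K.FI.Hk Lv

section general

theorem cff_of_equiv {k A B : Type*} [Field k] [Field A] [Field B] [Algebra k A] [Algebra k B]
    [CFF k A] (e : A ≃ₐ[k] B) : CFF k B := by
  letI : Algebra A B := (e : A →+* B).toAlgebra
  haveI : IsScalarTower k A B := IsScalarTower.of_algebraMap_eq fun c => (e.commutes c).symm
  haveI : FiniteDimensional A B := Module.Finite.of_surjective (Algebra.linearMap A B) e.surjective
  exact P025H492.cff_of_finite (K := A)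

variable {C L Γ O E : Type} [NontriviallyNormedField C] [IsUltrametricDist C] [CharZero C]
  [Field L] [Algebra C L] [Group Γ] [CommRing O] [IsDomain O] [IsDiscreteValuationRing O]
  [Field E] [Algebra O E] [Algebra E C] {A : AT C L Γ O E} {x : Plk C L}

theorem st_sm {γ t : Γ} : t ∈ A.St (A.sm γ x) ↔ γ⁻¹ * t * γ ∈ A.St x := by
  rw [A.mem_St, A.mem_St, A.sm_mul, A.sm_mul]
  constructor
  · intro h
    rw [h, ← A.sm_mul, inv_mul_cancel, A.sm_one]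
  · intro h
    conv_rhs => rw [← h, ← A.sm_mul, mul_inv_cancel, A.sm_one]

theorem cm_sm {θ : L →ₐ[C] C⸨X⸩} {g : GL (Fin 2) E} (h : A.CM x θ g) (γ : Γ) :
    A.CM (A.sm γ x) (θ.comp (A.act γ⁻¹ : L →ₐ[C] L)) (A.π γ * g) := by
  have key : ∀ t k, Fm (A.π γ * g) (A.π t) k ↔ Fm g (A.π (γ⁻¹ * t * γ)) k := fun t k => by
    simp only [Fm, map_mul, map_inv, mul_inv_rev, mul_assoc]
  refine ⟨fun f => h.pl _, ?_, fun t ht => ?_, fun c e he => ?_⟩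
  · obtain ⟨s, hs⟩ := h.uni
    exact ⟨A.act γ s, by rwa [← A.act_inv γ s] at hs⟩
  · obtain ⟨μ, h1, h2⟩ := h.lin _ (st_sm.1 ht)
    refine ⟨μ, (key t _).2 h1, fun f n => ?_⟩
    have := h2 (A.act γ⁻¹ f) n
    rwa [A.act_mul, A.act_mul, A.act_inv'] at this
  · obtain ⟨t, h1, μ, h2, h3⟩ := h.den c e he
    have e : γ⁻¹ * (γ * t * γ⁻¹) * γ = t := by group
    exact ⟨γ * t * γ⁻¹, st_sm.2 (e.symm ▸ h1), μ, (key _ _).2 (e.symm ▸ h2), h3⟩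

theorem hyp_sm (hc : ∀ W ∈ A.Wl, ∀ γ, cj γ W ∈ A.Wl) (h : A.Hyp x) (γ : Γ) :
    A.Hyp (A.sm γ x) := by
  obtain ⟨W, hW, t, h1, h2, h3⟩ := h
  have e : γ⁻¹ * (γ * t * γ⁻¹) * γ = t := by group
  exact ⟨_, hc W hW γ, γ * t * γ⁻¹, mem_cj.2 (e.symm ▸ h1), st_sm.2 (e.symm ▸ h2),
    fun h => h3 (e ▸ (MonoidHom.normal_ker _).conj_mem' _ h γ)⟩

end general

variable {G0 G : Type} [Group G0] [Group G] {T : Tw G0 G}
variable {O K : Type} [CommRing O] [IsDomain O] [IsDiscreteValuationRing O] [Field K] [Algebra O K]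
variable (w : T.Lc O K)

/-- the image of `G0` lies in no Borel subgroup -/
def NB : Prop := ∀ g : GL (Fin 2) K, ∃ γ, (g⁻¹ * w.π (T.j γ) * g) 1 0 ≠ 0

/-- the multipliers at an ordinary point are dense -/
def DEN (e : K →+* ℂ) : Prop := ∀ τ x, Ord w e τ x → ∀ (c : Kˣ) (m : ℕ), ∃ (γ : G0) (a d : Kˣ),
  T.r γ • τ = τ ∧ w.π (lc T x γ) = d2 a d ∧ ig O (((a : K) / d - c) / (w.ϖ : K) ^ m)

/-- neat levels which are maximal at `w` -/
structure Nl (U : Subgroup G) : Prop where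
  lev : U ∈ T.Lev
  neat : T.Neat U
  mx : w.At (KK O K) U

section levels

variable {w} {U U' : Subgroup G} {V : Subgroup (GL (Fin 2) K)}

theorem Nl.mem (h : Nl w U) {g : G} : g ∈ U ↔ aw w g ∈ U ∧ w.π g ∈ KZ O K := At_mem h.mx h.lev

theorem Nl.inf (hT : T.Ok) (h : Nl w U) (h' : Nl w U') : Nl w (U ⊓ U') :=
  ⟨hT.inf _ h.lev _ h'.lev, h.neat.mono inf_le_left,
    fun g hg => ⟨h.mx.1 g hg, h'.mx.1 g hg⟩, fun u hu => h.mx.2 u hu.1⟩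

theorem Nl.cj (hT : T.Ok) (h : Nl w U) {x : G} (hx : w.π x = 1) : Nl w (cj x U) :=
  ⟨hT.conj _ h.lev x, neat_cj h.neat x, fun g hg => mem_cj.2 (by
    rw [mul_assoc, (w.com g x hx).eq, inv_mul_cancel_left]
    exact h.mx.1 g hg), fun u hu => by simpa [hx] using h.mx.2 _ (mem_cj.1 hu)⟩

theorem mem_set' (hU : U ∈ T.Lev) (hz : Zl K ≤ V) {g : G} :
    g ∈ w.set V U ↔ aw w g ∈ U ∧ w.π g ∈ V := by rw [mem_set hU, sup_of_le_left hz]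

theorem Nl.set (hT : T.Ok) (h : Nl w U) (h' : U' ∈ T.Lev) : Nl w (w.set (KK O K) (U' ⊓ U)) :=
  have h1 := hT.inf _ h' _ h.lev
  ⟨set_KK h1, h.neat.mono fun _ hg =>
    h.mem.2 ⟨((mem_set h1).1 hg).1.2, ((mem_set h1).1 hg).2⟩, At_set h1⟩

theorem Nl.aw_set (hT : T.Ok) (h : Nl w U) (h' : U' ∈ T.Lev) {g : G}
    (hg : aw w g ∈ w.set (KK O K) (U' ⊓ U)) : aw w g ∈ U' := by
  have := ((mem_set (hT.inf _ h' _ h.lev)).1 hg).1.1
  rwa [aw_of w (pi_aw w g)] at this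

theorem Nl.set_Vx (h : Nl w U) (g : GL (Fin 2) K) : w.set (Vx O g) U = Sh.cj (w.ι g) U :=
  Subgroup.ext fun x => by
    rw [mem_set' (V := Vx O g) h.lev (Mx.Z_le_cj g le_sup_right), mem_cj, h.mem (g := _ * _)]
    simp only [map_mul, map_inv, aw_iota, inv_one, one_mul, mul_one, w.πι, Vx, mem_cj]

theorem Nl.set_KZ (h : Nl w U) : w.set (KZ O K) U = U :=
  Subgroup.ext fun x => by rw [mem_set' (V := KZ O K) h.lev le_sup_right, ← h.mem]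

theorem set_mono {V' : Subgroup (GL (Fin 2) K)} (h : V ≤ V') : w.set V U ≤ w.set V' U :=
  sup_le_sup_left (Subgroup.map_mono h) _

theorem Nl.set_lev (hT : T.Ok) (h : Nl w U) (hV : Ll O V) : w.set V U ∈ T.Lev := by
  obtain ⟨m, hm⟩ := hV.op
  obtain ⟨g, hg⟩ := hV.vx
  refine hT.up _ (w.lev U h.lev m) _ (set_mono hm) fun e => hT.fi _ (w.lev U h.lev m) _
    (hT.conj U h.lev (w.ι g)) (Subgroup.relIndex_eq_zero_of_le_right ?_ e)
  exact (set_mono hg).trans (h.set_Vx g).le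

theorem Nl.set_neat (h : Nl w U) (hV : Ll O V) : T.Neat (w.set V U) := by
  obtain ⟨g, hg⟩ := hV.vx
  exact (neat_cj h.neat (w.ι g)).mono ((set_mono hg).trans (h.set_Vx g).le)

theorem iota_conj (x : G) (k : GL (Fin 2) K) :
    x * w.ι k * x⁻¹ = w.ι (w.π x * k * (w.π x)⁻¹) := by
  conv_lhs => rw [← aw_mul w x]
  rw [mul_inv_rev, mul_assoc, mul_assoc, ← mul_assoc (w.ι k), ← mul_assoc (w.ι _), ← map_inv,
    ← map_mul, ← map_mul, ← mul_assoc, ← (aw_com w _ x).eq, mul_inv_cancel_right, mul_assoc]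

end levels

variable (hT : T.Ok) {p : ℕ} [Fact p.Prime] (ι : ℂ ≃+* CS p) [Algebra K (Cx ι)]

/-- level `U` away from `w`, even at `w` -/
def Wg (U : Subgroup G) : Subgroup (Gm hT) :=
  (U.comap (aw w) ⊓ (Ev K (Cx ι)).comap w.π).subgroupOf (Gm hT)

/-- the same on the component of `x` -/
def Wx (U : Subgroup G) (x : G) : Subgroup (Gm hT) := Wg w hT ι (cj (aw w x) U)

/-- **the abstract tower** -/
def tw : AT (Cx ι) (LW T) (Gm hT) O K where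
  ϖ := w.ϖ
  act := aL hT ι
  π := w.π.comp (Gm hT).subtype
  Wl := {W | ∃ U, Nl w U ∧ W = Wg w hT ι U}

/-- the expansion at a point -/
def th (τ : ℍ) : LW T →ₐ[Cx ι] (Cx ι)⸨X⸩ := ((thM τ).comp (LW T).val : LW T →ₐ[ℂ] ℂ⸨X⸩)

variable {w hT ι} {U U' : Subgroup G} {V : Subgroup (GL (Fin 2) K)}

theorem tw_pi (g : Gm hT) : (tw w hT ι).π g = w.π g := rfl

theorem tw_act (g : Gm hT) (f : LW T) : (tw w hT ι).act g f = ac hT g f := rfl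

theorem tw_uni : (tw w hT ι).ϖ = w.ϖ := rfl

theorem th_order (τ : ℍ) (f : LW T) : (th ι τ f).order = od τ (f : Mer) := thM_order τ f

theorem mem_Wg {g : Gm hT} : g ∈ Wg w hT ι U ↔ aw w g ∈ U ∧ w.π g ∈ Ev K (Cx ι) := Iff.rfl

theorem mem_Wx {x : G} {g : Gm hT} :
    g ∈ Wx w hT ι U x ↔ aw w (x⁻¹ * g * x) ∈ U ∧ w.π g ∈ Ev K (Cx ι) := by
  rw [Wx, mem_Wg, mem_cj, map_mul, map_mul, map_inv]

theorem Wg_mem (h : Nl w U) : Wg w hT ι U ∈ (tw w hT ι).Wl := ⟨U, h, rfl⟩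

theorem Wx_mem (h : Nl w U) (x : G) : Wx w hT ι U x ∈ (tw w hT ι).Wl :=
  Wg_mem (h.cj hT (pi_aw w x))

theorem Wx_one : Wx w hT ι U 1 = Wg w hT ι U :=
  Subgroup.ext fun g => by rw [mem_Wx, mem_Wg, inv_one, one_mul, mul_one]

theorem Wx_iota (x : G) (k : GL (Fin 2) K) : Wx w hT ι U (x * w.ι k) = Wx w hT ι U x := by
  rw [Wx, map_mul, aw_iota, mul_one, Wx]

theorem cj_Wx (γ : Gm hT) (x : G) : cj γ (Wx w hT ι U x) = Wx w hT ι U (γ * x) :=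
  Subgroup.ext fun g => by
    rw [mem_cj, mem_Wx, mem_Wx, ← Ev_conj (k := w.π g) (w.π γ)]
    simp only [Subgroup.coe_mul, Subgroup.coe_inv, map_mul, map_inv, mul_inv_rev, mul_assoc]

/-- (d1) -/
theorem act_RU {φ : G → Mer} (hU : U ∈ T.Lev) (hφ : φ ∈ T.RU U) (g : Gm hT) (x : G) {f : LW T}
    (e : (f : Mer) = φ x) : ((tw w hT ι).act g f : Mer) = φ (g * x) := ac_RU hU hφ g x e

theorem act_j (γ : G0) (f : LW T) : ((tw w hT ι).act (jm' hT γ) f : Mer) = T.act γ f := ac_j γ f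

theorem mem_K (hU : U ∈ T.Lev) {f : LW T} :
    f ∈ (tw w hT ι).K (U.subgroupOf (Gm hT)) ↔ (f : Mer) ∈ KX T U 1 :=
  (tw w hT ι).mem_K.trans (fix_iff ι hU)

theorem U_Wg (hU : U ∈ T.Lev) (hz : Zl K ≤ V) (hv : V ≤ Ev K (Cx ι)) :
    (tw w hT ι).U (Wg w hT ι U) V = (w.set V U).subgroupOf (Gm hT) :=
  Subgroup.ext fun _ => ⟨fun h => (mem_set' hU hz).2 ⟨h.1.1, h.2⟩, fun h =>
    have h := (mem_set' hU hz).1 h
    ⟨⟨h.1, hv h.2⟩, h.2⟩⟩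

theorem U_Wx (hU : U ∈ T.Lev) (hz : Zl K ≤ V) (hv : V ≤ Ev K (Cx ι)) (x : G) :
    (tw w hT ι).U (Wx w hT ι U x) (cj (w.π x) V) = (cj x (w.set V U)).subgroupOf (Gm hT) :=
  Subgroup.ext fun g => by
    have e : w.π (x⁻¹ * g * x) = (w.π x)⁻¹ * w.π g * w.π x := by rw [map_mul, map_mul, map_inv]
    rw [Subgroup.mem_subgroupOf, mem_cj, mem_set' hU hz, e]
    exact ⟨fun h => ⟨(mem_Wx.1 h.1).1, mem_cj.1 h.2⟩,
      fun h => ⟨mem_Wx.2 ⟨h.1, (Ev_conj _).1 (hv h.2)⟩, mem_cj.2 h.2⟩⟩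

theorem mem_ker' {g : Gm hT} : g ∈ (tw w hT ι).act.ker ↔ (g : G) ∈ T.Z := mem_ker ι

/-- (d3) -/
theorem sm_eq {g : Gm hT} {τ τ' : ℍ} : (tw w hT ι).sm g (plL hT ι τ) = plL hT ι τ' ↔
    ∃ γ, T.r γ • τ = τ' ∧ (T.j γ)⁻¹ * g ∈ T.Z :=
  (Subtype.ext_iff.trans SetLike.ext_iff).trans stab_iff

theorem sm_j (γ : G0) (τ : ℍ) : (tw w hT ι).sm (jm' hT γ) (plL hT ι τ) = plL hT ι (T.r γ • τ) :=
  sm_eq.2 ⟨γ, rfl, by simp [coe_jm']⟩

theorem mem_St {g : Gm hT} {τ : ℍ} : g ∈ (tw w hT ι).St (plL hT ι τ) ↔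
    ∃ γ, T.r γ • τ = τ ∧ (T.j γ)⁻¹ * g ∈ T.Z := sm_eq

variable (w) in
theorem ex_sm (y : Plk (Cx ι) (LW T)) : ∃ g τ, y = (tw w hT ι).sm g (plL hT ι τ) :=
  (ex_place ι y).imp fun _ h => h.imp fun _ h => Subtype.ext (SetLike.ext h)

theorem mem_H (h : Nl w U) {g : Gm hT} :
    g ∈ (tw w hT ι).H ↔ aw w g ∈ T.Z ∧ w.π g ∈ Ev K (Cx ι) := by
  refine Subgroup.mem_sInf.trans ⟨fun k => ⟨mem_Z.2 fun V hV =>
    h.aw_set hT hV (k _ (Wg_mem (h.set hT hV))).1, (k _ (Wg_mem h)).2⟩, ?_⟩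
  rintro k _ ⟨V, hV, rfl⟩
  exact ⟨Z_le hV.lev k.1, k.2⟩

theorem iota_mem (h : Nl w U) {g : Gm hT} (hg : g ∈ (tw w hT ι).H) : w.ι (w.π g) ∈ Gm hT := by
  have := mul_mem (inv_mem (Z_le_Gm hT ((mem_H h).1 hg).1)) g.2
  rwa [← aw_mul w g, map_mul, aw_iota, mul_one, aw_of w (pi_aw w _), inv_mul_cancel_left] at this

/-- elements of `H` act by right translation -/
theorem act_H (h : Nl w U) {g : Gm hT} (hg : g ∈ (tw w hT ι).H) {x : G} {k : GL (Fin 2) K}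
    (hk : Fm (w.π x) (w.π g) k) {φ : G → Mer} (hU : U' ∈ T.Lev) (hφ : φ ∈ T.RU U') {f : LW T}
    (e : (f : Mer) = φ x) : ((tw w hT ι).act g f : Mer) = φ (x * w.ι k) := by
  have h1 := ((mem_H h).1 hg).1
  rw [act_RU hU hφ g x e, ← hφ.2 (x * w.ι k) _ (Z_le hU (mul_mem (w.cen _ hk) h1))]
  congr 1
  have e1 := iota_conj (w := w) x⁻¹ (w.π g)
  rw [map_inv, inv_inv, inv_inv] at e1
  rw [map_mul, map_inv, ← e1]
  conv_lhs => rw [← aw_mul w g, ← Subgroup.mem_center_iff.1 (hT.zc h1), mul_assoc,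
    ← Subgroup.mem_center_iff.1 (hT.zc h1)]
  group

/-- (d5) -/
theorem sa_of (h : Nl w U) (hs : ∀ k : GL (Fin 2) K, k.det = 1 →
    ∃ γ ∈ (tw w hT ι).H, (tw w hT ι).π γ = k) : w.SA := fun V hV x g hg => by
  obtain ⟨γ, h1, h2⟩ := hs (w.π x * g * (w.π x)⁻¹) (by
    rw [map_mul, map_mul, hg, mul_one, map_inv, mul_inv_cancel])
  have h3 := iota_mem h h1
  rw [show w.π γ = _ from h2, ← iota_conj] at h3
  obtain ⟨δ, h4⟩ := h3 _ (hT.conj V hV x)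
  exact ⟨δ, _, mem_cj.1 h4, by group⟩

/-- the identification of a subfield of the tower with a subfield of `Mer` -/
def kE {M : IntermediateField (Cx ι) (LW T)} {E : IntermediateField ℂ Mer} (le : E ≤ LW T)
    (h : ∀ f : LW T, f ∈ M ↔ (f : Mer) ∈ E) : E ≃ₐ[Cx ι] M where
  toFun f := ⟨⟨f.1, le f.2⟩, (h _).2 f.2⟩
  invFun f := ⟨f.1.1, (h _).1 f.2⟩
  left_inv _ := rfl
  right_inv _ := rfl
  map_mul' _ _ := rfl
  map_add' _ _ := rfl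
  commutes' _ := rfl

theorem kE_coe {M : IntermediateField (Cx ι) (LW T)} {E : IntermediateField ℂ Mer} (le : E ≤ LW T)
    (h : ∀ f : LW T, f ∈ M ↔ (f : Mer) ∈ E) (f : E) : (((kE le h f : M) : LW T) : Mer) = f := rfl

theorem cff_KX (hT : T.Ok) (hU : U ∈ T.Lev) (x : G) : CFF ℂ (KX T U x) :=
  (T.cf _ (hT.fu U hU x)).choose

/-- the place of a point in a level -/
theorem atP_iff (hT : T.Ok) (hU : U ∈ T.Lev) {x : G} [CFF ℂ (KX T U x)] {τ : ℍ}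
    {P : Plk (Cx ι) (KX T U x)} : AtP τ P ↔ ∀ f, f ∈ P.1 ↔ Reg τ (f : Mer) := by
  have key : ∀ {P : Plk ℂ (KX T U x)} {τ : ℍ}, AtP (ι := ι) τ P → ∀ f, f ∈ P.1 ↔ Reg τ (f : Mer) :=
    fun {P τ} h f => ⟨fun hf => by
      obtain ⟨c, hc⟩ := P025H552.exists_cst_Mge P ⟨f, hf⟩
      exact (mval_iff.1 ((h f c).1 hc)).1, fun hf =>
        (mem_iff_ord P f).2 (mem_Mge.1 ((h f _).2 (mval_iff.2 ⟨hf, rfl⟩)).mem)⟩
  refine ⟨key, fun h => ?_⟩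
  obtain ⟨_, pt, h1⟩ := T.cf _ (hT.fu U hU x)
  have h2 : AtP (ι := ι) τ (pt τ) := h1.val τ
  rwa [show P = pt τ from Subtype.ext (SetLike.ext fun f => (h f).trans (key h2 f).symm)]

section ok

variable {D : Emb w p} [Algebra K (Cx D.ι)]
  (ha : ∀ c, algebraMap K (Cx D.ι) c = Cx.of D.ι (D.e c))

include ha

theorem lf : LF O (Cx D.ι) w.ϖ :=
  ⟨w.fr, w.fin, w.cpl, w.irr, fun x => by rw [ha]; exact D.int x⟩

theorem ll_le (hV : Ll O V) : V ≤ Ev K (Cx D.ι) :=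
  hV.vx.elim fun g hg => hg.trans (Vx_le_Ev (lf ha) g)

/-- (d2) -/
theorem mem_K_Wx (h : Nl w U) (hV : Ll O V) (x : G) {f : LW T} :
    f ∈ (tw w hT D.ι).K ((tw w hT D.ι).U (Wx w hT D.ι U x) (cj (w.π x) V)) ↔
      (f : Mer) ∈ KX T (w.set V U) x := by
  rw [U_Wx h.lev hV.z (ll_le ha hV), mem_K (hT.conj _ (h.set_lev hT hV) x), KX_cj]

theorem mem_Kv (h : Nl w U) (x : G) {f : LW T} :
    f ∈ (tw w hT D.ι).Kv (Wx w hT D.ι U x) (w.π x) ↔ (f : Mer) ∈ KX T U x := by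
  have := mem_K_Wx (hT := hT) ha h (V := KZ O K)
    ⟨le_sup_right, ⟨0, (Km_le 0).trans le_sup_left⟩, 1, fun k hk => mem_cj.2 (by simpa using hk)⟩
    x (f := f)
  rwa [h.set_KZ] at this

theorem mem_Kv' (h : Nl w U) (x : G) (k : GL (Fin 2) K) {f : LW T} :
    f ∈ (tw w hT D.ι).Kv (Wx w hT D.ι U x) (w.π x * k) ↔ (f : Mer) ∈ KX T U (x * w.ι k) := by
  rw [← mem_Kv (hT := hT) ha h, Wx_iota, map_mul, w.πι]

theorem sm_iff {c : K} : sm O c ↔ Mx.nn (Cx D.ι) c < 1 := by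
  constructor
  · rintro ⟨y, hy, rfl⟩
    exact (Mx.nn_O (lf ha) y).lt_of_ne fun e => hy ((Mx.unit_iff (lf ha)).2 e)
  · intro h
    obtain ⟨y, rfl⟩ := (Mx.io_iff (lf ha)).2 h.le
    exact ⟨y, fun e => h.ne ((Mx.unit_iff (lf ha)).1 e), rfl⟩

/-- (d4) the chart at an ordinary point -/
theorem cm_of_ord (hd : DEN w D.e) {τ : ℍ} {x : G} (h : Ord w D.e τ x) :
    (tw w hT D.ι).CM (plL hT D.ι τ) (th D.ι τ) (w.π x) := by
  have key : ∀ (t : Gm hT) γ (a d : Kˣ), (T.j γ)⁻¹ * t ∈ T.Z → w.π (lc T x γ) = d2 a d →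
      Fm (w.π x) (w.π t) (dg (a / d)) := fun t γ a d h1 h2 => by
    have e2 : dg (a / d) = d2 a d * d2 d⁻¹ d⁻¹ := by
      rw [d2_mul, mul_inv_cancel, ← div_eq_mul_inv]
      ext i l
      fin_cases i <;> fin_cases l <;> simp [d2_val, Sh.dg]
    have e3 := Subgroup.mem_center_iff.1 (w.cen' _ h1) (w.π x)
    have e4 : (w.π x)⁻¹ * w.π t * w.π x = d2 a d * w.π ((T.j γ)⁻¹ * t) := by
      rw [← h2, lc, map_mul, mul_assoc _ (w.π x), e3]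
      simp only [map_mul, map_inv]
      group
    rw [Fm, e4, e2, mul_inv_rev, mul_assoc, inv_mul_cancel_left]
    exact mul_mem (inv_mem (mem_Zl.2 ⟨_, rfl⟩)) (w.cen' _ h1)
  refine ⟨fun f => ?_, ?_, fun t ht => ?_, fun c e he => ?_⟩
  · rw [mem_plL, th_order, reg_iff]
    exact ⟨fun h => h.elim (fun e => by rw [e, od_zero]) id, Or.inr⟩
  · obtain ⟨U, hU, hn⟩ := hT.neat
    obtain ⟨s, h1, h2⟩ := fu_one (hT.fu U hU 1) (hn 1) τ
    exact ⟨⟨s, KX_le hT hU 1 h1⟩, (th_order τ _).trans h2⟩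
  · obtain ⟨γ, h1, h2⟩ := mem_St.1 ht
    obtain ⟨a, d, h3, h4⟩ := h.all hT D.cmp h1
    refine ⟨a / d, key t γ a d h2 h3, fun f n => ?_⟩
    obtain ⟨U, hU, hf⟩ := ex_lev hT f
    have e1 : ((tw w hT D.ι).act t f : Mer) = actM (T.r γ) f := ac_eq hU hf (Z_le hU h2)
    have e2 : D.e ((a / d : Kˣ) : K) = mu (T.r γ) τ := by
      rw [eq_inv_of_mul_eq_one_left h4, ← map_inv₀, inv_div, Units.val_div_eq_div_val]
    have := thM_lin h1 f n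
    rw [← e1, ← e2] at this
    rw [ha]
    exact this
  · obtain ⟨m, hm⟩ := Mx.exists_pow_lt (lf ha) he
    obtain ⟨γ, a, d, h1, h2, h3⟩ := hd τ x h c m
    have h4 : (T.j γ)⁻¹ * (jm' hT γ : G) ∈ T.Z := by simp [coe_jm']
    refine ⟨jm' hT γ, mem_St.2 ⟨γ, h1, h4⟩, a / d, key _ γ a d h4 h2, ?_⟩
    have := (Mx.io_div (lf ha) (pow_ne_zero m w.ϖ.ne_zero)).1 h3
    rw [← map_sub, Units.val_div_eq_div_val]
    exact this.trans_lt (by simpa [Mx.nn] using hm)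

/-- (d4) ordinary points are periodic -/
theorem per_of_ord (hf : FF T) (hU : Nl w U) {τ : ℍ} {x : G} (h : Ord w D.e τ x) :
    ∃ γ ∈ Wx w hT D.ι U x, γ ∈ (tw w hT D.ι).St (plL hT D.ι τ) ∧
      γ ∉ (tw w hT D.ι).act.ker := by
  obtain ⟨δ, a, d, h1, h2, h3, -⟩ := h
  have hg : lc T x δ ∉ U := fun e => by
    have := (d2_mem w).1 (h2 ▸ hU.mx.2 _ e)
    have h4 := (lt_one w).2 h3
    rw [map_div₀, this, div_self (pos w a).ne'] at h4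
    exact lt_irrefl _ h4
  obtain ⟨R, hR⟩ := hf U hU.lev hU.neat _ hg
  have hc : ∀ n : ℕ, Commute (lc T x δ) (w.ι (d2 1 (w.ϖ ^ n) ^ 2)) := fun n =>
    comm_iota w (h2 ▸ (d2_comm _ _ _ _).pow_right 2)
  choose q k1 k2 using fun n : ℕ => (hR.2 (τ, x * w.ι (d2 1 (w.ϖ ^ n) ^ 2), δ) ⟨h1, 1, one_mem _, 1,
    one_mem _, by
      rw [one_mul, mul_one, ← lc, lc_right, mul_assoc, (hc n).eq, inv_mul_cancel_left]⟩).exists
  obtain ⟨n, m, hnm, e⟩ := Finite.exists_ne_map_eq_of_infinite fun n => (⟨q n, k1 n⟩ : R)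
  obtain ⟨β, u, hu, e1, e2, -⟩ := k2 n
  obtain ⟨β', u', hu', e1', e2', -⟩ := k2 m
  rw [show q n = q m from congrArg Subtype.val e] at e1 e2
  have e3 : lc T x (β'⁻¹ * β) =
      w.ι (d2 1 (w.ϖ ^ m) ^ 2) * (u' * u⁻¹) * (w.ι (d2 1 (w.ϖ ^ n) ^ 2))⁻¹ := by
    have : T.j β = T.j β' * (x * w.ι (d2 1 (w.ϖ ^ m) ^ 2)) * u' *
        (x * w.ι (d2 1 (w.ϖ ^ n) ^ 2) * u)⁻¹ := by
      rw [eq_mul_inv_iff_mul_eq, ← mul_assoc]
      exact e2.symm.trans e2'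
    rw [lc, map_mul, map_inv, this]
    group
  have hu2 := hU.mem.1 (mul_mem hu' (inv_mem hu))
  have e4 : w.π (lc T x (β'⁻¹ * β)) =
      d2 1 (w.ϖ ^ m) ^ 2 * w.π (u' * u⁻¹) * (d2 1 (w.ϖ ^ n) ^ 2)⁻¹ := by
    rw [e3, map_mul, map_mul, map_inv, w.πι, w.πι]
  refine ⟨jm' hT (β'⁻¹ * β), mem_Wx.2 ⟨?_, ?_⟩, mem_St.2 ⟨β'⁻¹ * β, ?_, by simp [coe_jm']⟩,
    fun hz => hnm ?_⟩
  · rw [coe_jm', ← lc, e3, map_mul, map_mul, map_inv, aw_iota, aw_iota, one_mul, inv_one, mul_one]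
    exact hu2.1
  · rw [← Ev_conj (w.π x), ← map_inv, ← map_mul, ← map_mul, coe_jm', ← lc, e4]
    exact mul_mem (mul_mem (sq_mem_Ev _) (KZ_le_Ev (lf ha) hu2.2)) (inv_mem (sq_mem_Ev _))
  · rw [map_mul, mul_smul, map_inv, inv_smul_eq_iff]
    exact e1.symm.trans e1'
  · have h5 := mem_ker'.1 hz
    rw [coe_jm', ← Z_conj hT h5 x, ← coe_jm' hT, coe_jm', ← lc] at h5
    have h6 := w.cen' _ h5
    have h7 : (d2 1 (w.ϖ ^ m) ^ 2)⁻¹ * d2 1 (w.ϖ ^ n) ^ 2 ∈ KZ O K := by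
      have := mul_mem hu2.2 (inv_mem (Subgroup.mem_sup_right h6))
      convert this using 1
      rw [eq_mul_inv_iff_mul_eq, mul_assoc, Subgroup.mem_center_iff.1 h6, e4]
      group
    rw [d2_pow, d2_pow, d2_inv, d2_mul] at h7
    have h8 := (d2_mem w).1 h7
    simp only [Units.val_mul, Units.val_inv_eq_inv_val, Units.val_pow_eq_pow_val, map_mul, map_inv₀,
      map_pow, pi_pow, one_pow, inv_one, mul_one, Units.val_one, map_one, ← WithZero.exp_nsmul,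
      ← WithZero.exp_neg, ← WithZero.exp_add, WithZero.exp_eq_one, nsmul_eq_mul] at h8
    omega

theorem hyp_of_ord (hf : FF T) (hU : Nl w U) {τ : ℍ} {x : G} (h : Ord w D.e τ x) :
    (tw w hT D.ι).Hyp (plL hT D.ι τ) := ⟨_, Wx_mem hU x, per_of_ord ha hf hU h⟩

omit ha in
theorem ord_of_diag {τ : ℍ} {γ : G0} {g : GL (Fin 2) K} {a d : Kˣ} (h1 : T.r γ • τ = τ)
    (h2 : g⁻¹ * w.π (T.j γ) * g = d2 a d) (h3 : sm O ((d : K) / a)) : ∃ x, Ord w D.e τ x := by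
  have h4 : ∀ g γ, w.π (lc T (w.ι g) γ) = g⁻¹ * w.π (T.j γ) * g := fun g γ => by
    rw [lc, map_mul, map_mul, map_inv, w.πι]
  have k := D.cmp γ τ (w.ι g) h1
  have hm := mu_ne (T.r γ) τ
  have ha := a.ne_zero
  have hd0 := d.ne_zero
  have he : D.e ((d : K) / a) ≠ 0 := (map_ne_zero D.e).2 (div_ne_zero hd0 ha)
  have k2 : ((d2 a d : GL (Fin 2) K) : Matrix (Fin 2) (Fin 2) K).trace ^ 2 /
      ((d2 a d : GL (Fin 2) K) : Matrix (Fin 2) (Fin 2) K).det =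
        (d : K) / a + ((d : K) / a)⁻¹ + 2 := by
    simp only [d2_val, Matrix.trace_fin_two_of, Matrix.det_fin_two_of]
    field_simp
    ring
  rw [h4, h2, k2, map_add, map_add, map_inv₀, map_ofNat] at k
  have k3 : (mu (T.r γ) τ * D.e ((d : K) / a) - 1) * (mu (T.r γ) τ - D.e ((d : K) / a)) = 0 := by
    generalize D.e ((d : K) / a) = y at *
    generalize mu (T.r γ) τ = m at *
    field_simp at k
    linear_combination -k
  rcases mul_eq_zero.1 k3 with k4 | k4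
  · exact ⟨w.ι g, γ, a, d, h1, (h4 g γ).trans h2, h3, sub_eq_zero.1 k4⟩
  · let s : GL (Fin 2) K := ⟨!![0, 1; 1, 0], !![0, 1; 1, 0], by simp [Matrix.one_fin_two],
      by simp [Matrix.one_fin_two]⟩
    have hs : s⁻¹ * d2 a⁻¹ d⁻¹ * s = d2 d⁻¹ a⁻¹ := by
      ext i l
      fin_cases i <;> fin_cases l <;> simp [s, d2_val, Matrix.mul_apply, Fin.sum_univ_two]
    have hq : ((a⁻¹ : Kˣ) : K) / (d⁻¹ : Kˣ) = d / a := by
      rw [Units.val_inv_eq_inv_val, Units.val_inv_eq_inv_val, inv_div_inv]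
    refine ⟨w.ι (g * s), γ⁻¹, d⁻¹, a⁻¹, by rw [map_inv, inv_smul_eq_iff, h1], ?_, hq ▸ h3, ?_⟩
    · rw [h4, ← hs, ← d2_inv, ← h2, map_inv, map_inv]
      group
    · rw [hq, map_inv, mu_inv h1, ← sub_eq_zero.1 k4, inv_mul_cancel₀ hm]

/-- (d4) hyperbolic places are ordinary points -/
theorem ord_of_hyp {τ : ℍ} (h : (tw w hT D.ι).Hyp (plL hT D.ι τ)) : ∃ x, Ord w D.e τ x := by
  obtain ⟨_, ⟨U, hU, rfl⟩, t, h1, h2, h3⟩ := h
  obtain ⟨γ, h4, h5⟩ := mem_St.1 h2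
  have e : T.j γ = t * ((T.j γ)⁻¹ * t)⁻¹ := by group
  have h6 : aw w (T.j γ) ∈ U := by
    rw [e, map_mul]
    exact mul_mem h1.1 (Z_le hU.lev (aw_Z w (inv_mem h5)))
  have h7 : w.π (T.j γ) ∈ Ev K (Cx D.ι) := by
    rw [e, map_mul]
    exact mul_mem h1.2 (Z_le_Ev (w.cen' _ (inv_mem h5)))
  obtain ⟨g, a, d, h8, h9⟩ := hyperbolic (lf ha) h7 fun g hg => h3 (mem_ker'.2 (by
    have := neat_cj hU.neat (w.ι g) 1 γ (mem_Gam1.2 (hU.set_Vx g ▸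
      (mem_set' hU.lev (Mx.Z_le_cj g le_sup_right)).2 ⟨h6, hg⟩)) τ h4
    simpa using mul_mem ((hT.z0 γ).1 this) h5))
  exact ord_of_diag h4 h8 ((sm_iff ha).2 h9)

omit ha in
theorem tw_conj : ∀ W ∈ (tw w hT ι).Wl, ∀ γ, cj γ W ∈ (tw w hT ι).Wl := by
  rintro _ ⟨U, hU, rfl⟩ γ
  rw [← Wx_one, cj_Wx]
  exact Wx_mem hU _

theorem ord_of_hyp' {y : Plk (Cx D.ι) (LW T)} (h : (tw w hT D.ι).Hyp y) :
    ∃ g τ x, y = (tw w hT D.ι).sm g (plL hT D.ι τ) ∧ Ord w D.e τ x := by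
  obtain ⟨g, τ, rfl⟩ := ex_sm (hT := hT) w y
  have := hyp_sm tw_conj h g⁻¹
  rw [← AT.sm_mul, inv_mul_cancel, AT.sm_one] at this
  obtain ⟨x, hx⟩ := ord_of_hyp ha this
  exact ⟨g, τ, x, rfl, hx⟩

/-- **the bridge** -/
theorem ok (hf : FF T) (ho : ∃ τ x, Ord w D.e τ x) (hU : Nl w U) (hb : NB w) (hd : DEN w D.e) :
    (tw w hT D.ι).Ok where
  gf := Cx.gf D.ι
  lf := lf ha
  inf := by
    rintro _ ⟨U, hU, rfl⟩ _ ⟨U', hU', rfl⟩
    exact ⟨_, hU.inf hT hU', Subgroup.ext fun g =>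
      ⟨fun h => ⟨⟨h.1.1, h.2.1⟩, h.1.2⟩, fun h => ⟨⟨h.1.1, h.2⟩, h.1.2, h.2⟩⟩⟩
  conj := tw_conj
  fi := by
    rintro _ ⟨U, hU, rfl⟩ _ ⟨U', hU', rfl⟩ e
    refine Subgroup.relIndex_comap_ne_zero ((aw w).comp (Gm hT).subtype) (hT.fi U hU.lev U' hU'.lev)
      (Subgroup.relIndex_eq_zero_of_le_right (K := Wg w hT D.ι U') (fun g hg => hg.1) ?_)
    rw [← Subgroup.inf_relIndex_right] at e ⊢
    refine Subgroup.relIndex_eq_zero_of_le_left ?_ e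
    exact fun g hg => ⟨⟨hg.1, hg.2.2⟩, hg.2⟩
  zw := by
    rintro _ ⟨U, hU, rfl⟩ z hz
    have := mem_ker'.1 hz
    exact ⟨Z_le hU.lev (aw_Z w this), Z_le_Ev (w.cen' _ this)⟩
  zs z hz := w.cen' _ (mem_ker'.1 hz)
  sc c hc := ⟨⟨w.ι c, Z_le_Gm hT (w.cen c hc)⟩, mem_ker'.2 (w.cen c hc), w.πι c⟩
  ev := by
    rintro _ ⟨U, hU, rfl⟩ γ ⟨-, c, hc⟩
    exact ⟨c, hc⟩
  smo f := by
    obtain ⟨V, hV, hf⟩ := ex_lev hT f
    obtain ⟨m, hm⟩ := w.op V hV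
    refine ⟨_, Wg_mem (hU.set hT hV), m, (tw w hT D.ι).mem_K.2 fun g hg => ac_fix hV hf ?_⟩
    rw [← aw_mul w g]
    exact mul_mem (hU.aw_set hT hV hg.1.1)
      ((sup_le hm fun k hk => Z_le hV (w.cen k hk) : _ ≤ V.comap w.ι) hg.2)
  cff := by
    rintro _ ⟨U, hU, rfl⟩ V hV
    have h1 := hU.set_lev hT hV
    haveI := cff_KX hT h1 1
    rw [U_Wg hU.lev hV.z (ll_le ha hV)]
    exact cff_of_equiv (kE (KX_le hT h1 1) fun _ => mem_K h1)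
  gal := by
    rintro _ ⟨U, hU, rfl⟩ V hV σ hσ
    have h1 := hU.set_lev hT hV
    rw [U_Wg hU.lev hV.z (ll_le ha hV)] at hσ ⊢
    exact gal D.ι h1 (hU.set_neat hV) σ fun f hf => hσ f ((mem_K h1).2 hf)
  neat := by
    rintro _ ⟨U, hU, rfl⟩ g γ hγ y hy
    obtain ⟨x, τ, rfl⟩ := ex_sm (hT := hT) w y
    obtain ⟨β, h1, h2⟩ := mem_St.1 (st_sm.1 hy)
    have hV := hT.conj U hU.lev (w.ι g)
    have h3 : (γ : G) ∈ cj (w.ι g) U :=
      hU.set_Vx g ▸ (mem_set' hU.lev (Mx.Z_le_cj g le_sup_right)).2 ⟨hγ.1.1, hγ.2⟩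
    have h4 := neat_cj hU.neat (w.ι g) (x : G)⁻¹ β (T.mem_Gam.2 (by
      have := mul_mem h3 (Z_le hV (inv_mem h2))
      rw [← Z_conj hT (inv_mem h2) (x : G)⁻¹] at this
      convert this using 1
      simp only [Subgroup.coe_mul, Subgroup.coe_inv]
      group)) τ h1
    have h5 := mul_mem ((hT.z0 β).1 h4) h2
    rw [mul_inv_cancel_left, ← Z_conj hT h5 (x : G)⁻¹] at h5
    exact mem_ker'.2 (by simpa [mul_assoc] using h5)
  gen2 := by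
    rintro _ ⟨U, hU, rfl⟩ V hV _
    have h1 := hU.set_lev hT hV
    haveI := cff_KX hT h1 1
    let e := kE (M := (tw w hT D.ι).K ((tw w hT D.ι).U (Wg w hT D.ι U) V)) (KX_le hT h1 1)
      fun _ => by rw [U_Wg hU.lev hV.z (ll_le ha hV)]; exact mem_K h1
    exact (T.gen _ (hT.fu _ h1 1) (hU.set_neat hV 1)).trans_eq
      (gen_eq e.toRingEquiv (RingEquiv.refl (Cx D.ι)) e.commutes)
  nb g := (hb g).elim fun γ h => ⟨jm' hT γ, h⟩
  ex := by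
    obtain ⟨τ, x, h⟩ := ho
    exact ⟨_, hyp_of_ord ha hf hU h⟩
  cm y hy := by
    obtain ⟨g, τ, x, rfl, h⟩ := ord_of_hyp' ha hy
    exact ⟨_, _, cm_sm (cm_of_ord ha hd h) g⟩

end ok

/-- the algebra structure of an embedding -/
@[reducible] def alg (D : Emb w p) : Algebra K (Cx D.ι) :=
  ((Cx.of D.ι : ℂ →+* Cx D.ι).comp D.e).toAlgebra

theorem alg_eq (D : Emb w p) (c : K) :
    @algebraMap K (Cx D.ι) _ _ (alg D) c = Cx.of D.ι (D.e c) := rfl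

end Vale.Agent.P022K.FI.Br
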