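import Vale.Agent.P022K.FI.Good2

/-!
# P022K FI: isomorphisms of curves with good reduction
-/

set_option linter.unusedSectionVars false
set_option linter.style.haveILetI false

noncomputable section

namespace Vale.Agent.P022K.FI

open P025H373 P025H746 P025H458 Vale.Agent.P019P
open Vale.Agent.P027M

variable {C K K' : Type} [NontriviallyNormedField C] [IsUltrametricDist C] [IsAlgClosed C]
  [Field K] [Algebra C K] [CFF C K] [Field K'] [Algebra C K'] [CFF C K']

theorem good_equiv (hC : Sph C) (hn : ∀ r : ℝ, 0 ≤ r → ∃ x : C, ‖x‖ = r) {η : NV C K}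
    {η' : NV C K'} {T : K} {T' : K'} (h : G.Good η T) (h' : G.Good η' T') (h2 : 2 ≤ gen C K)
    (e : K ≃+* K') (e0 : C ≃+* C) (he : ∀ a, e (algebraMap C K a) = algebraMap C K' (e0 a))
    (hi : ∀ c, ‖e0 c‖ = ‖c‖) (x : K) : η' (e x) = η x :=
  haveI := cff_of_overG h.og
  haveI := cff_of_overG h'.og
  good_fixed hC hn e he hi h.gen ((h2.trans_eq (gen_eq e e0 he)).trans h'.gen) x

theorem res_equiv {η : NV C K} {η' : NV C K'} (e : K ≃+* K') (e0 : C ≃+* C)
    (he : ∀ a, e (algebraMap C K a) = algebraMap C K' (e0 a)) (hi : ∀ c, ‖e0 c‖ = ‖c‖)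
    (h : ∀ x, η' (e x) = η x) : ∃ (t0 : kC C ≃+* kC C) (t : kap η ≃+* kap η'),
      (∀ c, cred (e0 c) = t0 (cred c)) ∧
      (∀ a, t (algebraMap (kC C) (kap η) a) = algebraMap (kC C) (kap η') (t0 a)) ∧
      ∀ x, η'.red (e x) = t (η.red x) :=
  ⟨kEq e0 hi, resEq e h, fun c => (kEq_cred hi c).symm, resEq_const e h he hi,
    fun x => (resEq_red e h x).symm⟩

end Vale.Agent.P022K.FI
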