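import Vale.Agent.P022K.FI.Na2

/-!
# P022K, block FI: row NOA (the decomposition group on ordinary points)
-/

set_option autoImplicit false
set_option linter.unusedSectionVars false

open UpperHalfPlane WithZero
open scoped MatrixGroups

noncomputable section

namespace Vale.Agent.P022K.FI.Na

open Vale.Agent.P022K.Sh Vale.Agent.P022K.FI.Lv Vale.Agent.P022K.FI.Oc Vale.Agent.P022.H218.L3

variable {G0 G : Type} [Group G0] [Group G] {T : Tw G0 G}
variable {O K : Type} [CommRing O] [IsDomain O] [IsDiscreteValuationRing O] [Field K] [Algebra O K]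
variable {w : T.Lc O K} {e : K →+* ℂ} {τ : ℍ} {x s : G} {U : Subgroup G}
  {σ : ℂ ≃+* ℂ} {θ : (G → Mer) → G → Mer}

theorem same_refl (τ : ℍ) (x : G) : T.Same τ x τ x := ⟨1, 1, one_mem _, by simp, by simp⟩

theorem ord_ker (hx : Ord w e τ x) {g : G} (hg : w.π g = 1) : Ord w e τ (x * g) :=
  hx.right (hg.trans d2_one.symm)

/-- right translations exist -/
theorem ex_rt {g : G} (hg : w.π g = 1) (hU : cj g U = U) : ∃ ρ, IsRt w e U g ρ := by
  refine ⟨fun c => om w e U (ord_ker (c.ord w e) hg), fun τ x h => ?_⟩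
  obtain ⟨γ, u, hu, h1, h2⟩ := pm_eq.1 ((om w e U h).eq w e).symm
  exact pm_eq.2 ⟨γ, g⁻¹ * u * g, mem_cj.1 (hU.symm ▸ hu), h1, by
    rw [show x * g = (T.j γ * _ * u) * g from congrArg (· * g) h2]; group⟩

/-- there are infinitely many ordinary points on every component -/
theorem op_inf (hT : T.Ok) (hE : EXO w e) (hA : ∀ τ x, Ord w e τ x → Ari w τ x) (hU : U ∈ T.Lev)
    (h : w.At (KK O K) U) (y : G) : {c : OP w e U | PU.cp T c.1 = cm T U y}.Infinite := by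
  obtain ⟨τ, x₀, h0⟩ := hE.1
  obtain ⟨g, g1, g2⟩ := hE.2 U hU h x₀ y
  have hx := ord_ker h0 g1
  generalize x₀ * g = x at *
  obtain ⟨P, -⟩ := (hA τ x hx).two
  obtain ⟨V, hV, k1⟩ := ex_lev P hT 0
  intro hf
  have := hf.to_subtype
  have := Subgroup.index_ne_zero_iff_finite.1 (hT.fi V hV U hU)
  let f : ℕ → {c : OP w e U | PU.cp T c.1 = cm T U y} := fun j =>
    ⟨om w e U (ord_ker hx (w_io P (up (P.L.ϖ ^ (j + 1))⁻¹))), (cm_io P hU x _).trans g2⟩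
  choose γ u hu r1 r2 using fun j => pm_eq.1 ((f j).1.eq w e).symm
  obtain ⟨i, k, hik, e1⟩ := Finite.exists_ne_map_eq_of_infinite
    fun j => (f j, ((⟨u j, hu j⟩ : U) : U ⧸ V.subgroupOf U))
  obtain ⟨e2, e3⟩ := Prod.mk.inj e1
  refine hik (pts_inj P hT (U := V) (fun u hu => sup_le_sup_right (Km_le 0) _ (k1 u hu))
    (pm_eq.2 ⟨γ k * (γ i)⁻¹, (u i)⁻¹ * u k, QuotientGroup.eq (s := V.subgroupOf U).1 e3, ?_, ?_⟩))
  · have a := r1 i
    rw [e2] at a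
    rw [map_mul, map_inv, mul_smul, inv_smul_eq_iff.2 a]
    exact r1 k
  · have a := r2 i
    rw [e2] at a
    rw [show x * io P _ = _ from a, show x * io P _ = _ from r2 k, map_mul, map_inv]
    group

variable [T.Z.Normal]

/-- **CMT**: the image of an ordinary point -/
theorem cmt (hT : T.Ok) (hP : T.PTS) (hM : MUL T) (hJ : CJ T) (hc : Cmp w e) (hθ : T.Sl σ θ)
    (hσ : ∀ c, σ (e c) = e c) (hx : Ord w e τ x) : ∃ s, Cent T τ x s ∧ T.Pt σ θ τ x τ (x * s) := by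
  have key : ∀ τ' x', T.Pt σ θ τ x τ' x' → ∀ γ, T.r γ • τ = τ → ∃ γ', T.r γ' • τ' = τ' ∧
      lc T x' γ' * (lc T x γ)⁻¹ ∈ T.Z ∧ T.mu γ' τ' = T.mu γ τ := fun τ' x' p γ hγ => by
    obtain ⟨p1, p2, -⟩ := (hP.1 σ θ hθ τ x).2 τ' x' p
    obtain ⟨γ', z, hz, r1, r2⟩ := (p2 τ (x * lc T x γ) _ _
      ⟨γ, 1, one_mem _, hγ.symm, by rw [lc]; group⟩).1 (p1 (lc T x γ))
    have r3 : lc T x' γ' * (lc T x γ)⁻¹ ∈ T.Z := by
      rw [show lc T x γ = lc T x' γ' * z by rw [eq_inv_mul_iff_mul_eq.2 r2, lc]; group, mul_inv_rev,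
        ← mul_assoc, Subgroup.mem_center_iff.1 (hT.zc (inv_mem hz)), mul_inv_cancel_right]
      exact inv_mem hz
    obtain ⟨a, d, -, r4⟩ := hx.all hT hc hγ
    refine ⟨γ', r1.symm, r3, (hM σ θ hθ τ x τ' x' p γ γ' hγ r1.symm r3).trans ?_⟩
    rw [mu_eq, eq_inv_of_mul_eq_one_left r4, map_inv₀, hσ]
  obtain ⟨⟨τ', x', p⟩, p0⟩ := hP.1 σ θ hθ τ x
  obtain ⟨γ, a, d, h1, -, h3, h4⟩ := id hx
  obtain ⟨γ', r1, -, r3⟩ := key τ' x' p γ h1
  obtain ⟨δ, rfl⟩ := hJ γ γ' τ τ' h1 r1 r3.symm fun h => sm_sq_ne w h3 (e.injective (by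
    have := congrArg (· ^ 2) h4
    rwa [mul_pow, ← mu_eq, h, one_mul, ← map_pow, one_pow, ← map_one e] at this))
  have p' : T.Pt σ θ τ x τ (x * (x⁻¹ * ((T.j δ)⁻¹ * x'))) :=
    ((p0 _ x' p).2.1 τ x _ _ (same_refl τ x)).2 ⟨δ⁻¹, 1, one_mem _, by simp, by simp⟩
  refine ⟨_, fun β hβ => ?_, p'⟩
  generalize x⁻¹ * ((T.j δ)⁻¹ * x') = s at *
  obtain ⟨β', q1, q2, q3⟩ := key _ _ p' β hβ
  have q4 : lc T x β' * (lc T x β)⁻¹ ∈ T.Z := by
    rw [← lc_inv, ← lc_mul]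
    refine lc_Z hT x ((mem_Z0 T).2 (fix_of_mu (τ := τ) ?_ ?_))
    · rw [map_mul, mul_smul, fix_inv hβ, q1]
    · rw [map_mul, mu_mul, fix_inv hβ, map_inv, mu_inv hβ, ← mu_eq, q3]
      exact mul_inv_cancel₀ (mu_ne _ _)
  have a1 : Qz T (lc T x β') = Qz T (lc T x β) := QuotientGroup.eq_iff_div_mem.2 (by
    rwa [div_eq_mul_inv])
  have a2 : Qz T (lc T (x * s) β') = Qz T (lc T x β) := QuotientGroup.eq_iff_div_mem.2 (by
    rwa [div_eq_mul_inv])
  rw [lc_right, map_mul, map_mul, map_inv, a1, mul_assoc, inv_mul_eq_iff_eq_mul] at a2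
  exact cz_iff.2 a2.symm

theorem ord_cent (hx : Ord w e τ x) (hs : Cent T τ x s) : Ord w e τ (x * s) :=
  let ⟨_, _, h⟩ := diag_w hx hs
  hx.right h

theorem ex_th (hT : T.Ok) (hP : T.PTS) (hM : MUL T) (hJ : CJ T) (hc : Cmp w e) (hθ : T.Sl σ θ)
    (hσ : ∀ c, σ (e c) = e c) (hU : U ∈ T.Lev) : ∃ th, IsTh w e σ θ U th := by
  choose s s1 s2 using fun c : OP w e U => cmt hT hP hM hJ hc hθ hσ (c.ord w e)
  refine ⟨fun c => om w e U (ord_cent (c.ord w e) (s1 c)), fun τ x h τ' x' p => ?_⟩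
  obtain ⟨γ, u, hu, h1, h2⟩ := pm_eq.1 ((om w e U h).eq w e).symm
  obtain ⟨δ, z, hz, r1, r2⟩ := (((hP.1 σ θ hθ _ _).2 _ _ (((hP.1 σ θ hθ _ _).2 _ _
    (s2 (om w e U h))).1 u)).2.1 τ x τ' x' ⟨γ, 1, one_mem _, h1, by
      rw [mul_one, ← mul_assoc]; exact h2⟩).1 p
  exact pm_eq.2 ⟨δ, _, mul_mem hu ((sInf_le hU : T.Z ≤ U) hz), r1, by
    rw [r2]; simp only [mul_assoc]⟩

theorem th_iter (hP : T.PTS) (hθ : T.Sl σ θ) (hx : Ord w e τ x) (hs : Cent T τ x s)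
    (p : T.Pt σ θ τ x τ (x * s)) {th : OP w e U → OP w e U} (ht : IsTh w e σ θ U th) {y : G}
    (hy : w.π y = 1) (n : ℕ) :
    th^[n] (om w e U (ord_ker hx hy)) = om w e U (ord_ker (ord_cent hx (cent_pow hs n)) hy) := by
  induction n with
  | zero => exact Subtype.ext (by simp only [om, pow_zero, mul_one]; rfl)
  | succ n ih =>
    rw [Function.iterate_succ_apply', ih]
    refine Subtype.ext ((ht _ _ _ τ (x * s * (s ^ n * y)) ?_).trans ?_)
    · simpa only [mul_assoc] using ((hP.1 σ θ hθ τ x).2 _ _ p).1 (s ^ n * y)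
    · simp only [om, pow_succ', mul_assoc]

end Vale.Agent.P022K.FI.Na

namespace Vale.Agent.P022K.FI

open Vale.Agent.P022K.Sh Na Lv

/-- **NOA** -/
theorem noa : NOA := by
  intro G0 G _ _ T hT hP hM hF hZ hJ O K _ _ _ _ _ w e hc hA σ θ hθ hσ
  have := Z_normal hT
  refine ⟨fun U hU => ex_th hT hP hM hJ hc hθ hσ hU, fun d hB U hU hn h th ht y => ?_⟩
  induction y using OP.ind with | _ τ x hx => ?_
  obtain ⟨s, hs, p⟩ := cmt hT hP hM hJ hc hθ hσ hx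
  obtain ⟨a, b, hd⟩ := diag_w hx hs
  have e1 : ∀ n, tt w ^ n = d2 1 (w.ϖ ^ n) := fun n => by rw [tt, d2_pow, one_pow]
  have c1 : Cent T τ x (s * w.ι (tt w ^ d)⁻¹) :=
    cent_mul hs (by rw [e1, d2_inv]; exact cent_iota hT hc hx _ _)
  have c2 : Commute s (w.ι (tt w ^ d)⁻¹) :=
    comm_iota w (by rw [hd, e1, d2_inv]; exact d2_comm _ _ _ _)
  obtain ⟨γ, κ, k1, z, k2, k3, k4⟩ := noaut G0 G T hT hF hZ O K w e hc τ x hx (hA τ x hx)
    ⟨U, hU, hn, h⟩ _ c1 fun V hV vn vh => by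
      classical
      obtain ⟨tv, htv⟩ := ex_th hT hP hM hJ hc hθ hσ hV
      obtain ⟨B, hB⟩ := hB V hV vn vh tv htv
      refine ⟨B, fun n g g1 g2 c S s1 s2 => ?_⟩
      obtain ⟨ρ, hρ⟩ := ex_rt (e := e) g1 g2
      have key : ∀ y (hy : w.π y = 1), pm T V τ (x * (s * w.ι (tt w ^ d)⁻¹) ^ n * y) =
          pm T V τ (x * y * g) ↔ tv^[n] (om w e V (ord_ker hx hy)) =
            (fw w e V)^[d * n] (ρ (om w e V (ord_ker hx hy))) := fun y hy => by
        have o1 := ord_ker (ord_cent hx (cent_pow c1 n)) hy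
        have o2 := ord_ker (ord_ker hx hy) g1
        have e2 : x * (s * w.ι (tt w ^ d)⁻¹) ^ n * y * w.ι (tt w ^ (d * n)) = x * s ^ n * y := by
          rw [c2.mul_pow, mul_assoc, ← (w.com _ y hy).eq, ← map_pow, inv_pow, ← pow_mul, map_inv]
          group
        rw [th_iter hP hθ hx hs p htv hy, show ρ (om w e V (ord_ker hx hy)) = om w e V o2 from
          Subtype.ext (hρ _ _ _), show om w e V (ord_ker (ord_cent hx (cent_pow hs n)) hy) =
            (fw w e V)^[d * n] (om w e V o1) from by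
              rw [fw_iter hT hc]
              exact Subtype.ext (congrArg (pm T V τ) e2.symm),
          ((fw_inj hT hc V).iterate _).eq_iff]
        exact (Subtype.ext_iff (a1 := om w e V o1) (a2 := om w e V o2)).symm
      intro y hy hc'
      refine (key y hy).2 (hB n g g1 g2 ρ hρ c (S.subtype _) ?_ (fun y' hy' => ?_) _ hc')
      · refine s1.trans_eq ((Finset.card_subtype _ S).trans
          (congrArg _ (Finset.filter_true_of_mem fun y hy => ?_))).symm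
        obtain ⟨y', r1, -, r3, -⟩ := s2 y hy
        exact ⟨_, _, r3, ord_ker hx r1⟩
      · obtain ⟨y'', r1, r2, r3, r4⟩ := s2 _ (Finset.mem_subtype.1 hy')
        obtain rfl : y' = om w e V (ord_ker hx r1) := Subtype.ext r3
        exact ⟨r2, (key _ r1).1 r4⟩
  have := hx.pm_d2 hT hc (ord_cent hx c1) (pm_eq.2 ⟨γ, _, mul_mem ((h.iff hU).2 k1)
    ((sInf_le hU : T.Z ≤ U) k2), k3.symm, by rw [k4, lc]; group⟩) 1 (w.ϖ ^ d)
  rw [← e1, map_inv, mul_assoc, inv_mul_cancel_right] at this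
  rw [fw_iter hT hc]
  exact Subtype.ext ((ht _ _ hx _ _ p).trans this.symm)

end Vale.Agent.P022K.FI
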