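import Vale.Agent.P022K.FI.Res2
import Vale.Agent.P022K.FI.Mx
import Vale.Agent.P022K.FI.Gnn
import Vale.Agent.P022K.FI.Twr

/-!
# P022K, block FI, row UPI: the norm and the branch determine the centre of a basin
-/

set_option autoImplicit false
set_option linter.unusedSectionVars false
set_option linter.style.haveILetI false

open PowerSeries Vale.Agent.P019P P025H746 P025H492
open scoped MatrixGroups LaurentSeries

noncomputable section

namespace Vale.Agent.P022K.FI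

open Vale.Agent.P022K.Sh Mx

namespace Res

section mat

variable {O E : Type} [CommRing O] [IsDomain O] [IsDiscreteValuationRing O] [Field E] [Algebra O E]
  {C : Type} [NontriviallyNormedField C] [IsUltrametricDist C] [Algebra E C] {ϖ : Eˣ}

theorem mul_ent (k k' : GL (Fin 2) E) (i j : Fin 2) :
    (k * k' : GL (Fin 2) E) i j = k i 0 * k' 0 j + k i 1 * k' 1 j := by
  simp [Matrix.mul_apply, Fin.sum_univ_two]

theorem un_KZ (hF : LF O C ϖ) {c : E} {m : GL (Fin 2) E} (h1 : m 1 0 = 0) (h2 : m 0 1 = 0)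
    (h : un c * m ∈ KZ O E) : un c ∈ KZ O E := by
  rw [mem_KZ hF] at h
  have h3 := h 0 0
  have h4 := h 0 1
  have h5 := h 1 1
  have h6 := det_ne m
  rw [det_eq] at h3 h4 h5
  simp only [mul_ent, un_val, h1, h2] at h3 h4 h5 h6
  simp at h3 h4 h5 h6
  have h7 : 0 < nn C (m 0 0) := nn_pos h6.1
  have h8 : 0 < nn C (m 1 1) := nn_pos h6.2
  rw [un_mem_KZ hF]
  simp only [nn_mul] at h3 h4 h5
  have h9 : nn C (m 0 0) ≤ nn C (m 1 1) := by nlinarith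
  have h10 : (nn C c * nn C (m 1 1)) ^ 2 ≤ (1 * nn C (m 1 1)) ^ 2 := by nlinarith
  exact le_of_mul_le_mul_right (le_of_sq_le_sq h10 (by positivity)) h8

theorem np_zero (hF : LF O C ϖ) (g : GL (Fin 2) E) : Np O g (ϖ ^ (0 : ℤ)) (Vx O g) := by
  have := np_Vx hF g (le_refl (0 : ℤ))
  rwa [inf_idem, zpow_zero, dg_one, mul_one, ← zpow_zero ϖ] at this

end mat

variable {C L Γ O E : Type} [NontriviallyNormedField C] [IsUltrametricDist C] [CompleteSpace C]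
  [IsAlgClosed C] [CharZero C] [Field L] [Algebra C L] [Group Γ] [CommRing O] [IsDomain O]
  [IsDiscreteValuationRing O] [Field E] [Algebra O E] [Algebra E C] {A : AT C L Γ O E}

theorem ov_sm (hA : A.Ok) {g : GL (Fin 2) E} {ε : ℤ → L →ₐ[C] C⸨X⸩} {n : ℤ} {a : C} {y : Plk C L}
    (h : A.Ov g ε n a y) (γ : Γ) :
    A.Ov (A.π γ * g) (fun n => (ε n).comp (A.act γ⁻¹ : L →ₐ[C] L)) n a (A.sm γ y) :=
  ⟨h.1, fun f hf c Dv hD => h.2 (A.act γ⁻¹ f)
    ((Gn.Ln_act hA g n γ _).2 (by rwa [A.act_inv'])) c Dv hD⟩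

end Res

open Res

variable {C L Γ O E : Type} [NontriviallyNormedField C] [IsUltrametricDist C] [CompleteSpace C]
  [IsAlgClosed C] [CharZero C] [Field L] [Algebra C L] [Group Γ] [CommRing O] [IsDomain O]
  [IsDiscreteValuationRing O] [Field E] [Algebra O E] [Algebra E C] {A : AT C L Γ O E}

/-- **UPI** -/
theorem upi (hA : A.Ok) (hH : A.HYP) (hC : A.CAL) (hF : A.FRM) (hO : A.OVU) (hS : A.SIG)
    (hD : A.DSC) : A.UPI := by
  intro D hD0 x θ g b ε x' θ' g' b' ε' B B' hg W hW η z G G' R R'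
  have hV := ll_Vx hA.lf g
  have hL := AT.lv_U hW hV
  haveI := hL.cff hA
  obtain ⟨j, h1, h2⟩ := hD D hD0 _ _ _ _ _ B 0 W hW _ hV (np_zero hA.lf g)
  obtain ⟨j', h1', h2'⟩ := hD D hD0 _ _ _ _ _ B' 0 W hW _ hV (Vx_eq hg ▸ np_zero hA.lf g')
  have h3 := bd hA.gf _ _ _ _ _ η z h1 h1' G G' R R'
  have h4 := (hC D hD0 _ _ _ _ _ B').2.2.1 0
  obtain ⟨a, ha, h5⟩ : j' 0 ∈ j '' {a | ‖a‖ < 1} := h3 ▸ ⟨0, by simp, rfl⟩
  obtain ⟨y, hy⟩ := ((hO D hD0 _ _ _ _ _ B 0).1 a ha).1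
  have h6 := h2 a y hy
  have h7 := h2' 0 x' h4
  rw [h5] at h6
  obtain ⟨u, hu, -, h8⟩ := hL.conj hA le_rfl (y := y) (y' := x')
    fun f hf => (h6 ⟨f, hf⟩).symm.trans (h7 ⟨f, hf⟩)
  have B1 := (hF D hD0 _ _ _ _ _ B).1 u
  obtain ⟨γ, hγ, c, h9, h10⟩ := hS D hD0 _ _ _ _ _ _ _ _ _ _ B1 B' 0 a 0 0 x' (h8 ▸ ov_sm hA hy u) h4
  have B2 := (hF D hD0 _ _ _ _ _ B1).1 γ
  rw [← h10] at B2
  obtain ⟨h11, h12⟩ := (hH _ _ _ B2.cm).2.2 _ _ B'.cm
  have h13 : g⁻¹ * (A.π u * g) ∈ KZ O E := by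
    rw [← mul_assoc]
    exact mem_cj.1 hu.2
  obtain ⟨ζ, h14⟩ := fm_iff.1 h9
  have h15 : un c ∈ KZ O E := by
    refine un_KZ hA.lf (m := (A.π γ * (A.π u * g))⁻¹ * g' * sc ζ) (by rw [mul_sc, h11, zero_mul])
      (by rw [mul_sc, h12, zero_mul]) ?_
    convert mul_mem (inv_mem h13) hg using 1
    have e : A.π γ * (A.π u * g) = Mx.sc ζ * (A.π u * g * un c) := by
      rw [h14, Gn.zl_comm (sc_mem ζ)]
      group
    have e' : g' * Mx.sc ζ = (A.π u * g * un c) * Mx.sc ζ * (A.π u * g * un c)⁻¹ * g' := by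
      rw [Gn.zl_conj' (sc_mem ζ), Gn.zl_comm (sc_mem ζ)]
    rw [e, mul_assoc _ g', e', ← Gn.zl_comm (sc_mem ζ)]
    group
  refine ⟨γ * u, mul_mem ⟨Gn.mem_H.1 hγ W hW, ?_⟩ hu, by rw [A.sm_mul, h10]⟩
  show A.π γ ∈ Vx O g
  rw [← Vx_eq h13]
  exact (h9.mem_cj le_sup_right).2 h15

end Vale.Agent.P022K.FI
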