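import Vale.Agent.P022K.FI.St3
import Vale.Agent.P022K.FI.AllB
import Vale.Agent.P022K.FI.Upi
import Vale.Agent.P022K.FI.Good3
import Vale.Agent.P022K.FI.Br3
import Vale.Agent.P022K.FI.Na3

/-!
# P022K, block FI, row INJX: reduction is injective on ordinary points
-/

set_option autoImplicit false
set_option linter.unusedSectionVars false
set_option linter.style.haveILetI false

open PowerSeries Vale.Agent.P019P P025H746 Module Function UpperHalfPlane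
open scoped MatrixGroups LaurentSeries

noncomputable section

namespace Vale.Agent.P022K.FI

open Vale.Agent.P022K.Sh Vale.Agent.P027M

namespace Ij

section free

variable {C K K' : Type} [NontriviallyNormedField C] [IsUltrametricDist C] [CompleteSpace C]
  [IsAlgClosed C] [CharZero C] [Field K] [Algebra C K] [CFF C K] [Field K'] [Algebra C K']
  [CFF C K'] {ε : K' →ₐ[C] C⸨X⸩} {j : C → Plk C K'} {η : NV C K} {η' η₁ : NV C K'}

/-- a disc has one Gauss norm -/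
theorem gs_unique (h : Dsc ε j) (h1 : Gs ε η') (h2 : Gs ε η₁) : η' = η₁ :=
  NV.ext (AbsoluteValue.ext fun f => by
    by_cases h0 : f = 0
    · rw [h0, map_zero, map_zero]
    obtain ⟨c, D, hc, -⟩ := h.fac f h0
    exact (h1 f c D hc).trans (h2 f c D hc).symm)

theorem gs_cff (hG : GF C) (h : Dsc ε j) (h1 : Gs ε η') : CFF (kC C) (kap η') := by
  obtain ⟨η₀, h2, h3, -⟩ := bra hG K' ε j h
  exact gs_unique h h1 h2 ▸ h3

/-- transport of a disc -/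
theorem dsc_pull (e : K ≃ₐ[C] K') (h : Dsc ε j) : Dsc (ε.comp (e : K →ₐ[C] K'))
    fun a => (plEquiv e.toRingEquiv (RingEquiv.refl C) e.commutes).symm (j a) where
  fac f hf := by
    obtain ⟨c, D, h1, h2⟩ := h.fac (e f) ((map_ne_zero e).2 hf)
    refine ⟨c, D, h1, fun a ha => ?_⟩
    rw [← ord_plEquiv e.toRingEquiv (RingEquiv.refl C) e.commutes, Equiv.apply_symm_apply]
    exact h2 a ha
  inj a ha b hb hab := h.inj ha hb ((Equiv.injective _) hab)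

/-- the reduction of a point of a disc is the branch of the disc -/
theorem brn_of (hG : GF C) (hS : SPB C) (e : K ≃ₐ[C] K') (h : Dsc ε j) (hg : Gs ε η')
    (he : ∀ y, η' (e y) = η y) [CFF (kC C) (kap η)] {s : Plk C K → Plk (kC C) (kap η)}
    (hs : Gs.IsSp η s) {P : Plk C K} {a : C} (ha : ‖a‖ < 1) (hP : ∀ f, f ∈ P.1 ↔ e f ∈ (j a).1) :
    Brn (ε.comp (e : K →ₐ[C] K')) η (s P) := by
  have h1 := dsc_pull e h
  have h2 : Gs (ε.comp (e : K →ₐ[C] K')) η := fun f c D hf => (he f).symm.trans (hg _ c D hf)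
  obtain ⟨η₀, h3, _, z, h4, -⟩ := bra hG K _ _ h1
  obtain rfl := gs_unique h1 h2 h3
  have h5 : P = (plEquiv e.toRingEquiv (RingEquiv.refl C) e.commutes).symm (j a) :=
    Subtype.ext (ValuationSubring.ext _ _ hP)
  rw [h5, hS hG K _ _ η z s h1 h2 h4 hs a ha]
  exact h4

/-- transport of a branch -/
theorem brn_push (e : K ≃ₐ[C] K') (he : ∀ y, η' (e y) = η y) [CFF (kC C) (kap η)]
    [CFF (kC C) (kap η')] (R : Plk (kC C) (kap η)) : ∃ z : Plk (kC C) (kap η'),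
      ∀ ε : K' →ₐ[C] C⸨X⸩, Brn (ε.comp (e : K →ₐ[C] K')) η R → Brn ε η' z := by
  refine ⟨plEquiv (resEq e.toRingEquiv he) (kEq (RingEquiv.refl C) fun _ => rfl)
    (resEq_const e.toRingEquiv he e.commutes fun _ => rfl) R, fun ε h f c D h1 h2 => ?_⟩
  obtain ⟨f, rfl⟩ := e.surjective f
  rw [AuxFAct.mem_plEquiv, ← h f c D h1 h2]
  exact iff_of_eq (congrArg (· ∈ R.1)
    ((RingEquiv.symm_apply_eq _).2 (resEq_red e.toRingEquiv he f).symm))

end free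

open Hk Br

variable {G0 G : Type} [Group G0] [Group G] {T : Tw G0 G} {hT : T.Ok} {O K : Type} [CommRing O]
  [IsDomain O] [IsDiscreteValuationRing O] [Field K] [Algebra O K] {w : T.Lc O K} {p : ℕ}
  [Fact p.Prime] {D : Emb w p} [Algebra K (Cx D.ι)] {A : AT (Cx D.ι) (LW T) (Gm hT) O K}
  {U : Subgroup G}

theorem mem_K (d : Dic hT D A) (hU : U ∈ T.Lev) (x : G) (f : LW T) :
    f ∈ A.K ((cj x U).subgroupOf (Gm hT)) ↔ f.1 ∈ KX T U x := by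
  rw [A.mem_K, d.act, fix_iff D.ι (hT.conj U hU x), KX_cj]

theorem ord_of_pm {y : OP w D.e U} {τ : ℍ} {x : G} (h : y.1 = pm T U τ x) :
    ∃ u ∈ U, Ord w D.e τ (x * u) := by
  obtain ⟨τ₀, x₀, h1, h2⟩ := y.2
  obtain ⟨γ, u, hu, rfl, rfl⟩ := pm_eq.1 (h1.symm.trans h)
  exact ⟨u⁻¹, inv_mem hu, by rw [mul_inv_cancel_right]; exact h2.left γ⟩

theorem pm_of_sm (d : Dic hT D A) (hU : U ∈ T.Lev) {x : G} {g : Gm hT} (hg : (g : G) ∈ cj x U)
    {τ τ' : ℍ} (h : plL hT D.ι τ' = A.sm g (plL hT D.ι τ)) : pm T U τ x = pm T U τ' x := by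
  obtain ⟨γ, h1, h2⟩ := (stab_iff (hT := hT) (g := g) (τ := τ) (τ' := τ')).1 fun f => by
    rw [← mem_plL (hT := hT) D.ι, ← mem_plL (hT := hT) D.ι, h, A.mem_sm, d.act, aL_apply]
  refine pm_eq.2 ⟨γ, x⁻¹ * ((T.j γ)⁻¹ * g) * x * (x⁻¹ * g * x)⁻¹,
    mul_mem ?_ (inv_mem (mem_cj.1 hg)), h1.symm, by group⟩
  rw [Z_conj hT h2]
  exact Z_le hU h2

end Ij

open Ij Hk Br

variable {G0 G : Type} [Group G0] [Group G] {T : Tw G0 G} {hT : T.Ok} {O K : Type} [CommRing O]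
  [IsDomain O] [IsDiscreteValuationRing O] [Field K] [Algebra O K] {w : T.Lc O K} {p : ℕ}
  [Fact p.Prime] {D : Emb w p} [Algebra K (Cx D.ι)] {A : AT (Cx D.ι) (LW T) (Gm hT) O K}

/-- **INJX** -/
theorem injx (hA : A.Ok) (hS : SPB (Cx D.ι)) (hari : ∀ τ x, Ord w D.e τ x → Ari w τ x) :
    INJX hT D A := by
  intro d hE LD hD h1 U hU hn hm _
  refine ⟨fun x η _ ⟨S, hη⟩ y y' τ τ' R e e' ⟨s, P, s1, s2, s3⟩ ⟨s', P', t1, t2, t3⟩ => ?_,
    Na.op_inf hT hE hari hU hm⟩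
  obtain ⟨u, hu, o⟩ := ord_of_pm e
  obtain ⟨u', hu', o'⟩ := ord_of_pm e'
  obtain ⟨W, hW, k⟩ := d.lev U hU hn hm x
  have k1 := k 1
  rw [mul_one, map_one, mul_one] at k1
  have m : ∀ u ∈ U, (w.π x)⁻¹ * w.π (x * u) ∈ KZ O K := fun u hu => by
    rw [map_mul, inv_mul_cancel_left]
    exact hm.2 u hu
  have m' : (w.π (x * u))⁻¹ * w.π (x * u') ∈ KZ O K := by
    convert mul_mem (inv_mem (m u hu)) (m u' hu') using 1
    group
  rw [← Mx.Vx_eq (m u hu)] at k1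
  obtain ⟨c1, θ, c2⟩ := d.cm τ _ o
  obtain ⟨c1', θ', c2'⟩ := d.cm τ' _ o'
  generalize w.π (x * u) = g at *
  generalize w.π (x * u') = g' at *
  obtain ⟨b, ε, B⟩ := hA.rBAS LD hD _ _ _ c2 c1
  obtain ⟨b', ε', B'⟩ := hA.rBAS LD hD _ _ _ c2' c1'
  obtain ⟨ν, n, -⟩ := (hA.rNUE LD hD _ _ _ _ _ B).1
  obtain ⟨ν', n', -⟩ := (hA.rNUE LD hD _ _ _ _ _ B').1
  have hV := Mx.ll_Vx hA.lf g
  haveI := hA.cff W hW _ hV
  have np := Res.np_zero hA.lf g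
  have np' : Np O g' (A.ϖ ^ (0 : ℤ)) (Vx O g) := Mx.Vx_eq m' ▸ Res.np_zero hA.lf g'
  obtain ⟨j, j1, j2⟩ := hA.rDSC LD hD _ _ _ _ _ B 0 W hW _ hV np
  obtain ⟨j', j1', j2'⟩ := hA.rDSC LD hD _ _ _ _ _ B' 0 W hW _ hV np'
  obtain ⟨q1, q2⟩ := h1 W hW ν g ⟨_, _, _, _, B, n⟩
  have g1 : Gs ((ε 0).comp (A.Kv W g).val) (ν.comap (A.Kv W g)) := fun f c E hf =>
    n 0 f ((hA.rGNN g 0).2.2.1 W hW _ hV np f.2) c E hf
  have g1' : Gs ((ε' 0).comp (A.Kv W g).val) (ν.comap (A.Kv W g)) := fun f c E hf =>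
    (q1 ν' g' ⟨_, _, _, _, B', n'⟩ m' f f.2).symm.trans
      (n' 0 f ((hA.rGNN g' 0).2.2.1 W hW _ hV np' f.2) c E hf)
  haveI := gs_cff hA.gf j1 g1
  let i : KX T U x ≃ₐ[Cx D.ι] A.Kv W g := kE (KX_le hT hU x) fun f => by
    rw [AT.Kv, k1]
    exact mem_K d hU x f
  have he : ∀ f, ν.comap (A.Kv W g) (i f) = η f :=
    good_fixed (s := RingEquiv.refl _) hA.gf.sph hA.gf.onto i.toRingEquiv i.commutes (fun _ => rfl)
      hη.gen ((hA.gen2 W hW _ hV).trans q2)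
  have r := brn_of hA.gf hS i j1 g1 he s1 (P := P) (a := 0) (by simp) fun f =>
    ((atP_iff hT hU).1 s2 f).trans (j2 0 _ ((hA.rCAL LD hD _ _ _ _ _ B).2.2.1 0) (i f)).symm
  have r' := brn_of hA.gf hS i j1' g1' he t1 (P := P') (a := 0) (by simp) fun f =>
    ((atP_iff hT hU).1 t2 f).trans (j2' 0 _ ((hA.rCAL LD hD _ _ _ _ _ B').2.2.1 0) (i f)).symm
  obtain ⟨z, hz⟩ := brn_push i he R
  obtain ⟨v, v1, v2⟩ := upi hA hA.rHYP hA.rCAL hA.rFRM hA.rOVU hA.rSIG hA.rDSC LD hD _ _ _ _ _ _ _ _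
    _ _ B B' m' W hW _ z g1 g1' (hz _ (s3 ▸ r)) (hz _ (t3 ▸ r'))
  rw [k1] at v1
  exact Subtype.ext (e.trans ((pm_of_sm d hU v1 v2).trans e'.symm))

end Vale.Agent.P022K.FI
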