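import Vale.Agent.P025.R2.H816.J05

/-!
# P022K, block FI: coincidence points of two maps of curves, fixed points of automorphisms
-/

set_option autoImplicit false
set_option linter.unusedSectionVars false

namespace Vale.Agent.P022K.FI

open Vale.Agent.P019P

variable {k E F : Type*} [Field k] [Field E] [Field F] [Algebra k E] [Algebra k F] [CFF k F]

/-- the places of `F` which induce the same valuation ring of `E` along `a` and along `b` -/
def Coinc (a b : E →ₐ[k] F) : Set (Plk k F) := {P | ∀ z, a z ∈ P.1 ↔ b z ∈ P.1}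

theorem dg_pol_nonneg (x : F) : 0 ≤ dg (pol k x) := by
  have := dg_mono (pol_nonneg (k := k) x)
  rwa [map_zero] at this

/-- the number of poles -/
theorem card_poles_le (x : F) (S : Finset (Plk k F)) (hS : ∀ P ∈ S, ord P x < 0) :
    (S.card : ℤ) ≤ dg (pol k x) := by
  classical
  rw [dg_eq_sum (S := S ∪ (pol k x).support) fun P hP =>
    Finsupp.notMem_support_iff.1 fun h => hP (Finset.mem_union_right _ h)]
  calc (S.card : ℤ) = ∑ _P ∈ S, (1 : ℤ) := by simp
    _ ≤ ∑ P ∈ S, pol k x P := Finset.sum_le_sum fun P hP => by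
        have := hS P hP
        rw [pol_apply]
        omega
    _ ≤ _ := Finset.sum_le_sum_of_subset_of_nonneg Finset.subset_union_left
        fun P _ _ => pol_nonneg x P

theorem dg_pol_inv (x : F) : dg (pol k x⁻¹) = dg (pol k x) := by
  have h := dg_dv (k := k) x
  rw [dv_eq_pol_sub, map_sub] at h
  omega

/-- the number of zeros -/
theorem card_zeros_le (x : F) (S : Finset (Plk k F)) (hS : ∀ P ∈ S, 0 < ord P x) :
    (S.card : ℤ) ≤ dg (pol k x) := by
  rw [← dg_pol_inv]
  exact card_poles_le _ S fun P hP => by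
    have := hS P hP
    rw [ord_inv]
    omega

theorem pol_sub_le (x y : F) : pol k (x - y) ≤ pol k x + pol k y := by
  intro P
  rw [Finsupp.add_apply, pol_apply, pol_apply, pol_apply]
  by_cases hx : x = 0
  · rw [hx, zero_sub, ord_neg]
    omega
  by_cases hy : y = 0
  · rw [hy, sub_zero]
    omega
  by_cases h : x - y = 0
  · rw [h, ord_zero]
    omega
  have h1 := ord_le_add P hx (neg_ne_zero.2 hy) (by rwa [← sub_eq_add_neg])
  rw [← sub_eq_add_neg, ord_neg] at h1
  omega

theorem dg_pol_sub_le (x y : F) : dg (pol k (x - y)) ≤ dg (pol k x) + dg (pol k y) := by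
  have := dg_mono (pol_sub_le (k := k) x y)
  rwa [map_add] at this

/-- at a coincidence point a regular function has the same value along both maps -/
theorem Coinc.zero {a b : E →ₐ[k] F} {P : Plk k F} (hP : P ∈ Coinc a b) {f : E}
    (hf : a f ∈ P.1) (hne : a f ≠ b f) : 0 < ord P (a f - b f) := by
  obtain ⟨c, hc⟩ := exists_cst P hf
  have key : ∀ (a : E →ₐ[k] F) (z : E), z ≠ 0 → (0 < ord P (a z) ↔ a z⁻¹ ∉ P.1) := by
    intro a z hz
    rw [map_inv₀, mem_iff_ord, ord_inv, inv_eq_zero, map_eq_zero]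
    simp only [hz, false_or]
    omega
  have ea : a (f - algebraMap k E c) = a f - algebraMap k F c := by rw [map_sub, a.commutes]
  have eb : b (f - algebraMap k E c) = b f - algebraMap k F c := by rw [map_sub, b.commutes]
  have hz : f - algebraMap k E c ≠ 0 := by
    intro h
    apply hne
    rw [sub_eq_zero.1 h, a.commutes, b.commutes]
  have ha : 0 < ord P (a (f - algebraMap k E c)) := by
    rcases hc with hc | hc
    · refine absurd ?_ ((map_ne_zero a).2 hz)
      rw [ea, hc, sub_self]
    · rwa [ea]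
  have hb : 0 < ord P (b (f - algebraMap k E c)) := by
    rw [key b _ hz, ← hP, ← key a _ hz]
    exact ha
  have e : a (f - algebraMap k E c) + -b (f - algebraMap k E c) = a f - b f := by
    rw [ea, eb]; ring
  have h1 := ord_le_add P ((map_ne_zero a).2 hz) (neg_ne_zero.2 ((map_ne_zero b).2 hz))
    (by rw [e]; exact sub_ne_zero.2 hne)
  rw [e, ord_neg] at h1
  omega

/-- **the number of coincidence points of two different maps** -/
theorem coinc_card_le {a b : E →ₐ[k] F} {f : E} (hne : a f ≠ b f) (S : Finset (Plk k F))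
    (hS : ∀ P ∈ S, P ∈ Coinc a b) :
    (S.card : ℤ) ≤ 2 * dg (pol k (a f)) + dg (pol k (b f)) := by
  classical
  have h1 := card_zeros_le (a f - b f) (S.filter fun P => a f ∈ P.1) fun P hP =>
    Coinc.zero (hS P (Finset.mem_filter.1 hP).1) (Finset.mem_filter.1 hP).2 hne
  have h2 := card_poles_le (a f) (S.filter fun P => ¬ a f ∈ P.1) fun P hP => by
    have := (Finset.mem_filter.1 hP).2
    rw [mem_iff_ord] at this
    omega
  have h3 := dg_pol_sub_le (k := k) (a f) (b f)
  have h4 := Finset.card_filter_add_card_filter_not (s := S) fun P => a f ∈ P.1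
  omega

theorem coinc_finite {a b : E →ₐ[k] F} (hne : a ≠ b) : (Coinc a b).Finite := by
  obtain ⟨f, hf⟩ : ∃ f, a f ≠ b f := by
    by_contra h
    push Not at h
    exact hne (AlgHom.ext h)
  by_contra hinf
  obtain ⟨S, hS, hc⟩ := Set.Infinite.exists_subset_card_eq hinf
    ((2 * dg (pol k (a f)) + dg (pol k (b f))).toNat + 1)
  have := coinc_card_le hf S fun P hP => hS hP
  omega

/-- two maps which agree at infinitely many points are equal -/
theorem eq_of_coinc_infinite {a b : E →ₐ[k] F} (h : (Coinc a b).Infinite) : a = b := by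
  by_contra hne
  exact h (coinc_finite hne)

variable (k F) in
theorem infinite_Plk : Infinite (Plk k F) := by
  have := CFF.ac (k := k) (F := F)
  obtain ⟨x, hx, -⟩ := CFF.ex (k := k) (F := F)
  have hn : ∀ a : k, x ≠ algebraMap k F a := fun a h => hx (h ▸ isAlgebraic_algebraMap a)
  choose P hP using fun c : k => exists_zero (nc_sub hn c)
  exact Infinite.of_injective P fun c c' h => AuxFPer.const_unique (hP c) (h ▸ hP c')

/-- a non-constant function with a single pole, of order at most `g + 1` -/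
theorem exists_one_pole (Q : Plk k F) : ∃ f : F, ord Q f < 0 ∧ -(gen k F + 1 : ℤ) ≤ ord Q f ∧
    ∀ P, P ≠ Q → 0 ≤ ord P f := by
  classical
  have h1 := RR (k := k) (Finsupp.single Q (gen k F + 1 : ℤ))
  rw [dg_sgl] at h1
  have h0 : (0 : Plk k F →₀ ℤ) ≤ Finsupp.single Q (gen k F + 1 : ℤ) :=
    Finsupp.single_nonneg.2 (by positivity)
  obtain ⟨f, hf, hf0⟩ : ∃ f ∈ LL k (Finsupp.single Q (gen k F + 1 : ℤ)),
      f ∉ LL k (0 : Plk k F →₀ ℤ) := by
    by_contra h
    push Not at h
    have h2 : LL k (Finsupp.single Q (gen k F + 1 : ℤ)) = LL k (0 : Plk k F →₀ ℤ) :=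
      le_antisymm h (LL_mono h0)
    rw [h2, l_zero] at h1
    omega
  rw [mem_LL] at hf hf0
  push Not at hf0
  obtain ⟨hne, P, hP⟩ := hf0
  have hf := hf.resolve_left hne
  have hoth : ∀ P, P ≠ Q → 0 ≤ ord P f := fun P hP => by
    simpa [Finsupp.single_apply, hP.symm] using hf P
  have hPQ : P = Q := by
    by_contra h
    have := hoth P h
    simp at hP
    omega
  subst hPQ
  exact ⟨f, by simpa using hP, by simpa using hf P, hoth⟩

theorem dg_pol_le_of_one {f : F} {Q : Plk k F} {n : ℤ} (hn : 0 ≤ n) (h1 : -n ≤ ord Q f)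
    (h2 : ∀ P, P ≠ Q → 0 ≤ ord P f) : dg (pol k f) ≤ n := by
  classical
  rw [← dg_sgl Q n]
  refine dg_mono fun P => ?_
  rw [pol_apply, Finsupp.single_apply]
  split_ifs with h
  · subst h
    omega
  · have := h2 P fun e => h e.symm
    omega

/-- the places fixed by an automorphism -/
def FixPl (σ : F ≃ₐ[k] F) : Set (Plk k F) := {P | ∀ z, σ z ∈ P.1 ↔ z ∈ P.1}

theorem fixPl_finite {σ : F ≃ₐ[k] F} (h : σ ≠ 1) : (FixPl σ).Finite :=
  coinc_finite (a := (σ : F →ₐ[k] F)) (b := AlgHom.id k F) fun e =>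
    h (AlgEquiv.ext fun z => DFunLike.congr_fun e z)

/-- **an automorphism `≠ 1` has at most `2 g + 2` fixed points** -/
theorem fixPl_card_le {σ : F ≃ₐ[k] F} (h : σ ≠ 1) (S : Finset (Plk k F))
    (hS : ∀ P ∈ S, P ∈ FixPl σ) : S.card ≤ 2 * gen k F + 2 := by
  have := infinite_Plk k F
  obtain ⟨Q, hQ⟩ := (fixPl_finite h).infinite_compl.nonempty
  obtain ⟨f, f1, f2, f3⟩ := exists_one_pole Q
  let e := plEquiv (σ : F ≃+* F) (RingEquiv.refl k) fun a => σ.commutes a
  have he : ∀ P z, ord (e P) (σ z) = ord P z := fun P z => ord_plEquiv _ _ _ P z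
  have hne : σ f ≠ f := by
    intro hf
    have h1 : e Q = Q := by
      by_contra h1
      have h2 := f3 _ h1
      rw [← hf, he] at h2
      omega
    refine hQ fun z => ?_
    rw [mem_iff_ord, mem_iff_ord, map_eq_zero_iff σ σ.injective]
    conv_lhs => rw [← h1, he]
  have h1 : dg (pol k f) ≤ gen k F + 1 := dg_pol_le_of_one (by positivity) f2 f3
  have h2 : dg (pol k (σ f)) ≤ gen k F + 1 :=
    dg_pol_le_of_one (Q := e Q) (by positivity) (by rwa [he]) fun P hP => by
      obtain ⟨P', rfl⟩ := e.surjective P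
      rw [he]
      exact f3 P' fun h => hP (h ▸ rfl)
  have h3 := card_zeros_le (σ f - f) S fun P hP =>
    Coinc.zero (a := (σ : F →ₐ[k] F)) (b := AlgHom.id k F) (hS P hP)
      ((hS P hP f).2 ((mem_iff_ord P f).2 (Or.inr (f3 P fun e => hQ (e ▸ hS P hP))))) hne
  have h4 := dg_pol_sub_le (k := k) (σ f) f
  omega

theorem eq_one_of_fix {σ : F ≃ₐ[k] F} (S : Finset (Plk k F)) (hS : ∀ P ∈ S, P ∈ FixPl σ)
    (hc : 2 * gen k F + 2 < S.card) : σ = 1 := by
  by_contra h
  exact absurd (fixPl_card_le h S hS) (not_le.2 hc)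

/-- the action of an automorphism on the places -/
noncomputable def plAut : (F ≃ₐ[k] F) →* Equiv.Perm (Plk k F) where
  toFun σ := plEquiv (σ : F ≃+* F) (RingEquiv.refl k) fun a => σ.commutes a
  map_one' := Equiv.ext fun _ => Subtype.ext (ValuationSubring.ext _ _ fun _ => Iff.rfl)
  map_mul' _ _ := Equiv.ext fun _ => Subtype.ext (ValuationSubring.ext _ _ fun _ => Iff.rfl)

theorem mem_plAut (σ : F ≃ₐ[k] F) (P : Plk k F) (z : F) : z ∈ (plAut σ P).1 ↔ σ.symm z ∈ P.1 :=
  Iff.rfl

theorem ord_plAut (σ : F ≃ₐ[k] F) (P : Plk k F) (z : F) : ord (plAut σ P) (σ z) = ord P z :=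
  ord_plEquiv (σ : F ≃+* F) (RingEquiv.refl k) (fun a => σ.commutes a) P z

theorem mem_fixPl {σ : F ≃ₐ[k] F} {P : Plk k F} : P ∈ FixPl σ ↔ plAut σ P = P := by
  constructor
  · intro h
    refine Subtype.ext (ValuationSubring.ext _ _ fun z => ?_)
    rw [mem_plAut, ← h, σ.apply_symm_apply]
  · intro h z
    conv_lhs => rw [← h, mem_plAut, σ.symm_apply_apply]

/-- **a group of automorphisms which preserves a large finite set of places is finite** -/
theorem finite_of_stable (S : Finset (Plk k F)) (hc : 2 * gen k F + 2 < S.card) :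
    {σ : F ≃ₐ[k] F | ∀ P ∈ S, plAut σ P ∈ S}.Finite := by
  refine Set.Finite.of_finite_image (f := fun σ (P : S) => plAut σ P.1)
    ((Set.Finite.pi' (t := fun _ : S => (S : Set (Plk k F))) fun _ => S.finite_toSet).subset ?_) ?_
  · rintro _ ⟨σ, hσ, rfl⟩ P
    exact hσ P.1 P.2
  · intro σ _ τ _ h
    have h1 : τ⁻¹ * σ = 1 := eq_one_of_fix S (fun P hP => mem_fixPl.2 (by
      have h2 : plAut σ P = plAut τ P := congrFun h ⟨P, hP⟩
      rw [map_mul, Equiv.Perm.mul_apply, h2, map_inv]
      exact (plAut τ).symm_apply_apply P)) hc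
    exact (inv_mul_eq_one.1 h1).symm

/-- an automorphism which preserves a large finite set of places has finite order -/
theorem isOfFinOrder_of_stable {σ : F ≃ₐ[k] F} (S : Finset (Plk k F))
    (hc : 2 * gen k F + 2 < S.card) (hS : ∀ P ∈ S, plAut σ P ∈ S) : IsOfFinOrder σ := by
  rw [← finite_powers]
  refine (finite_of_stable S hc).subset ?_
  rintro _ ⟨n, rfl⟩
  induction n with
  | zero => intro P hP; simpa using hP
  | succ n ih =>
    intro P hP
    show plAut (σ ^ (n + 1)) P ∈ S
    rw [pow_succ, map_mul, Equiv.Perm.mul_apply]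
    exact ih _ (hS P hP)

end Vale.Agent.P022K.FI
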