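import Vale.Agent.P022K.FI.Hk0
import Vale.Agent.P022K.FI.Good3
import Vale.Agent.P022K.FI.Fix
import Vale.Agent.P022K.FI.Na0
import Vale.Agent.P022K.F0.Pts
import Vale.Agent.P022K.F0.Hec

/-!
# P022K, block FI: the reduced curves of a level, maps between them, rigidity
-/

set_option autoImplicit false
set_option linter.unusedSectionVars false
set_option linter.style.haveILetI false

open UpperHalfPlane
open scoped MatrixGroups

noncomputable section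

namespace Vale.Agent.P022K.FI.Hk

open Vale.Agent.P022K.Sh Vale.Agent.P022.H218.L3 Vale.Agent.P019P P025H816 P025H746 P027M.K
  Vale.Agent.P027M

/-- `β` maps the place `R` to the place `R'` -/
def Pl {k A B : Type} [Field k] [Field A] [Field B] [Algebra k A] [Algebra k B] (β : A ≃+* B)
    (R : Plk k A) (R' : Plk k B) : Prop := ∀ z, β z ∈ R'.1 ↔ z ∈ R.1

/-- `β` induces `a ↦ a ^ N` on the constants -/
def Sl (k : Type) {A B : Type} [Field k] [Field A] [Field B] [Algebra k A] [Algebra k B] (N : ℕ)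
    (β : A ≃+* B) : Prop := ∀ a : k, β (algebraMap k A a) = algebraMap k B (a ^ N)

section pl

variable {k A B B' : Type} [Field k] [Field A] [Field B] [Field B'] [Algebra k A] [Algebra k B]
  [Algebra k B'] {β β₁ : A ≃+* B} {β' : B ≃+* B'} {N N' : ℕ}

theorem Pl.trans {R : Plk k A} {R' : Plk k B} {R'' : Plk k B'} (h : Pl β R R') (h' : Pl β' R' R'') :
    Pl (β.trans β') R R'' := fun z => (h' (β z)).trans (h z)

theorem Pl.unique {R : Plk k A} {R' R'' : Plk k B} (h : Pl β R R') (h' : Pl β R R'') : R' = R'' :=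
  Subtype.ext (SetLike.ext fun z => by
    obtain ⟨z, rfl⟩ := β.surjective z
    exact (h z).trans (h' z).symm)

theorem Sl.trans (h : Sl k N β) (h' : Sl k N' β') : Sl k (N * N') (β.trans β') := fun a => by
  rw [RingEquiv.trans_apply, h, h', pow_mul]

/-- two isomorphisms which agree at many places are equal -/
theorem eq_of_pl [CFF k A] (h : Sl k N β) (h₁ : Sl k N β₁) (S : Finset (Plk k A))
    (hS : ∀ R ∈ S, ∃ R' : Plk k B, Pl β R R' ∧ Pl β₁ R R') (hc : 2 * gen k A + 2 < S.card) :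
    β = β₁ := by
  let s : A ≃ₐ[k] A := { β.trans β₁.symm with
    commutes' := fun a => β₁.symm_apply_eq.2 ((h a).trans (h₁ a).symm) }
  have e : s = 1 := eq_one_of_fix S (fun R hR z => by
    obtain ⟨R', h2, h3⟩ := hS R hR
    rw [← h2 z, ← h3]
    exact iff_of_eq (congrArg (· ∈ R'.1) (β₁.apply_symm_apply (β z)))) hc
  exact RingEquiv.ext fun z => β₁.symm_apply_eq.1 (DFunLike.congr_fun e z)

/-- two embeddings with the same image -/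
theorem ex_equiv {M : Type} [Field M] (f : A →+* M) (g : B →+* M) (h : ∀ a, ∃ b, g b = f a)
    (h' : ∀ b, ∃ a, f a = g b) : ∃ β : A ≃+* B, ∀ a, g (β a) = f a := by
  choose e he using h
  let s : A →+* B :=
    { toFun := e
      map_one' := g.injective (by rw [he, map_one, map_one])
      map_mul' := fun a b => g.injective (by rw [map_mul, he, he, he, map_mul])
      map_zero' := g.injective (by rw [he, map_zero, map_zero])
      map_add' := fun a b => g.injective (by rw [map_add, he, he, he, map_add]) }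
  refine ⟨RingEquiv.ofBijective s ⟨s.injective, fun b => ?_⟩, he⟩
  obtain ⟨a, ha⟩ := h' b
  exact ⟨a, g.injective ((he a).trans ha)⟩

end pl

section fld

variable {p : ℕ} [Fact p.Prime] {ι : ℂ ≃+* CS p} {E E' : IntermediateField ℂ Mer} [CFF ℂ E]
  [CFF ℂ E'] {η : NV (Cx ι) E} {η' : NV (Cx ι) E'} {σ : ℂ ≃+* ℂ} {N : ℕ}

variable (ι) in
/-- `σ` is an isometry which induces `a ↦ a ^ N` on the residue field -/
structure Isom (σ : ℂ ≃+* ℂ) (N : ℕ) : Prop where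
  nrm : ∀ c, ‖ι (σ c)‖ = ‖ι c‖
  res : ∀ c, ‖ι c‖ ≤ 1 → ‖ι (σ c - c ^ N)‖ < 1

theorem isom_refl : Isom ι (RingEquiv.refl ℂ) 1 := ⟨fun _ => rfl, fun c _ => by simp⟩

variable (ι) in
/-- `σ` on `Cx ι` -/
def au (σ : ℂ ≃+* ℂ) : Cx ι ≃+* Cx ι := σ

theorem Isom.au (h : Isom ι σ N) (c : Cx ι) : ‖au ι σ c‖ = ‖c‖ := h.nrm c

theorem cred_pow {C : Type} [NormedField C] [IsUltrametricDist C] {c : C} (hc : ‖c‖ ≤ 1) (n : ℕ) :
    cred (c ^ n) = cred c ^ n := by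
  induction n with
  | zero => simp
  | succ n ih =>
    rw [pow_succ, cred_mul (by rw [norm_pow]; exact pow_le_one₀ (norm_nonneg _) hc) hc, ih, pow_succ]

theorem Isom.kEq (h : Isom ι σ N) (a : kC (Cx ι)) : kEq (Hk.au ι σ) h.au a = a ^ N := by
  obtain ⟨c, hc, rfl⟩ := cred_surj a
  have h1 : ‖c ^ N‖ ≤ 1 := by rw [norm_pow]; exact pow_le_one₀ (norm_nonneg _) hc
  have h2 : ‖Hk.au ι σ c‖ ≤ 1 := (h.au c).trans_le hc
  rw [kEq_cred, ← cred_pow hc, ← sub_eq_zero, ← Gs.cred_sub h2 h1,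
    cred_eq_zero (Gs.norm_sub_le' h2 h1)]
  exact h.res c hc

theorem Gv.cff (h : Gv η) : CFF (kC (Cx ι)) (kap η) := h.choose_spec.cff

theorem Gv.gen_eq [CFF (kC (Cx ι)) (kap η)] (h : Gv η) : gen (kC (Cx ι)) (kap η) = gen ℂ E :=
  h.choose_spec.gd.gen_eq

theorem Gv.scale (h : Gv η) {f : E} (hf : f ≠ 0) : ∃ c : ℂ, c ≠ 0 ∧ η (algebraMap ℂ E c * f) = 1 := by
  obtain ⟨c, h1, h2⟩ := h.choose_spec.full.scale hf
  exact ⟨c, h1, by rwa [Algebra.smul_def] at h2⟩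

theorem good_pull {C K K' : Type} [NontriviallyNormedField C] [IsUltrametricDist C] [IsAlgClosed C]
    [Field K] [Algebra C K] [CFF C K] [Field K'] [Algebra C K'] [CFF C K'] (hC : GF C)
    (e : K ≃+* K') (s : C ≃+* C) (he : ∀ a, e (algebraMap C K a) = algebraMap C K' (s a))
    (hs : ∀ c, ‖s c‖ = ‖c‖) {η' : NV C K'} {S : K'} (h : G.Good η' S) :
    ∃ (η : NV C K) (S : K), G.Good η S := by
  haveI := h.cff
  haveI := cff_pull e he hs η'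
  refine ⟨_, good (I.pullNV (e : K →+* K') he hs η') hC.sph hC.onto ?_⟩
  rw [P019P.gen_eq (resEq e (w := I.pullNV (e : K →+* K') he hs η') (w' := η') fun _ => rfl)
    (kEq _ hs) (resEq_const e _ he hs), P019P.gen_eq e s he]
  exact h.gen

variable (e : E ≃+* E') (he : ∀ c, e (algebraMap ℂ E c) = algebraMap ℂ E' (σ c)) (hσ : Isom ι σ N)

include he in
theorem semi_au (c : Cx ι) : e (algebraMap (Cx ι) E c) = algebraMap (Cx ι) E' (au ι σ c) := he c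

include he hσ

theorem Gv.pull (h : Gv η') : ∃ η : NV (Cx ι) E, Gv η :=
  good_pull (Cx.gf ι) e (au ι σ) (semi_au e he) hσ.au h.choose_spec

theorem Gv.isom (h : Gv η) (h' : Gv η') (h2 : 2 ≤ gen ℂ E) (f : E) : η' (e f) = η f :=
  good_equiv (Cx.sph ι) (Cx.exists_norm_eq ι) h.choose_spec h'.choose_spec h2 e (au ι σ)
    (semi_au e he) hσ.au f

theorem sl_resEq (h : ∀ f, η' (e f) = η f) : Sl (kC (Cx ι)) N (resEq e h) := fun a => by
  rw [resEq_const e h (semi_au e he) hσ.au, hσ.kEq]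

theorem Rd.pl [CFF (kC (Cx ι)) (kap η)] [CFF (kC (Cx ι)) (kap η')] (h' : Gv η')
    (h : ∀ f, η' (e f) = η f) {τ τ' : ℍ} (hv : ∀ (f : E) c, MVal τ f c → MVal τ' (e f) (σ c))
    {R : Plk (kC (Cx ι)) (kap η)} {R' : Plk (kC (Cx ι)) (kap η')} (r : Rd η τ R)
    (r' : Rd η' τ' R') : Pl (resEq e h) R R' := by
  obtain ⟨s, P, hs, hP, rfl⟩ := r
  obtain ⟨s', P', hs', hP', rfl⟩ := r'
  have e1 : plEquiv e (au ι σ) (semi_au e he) P = P' := Plk.eq_of_le fun z hz => by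
    obtain ⟨f, rfl⟩ := e.surjective z
    rw [AuxFAct.mem_plEquiv, e.symm_apply_apply] at hz
    obtain ⟨c, hc⟩ := Gs.val_of_mem hz
    exact Gs.val_mem ((hP' _ _).2 (hv f c ((hP f c).1 hc)))
  intro z
  rw [← e1, hs.equiv hs' h'.choose_spec.gd e (au ι σ) (semi_au e he) (resEq e h) (kEq _ hσ.au)
    (resEq_const e h (semi_au e he) hσ.au) (fun x hx => h x ▸ hx)
    (fun x _ => (resEq_red e h x).symm), AuxFAct.mem_plEquiv, RingEquiv.symm_apply_apply]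

end fld

variable {G0 G : Type} [Group G0] [Group G] {T : Tw G0 G} {U : Subgroup G}

/-! ## automorphisms of one level -/

section level

variable {Θ : T.RU U ≃+* T.RU U} {σ : ℂ ≃+* ℂ} {τ τ' : ℍ} {x x' x₂ : G}

/-- `Θ` is `σ`-semilinear -/
def Sm (σ : ℂ ≃+* ℂ) (Θ : T.RU U ≃+* T.RU U) : Prop :=
  ∀ c, Θ (algebraMap ℂ _ c) = algebraMap ℂ _ (σ c)

/-- `Θ` maps the component of `x` to the component of `x'` -/
def Ker (Θ : T.RU U ≃+* T.RU U) (x x' : G) : Prop := ∀ φ : T.RU U, φ.1 x = 0 → (Θ φ).1 x' = 0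

/-- `Θ` maps the point `(τ, x)` to the point `(τ', x')` -/
def Pv (Θ : T.RU U ≃+* T.RU U) (σ : ℂ ≃+* ℂ) (τ : ℍ) (x : G) (τ' : ℍ) (x' : G) : Prop :=
  ∀ (φ : T.RU U) c, MVal τ (φ.1 x) c → MVal τ' ((Θ φ).1 x') (σ c)

theorem Ker.ex (h : Ker Θ x x') :
    ∃ s : KX T U x ≃+* KX T U x', ∀ φ, s (T.evK U x φ) = T.evK U x' (Θ φ) := by
  let s := (T.evK U x).liftOfSurjective (Tw.evK_surj U x) ⟨(T.evK U x').comp Θ,
    fun φ hφ => Subtype.ext (h φ (congrArg Subtype.val (RingHom.mem_ker.1 hφ)))⟩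
  have hs : ∀ φ, s (T.evK U x φ) = T.evK U x' (Θ φ) := fun φ =>
    RingHom.liftOfRightInverse_comp_apply _ _ _ _ φ
  refine ⟨RingEquiv.ofBijective s ⟨s.injective, fun f => ?_⟩, hs⟩
  obtain ⟨ψ, rfl⟩ := Tw.evK_surj U x' f
  obtain ⟨φ, rfl⟩ := Θ.surjective ψ
  exact ⟨_, hs φ⟩

theorem Pv.ker (h : Pv Θ σ τ x τ' x') : Ker Θ x x' := fun φ h0 => by
  obtain ⟨e, h1, h2, h3⟩ := Tw.ex_ind (T := T) U x
  have e1 : (Θ ⟨e, h1⟩).1 x' ≠ 0 := fun e0 => by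
    have := h ⟨e, h1⟩ 1 (by
      show MVal τ (e x) 1
      rw [h2 x (Tw.Rel.refl x)]
      exact MVal.one τ)
    rw [e0, map_one] at this
    exact one_ne_zero (this.unique (MVal.zero τ'))
  have e2 : φ * ⟨e, h1⟩ = 0 := Subtype.ext (funext fun y => by
    by_cases r : T.Rel U x y
    · exact mul_eq_zero_of_left ((Tw.RU_zero φ.2 r).2 h0) _
    · exact mul_eq_zero_of_right _ (h3 y r))
  have := congrArg (fun ψ => (Θ ψ).1 x') e2
  simp only [map_mul, map_zero] at this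
  exact (mul_eq_zero.1 this).resolve_right e1

theorem Ker.rel (h : Ker Θ x x') (h' : Ker Θ x x₂) : T.Rel U x' x₂ := by
  obtain ⟨e, h1, h2, h3⟩ := Tw.ex_ind (T := T) U x'
  obtain ⟨φ, hφ⟩ := Θ.surjective ⟨e, h1⟩
  obtain ⟨s, hs⟩ := h.ex
  have e1 : T.evK U x φ = 1 := s.injective (by
    rw [hs, hφ, map_one]
    exact Subtype.ext (h2 x' (Tw.Rel.refl x')))
  have e2 := h' (φ - 1) (sub_eq_zero.2 (congrArg Subtype.val e1))
  rw [map_sub, map_one, hφ] at e2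
  by_contra r
  have e3 : e x₂ - 1 = 0 := e2
  rw [h3 x₂ r, zero_sub, neg_eq_zero] at e3
  exact one_ne_zero e3

theorem Ker.right (h : Ker Θ x x') (r : T.Rel U x' x₂) : Ker Θ x x₂ :=
  fun φ h0 => (Tw.RU_zero (Θ φ).2 r).2 (h φ h0)

theorem Ker.left (h : Ker Θ x x') (r : T.Rel U x x₂) : Ker Θ x₂ x' :=
  fun φ h0 => h φ ((Tw.RU_zero φ.2 r).1 h0)

theorem ker_refl (r : T.Rel U x x') : Ker (RingEquiv.refl (T.RU U)) x x' :=
  fun φ h0 => (Tw.RU_zero φ.2 r).2 h0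

theorem mval_pm (h : pm T U τ x = pm T U τ' x') (φ : T.RU U) {c : ℂ} :
    MVal τ' (φ.1 x') c ↔ MVal τ (φ.1 x) c := by
  obtain ⟨γ, u, hu, rfl, rfl⟩ := pm_eq.1 h
  rw [Tw.RU_val φ.2 γ x hu, Tw.mval_act]

theorem Pv.congr {τ₁ τ₂ : ℍ} {x₁ : G} (h : Pv Θ σ τ x τ' x') (e : pm T U τ₁ x₁ = pm T U τ x)
    (e' : pm T U τ₂ x₂ = pm T U τ' x') : Pv Θ σ τ₁ x₁ τ₂ x₂ :=
  fun φ c v => (mval_pm e' _).1 (h φ c ((mval_pm e φ).2 v))

theorem ex_pm {y : PU T U} (h : PU.cp T y = cm T U x) : ∃ τ, y = pm T U τ x := by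
  obtain ⟨⟨τ, z⟩, rfl⟩ := Quotient.exists_rep y
  obtain ⟨γ, u, hu, e⟩ := cm_eq.1 h
  exact ⟨T.r γ • τ, pm_eq.2 ⟨γ, u, hu, rfl, e⟩⟩

/-- the value of a locally constant function -/
theorem Ker.const (h : Ker Θ x x') (hΘ : Sm σ Θ) {φ : T.RU U} {c : ℂ}
    (e : φ.1 x = algebraMap ℂ Mer c) : (Θ φ).1 x' = algebraMap ℂ Mer (σ c) := by
  have := h (φ - algebraMap ℂ _ c) (sub_eq_zero.2 e)
  rw [map_sub, hΘ] at this
  exact sub_eq_zero.1 this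

end level

variable {O K : Type} [CommRing O] [IsDomain O] [IsDiscreteValuationRing O] [Field K] [Algebra O K]
  {w : T.Lc O K} {p : ℕ} [Fact p.Prime] [∀ x, CFF ℂ (KX T U x)]

/-- the standing assumptions -/
structure Ctx (D : Emb w p) (U : Subgroup G) [∀ x, CFF ℂ (KX T U x)] : Prop where
  ok : T.Ok
  cf : T.CF
  gen : T.GEN
  lev : U ∈ T.Lev
  neat : T.Neat U
  mx : w.At (KK O K) U
  sa : w.SA
  rd : RD D U

variable {D : Emb w p}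

namespace Ctx

variable (h : Ctx D U)

include h

theorem two (x : G) : 2 ≤ P019P.gen ℂ (KX T U x) := h.gen _ (h.ok.fu U h.lev x) (h.neat x)

theorem ex_ord (x : G) : ∃ τ x₀, Ord w D.e τ x₀ ∧ T.Rel U x x₀ := by
  obtain ⟨y, hy⟩ := (h.rd.inf x).nonempty
  induction y using OP.ind with | _ τ x₀ o => exact ⟨τ, x₀, o, cm_eq.1 hy.symm⟩

theorem ex_gv (x : G) : ∃ η : NV (Cx D.ι) (KX T U x), Gv η := by
  obtain ⟨τ, x₀, o, r⟩ := h.ex_ord x
  obtain ⟨v, hv⟩ := h.rd.loc τ x₀ o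
  obtain ⟨η, g, -⟩ := (hv x₀ o).good
  obtain ⟨s, hs⟩ := (ker_refl r).ex
  exact g.pull s (σ := RingEquiv.refl ℂ) (fun c => hs (algebraMap ℂ _ c)) isom_refl

/-- the valuation of good reduction on the component of `x` -/
def nm (x : G) : NV (Cx D.ι) (KX T U x) := (h.ex_gv x).choose

theorem gv (x : G) : Gv (h.nm x) := (h.ex_gv x).choose_spec

instance (x : G) : CFF (kC (Cx D.ι)) (kap (h.nm x)) := (h.gv x).cff

theorem nm_eq {x : G} {η : NV (Cx D.ι) (KX T U x)} (g : Gv η) : η = h.nm x :=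
  NV.ext (AbsoluteValue.ext fun f => (h.gv x).isom (RingEquiv.refl _) (σ := RingEquiv.refl ℂ)
    (fun _ => rfl) isom_refl g (h.two x) f)

/-- the norm of `φ` on the component of `x` -/
def nv (x : G) (φ : T.RU U) : ℝ := h.nm x (T.evK U x φ)

/-- the reduction of `φ` on the component of `x` -/
def red (x : G) (φ : T.RU U) : kap (h.nm x) := (h.nm x).red (T.evK U x φ)

/-- `R` is the reduction of the point `y` -/
def Red (x : G) (y : PU T U) (R : Plk (kC (Cx D.ι)) (kap (h.nm x))) : Prop :=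
  ∃ τ, y = pm T U τ x ∧ Rd (h.nm x) τ R

/-- `β` is compatible with the norms and reductions of functions -/
def Fn (Θ : T.RU U ≃+* T.RU U) (x x' : G) (β : kap (h.nm x) ≃+* kap (h.nm x')) : Prop :=
  ∀ φ, h.nv x' (Θ φ) = h.nv x φ ∧ β (h.red x φ) = h.red x' (Θ φ)

theorem iso {Θ : T.RU U ≃+* T.RU U} {σ : ℂ ≃+* ℂ} {N : ℕ} (hΘ : Sm σ Θ) (hσ : Isom D.ι σ N)
    {x x' : G} (k : Ker Θ x x') : ∃ β : kap (h.nm x) ≃+* kap (h.nm x'), Sl (kC (Cx D.ι)) N β ∧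
      h.Fn Θ x x' β ∧ ∀ τ τ' R R', Pv Θ σ τ x τ' x' → Rd (h.nm x) τ R → Rd (h.nm x') τ' R' →
        Pl β R R' := by
  obtain ⟨s, hs⟩ := k.ex
  have he : ∀ c, s (algebraMap ℂ _ c) = algebraMap ℂ _ (σ c) := fun c =>
    (hs (algebraMap ℂ _ c)).trans (by rw [hΘ]; rfl)
  have hn := (h.gv x).isom s he hσ (h.gv x') (h.two x)
  refine ⟨resEq s hn, sl_resEq s he hσ hn, fun φ => ⟨?_, ?_⟩, fun τ τ' R R' pv r r' =>
    Rd.pl s he hσ (h.gv x') hn (fun f c v => ?_) r r'⟩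
  · rw [nv, nv, ← hs, hn]
  · rw [red, red, resEq_red, hs]
  · obtain ⟨φ, rfl⟩ := Tw.evK_surj U x f
    rw [hs]
    exact pv φ c v

theorem ex_rd (x : G) (τ : ℍ) : ∃ R, Rd (h.nm x) τ R := by
  obtain ⟨s, hs⟩ := (h.gv x).choose_spec.gd.exists_sp
  obtain ⟨_, pt, hp⟩ := h.cf _ (h.ok.fu U h.lev x)
  exact ⟨_, s, pt τ, hs, hp.val τ, rfl⟩

theorem ex_red {x : G} {y : PU T U} (e : PU.cp T y = cm T U x) : ∃ R, h.Red x y R := by
  obtain ⟨τ, rfl⟩ := ex_pm e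
  obtain ⟨R, r⟩ := h.ex_rd x τ
  exact ⟨R, τ, rfl, r⟩

theorem red_surj (x : G) (z : kap (h.nm x)) :
    ∃ φ, (∀ y, h.nv y φ ≤ 1) ∧ h.red x φ = z := by
  obtain ⟨f, h1, rfl⟩ := NV.red_surj z
  obtain ⟨φ, h2, h3, h4⟩ := Tw.ex_RU x f.2
  have e : T.evK U x ⟨φ, h2⟩ = f := Subtype.ext h3
  refine ⟨⟨φ, h2⟩, fun y => ?_, by rw [red, e]⟩
  by_cases r : T.Rel U x y
  · obtain ⟨β, -, h5, -⟩ := h.iso (σ := RingEquiv.refl ℂ) (fun _ => rfl) isom_refl (ker_refl r)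
    exact (h5 ⟨φ, h2⟩).1.trans_le (by rwa [nv, e])
  · rw [nv, show T.evK U y ⟨φ, h2⟩ = 0 from Subtype.ext (h4 y r), map_zero]
    exact zero_le_one

variable {h}

theorem Red.inj {x : G} {y y' : OP w D.e U} {R : Plk (kC (Cx D.ι)) (kap (h.nm x))}
    (r : h.Red x y.1 R) (r' : h.Red x y'.1 R) : y = y' := by
  obtain ⟨τ, e, r⟩ := r
  obtain ⟨τ', e', r'⟩ := r'
  exact h.rd.inj x _ (h.gv x) y y' τ τ' R e e' r r'

variable (h)

/-- `β` is compatible with the map `ξ` of ordinary points -/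
def Cpt (ξ : OP w D.e U → OP w D.e U) (x x' : G) (β : kap (h.nm x) ≃+* kap (h.nm x')) : Prop :=
  ∀ y : OP w D.e U, PU.cp T y.1 = cm T U x → PU.cp T (ξ y).1 = cm T U x' ∧
    ∀ R R', h.Red x y.1 R → h.Red x' (ξ y).1 R' → Pl β R R'

/-- `ξ` is induced by isomorphisms of the reduced curves -/
def Ind (N : ℕ) (ξ : OP w D.e U → OP w D.e U) : Prop :=
  ∀ x, ∃ x' β, Sl (kC (Cx D.ι)) N β ∧ h.Cpt ξ x x' β

variable {h} {ξ ξ' : OP w D.e U → OP w D.e U} {x x' x₂ : G} {N N' : ℕ}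

theorem Cpt.comp {β : kap (h.nm x) ≃+* kap (h.nm x')} {β' : kap (h.nm x') ≃+* kap (h.nm x₂)}
    (c : h.Cpt ξ x x' β) (c' : h.Cpt ξ' x' x₂ β') : h.Cpt (ξ' ∘ ξ) x x₂ (β.trans β') := by
  intro y hy
  obtain ⟨h1, h2⟩ := c y hy
  obtain ⟨h3, h4⟩ := c' _ h1
  obtain ⟨R₁, r₁⟩ := h.ex_red h1
  exact ⟨h3, fun R R' r r' => (h2 R R₁ r r₁).trans (h4 R₁ R' r₁ r')⟩

theorem Ind.comp (i : h.Ind N ξ) (i' : h.Ind N' ξ') : h.Ind (N * N') (ξ' ∘ ξ) := fun x => by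
  obtain ⟨x', β, h1, h2⟩ := i x
  obtain ⟨x₂, β', h3, h4⟩ := i' x'
  exact ⟨x₂, _, h1.trans h3, h2.comp h4⟩

end Ctx

/-- `Θ` induces `ξ` on the ordinary points -/
def Ov (Θ : T.RU U ≃+* T.RU U) (σ : ℂ ≃+* ℂ) (ξ : OP w D.e U → OP w D.e U) : Prop :=
  ∀ τ x (o : Ord w D.e τ x), ∃ τ' x', (ξ (om w D.e U o)).1 = pm T U τ' x' ∧ Pv Θ σ τ x τ' x'

theorem Ov.pv {Θ : T.RU U ≃+* T.RU U} {σ : ℂ ≃+* ℂ} {ξ : OP w D.e U → OP w D.e U} (o : Ov Θ σ ξ)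
    (y : OP w D.e U) {τ τ' : ℍ} {x x' : G} (e : y.1 = pm T U τ x) (e' : (ξ y).1 = pm T U τ' x') :
    Pv Θ σ τ x τ' x' := by
  induction y using OP.ind with | _ τ₀ x₀ o₀ => ?_
  obtain ⟨τ₁, x₁, h1, h2⟩ := o τ₀ x₀ o₀
  exact h2.congr e.symm (e'.symm.trans h1)

theorem ov_refl : Ov (D := D) (RingEquiv.refl (T.RU U)) (RingEquiv.refl ℂ) id :=
  fun τ x _ => ⟨τ, x, rfl, fun _ _ v => v⟩

namespace Ctx

variable (h : Ctx D U) {Θ : T.RU U ≃+* T.RU U} {σ : ℂ ≃+* ℂ} {ξ ξ' : OP w D.e U → OP w D.e U}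
  {x x' : G} {N : ℕ}

theorem iso_ov (hΘ : Sm σ Θ) (hσ : Isom D.ι σ N) (o : Ov Θ σ ξ) (k : Ker Θ x x') :
    ∃ β, Sl (kC (Cx D.ι)) N β ∧ h.Fn Θ x x' β ∧ h.Cpt ξ x x' β := by
  obtain ⟨β, h1, h2, h3⟩ := h.iso hΘ hσ k
  refine ⟨β, h1, h2, fun y hy => ⟨?_, ?_⟩⟩
  · obtain ⟨τ, e⟩ := ex_pm hy
    have e' := (ξ y).eq w D.e
    rw [e']
    exact (cm_eq.2 (k.rel (o.pv y e e').ker)).symm
  · rintro R R' ⟨τ, e, r⟩ ⟨τ', e', r'⟩
    exact h3 τ τ' R R' (o.pv y e e') r r'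

/-- change of the representative of a component -/
theorem tra (r : T.Rel U x x') : ∃ β, Sl (kC (Cx D.ι)) 1 β ∧
    h.Fn (RingEquiv.refl _) x x' β ∧ h.Cpt id x x' β :=
  h.iso_ov (fun _ => rfl) isom_refl ov_refl (ker_refl r)

theorem ind_ov (hΘ : Sm σ Θ) (hσ : Isom D.ι σ N) (o : Ov Θ σ ξ) : h.Ind N ξ := fun x => by
  obtain ⟨τ, x₀, o₀, r⟩ := h.ex_ord x
  obtain ⟨τ', x', -, h2⟩ := o τ x₀ o₀
  obtain ⟨β, h3, -, h4⟩ := h.iso_ov hΘ hσ o (h2.ker.left r.symm)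
  exact ⟨x', β, h3, h4⟩

theorem ind_id : h.Ind 1 id := h.ind_ov (fun _ => rfl) isom_refl ov_refl

variable {h} in
theorem Ind.iter (i : h.Ind N ξ) (n : ℕ) : h.Ind (N ^ n) ξ^[n] := by
  induction n with
  | zero => exact h.ind_id
  | succ n ih => rw [pow_succ', Function.iterate_succ]; exact i.comp ih

theorem cpt_refl (x : G) : h.Cpt id x x (RingEquiv.refl _) := by
  obtain ⟨β, -, h1, h2⟩ := h.tra (Tw.Rel.refl x)
  have e : β = RingEquiv.refl _ := RingEquiv.ext fun z => by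
    obtain ⟨φ, -, rfl⟩ := h.red_surj x z
    exact (h1 φ).2
  exact e ▸ h2

/-- **rigidity**, for the isomorphisms -/
theorem rigid {β β' : kap (h.nm x) ≃+* kap (h.nm x')} (s : Sl (kC (Cx D.ι)) N β)
    (s' : Sl (kC (Cx D.ι)) N β') (c : h.Cpt ξ x x' β) (c' : h.Cpt ξ' x x' β')
    (S : Finset (OP w D.e U)) (hS : ∀ y ∈ S, PU.cp T y.1 = cm T U x ∧ ξ y = ξ' y)
    (hc : 2 * P019P.gen ℂ (KX T U x) + 2 < S.card) : β = β' := by
  classical
  choose f hf using fun y : S => h.ex_red (hS y.1 y.2).1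
  refine eq_of_pl s s' (Finset.univ.image f) (fun R hR => ?_) ?_
  · obtain ⟨y, -, rfl⟩ := Finset.mem_image.1 hR
    obtain ⟨h1, h2⟩ := hS y.1 y.2
    obtain ⟨R', r'⟩ := h.ex_red (c y h1).1
    exact ⟨R', (c y h1).2 _ _ (hf y) r', (c' y h1).2 _ _ (hf y) (h2 ▸ r')⟩
  · have inj : Function.Injective f := fun y y' e => Subtype.ext ((hf y).inj (e ▸ hf y'))
    rwa [(h.gv x).gen_eq, Finset.card_image_of_injective _ inj, Finset.card_univ, Fintype.card_coe]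

theorem rigid_all {β β' : kap (h.nm x) ≃+* kap (h.nm x')} (s : Sl (kC (Cx D.ι)) N β)
    (s' : Sl (kC (Cx D.ι)) N β') (c : h.Cpt ξ x x' β) (c' : h.Cpt ξ x x' β') : β = β' := by
  obtain ⟨S, h1, h2⟩ := (h.rd.inf x).exists_subset_card_eq (2 * P019P.gen ℂ (KX T U x) + 2 + 1)
  exact h.rigid s s' c c' S (fun y hy => ⟨h1 hy, rfl⟩) (by omega)

/-- **rigidity**, for the maps of ordinary points -/
theorem ex_bound : ∃ B : ℕ, ∀ (N : ℕ) (ξ ξ' : OP w D.e U → OP w D.e U), h.Ind N ξ → h.Ind N ξ' →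
    ∀ (c : Cp T U) (S : Finset (OP w D.e U)), B < S.card →
    (∀ y ∈ S, PU.cp T y.1 = c ∧ ξ y = ξ' y) → ∀ y : OP w D.e U, PU.cp T y.1 = c → ξ y = ξ' y := by
  obtain ⟨S₀, h0⟩ := h.ok.fin U h.lev
  refine ⟨S₀.sup fun x => 2 * P019P.gen ℂ (KX T U x) + 2, fun N ξ ξ' i i' c S hc hS y hy => ?_⟩
  obtain ⟨x, hx, r⟩ := h0 (y.x w D.e)
  have e : c = cm T U x := by
    rw [← hy, y.eq w D.e]
    exact (cm_eq.2 r).symm
  subst e
  obtain ⟨x₁, β, s, k⟩ := i x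
  obtain ⟨x₂, β₂, s₂, k₂⟩ := i' x
  obtain ⟨y₀, h1⟩ := Finset.card_pos.1 (Nat.zero_lt_of_lt hc)
  obtain ⟨h2, h3⟩ := hS y₀ h1
  obtain ⟨a, s₃, -, k₃⟩ := h.tra (cm_eq.1 ((k₂ y₀ h2).1.symm.trans (h3 ▸ (k y₀ h2).1)))
  have k' : h.Cpt ξ' x x₁ (β₂.trans a) := k₂.comp k₃
  have e := h.rigid s (mul_one N ▸ s₂.trans s₃) k k' S hS
    ((Finset.le_sup (f := fun x => 2 * P019P.gen ℂ (KX T U x) + 2) hx).trans_lt hc)
  obtain ⟨R, r⟩ := h.ex_red hy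
  obtain ⟨R₁, r₁⟩ := h.ex_red (k y hy).1
  obtain ⟨R₂, r₂⟩ := h.ex_red (k' y hy).1
  exact r₁.inj (((k y hy).2 _ _ r r₁).unique (e ▸ (k' y hy).2 _ _ r r₂) ▸ r₂)

end Ctx

end Vale.Agent.P022K.FI.Hk
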