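import Vale.Agent.P022K.FI.St3
import Vale.Agent.P022K.FI.Hk1
import Vale.Agent.P022K.FI.Cal
import Vale.Agent.P022K.F0.Twb

/-!
# P022K, block FI, row LOCX: the ordinary norm of a point has the local properties
-/

set_option autoImplicit false
set_option linter.unusedSectionVars false
set_option linter.style.haveILetI false

open PowerSeries Vale.Agent.P019P P025H746 P025H816 Module Function UpperHalfPlane
open scoped MatrixGroups LaurentSeries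

noncomputable section

namespace Vale.Agent.P022K.FI

open Vale.Agent.P022K.Sh Vale.Agent.P027M Vale.Agent.P022.H218.L3

namespace Lx

section tower

variable {C L Γ O E : Type} [NontriviallyNormedField C] [IsUltrametricDist C] [CompleteSpace C]
  [IsAlgClosed C] [CharZero C] [Field L] [Algebra C L] [Group Γ] [CommRing O] [IsDomain O]
  [IsDiscreteValuationRing O] [Field E] [Algebra O E] [Algebra E C]
  {K K' : Type} [Field K] [Algebra C K] [CFF C K] [Field K'] [Algebra C K'] [CFF C K']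

theorem dsc_equiv (e : K ≃ₐ[C] K') {ε : K' →ₐ[C] C⸨X⸩} {j : C → Plk C K'} (h : Dsc ε j) :
    ∃ j' : C → Plk C K, Dsc (ε.comp e) j' ∧ ∀ a f, f ∈ (j' a).1 ↔ e f ∈ (j a).1 := by
  let t := plEquiv (e : K ≃+* K') (RingEquiv.refl C) e.commutes
  refine ⟨fun a => t.symm (j a), ⟨fun f hf => ?_, fun a ha a' ha' h1 =>
    h.inj ha ha' (t.symm.injective h1)⟩, fun a f => ?_⟩
  · obtain ⟨c, D, h1, h2⟩ := h.fac (e f) ((map_ne_zero e).2 hf)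
    refine ⟨c, D, h1, fun a ha => ?_⟩
    rw [← h2 a ha, ← ord_plEquiv (e : K ≃+* K') (RingEquiv.refl C) e.commutes,
      Equiv.apply_symm_apply]
    rfl
  · conv_rhs => rw [← t.apply_symm_apply (j a)]
    exact iff_of_eq (congrArg (· ∈ (t.symm (j a)).1) (e.symm_apply_apply f).symm)

theorem brn_sp (hC : GF C) (hB : BRA C) (hS : SPB C) {ε : K →ₐ[C] C⸨X⸩} {j : C → Plk C K}
    (h : Dsc ε j) {η : NV C K} [CFF (kC C) (kap η)] (hη : Gs ε η)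
    {s : Plk C K → Plk (kC C) (kap η)} (hs : Gs.IsSp η s) {a : C} (ha : ‖a‖ < 1) :
    Brn ε η (s (j a)) := by
  obtain ⟨η', h1, _, z, h2, -⟩ := hB hC K ε j h
  obtain rfl : η' = η := NV.ext (AbsoluteValue.ext fun f => by
    rcases eq_or_ne f 0 with rfl | h0
    · simp
    · obtain ⟨c, D, h3, -⟩ := h.fac f h0
      exact (h1 f c D h3).trans (hη f c D h3).symm)
  rwa [hS hC K ε j η' z s h hη h2 hs a ha]

theorem ex_equiv (i : K →ₐ[C] L) {M : IntermediateField C L} (hi : ∀ f, f ∈ M ↔ ∃ y, i y = f) :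
    ∃ e : K ≃ₐ[C] M, ∀ y, (e y : L) = i y :=
  ⟨AlgEquiv.ofBijective (i.codRestrict M.toSubalgebra fun y => (hi _).2 ⟨y, rfl⟩)
    ⟨RingHom.injective _, fun f => ((hi f).1 f.2).imp fun _ h => Subtype.ext h⟩, fun _ => rfl⟩

variable {A : AT C L Γ O E} {D : LTD C O E} {x : Plk C L} {θ : L →ₐ[C] C⸨X⸩} {g : GL (Fin 2) E}
  {b : C} {ε : ℤ → L →ₐ[C] C⸨X⸩} {ν : NV C L} {W : Subgroup Γ}

theorem np_vx (hM : A.MAT) (g : GL (Fin 2) E) (n : ℤ) :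
    Np O g (A.ϖ ^ n) (Vx O (g * dg (A.ϖ ^ n))) := by
  simpa only [inf_idem] using hM.2.2.2.2.2.2.1 g n n le_rfl

theorem kv_le (hM : A.MAT) (hW : W ∈ A.Wl) (g : GL (Fin 2) E) (n : ℤ) :
    A.Kv W (g * dg (A.ϖ ^ n)) ≤ A.Ln g n :=
  Gn.le_Ln hW (hM.1 _).z fun c hc => (np_vx hM g n c).2 hc

/-- the reduction of the centre of a basin is the branch of the basin -/
theorem brn_at (hA : A.Ok) (hM : A.MAT) (hB : BRA C) (hS : SPB C) (hd : A.DSC) (hc : A.CAL)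
    (hD : D.Ok A.ϖ) (hb : A.Bas D x θ g b ε) (hν : A.Gv g ε ν) (hW : W ∈ A.Wl) (n : ℤ)
    (i : K →ₐ[C] L) (hi : ∀ f, f ∈ A.Kv W (g * dg (A.ϖ ^ n)) ↔ ∃ y, i y = f) {η : NV C K}
    [CFF (kC C) (kap η)] (hη : ∀ f, η f = ν (i f)) {s : Plk C K → Plk (kC C) (kap η)}
    (hs : Gs.IsSp η s) {P : Plk C K} (hP : ∀ f, f ∈ P.1 → i f ∈ x.1) :
    Brn ((ε n).comp i) η (s P) := by
  haveI := hA.cff W hW _ (hM.1 (g * dg (A.ϖ ^ n)))
  obtain ⟨e, he⟩ := ex_equiv i hi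
  obtain ⟨j, h1, h2⟩ := hd D hD x θ g b ε hb n W hW _ (hM.1 _) (np_vx hM g n)
  obtain ⟨j', h3, h4⟩ := dsc_equiv e h1
  have e1 : (((ε n).comp (A.Kv W (g * dg (A.ϖ ^ n))).val).comp e) = (ε n).comp i :=
    AlgHom.ext fun y => congrArg (ε n) (he y)
  rw [e1] at h3
  obtain rfl : P = j' 0 := Plk.eq_of_le fun f hf => (h4 0 f).2
    ((h2 0 x ((hc D hD x θ g b ε hb).2.2.1 n) _).2 (he f ▸ hP f hf))
  refine brn_sp hA.gf hB hS h3 (fun f c Dv hf => ?_) hs (by simp)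
  rw [hη]
  exact hν n _ (kv_le hM hW g n ((hi _).2 ⟨f, rfl⟩)) c Dv hf

theorem good_at (hA : A.Ok) (hM : A.MAT) (hF : A.FRO) (hD : D.Ok A.ϖ) (h1 : A.One D)
    (ho : A.Ord D ν g) (hW : W ∈ A.Wl) (i : K →ₐ[C] L)
    (hi : ∀ f, f ∈ A.Kv W g ↔ ∃ y, i y = f) :
    ∃ η : NV C K, (∃ S, G.Good η S) ∧ ∀ f, η f = ν (i f) := by
  haveI := hA.cff W hW _ (hM.1 g)
  haveI := (hF D hD ν g ho W hW 0).1 _ (hM.1 g) (by
    simpa only [zpow_zero, Gn.dg_one, mul_one] using np_vx hM g 0)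
  obtain ⟨e, he⟩ := ex_equiv i hi
  have hs : ∀ c : C, ‖RingEquiv.refl C c‖ = ‖c‖ := fun _ => rfl
  haveI := cff_pull (e : K ≃+* A.Kv W g) (s := RingEquiv.refl C) e.commutes hs (ν.comap (A.Kv W g))
  refine ⟨I.pullNV ((e : K ≃+* A.Kv W g) : K →+* A.Kv W g) (s := RingEquiv.refl C) e.commutes hs
    (ν.comap (A.Kv W g)), good _ hA.gf.sph hA.gf.onto ?_, fun f => congrArg ν (he f)⟩
  rw [P019P.gen_eq (resEq (e : K ≃+* A.Kv W g) (w' := ν.comap (A.Kv W g)) fun _ => rfl)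
    (kEq _ hs) (resEq_const _ _ e.commutes hs),
    P019P.gen_eq (e : K ≃+* A.Kv W g) (RingEquiv.refl C) e.commutes]
  exact (h1 W hW ν g ho).2

/-- the degrees on two consecutive levels -/
theorem dg_iff (hA : A.Ok) (hF : FAC C) (hS : FCS C) (hD : D.Ok A.ϖ) (hb : A.Bas D x θ g b ε)
    (hν : A.Gv g ε ν) {n : ℤ} {f f' : L} (hf : f ∈ A.Ln g (n + 1)) (hf' : f' ∈ A.Ln g n)
    (h1 : ν (f' - f) < 1) {c c' : C} {Dv Dv' : C →₀ ℤ} (h2 : Fac (ε (n + 1) f) c Dv)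
    (h3 : Fac (ε n f') c' Dv') (hc : ‖c‖ = 1) (hc' : ‖c'‖ = 1) : 0 ≤ dgD Dv' ↔ 0 ≤ dgD Dv := by
  obtain ⟨k1, k2, k3⟩ := Cl.f_deg hD
  obtain ⟨c₂, D₂, h4, h5, h6⟩ := Cl.fac_sub hS k1 (Cl.qq_pos hA.lf) k2 k3 (Cl.f_zero hA.lf hD) h3
  rw [← Cl.eps_succ hA hD hb] at h4
  have h7 : dgD D₂ = dgD Dv := by
    rcases eq_or_ne (f' - f) 0 with e | h0
    · rw [sub_eq_zero.1 e] at h4
      rw [(hF.1 _ _ _ _ _ h4 h2).2]
    · have h8 := sub_mem (Gn.Ln_mono hA g (Int.le_add_one le_rfl) hf') hf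
      obtain ⟨c₃, D₃, h9⟩ := hb.fac _ _ h8 h0
      rw [hν _ _ h8 _ _ h9] at h1
      exact ((hF.2.2.2.2.1 _ _ _ _ _ _ c₂ D₂ h9 h2 (by
        rwa [← map_add, sub_add_cancel])).2.2 h1.le hc.le (h5.trans hc')).1 h1
  rw [← h7, h6]
  exact (mul_nonneg_iff_of_pos_left (by exact_mod_cast Cl.qq_pos hA.lf)).symm

theorem cmp_at (hA : A.Ok) (hF : FAC C) (hS : FCS C) (hD : D.Ok A.ϖ) (hb : A.Bas D x θ g b ε)
    (hν : A.Gv g ε ν) {n : ℤ} {i : K →ₐ[C] L} {i' : K' →ₐ[C] L} {η : NV C K} {η' : NV C K'}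
    (hη : ∀ f, η f = ν (i f)) (hη' : ∀ f, η' f = ν (i' f)) {R : Plk (kC C) (kap η)}
    {R' : Plk (kC C) (kap η')} (hR : Brn ((ε (n + 1)).comp i) η R) (hR' : Brn ((ε n).comp i') η' R')
    {f : K} {f' : K'} (hf : i f ∈ A.Ln g (n + 1)) (hf' : i' f' ∈ A.Ln g n) (h1 : η f ≤ 1)
    (h2 : η' f' ≤ 1) (h3 : ν (i' f' - i f) < 1) : η'.red f' ∈ R'.1 ↔ η.red f ∈ R.1 := by
  have k : η' f' < 1 ↔ η f < 1 := by
    rw [hη, hη']
    refine ⟨fun h => ?_, fun h => ?_⟩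
    · simpa using NV.sub_lt h h3
    · simpa using NV.add_lt h3 h
  by_cases h4 : η f < 1
  · rw [NV.red_of_lt h4, NV.red_of_lt (k.2 h4)]
    exact iff_of_true (zero_mem _) (zero_mem _)
  have e1 : ν (i f) = 1 := hη f ▸ h1.antisymm (not_lt.1 h4)
  have e2 : ν (i' f') = 1 := hη' f' ▸ h2.antisymm (not_lt.1 (mt k.1 h4))
  obtain ⟨c, Dv, h5⟩ := hb.fac _ _ hf fun e => by simp [e] at e1
  obtain ⟨c', Dv', h6⟩ := hb.fac _ _ hf' fun e => by simp [e] at e2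
  rw [hν _ _ hf _ _ h5] at e1
  rw [hν _ _ hf' _ _ h6] at e2
  rw [hR f c Dv h5 e1, hR' f' c' Dv' h6 e2]
  exact dg_iff hA hF hS hD hb hν hf hf' h3 h5 h6 e1 e2

end tower

open Hk Br

variable {G0 G : Type} [Group G0] [Group G] {T : Tw G0 G} {hT : T.Ok} {O K : Type} [CommRing O]
  [IsDomain O] [IsDiscreteValuationRing O] [Field K] [Algebra O K] {w : T.Lc O K} {p : ℕ}
  [Fact p.Prime] {D : Emb w p} [Algebra K (Cx D.ι)] {A : AT (Cx D.ι) (LW T) (Gm hT) O K}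
  {U : Subgroup G}

variable (hT D) in
/-- the inclusion of the field of a component in the field of the tower -/
def inc (hU : U ∈ T.Lev) (x : G) : KX T U x →ₐ[Cx D.ι] LW T :=
  (IntermediateField.inclusion (KX_le hT hU x) : KX T U x →ₐ[ℂ] LW T)

theorem coe_inc (hU : U ∈ T.Lev) (x : G) (f : KX T U x) : (inc hT D hU x f : Mer) = f := rfl

theorem mem_K (hd : Dic hT D A) (hU : U ∈ T.Lev) {S : Subgroup (Gm hT)} {x : G}
    (h : S = (cj x U).subgroupOf (Gm hT)) (f : LW T) : f ∈ A.K S ↔ (f : Mer) ∈ KX T U x := by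
  rw [A.mem_K, h, hd.act, fix_iff D.ι (hT.conj U hU x), KX_cj]

theorem range_inc (hd : Dic hT D A) (hU : U ∈ T.Lev) {S : Subgroup (Gm hT)} {x : G}
    (h : S = (cj x U).subgroupOf (Gm hT)) (f : LW T) : f ∈ A.K S ↔ ∃ y, inc hT D hU x y = f :=
  (mem_K hd hU h f).trans ⟨fun hf => ⟨⟨f, hf⟩, rfl⟩, fun h => h.elim fun y e => e ▸ y.2⟩

theorem vx_tt (hM : A.MAT) (hd : Dic hT D A) (g : GL (Fin 2) K) :
    Vx O (g * dg (A.ϖ ^ (-1 : ℤ))) = Vx O (g * tt w) := by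
  refine hM.2.2.2.2.2.2.2.1 _ _ (Subgroup.mem_sup_right (mem_Zl.2 ⟨A.ϖ⁻¹, ?_⟩))
  rw [mul_inv_rev, mul_assoc, inv_mul_cancel_left, tt, d2_inv, Gn.dg_eq, d2_mul, hd.uni]
  simp

theorem act_un (hd : Dic hT D A) (hU : U ∈ T.Lev) {φ : G → Mer} (hφ : φ ∈ T.RU U) {x : G}
    {k : GL (Fin 2) K} {δ : Gm hT} (hδ : δ ∈ A.H) (e : A.π δ = w.π x * k * (w.π x)⁻¹) {f : LW T}
    (hf : (f : Mer) = φ x) : (A.act δ f : Mer) = φ (x * w.ι k) := by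
  have h1 := hd.H δ hδ
  rw [← hd.pi, e] at h1
  have h2 : Commute (w.ι k) ((w.ι (w.π x))⁻¹ * x) := w.com _ _ (by
    rw [map_mul, map_inv, w.πι, inv_mul_cancel])
  rw [hd.act, aL_apply, ac_RU hU hφ δ x hf, ← hφ.2 (x * w.ι k) _ (Z_le hU h1),
    Subgroup.mem_center_iff.1 (hT.zc h1)]
  congr 1
  calc (δ : G) * x = w.ι (w.π x * k * (w.π x)⁻¹) * ((w.ι (w.π x * k * (w.π x)⁻¹))⁻¹ * δ) * x := by
        group
    _ = (w.ι (w.π x * k * (w.π x)⁻¹))⁻¹ * δ * (w.ι (w.π x) * (w.ι k * ((w.ι (w.π x))⁻¹ * x))) := by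
        rw [Subgroup.mem_center_iff.1 (hT.zc h1)]
        simp only [map_mul, map_inv, mul_assoc]
    _ = _ := by rw [h2.eq, ← mul_assoc (w.ι (w.π x)), mul_inv_cancel_left]

theorem atp_le (hU : U ∈ T.Lev) {x : G} [CFF ℂ (KX T U x)] {τ : ℍ} {P : Plk (Cx D.ι) (KX T U x)}
    (h : AtP τ P) (f : KX T U x) (hf : f ∈ P.1) : inc hT D hU x f ∈ (plL hT D.ι τ).1 := by
  obtain ⟨c, hc⟩ := Gs.val_of_mem hf
  exact (mval_iff.1 ((h f c).1 hc)).1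

end Lx

open Lx Hk Br

variable {G0 G : Type} [Group G0] [Group G] {T : Tw G0 G} {hT : T.Ok} {O K : Type} [CommRing O]
  [IsDomain O] [IsDiscreteValuationRing O] [Field K] [Algebra O K] {w : T.Lc O K} {p : ℕ}
  [Fact p.Prime] {D : Emb w p} [Algebra K (Cx D.ι)] {A : AT (Cx D.ι) (LW T) (Gm hT) O K}

/-- **LOCX** -/
theorem locx (hA : A.Ok) (hM : A.MAT) (hF : FAC (Cx D.ι)) (hS : FCS (Cx D.ι)) (hB : BRA (Cx D.ι))
    (hP : SPB (Cx D.ι)) (hs : A.SA) (hc : A.CAL) (hN : A.NUE) (hd : A.DSC) (hr : A.FRO) :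
    LOCX hT D A := by
  intro dic LD hD h1 U hU hn hw _ τ x _ θ b ε ν hb hν
  obtain ⟨W, hW, lev⟩ := dic.lev U hU hn hw x
  have ho : A.Ord LD ν (w.π x) := ⟨_, θ, b, ε, hb, hν⟩
  have l0 := lev 1
  rw [map_one, mul_one, mul_one] at l0
  have l1 : A.U W (Vx O (w.π x * dg (A.ϖ ^ (0 : ℤ)))) = (cj x U).subgroupOf (Gm hT) := by
    rwa [zpow_zero, Gn.dg_one, mul_one]
  have l2 := lev (tt w)
  rw [← vx_tt hM dic] at l2
  obtain ⟨-, -, r1, r2⟩ := hr LD hD ν _ ho W hW 0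
  refine ⟨?_, fun U' hU' φ hφ a f g hf hg h2 => ?_, fun f hf h2 => ?_, fun g hg h2 => ?_,
    fun η η' _ _ _ _ e e' R R' ⟨s, P, s1, s2, s3⟩ ⟨s', P', s4, s5, s6⟩ g f h h2 h3 h4 h5 => ?_⟩
  · obtain ⟨η, h2, h3⟩ := good_at hA hM hr hD h1 ho hW (inc hT D hU x) (range_inc dic hU l0)
    exact ⟨η, h2, fun f g e => (h3 f).trans (congrArg ν (Subtype.ext e))⟩
  · obtain ⟨δ, hδ, e⟩ := Cl.exists_un hs (w.π x) (algebraMap O K a)
    obtain rfl : g = A.act δ f := Subtype.ext (hg.trans (act_un dic hU' hφ hδ e hf).symm)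
    exact (((hN LD hD _ θ _ b ε hb).2 ν hν).2 δ hδ _ (e ▸ Gn.fm_self _ _) f).2 h2
  · obtain ⟨g, h3, -, h4⟩ := r1 f ((mem_K dic hU l2 f).2 hf) h2
    exact ⟨g, (mem_K dic hU l1 g).1 h3, h4⟩
  · obtain ⟨f, h3, h4⟩ := r2 g ((mem_K dic hU l1 g).2 hg) h2
    exact ⟨f, (mem_K dic hU l2 f).1 h3, h4⟩
  · subst s3 s6
    have k : ∀ f, η f = ν (inc hT D hU x f) := fun f => e f _ rfl
    have k' : ∀ f, η' f = ν (inc hT D hU _ f) := fun f => e' f _ rfl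
    rw [← neg_add_cancel (1 : ℤ)] at l1
    exact cmp_at (n := -1) hA hF hS hD hb hν k k'
      (brn_at hA hM hB hP hd hc hD hb hν hW _ _ (range_inc dic hU l1) k s1 (atp_le hU s2))
      (brn_at hA hM hB hP hd hc hD hb hν hW (-1) _ (range_inc dic hU l2) k' s4 (atp_le hU s5))
      (kv_le hM hW _ _ ((range_inc dic hU l1 _).2 ⟨g, rfl⟩))
      (kv_le hM hW _ (-1) ((range_inc dic hU l2 _).2 ⟨f, rfl⟩)) h2 h3
      ((show inc hT D hU _ f - inc hT D hU x g = h from Subtype.ext h4.symm) ▸ h5)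

end Vale.Agent.P022K.FI
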