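import Vale.Agent.P022K.FI.Defs

/-!
# P022K, block FI: the rows for discs and for abstract towers

Shape of the theorems: `theorem bra : BRA C`, `theorem gal0 (hA : A.Ok) : A.GAL0`; other rows may
be taken as hypotheses (for the same `C`, the same `A`).
-/

set_option autoImplicit false
set_option linter.unusedSectionVars false

open PowerSeries Vale.Agent.P019P P025H746 P025H492 Module
open scoped MatrixGroups LaurentSeries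

noncomputable section

namespace Vale.Agent.P022K.FI

open Vale.Agent.P022K.Sh

/-! ## rows without a tower -/

section free

variable (C : Type) [NontriviallyNormedField C] [IsUltrametricDist C] [CompleteSpace C]
  [IsAlgClosed C] [CharZero C]

/-- **FAC**: calculus of factorisations -/
def FAC : Prop :=
  (∀ (x : C⸨X⸩) c D c' D', Fac x c D → Fac x c' D' → ‖c‖ = ‖c'‖ ∧ D = D') ∧
  (∀ (x y : C⸨X⸩) c D c' D', Fac x c D → Fac y c' D' → Fac (x * y) (c * c') (D + D')) ∧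
  (∀ (x : C⸨X⸩) c D, Fac x c D → x ≠ 0 ∧ Fac x⁻¹ c⁻¹ (-D) ∧ x.order = D 0) ∧
  (∀ c : C, c ≠ 0 → Fac (algebraMap C C⸨X⸩ c) c 0) ∧
  (∀ (x y : C⸨X⸩) c D c' D' c'' D'', Fac x c D → Fac y c' D' → Fac (x + y) c'' D'' →
    ‖c''‖ ≤ max ‖c‖ ‖c'‖ ∧ (∀ a, min (D a) (D' a) ≤ D'' a) ∧
    (‖c‖ ≤ 1 → ‖c'‖ ≤ 1 → ‖c''‖ = 1 → (‖c‖ < 1 → dgD D'' = dgD D') ∧
      (‖c‖ = 1 → ‖c'‖ = 1 → min (dgD D) (dgD D') ≤ dgD D''))) ∧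
  (∀ (x : C⸨X⸩) c D, Fac x c D → ∃ P Q : C⟦X⟧, Ig P ∧ Ig Q ∧ ¬ Sm P ∧ ¬ Sm Q ∧
    x * (Q : C⸨X⸩) = algebraMap C C⸨X⸩ c * (P : C⸨X⸩) ∧ (0 ≤ D → Q = 1) ∧
    ∀ a, ‖a‖ < 1 → (0 ≤ D a → An4.ev a Q ≠ 0) ∧ (D a ≤ 0 → An4.ev a P ≠ 0) ∧
      (0 < D a → An4.ev a P = 0) ∧ (D a < 0 → An4.ev a Q = 0)) ∧
  (∀ (P : C⟦X⟧) (e : ℕ), Ig P → (∀ n < e, ‖coeff n P‖ < 1) → ‖coeff e P‖ = 1 →
    ∃ c D, Fac (P : C⸨X⸩) c D ∧ ‖c‖ = 1 ∧ 0 ≤ D ∧ dgD D = e ∧ ∀ a, ‖a‖ < 1 →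
      (0 < D a ↔ An4.ev a P = 0) ∧ (1 < D a → An4.ev a (d⁄dX C P) = 0))

/-- **FCS**: substitution in factorisations -/
def FCS : Prop := ∀ (Φ : C⟦X⟧) (e : ℕ), Ig Φ → 0 < e → (∀ n < e, ‖coeff n Φ‖ < 1) →
  ‖coeff e Φ‖ = 1 → ∀ (x : C⸨X⸩) c D, Fac x c D →
    (constantCoeff Φ = 0 → ∀ y, Sb Φ x y ↔ Cm Φ x y) ∧ (∃! y, Cm Φ x y) ∧
    ∀ y, Cm Φ x y → ∃ c' D', Fac y c' D' ∧ ‖c'‖ = ‖c‖ ∧ dgD D' = e * dgD D ∧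
      ∀ a, ‖a‖ < 1 → ‖An4.ev a Φ‖ < 1 ∧ ∃ r : ℕ, 0 < r ∧ D' a = r * D (An4.ev a Φ) ∧
        (An4.ev a (d⁄dX C Φ) ≠ 0 → r = 1)

/-- **BRA**: the boundary norm and the branch of a disc -/
def BRA : Prop := GF C → ∀ (K : Type) [Field K] [Algebra C K] [CFF C K] (ε : K →ₐ[C] C⸨X⸩)
  (j : C → Plk C K), Dsc ε j → ∃ η : NV C K, Gs ε η ∧ ∃ _ : CFF (kC C) (kap η), ∃ z, Brn ε η z ∧
    ∀ h c D, Fac (ε h) c D → ‖c‖ = 1 → ord z (η.red h) = dgD D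

/-- **BD**: the branch determines the disc -/
def BD : Prop := GF C → ∀ (K : Type) [Field K] [Algebra C K] [CFF C K] (ε ε' : K →ₐ[C] C⸨X⸩)
  (j j' : C → Plk C K) (η : NV C K) (z : Plk (kC C) (kap η)), Dsc ε j → Dsc ε' j' → Gs ε η →
  Gs ε' η → Brn ε η z → Brn ε' η z → j '' {a | ‖a‖ < 1} = j' '' {a | ‖a‖ < 1}

/-- **GEN**: almost all branches are discs -/
def GEN : Prop := GF C → ∀ (K : Type) [Field K] [Algebra C K] [CFF C K] (η : NV C K)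
  [CFF (kC C) (kap η)] (s : K), η s ≤ 1 →
  (∃ (z : Plk (kC C) (kap η)) (c : kC C), ord z (η.red s - algebraMap _ _ c) = 1) →
  ∃ (f : K) (Z : Set (Plk (kC C) (kap η))), Z.Finite ∧ η f ≤ 1 ∧ ∀ z ∉ Z,
    η.red s ∈ z.1 ∧ η.red f ∈ z.1 ∧
    (∀ z' ∉ Z, vl z (η.red s) = vl z' (η.red s) → vl z (η.red f) = vl z' (η.red f) → z = z') ∧
    ∀ s₀ : C, ‖s₀‖ ≤ 1 → cred s₀ = vl z (η.red s) → ∃ ε j, Dsc ε j ∧ Gs ε η ∧ Brn ε η z ∧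
      ε s = ((X + PowerSeries.C s₀ : C⟦X⟧) : C⸨X⸩) ∧ ∀ P : Plk C K, (∃ a, ‖a‖ < 1 ∧ j a = P) ↔
        (s ∈ P.1 ∧ f ∈ P.1 ∧ ‖vl P s‖ ≤ 1 ∧ ‖vl P f‖ ≤ 1 ∧ cred (vl P s) = vl z (η.red s) ∧
          cred (vl P f) = vl z (η.red f))

/-- **LIFT**: almost all places of the reduction of a correspondence which reduces to a purely
inseparable map come from attracting cycles, and every invariant cycle of discs around such a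
cycle has the given norm and branch -/
def LIFT : Prop := GF C → ∀ (Y Y' : Type) [Field Y] [Algebra C Y] [CFF C Y] [Field Y']
  [Algebra C Y'] [CFF C Y'] (α β : Y →ₐ[C] Y') (η : NV C Y) (η' : NV C Y') [CFF (kC C) (kap η)]
  (p m : ℕ), p.Prime → (p : kC C) = 0 → 0 < m →
  (∀ h, η' (α h) = η h) → (∀ h, η' (β h) = η h) →
  (∀ h', η' h' ≤ 1 → ∃ h, η' (h' - α h) < 1) →
  (∀ h, η h ≤ 1 → ∃ h₁, η h₁ ≤ 1 ∧ η' (β h - α h₁ ^ p ^ m) < 1) →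
  (∀ h₁, η h₁ ≤ 1 → ∃ h, η' (β h - α h₁ ^ p ^ m) < 1) →
  finrank β.fieldRange Y' ≤ p ^ m →
  (∀ (R : Plk C Y') (P : Plk C Y), (∀ h, α h ∈ R.1 ↔ h ∈ P.1) → ∀ h, ord R (α h) = ord P h) →
  (∀ (R : Plk C Y') (P : Plk C Y), (∀ h, β h ∈ R.1 ↔ h ∈ P.1) → ∀ h, ord R (β h) = ord P h) →
  ∃ Z : Set (Plk (kC C) (kap η)), Z.Finite ∧ ∀ z ∉ Z, ∃ k : ℕ, 0 < k ∧
    ∃ (R : ℕ → Plk C Y') (t : ℕ → Y), (∀ i, R (i + k) = R i) ∧ (∀ i, t (i + k) = t i) ∧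
      (∀ i h, β h ∈ (R i).1 ↔ α h ∈ (R (i + 1)).1) ∧
      (∀ i, ord (R i) (α (t i)) = 1 ∧ ‖vl (R i) (β (t (i + 1)) / α (t i))‖ < 1) ∧
      ∀ (ε : ℕ → Y' →ₐ[C] C⸨X⸩) (j : ℕ → C → Plk C Y') (Φ : ℕ → C⟦X⟧),
        (∀ i, ε (i + k) = ε i) → (∀ i, Φ (i + k) = Φ i) →
        (∀ i, Dsc (ε i) (j i) ∧ j i 0 = R i ∧ Ig (Φ i) ∧ constantCoeff (Φ i) = 0 ∧
          ‖coeff 1 (Φ i)‖ < 1 ∧ ¬ Sm (Φ i) ∧ ∀ h, Sb (Φ i) (ε (i + 1) (α h)) (ε i (β h))) →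
        Gs ((ε 0).comp α) η ∧ Brn ((ε 0).comp α) η z

/-- **LT**: Lubin-Tate data exist -/
def LT : Prop := ∀ (O E : Type) [CommRing O] [IsDomain O] [IsDiscreteValuationRing O] [Field E]
  [Algebra O E] [Algebra E C] (ϖ : Eˣ), LF O C ϖ → ∀ f : Polynomial O, f.Monic →
  f.natDegree = qq O → f.coeff 0 = 0 → algebraMap O E (f.coeff 1) = ϖ →
  (∀ n < qq O, f.coeff n ∈ IsLocalRing.maximalIdeal O) → ∃ D : LTD C O E, D.Ok ϖ ∧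
    D.f = (f.map ((algebraMap E C).comp (algebraMap O E)) : Polynomial C)

end free

/-! ## rows for a tower -/

section tower

variable {C L Γ O E : Type} [NontriviallyNormedField C] [IsUltrametricDist C] [CompleteSpace C]
  [IsAlgClosed C] [CharZero C] [Field L] [Algebra C L] [Group Γ] [CommRing O] [IsDomain O]
  [IsDiscreteValuationRing O] [Field E] [Algebra O E] [Algebra E C]

namespace AT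

variable (A : AT C L Γ O E)

/-- **MAT**: matrices -/
def MAT : Prop :=
  (∀ g : GL (Fin 2) E, Ll O (Vx O g)) ∧ (∀ m, Ll O (Km O E m ⊔ Zl E)) ∧
  (∀ V V' : Subgroup (GL (Fin 2) E), Ll O V → Ll O V' → Ll O (V ⊓ V') ∧ V.relIndex V' ≠ 0) ∧
  (∀ (V : Subgroup (GL (Fin 2) E)) g, Ll O V → Ll O (cj g V)) ∧
  (∀ k : GL (Fin 2) E, k ∈ KZ O E ↔ ∃ c : Eˣ, (∀ i l, Io O (c * k i l)) ∧
    ∀ i l, Io O ((c⁻¹ : Eˣ) * (k⁻¹ : GL (Fin 2) E) i l)) ∧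
  (∀ (m : ℕ) (k : GL (Fin 2) E), k ∈ Km O E m ↔
    ∀ i l, Io O (k i l) ∧ Io O ((k i l - (1 : Matrix (Fin 2) (Fin 2) E) i l) / A.ϖ ^ m) ∧
      Io O ((k⁻¹ : GL (Fin 2) E) i l)) ∧
  (∀ (g : GL (Fin 2) E) (m n : ℤ), m ≤ n →
    Np O g (A.ϖ ^ n) (Vx O (g * dg (A.ϖ ^ m)) ⊓ Vx O (g * dg (A.ϖ ^ n)))) ∧
  (∀ g g' : GL (Fin 2) E, g⁻¹ * g' ∈ KZ O E → Vx O g' = Vx O g) ∧
  (∀ g : GL (Fin 2) E, ∃ k ∈ KK O E, ((g * k : GL (Fin 2) E) 1 0) = 0) ∧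
  ∀ μ : Eˣ, ∃ (m : ℤ) (o : Oˣ), (μ : E) = A.ϖ ^ m * algebraMap O E o

/-- **GAL0**: Galois theory of the tower -/
def GAL0 : Prop := ∀ W ∈ A.Wl, ∀ V, Ll O V → IsGalois (A.K (A.U W V)) L ∧
  (∀ γ, (∀ h ∈ A.K (A.U W V), A.act γ h = h) → γ ∈ A.U W V) ∧
  ∀ W' ∈ A.Wl, ∀ V', Ll O V' → A.U W' V' ≤ A.U W V → (A.U W' V').relIndex (A.U W V) ≠ 0 ∧
    IntermediateField.relfinrank (A.K (A.U W V)) (A.K (A.U W' V')) =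
      (A.U W' V').relIndex (A.U W V)

/-- **TRV**: restriction and extension of places; the levels are transitive on the extensions of
places and of norms -/
def TRV : Prop := ∀ W ∈ A.Wl, ∀ V, Ll O V → ∀ M : IntermediateField C L, A.K (A.U W V) ≤ M →
  (∀ P : Plk C M, ∃ y : Plk C L, Ly y P) ∧ (∀ y : Plk C L, ∃ P : Plk C M, Ly y P) ∧
  (∀ y y' : Plk C L, (∀ h ∈ M, h ∈ y.1 ↔ h ∈ y'.1) →
    ∃ u ∈ A.U W V, (∀ h ∈ M, A.act u h = h) ∧ y' = A.sm u y) ∧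
  ∀ ν ν' : NV C L, (∀ h ∈ M, ν h = ν' h) →
    ∃ u ∈ A.U W V, (∀ h ∈ M, A.act u h = h) ∧ ∀ h, ν' (A.act u h) = ν h

/-- **GNN**: the groups `Nn` -/
def GNN : Prop := ∀ (g : GL (Fin 2) E) (n : ℤ),
  (∀ γ, γ ∈ A.Nn g n ↔ γ ∈ A.H ∧ ∃ c : E, Io O (c / (A.ϖ ^ n : Eˣ)) ∧ Fm g (A.π γ) (un c)) ∧
  (∀ γ, (∀ h ∈ A.Ln g n, A.act γ h = h) → γ ∈ A.Nn g n) ∧
  (∀ W ∈ A.Wl, ∀ V, Ll O V → Np O g (A.ϖ ^ n) V → A.K (A.U W V) ≤ A.Ln g n) ∧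
  (∀ h, ∃ m, h ∈ A.Ln g m) ∧ Monotone (A.Ln g) ∧
  (∀ γ h, h ∈ A.Ln g n ↔ A.act γ h ∈ A.Ln (A.π γ * g) n) ∧
  ∀ (c : E) (μ : Eˣ) (m : ℤ) (o : Oˣ), (μ : E) = A.ϖ ^ m * algebraMap O E o → ∀ z ∈ Zl E,
    A.Ln (g * un c * dg μ * z) n = A.Ln g (n + m)

/-- **GN2**: `L_n` is a union of function fields (uses `SA`) -/
def GN2 : Prop := ∀ (g : GL (Fin 2) E) (n : ℤ), ∀ s : Finset L, (∀ h ∈ s, h ∈ A.Ln g n) →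
  ∃ W ∈ A.Wl, ∃ V, Ll O V ∧ Np O g (A.ϖ ^ n) V ∧ ∀ h ∈ s, h ∈ A.K (A.U W V)

/-- **UNR**: the tower is unramified -/
def UNR : Prop := ∀ W ∈ A.Wl, ∀ V, Ll O V → ∀ [CFF C (A.K (A.U W V))],
  (∀ (x : Plk C L) θ g, A.CM x θ g → ∀ P : Plk C (A.K (A.U W V)), Ly x P →
    ∀ h : A.K (A.U W V), ord P h = (θ h).order) ∧
  ∀ W' ∈ A.Wl, ∀ V', Ll O V' → ∀ [CFF C (A.K (A.U W' V'))], ∀ (y : Plk C L) (γ : Γ)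
    (P : Plk C (A.K (A.U W V))) (P' : Plk C (A.K (A.U W' V'))), Ly y P → Ly (A.sm γ y) P' →
    ∀ (h : A.K (A.U W V)) (h' : A.K (A.U W' V')), (h' : L) = A.act γ h → ord P' h' = ord P h

/-- **HYP**: attracting elements; the multiplier is read on the place -/
def HYP : Prop := ∀ x θ g, A.CM x θ g →
  (A.Hyp x → ∀ W ∈ A.Wl, ∃ γ ∈ W, γ ∈ A.St x ∧ ∃ μ : Eˣ, Fm g (A.π γ) (dg μ) ∧
    ‖algebraMap E C μ‖ < 1) ∧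
  (∀ t (μ μ' : Eˣ), Fm g (A.π t) (dg μ) → Fm g (A.π t) (dg μ') → μ = μ') ∧
  ∀ θ' g', A.CM x θ' g' → (g⁻¹ * g' : GL (Fin 2) E) 1 0 = 0 ∧ (g⁻¹ * g' : GL (Fin 2) E) 0 1 = 0

/-- **CONV**: the expansions converge -/
def CONV : Prop := ∀ x θ g, A.CM x θ g → A.Hyp x → ∀ h, ∃ r, 0 < r ∧ Mr r (θ h)

/-- **SRN**: the decomposition group of a small disc -/
def SRN : Prop := ∀ x θ g, A.CM x θ g → A.Hyp x →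
  (∀ c : E, ∃ γ ∈ A.H, A.π γ = g * un c * g⁻¹) ∧
  ∃ (r : ℝ) (n : ℤ), 0 < r ∧ ∀ h, h ∈ A.Ln g n ↔ Mr r (θ h)

/-- **SA**: strong approximation at `w`; indices -/
def SA : Prop := (∀ k : GL (Fin 2) E, k.det = 1 → ∃ γ ∈ A.H, A.π γ = k) ∧
  ∀ W ∈ A.Wl, ∀ (g : GL (Fin 2) E) (m n : ℤ), m < n →
    (A.U W (Vx O (g * dg (A.ϖ ^ m)) ⊓ Vx O (g * dg (A.ϖ ^ n)))).relIndex
      (A.U W (Vx O (g * dg (A.ϖ ^ m)))) = (qq O + 1) * qq O ^ (n - m - 1).toNat ∧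
    ∀ l : ℤ, m < l → l ≤ n →
      (A.U W (Vx O (g * dg (A.ϖ ^ m)) ⊓ Vx O (g * dg (A.ϖ ^ n)))).relIndex
        (A.U W (Vx O (g * dg (A.ϖ ^ m)) ⊓ Vx O (g * dg (A.ϖ ^ l)))) = qq O ^ (n - l).toNat

/-- **BAS**: basins exist -/
def BAS : Prop := ∀ D : LTD C O E, D.Ok A.ϖ → ∀ x θ g, A.CM x θ g → A.Hyp x →
  ∃ b ε, A.Bas D x θ g b ε

/-- **CAL**: the coordinates of a basin -/
def CAL : Prop := ∀ D : LTD C O E, D.Ok A.ϖ → ∀ x θ g b ε, A.Bas D x θ g b ε →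
  (∀ n h, Sb D.f (ε n h) (ε (n + 1) h)) ∧
  (∀ n h, (ε n h).order = (θ h).order) ∧ (∀ n, A.Ov g ε n 0 x) ∧
  ∀ t ∈ A.St x, ∀ (m : ℤ) (o : Oˣ) (μ : Eˣ), (μ : E) = A.ϖ ^ m * algebraMap O E o →
    Fm g (A.π t) (dg μ) → ∀ n h, (h ∈ A.Ln g n ↔ A.act t h ∈ A.Ln g (n + m)) ∧
      Sb (D.br o) (ε (n + m) (A.act t h)) (ε n h)

/-- **FRM**: transport of basins, change of the frame -/
def FRM : Prop := ∀ D : LTD C O E, D.Ok A.ϖ → ∀ x θ g b ε, A.Bas D x θ g b ε →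
  (∀ γ, A.Bas D (A.sm γ x) (θ.comp (A.act γ⁻¹ : L →ₐ[C] L)) (A.π γ * g) b
    fun n => (ε n).comp (A.act γ⁻¹ : L →ₐ[C] L)) ∧
  (∀ z ∈ Zl E, A.Bas D x θ (g * z) b ε) ∧
  (∀ m : ℤ, A.Bas D x θ (g * dg (A.ϖ ^ m)) (b * algebraMap E C A.ϖ ^ m) fun n => ε (n + m)) ∧
  ∀ (o : Oˣ) (μ : Eˣ), (μ : E) = algebraMap O E o →
    ∃ ε', A.Bas D x θ (g * dg μ) (b * algebraMap E C μ) ε' ∧ ∀ n h, Sb (D.br o) (ε n h) (ε' n h)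

/-- **UNQ**: the coordinates depend on the point and on the frame only -/
def UNQ : Prop := ∀ D : LTD C O E, D.Ok A.ϖ → ∀ x θ g b ε θ' b' ε', A.Bas D x θ g b ε →
  A.Bas D x θ' g b' ε' → ε' = ε

/-- **NUE**: the boundary norm -/
def NUE : Prop := ∀ D : LTD C O E, D.Ok A.ϖ → ∀ x θ g b ε, A.Bas D x θ g b ε →
  (∃! ν, A.Gv g ε ν) ∧ ∀ ν, A.Gv g ε ν → (∀ t ∈ A.St x, ∀ h, ν (A.act t h) = ν h) ∧
    ∀ γ ∈ A.H, ∀ c, Fm g (A.π γ) (un c) → ∀ h, ν (A.act γ h) = ν h ∧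
      (ν h ≤ 1 → ν (A.act γ h - h) < 1)

/-- **ORB**: ordinary norms depend on the end of the frame only -/
def ORB : Prop := ∀ D : LTD C O E, D.Ok A.ϖ → (∃ ν g, A.Ord D ν g) ∧ ∀ ν g, A.Ord D ν g →
  (∀ k : GL (Fin 2) E, k 1 0 = 0 → A.Ord D ν (g * k)) ∧
  (∀ γ, ∃ ν' : NV C L, (∀ h, ν' (A.act γ h) = ν h) ∧ A.Ord D ν' (A.π γ * g)) ∧
  ∀ x θ b ε θ' g' b' ε' ν', A.Bas D x θ g b ε → A.Gv g ε ν → A.Bas D x θ' g' b' ε' →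
    A.Gv g' ε' ν' → ν' = ν

/-- **OVU**: the points of a basin -/
def OVU : Prop := ∀ D : LTD C O E, D.Ok A.ϖ → ∀ x θ g b ε, A.Bas D x θ g b ε → ∀ n : ℤ,
  (∀ a, ‖a‖ < 1 → (∃ y, A.Ov g ε n a y) ∧
    ∃ h ∈ A.Ln g n, ∃ c Dv, Fac (ε n h) c Dv ∧ Dv a = 1) ∧
  (∀ a y, A.Ov g ε (n + 1) a y → A.Ov g ε n (An4.ev a D.f) y) ∧
  (∀ a y, A.Ov g ε n a y → ∃ a₁, An4.ev a₁ D.f = a ∧ A.Ov g ε (n + 1) a₁ y) ∧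
  (∀ a a' y, A.Ov g ε n a y → A.Ov g ε n a' y → a = a') ∧
  (∀ γ ∈ A.H, ∀ c, Fm g (A.π γ) (un c) → ∀ a y, A.Ov g ε n a (A.sm γ⁻¹ y) ↔
    ∃ a', A.Ov g ε n a' y ∧ a = An4.ev a' (D.tr (c / (A.ϖ ^ n : Eˣ)))) ∧
  (∀ t ∈ A.St x, ∀ (m : ℤ) (o : Oˣ) (μ : Eˣ), (μ : E) = A.ϖ ^ m * algebraMap O E o →
    Fm g (A.π t) (dg μ) → ∀ a y, A.Ov g ε n a y →
      A.Ov g ε (n + m) (An4.ev a (D.br o)) (A.sm t y)) ∧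
  ∀ a y, A.Ov g ε n a y → ∀ h ∈ A.Ln g n, ∀ (c : C) (P Q : C⟦X⟧), Ig P → Ig Q →
    ε n h * (Q : C⸨X⸩) = algebraMap C C⸨X⸩ c * (P : C⸨X⸩) → An4.ev a Q ≠ 0 →
    h = algebraMap C L (c * An4.ev a P / An4.ev a Q) ∨
      (h - algebraMap C L (c * An4.ev a P / An4.ev a Q))⁻¹ ∉ y.1

/-- **SIG1**: basins with a common point have the same end -/
def SIG1 : Prop := ∀ D : LTD C O E, D.Ok A.ϖ → ∀ x θ g b ε x' θ' g' b' ε', A.Bas D x θ g b ε →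
  A.Bas D x' θ' g' b' ε' → ∀ n a n' a' y, A.Ov g ε n a y → A.Ov g' ε' n' a' y →
    (g⁻¹ * g' : GL (Fin 2) E) 1 0 = 0

/-- **SIG2**: basins with a common point and the same frame have the same centre -/
def SIG2 : Prop := ∀ D : LTD C O E, D.Ok A.ϖ → ∀ x θ g b ε x' θ' b' ε', A.Bas D x θ g b ε →
  A.Bas D x' θ' g b' ε' → ∀ n a n' a' y, A.Ov g ε n a y → A.Ov g ε' n' a' y → x' = x

/-- **SIG**: basins with a common point -/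
def SIG : Prop := ∀ D : LTD C O E, D.Ok A.ϖ → ∀ x θ g b ε x' θ' g' b' ε', A.Bas D x θ g b ε →
  A.Bas D x' θ' g' b' ε' → ∀ n a n' a' y, A.Ov g ε n a y → A.Ov g' ε' n' a' y →
    ∃ γ ∈ A.H, ∃ c, Fm g (A.π γ) (un c) ∧ x' = A.sm γ x

/-- **DSC**: basins are discs -/
def DSC : Prop := ∀ D : LTD C O E, D.Ok A.ϖ → ∀ x θ g b ε, A.Bas D x θ g b ε →
  ∀ n : ℤ, ∀ W ∈ A.Wl, ∀ V, Ll O V → Np O g (A.ϖ ^ n) V →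
    ∀ [CFF C (A.K (A.U W V))], ∃ j, Dsc ((ε n).comp (A.K (A.U W V)).val) j ∧
      ∀ a y, A.Ov g ε n a y → Ly y (j a)

/-- **FRO**: the steps towards the end are purely inseparable of degree `q` -/
def FRO : Prop := ∀ D : LTD C O E, D.Ok A.ϖ → ∀ ν g, A.Ord D ν g → ∀ W ∈ A.Wl, ∀ n : ℤ,
  (∀ V, Ll O V → Np O g (A.ϖ ^ n) V → CFF (kC C) (kap (ν.comap (A.K (A.U W V))))) ∧
  (∀ m ≤ n, ∀ h ∈ A.Kp W g m n, ν h ≤ 1 →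
    ∃ h' ∈ A.Kv W (g * dg (A.ϖ ^ n)), ν (h - h') < 1) ∧
  (∀ h ∈ A.Kv W (g * dg (A.ϖ ^ (n - 1))), ν h ≤ 1 →
    ∃ h' ∈ A.Kv W (g * dg (A.ϖ ^ n)), ν h' ≤ 1 ∧ ν (h - h' ^ qq O) < 1) ∧
  ∀ h' ∈ A.Kv W (g * dg (A.ϖ ^ n)), ν h' ≤ 1 →
    ∃ h ∈ A.Kv W (g * dg (A.ϖ ^ (n - 1))), ν (h - h' ^ qq O) < 1

/-- **END**: the norm determines the end -/
def END : Prop := ∀ D : LTD C O E, D.Ok A.ϖ → ∀ ν g g', A.Ord D ν g → A.Ord D ν g' →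
  (g⁻¹ * g' : GL (Fin 2) E) 1 0 = 0

/-- **UPI**: the norm and the branch determine the centre -/
def UPI : Prop := ∀ D : LTD C O E, D.Ok A.ϖ → ∀ x θ g b ε x' θ' g' b' ε', A.Bas D x θ g b ε →
  A.Bas D x' θ' g' b' ε' → g⁻¹ * g' ∈ KZ O E → ∀ W ∈ A.Wl, ∀ (η : NV C (A.Kv W g)) z,
    Gs ((ε 0).comp (A.Kv W g).val) η → Gs ((ε' 0).comp (A.Kv W g).val) η →
    Brn ((ε 0).comp (A.Kv W g).val) η z → Brn ((ε' 0).comp (A.Kv W g).val) η z →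
    ∃ u ∈ A.U W (Vx O g), x' = A.sm u x

/-- **COF**: almost all branches of an ordinary norm are basins -/
def COF : Prop := ∀ D : LTD C O E, D.Ok A.ϖ → ∀ ν g, A.Ord D ν g → ∀ W ∈ A.Wl,
  ∃ Z : Set (Plk (kC C) (kap (ν.comap (A.Kv W g)))), Z.Finite ∧ ∀ z ∉ Z, ∃ x θ g' b ε,
    A.Bas D x θ g' b ε ∧ g⁻¹ * g' ∈ KZ O E ∧
    Gs ((ε 0).comp (A.Kv W g).val) (ν.comap (A.Kv W g)) ∧
    Brn ((ε 0).comp (A.Kv W g).val) (ν.comap (A.Kv W g)) z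

/-- the result of the count: one ordinary norm on each curve, without loss of genus -/
def One (D : LTD C O E) : Prop := ∀ W ∈ A.Wl, ∀ ν g, A.Ord D ν g →
  (∀ ν' g', A.Ord D ν' g' → g⁻¹ * g' ∈ KZ O E → ∀ h ∈ A.Kv W g, ν' h = ν h) ∧
  ∀ [CFF C (A.Kv W g)] [CFF (kC C) (kap (ν.comap (A.Kv W g)))],
    gen C (A.Kv W g) ≤ gen (kC C) (kap (ν.comap (A.Kv W g)))

end AT

end tower

end Vale.Agent.P022K.FI
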