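import Vale.Agent.P022K.FI.Lt5
import Vale.Agent.P022K.FI.St

/-!
# P022K / FI / Lt6 : row LT
-/

set_option linter.all false

noncomputable section

open PowerSeries Filter Topology

namespace Vale.Agent.P022K.FI

open Lt Lt.LT Vale.Agent.P022K.Sh

variable {C : Type} [NontriviallyNormedField C] [IsUltrametricDist C] [CompleteSpace C]
  [IsAlgClosed C] [CharZero C]

/-- **LT** -/
theorem lt : LT C := by
  intro O E _ _ _ _ _ _ ϖ hL f fm fd f0 f1 fr
  classical
  haveI := hL.fr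
  haveI := hL.fin
  obtain ⟨p, hp, hpϖ⟩ := hL.irr
  obtain rfl : f.coeff 1 = p := IsFractionRing.injective O E (f1.trans hpϖ.symm)
  letI : Algebra O C := ((algebraMap E C).comp (algebraMap O E)).toAlgebra
  have ea : ∀ o : O, algebraMap O C o = algebraMap E C (algebraMap O E o) := fun _ => rfl
  haveI hF : Fact (∀ o : O, ‖algebraMap O C o‖ ≤ 1) := ⟨fun o => (hL.nrm _).2 ⟨o, rfl⟩⟩
  have dv : ∀ o : O, ¬ IsUnit o → f.coeff 1 ∣ o := fun o h => by
    rw [← Ideal.mem_span_singleton, ← hp.maximalIdeal_eq]; exact h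
  have hI : IsLT (f.coeff 1) (qq O) f := by
    refine ⟨f0, rfl, fm, fd, ?_⟩
    obtain ⟨h, e⟩ : Polynomial.C (f.coeff 1) ∣ f - Polynomial.X ^ qq O := by
      refine (Polynomial.C_dvd_iff_dvd_coeff _ _).2 fun n => ?_
      rw [Polynomial.coeff_sub, Polynomial.coeff_X_pow]
      rcases lt_trichotomy n (qq O) with h | h | h
      · rw [if_neg h.ne, sub_zero]; exact dv _ (fr n h)
      · rw [if_pos h, h, ← fd, fm.coeff_natDegree, sub_self]; exact dvd_zero _
      · rw [if_neg h.ne', Polynomial.coeff_eq_zero_of_natDegree_lt (fd.trans_lt h), sub_self]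
        exact dvd_zero _
    exact ⟨h, by rw [← e]; ring⟩
  obtain ⟨g, hg⟩ := IsLT.lt hp hI
  have p0 : algebraMap O C (f.coeff 1) ≠ 0 := by
    rw [ea, hpϖ]; exact (_root_.map_ne_zero _).2 ϖ.ne_zero
  have p1 : ‖algebraMap O C (f.coeff 1)‖ < 1 := lt_of_le_of_ne (hF.out _) fun e => by
    obtain ⟨b, hb⟩ := (hL.nrm (algebraMap O E (f.coeff 1))⁻¹).1 (by
      rw [map_inv₀, norm_inv, ← ea, e, inv_one])
    refine hp.not_isUnit (IsUnit.of_mul_eq_one b (IsFractionRing.injective O E ?_))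
    rw [map_mul, hb, map_one, mul_inv_cancel₀ (hpϖ ▸ ϖ.ne_zero)]
  have S : Su C (f.coeff 1) (qq O) f g := ⟨hg, hI, Finite.one_lt_card, p1, p0⟩
  obtain ⟨x, x0, x1, hx⟩ := S.exists_seq
  have h1 : ∀ y : S.lt.Mc C, f.coeff 1 • y = 0 → ∃ a : O, y = a • x 1 := fun y hy => by
    haveI := Fintype.ofFinite (IsLocalRing.ResidueField O)
    choose r hr using IsLocalRing.residue_surjective (R := O)
    have hi : Function.Injective fun c => r c • x 1 := fun c c' e => by
      rw [← hr c, ← hr c', ← sub_eq_zero, ← map_sub, IsLocalRing.residue_eq_zero_iff]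
      exact fun hu => x1 (hu.smul_eq_zero.1 (by rw [sub_smul]; exact sub_eq_zero.2 e))
    have h2 : Finset.univ.image (fun c => r c • x 1) = S.A 1 :=
      Finset.eq_of_subset_of_card_le (fun z hz => by
        obtain ⟨c, -, rfl⟩ := Finset.mem_image.1 hz
        rw [S.mem_A, pow_one, smul_comm, hx 0, x0, smul_zero]) (by
        rw [S.card_A, pow_one, Finset.card_image_of_injective _ hi, Finset.card_univ, qq,
          Nat.card_eq_fintype_card])
    obtain ⟨c, -, e⟩ := Finset.mem_image.1 (h2 ▸ S.mem_A.2 (by rwa [pow_one]) :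
      y ∈ Finset.univ.image fun c => r c • x 1)
    exact ⟨_, e.symm⟩
  obtain ⟨e, e0, e1⟩ := exists_e (E := E) hp x x0 x1 hx h1
  obtain ⟨ψ, ψ0, ψ1⟩ := exists_psi (E := E) C hp
  have et : ∀ z, S.Tor (e z) := fun z => (e1 _).2 ⟨z, rfl⟩
  let χ : S.lt.Mc C → C := fun a => if h : ∃ z, e z = a then ψ h.choose else 1
  have hχ : ∀ z, χ (e z) = ψ z := fun z => by
    have h : ∃ w, e w = e z := ⟨z, rfl⟩
    have h2 := ψ0 _ ((e0 (h.choose - z)).1 (by rw [map_sub, h.choose_spec, sub_self]))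
    rw [show χ (e z) = ψ h.choose from dif_pos h, ← sub_add_cancel h.choose z, ψ.map_add_eq_mul, h2,
      one_mul]
  have hm : ∀ b : O, ∀ a a', S.Tor a → S.Tor a' → χ (b • (a + a')) = χ (b • a) * χ (b • a') :=
    fun b a a' ha ha' => by
      obtain ⟨z, rfl⟩ := (e1 _).1 ha
      obtain ⟨z', rfl⟩ := (e1 _).1 ha'
      rw [← map_add, ← map_smul, ← map_smul, ← map_smul, hχ, hχ, hχ, smul_add, ψ.map_add_eq_mul]
  obtain ⟨Ω, y1, y2⟩ := S.four χ (by simpa using hm 1) (by simpa using hχ 0)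
  have hz : ∀ c : C, constantCoeff (c • S.lt.lg C) = 0 := fun c => by
    rw [smul_eq_C_mul, map_mul, cc_lg, mul_zero]
  have y3 : ∀ b : O, ex ((Ω * algebraMap O C b) • S.lt.lg C) =
      cmp (mS C (S.lt.br b)) (ex (Ω • S.lt.lg C)) := fun b => by
    rw [cmp_eq_subst (cc_br b), ex_subst (hz _) (cc_br b), subst_smul (hs (cc_br b)), lg_br, smul_smul]
  have y4 : ∀ b : O, Lt.Io (ex ((Ω * algebraMap O C b) • S.lt.lg C)) := fun b => by
    rw [y3]; exact (sm_br b).io_cmp y1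
  refine ⟨⟨mS C (f : O⟦X⟧), S.lt.lg C, fun a => mS C (S.lt.br a), fun z => tr (e z), ψ, Ω⟩,
    ⟨fun n => ?_, fun b hb => ?_, cc_lg, ?_, ?_, fun a => io_mS _, cc_br, lg_br,
      fun z n => (tr_red _ n).trans_lt (vl_lt _), fun z => S.lg_tr (et z), fun z z' => ?_,
      fun z hz => ?_, fun z hz => ?_, fun z a => ?_, fun a a' ha ha' h => ?_, ψ0, ψ1, fun h => ?_,
      ?_, ?_⟩, mS_coe (C := C) f⟩
  · obtain ⟨h, eh⟩ := hI.red
    have : mS C (f : O⟦X⟧) - X ^ qq O = algebraMap O C (f.coeff 1) • mS C (h : O⟦X⟧) := by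
      rw [smul_eq_C_mul]
      conv_lhs => rw [eh]
      simp [mS]
    change ‖coeff n (mS C (f : O⟦X⟧) - X ^ qq O)‖ < 1
    rw [this, map_smul, norm_smul]
    exact (mul_le_of_le_one_right (norm_nonneg _) (io_mS _ n)).trans_lt p1
  · obtain rfl : b = f.coeff 1 := IsFractionRing.injective O E (hb.trans hpϖ.symm)
    exact congrArg (mS C) S.lt.br_pi
  · have := coeff_itg (mS C S.lt.om) 0
    rw [coeff_zero_eq_constantCoeff_apply, cc_om] at this
    exact this.trans (by simp)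
  · change Un (d⁄dX C (S.lt.lg C))
    rw [d_lg]
    exact ⟨io_mS _, by rw [coeff_zero_eq_constantCoeff_apply, cc_om, norm_one]⟩
  · exact (congrArg tr (map_add e z z')).trans (tr_add _ _)
  · exact (congrArg tr ((e0 z).2 hz)).trans tr_zero
  · exact (e0 z).1 (vl_inj ((cc_tr _).symm.trans hz))
  · refine (tr_br (e z) a).trans ?_
    rw [← map_smul, Algebra.smul_def]
    rfl
  · have h2 : f.coeff 1 • S.lt.pt a ha = f.coeff 1 • S.lt.pt a' ha' := vl_inj (by
      rw [vl_smul, vl_smul, S.lt.br_pi]; exact h)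
    have h3 : f.coeff 1 • (S.lt.pt a' ha' - S.lt.pt a ha) = 0 := by rw [smul_sub, h2, sub_self]
    obtain ⟨z, hz⟩ := (e1 _).1 ⟨1, by rw [pow_one, h3]⟩
    refine ⟨z, (e0 _).1 (by rw [← hpϖ, ← Algebra.smul_def, map_smul, hz, h3]), ?_⟩
    refine Eq.trans ?_ (ev_tr (e z) (S.lt.pt a ha)).symm
    rw [hz, add_sub_cancel, vl_pt]
  · change Ω = 0 at h
    obtain ⟨b, hb⟩ := ψ1 (ϖ⁻¹ : Eˣ) fun b _ => by
      rw [← hχ, ← y2 _ (et _), h, zero_smul, ex_zero, ev_one]
    refine hp.not_isUnit (IsUnit.of_mul_eq_one b (IsFractionRing.injective O E ?_))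
    rw [map_mul, hb, map_one, hpϖ, Units.mul_inv]
  · rintro _ ⟨b, rfl⟩
    exact ⟨y4 b, (congrArg norm ((coeff_zero_eq_constantCoeff_apply _).trans (cc_ex (hz _)))).trans
      norm_one⟩
  · rintro _ z ⟨b, rfl⟩
    refine (S.eig (χ := fun a => χ (b • a)) (y4 b) (hm b) (fun a ha => ?_) (et z)).trans ?_
    · rw [y3, (sm_br b).ev_cmp y1.ou (vl_lt a), ← vl_smul, y2 _ (ha.smul b)]
    · rw [← map_smul, hχ, Algebra.smul_def b z]
      rfl

end Vale.Agent.P022K.FI
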