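import Vale.Agent.P022K.FI.Zeta

/-! P022K, block FI, row CNT (helper69): the abstract end of the count. -/

set_option linter.all false

namespace Vale.Agent.P022K.FI

open Vale.Agent.P019P Vale.Agent.P022K.Ih Filter Topology Function

namespace Ct

/-- Cesàro limits -/
def Mn (u : ℕ → ℂ) (l : ℂ) : Prop :=
  Tendsto (fun J : ℕ => (J : ℂ)⁻¹ * ∑ j ∈ Finset.range J, u (j + 1)) atTop (𝓝 l)

theorem Mn.add {u v : ℕ → ℂ} {l l' : ℂ} (h : Mn u l) (h' : Mn v l') :
    Mn (fun j => u j + v j) (l + l') := by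
  simpa only [Mn, Finset.sum_add_distrib, mul_add] using Tendsto.add h h'

theorem Mn.sub {u v : ℕ → ℂ} {l l' : ℂ} (h : Mn u l) (h' : Mn v l') :
    Mn (fun j => u j - v j) (l - l') := by
  simpa only [Mn, Finset.sum_sub_distrib, mul_sub] using Tendsto.sub h h'

theorem Mn.norm_le {u v : ℕ → ℂ} {l l' : ℂ} (h : Mn u l) (h' : Mn v l')
    (e : ∀ j, 0 < j → ‖v j‖ ≤ (u j).re) : ‖l'‖ ≤ l.re := by
  refine le_of_tendsto_of_tendsto' h'.norm ((Complex.continuous_re.tendsto l).comp h) fun J => ?_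
  have e1 : ((J : ℂ)⁻¹) = ((J : ℝ)⁻¹ : ℝ) := by simp
  simp only [Function.comp_apply]
  rw [norm_mul, e1, Complex.re_ofReal_mul, Complex.norm_real, Real.norm_of_nonneg (by positivity),
    Complex.re_sum]
  exact mul_le_mul_of_nonneg_left ((norm_sum_le _ _).trans
    (Finset.sum_le_sum fun j _ => e _ j.succ_pos)) (by positivity)

open Classical in
theorem mn_pow {z : ℂ} (hz : ‖z‖ ≤ 1) : Mn (fun j => z ^ j) (if z = 1 then 1 else 0) := by
  split_ifs with h
  · subst h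
    refine tendsto_const_nhds.congr' ((eventually_gt_atTop 0).mono fun J hJ => ?_)
    have : (J : ℂ) ≠ 0 := by exact_mod_cast hJ.ne'
    simp [this]
  · refine squeeze_zero_norm (a := fun J : ℕ => (2 / ‖z - 1‖) / (J : ℝ)) (fun J => ?_)
      (tendsto_const_div_atTop_nhds_zero_nat _)
    simp only [pow_succ', ← Finset.mul_sum]
    rw [geom_sum_eq h, norm_mul, norm_mul, norm_div, norm_inv, Complex.norm_natCast,
      div_eq_inv_mul _ (J : ℝ)]
    refine mul_le_mul_of_nonneg_left ?_ (by positivity)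
    have h1 : ‖z ^ J - 1‖ ≤ 2 := (norm_sub_le _ _).trans (by
      rw [norm_pow, norm_one]
      linarith [pow_le_one₀ (n := J) (norm_nonneg z) hz])
    calc _ ≤ 1 * (2 / ‖z - 1‖) := by gcongr
      _ = _ := one_mul _

open Classical in
theorem mn_ps (A : Multiset ℂ) {w : ℂ} (hw : w ≠ 0) (h : ∀ a ∈ A, ‖a‖ ≤ ‖w‖) :
    Mn (fun j => ps A j * w⁻¹ ^ j) (A.count w) := by
  induction A using Multiset.induction_on with
  | empty => simpa [Mn, ps] using tendsto_const_nhds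
  | cons a A ih =>
    have h1 := (mn_pow (z := a * w⁻¹) (by
      rw [norm_mul, norm_inv]
      exact mul_inv_le_one_of_le₀ (h a (Multiset.mem_cons_self _ _)) (norm_nonneg _))).add
      (ih fun b hb => h b (Multiset.mem_cons_of_mem hb))
    convert h1 using 1
    · funext j
      simp [ps, add_mul, mul_pow]
    · rw [Multiset.count_cons, add_comm]
      simp [eq_comm, mul_inv_eq_one₀ hw]

open Classical in
theorem count_le {B W : Multiset ℂ} {n : ℕ → ℕ} (e : ∀ j, 0 < j → (n j : ℂ) = ps B j - ps W j)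
    {w : ℂ} (hw : w ≠ 0) (hB : ∀ a ∈ B, ‖a‖ ≤ ‖w‖) (hW : ∀ a ∈ W, ‖a‖ ≤ ‖w‖) :
    |(B.count w : ℝ) - W.count w| ≤ (B.count (‖w‖ : ℂ) : ℝ) - W.count (‖w‖ : ℂ) := by
  have h0 : (‖w‖ : ℂ) ≠ 0 := by simpa using hw
  have h1 := Mn.norm_le ((mn_ps B h0 (by simpa using hB)).sub (mn_ps W h0 (by simpa using hW)))
    ((mn_ps B hw hB).sub (mn_ps W hw hW)) fun j hj => by
      rw [← sub_mul, ← sub_mul, ← e j hj, ← Complex.ofReal_inv, ← Complex.ofReal_pow,
        ← Complex.ofReal_natCast, ← Complex.ofReal_mul, Complex.ofReal_re]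
      simp
  rw [← Complex.ofReal_natCast, ← Complex.ofReal_natCast (W.count w), ← Complex.ofReal_sub,
    Complex.norm_real] at h1
  simpa using h1

/-- positivity bounds the absolute values -/
theorem norm_le {B W : Multiset ℂ} {n : ℕ → ℕ} (e : ∀ j, 0 < j → (n j : ℂ) = ps B j - ps W j)
    {Q : ℝ} (hQ : 0 ≤ Q) (hB : ∀ a ∈ B, ‖a‖ ≤ Q) : ∀ a ∈ W, ‖a‖ ≤ Q := by
  classical
  by_contra! H
  obtain ⟨a, ha, hQa⟩ := H
  obtain ⟨w, hw, hm⟩ := W.toFinset.exists_max_image (fun a => ‖a‖) ⟨a, Multiset.mem_toFinset.2 ha⟩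
  have h1 : Q < ‖w‖ := hQa.trans_le (hm a (Multiset.mem_toFinset.2 ha))
  have h2 := count_le e (w := w) (norm_pos_iff.1 (hQ.trans_lt h1))
    (fun b hb => (hB b hb).trans h1.le) fun b hb => hm b (Multiset.mem_toFinset.2 hb)
  rw [Multiset.count_eq_zero_of_notMem fun h => (hB _ h).not_gt h1,
    Multiset.count_eq_zero_of_notMem (s := B) fun h => (hB _ h).not_gt (by simpa using h1)] at h2
  have h3 : (0 : ℝ) < W.count w := by
    exact_mod_cast Multiset.count_pos.2 (Multiset.mem_toFinset.1 hw)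
  have h4 : (0 : ℝ) ≤ W.count (‖w‖ : ℂ) := Nat.cast_nonneg _
  have h5 := neg_le_abs (((0 : ℕ) : ℝ) - W.count w)
  simp only [Nat.cast_zero] at h2 h5
  linarith

open Classical in
theorem count_le' {B W : Multiset ℂ} {n : ℕ → ℕ} (e : ∀ j, 0 < j → (n j : ℂ) = ps B j - ps W j)
    {Q : ℕ} (hQ : 0 < Q) (hB : ∀ a ∈ B, ‖a‖ ≤ Q) (hW : ∀ a ∈ W, ‖a‖ ≤ Q) :
    W.count (Q : ℂ) ≤ B.count (Q : ℂ) := by
  have h := (abs_nonneg _).trans (count_le e (w := (Q : ℂ)) (by exact_mod_cast hQ.ne')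
    (by simpa using hB) (by simpa using hW))
  rw [Complex.norm_natCast, Complex.ofReal_natCast, sub_nonneg] at h
  exact_mod_cast h

end Ct

variable {k : Type*} [Field k] {p m : ℕ} [Fact p.Prime] [CharP k p] {P E : Type*} {κ : E → Type*}
  [∀ e, Field (κ e)] [∀ e, Algebra k (κ e)]

/-- the places which do not come from a point -/
def Exc (pt : P → E) (pl : ∀ e, P → Plk k (κ e)) (e : E) : Set (Plk k (κ e)) :=
  {R | ∀ x, pt x = e → pl e x ≠ R}

variable [∀ e, CFF k (κ e)]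

namespace Ct

variable {φ : P → P} {ψ : E → E} {F : ∀ e, κ (ψ e) →ₐ[k] κ e} {pt : P → E}
  {pl : ∀ e, P → Plk k (κ e)}

omit [∀ e, CFF k (κ e)] in
theorem iter {q : ℕ} (hF : ∀ e, Pw (F e) q) (hψ : ∀ x, pt (φ x) = ψ (pt x))
    (hpl : ∀ x y, y ∈ (pl (ψ (pt x)) (φ x)).1 ↔ F (pt x) y ∈ (pl (pt x) x).1) (n : ℕ) (e : E) :
    ∃ G : κ (ψ^[n] e) →ₐ[k] κ e, Pw G (q ^ n) ∧
      ∀ x, pt x = e → ∀ y, y ∈ (pl _ (φ^[n] x)).1 ↔ G y ∈ (pl e x).1 := by
  induction n generalizing e with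
  | zero => exact ⟨AlgHom.id k _, ⟨fun x => ⟨x, (pow_one x).symm⟩,
      fun x => ⟨x, (pow_one x).symm⟩⟩, fun _ _ _ => Iff.rfl⟩
  | succ n ih =>
    obtain ⟨G, h1, h2⟩ := ih (ψ e)
    refine ⟨(F e).comp G, by rw [pow_succ]; exact h1.comp (hF e), ?_⟩
    rintro x rfl y
    exact (h2 (φ x) (hψ x) y).trans (hpl x _)

/-- the count on one residue curve -/
theorem one (hf : ∀ a : k, a ≠ 0 → ∃ n : ℕ, 0 < n ∧ a ^ n = 1) (hm : 0 < m)
    (hF : ∀ e, Pw (F e) (p ^ m)) (hψ : ∀ x, pt (φ x) = ψ (pt x))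
    (hpl : ∀ x y, y ∈ (pl (ψ (pt x)) (φ x)).1 ↔ F (pt x) y ∈ (pl (pt x) x).1)
    (hinj : ∀ x x', pt x = pt x' → pl (pt x) x = pl (pt x) x' → x = x')
    {e : E} (hcof : (Exc pt pl e).Finite) {x0 : P} (h0 : pt x0 = e) {r : ℕ} (hr : 0 < r)
    (hx0 : φ^[r] x0 = x0) :
    ∃ N, 0 < N ∧ ∀ M, 0 < M → N ∣ M → ∃ A : Multiset ℂ, A.card = 2 * gen k (κ e) ∧
      (∀ a ∈ A, a ≠ 0 ∧ a ≠ 1 ∧ a ≠ ((p ^ m) ^ M : ℕ) ∧ ‖a‖ ≤ ((p ^ m) ^ M : ℕ)) ∧
      ∀ j, 0 < j → (({x | φ^[M * j] x = x ∧ pt x = e}.ncard + (Exc pt pl e).ncard : ℕ) : ℂ) =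
        1 + (((p ^ m) ^ M : ℕ) : ℂ) ^ j - ps A j := by
  classical
  have hs : Semiconj pt φ ψ := hψ
  have he : ψ^[r] e = e := by rw [← h0, ← (hs.iterate_right r).eq, hx0]
  obtain ⟨G, h1, h2⟩ : ∃ G : κ e →ₐ[k] κ e, Pw G ((p ^ m) ^ r) ∧
      ∀ x, pt x = e → ∀ y, y ∈ (pl e (φ^[r] x)).1 ↔ G y ∈ (pl e x).1 := by
    have := iter hF hψ hpl r e
    rwa [he] at this
  have hpt : ∀ i x, pt x = e → pt (φ^[r * i] x) = e := fun i x hx => by
    rw [(hs.iterate_right _).eq, hx, iterate_mul]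
    exact iterate_fixed he i
  have h3 : ∀ i x, pt x = e → ∀ y, y ∈ (pl e (φ^[r * i] x)).1 ↔ (G ^ i) y ∈ (pl e x).1 := by
    intro i
    induction i with
    | zero => exact fun _ _ _ => Iff.rfl
    | succ i ih =>
      intro x hx y
      rw [mul_add, mul_one, add_comm, iterate_add_apply, h2 _ (hpt i x hx), ih x hx, pow_succ,
        AlgHom.mul_apply]
  rw [← pow_mul] at h1
  choose n hn hn' using per hf h1
  refine ⟨r * ∏ R ∈ hcof.toFinset, n R, Nat.mul_pos hr (Finset.prod_pos fun R _ => hn R), ?_⟩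
  rintro _ hM ⟨c, rfl⟩
  rw [mul_assoc] at hM ⊢
  set b := (∏ R ∈ hcof.toFinset, n R) * c with hb
  have hb0 : 0 < b := Nat.pos_of_mul_pos_left hM
  have h4 := h1.pow b
  rw [← pow_mul] at h4
  obtain ⟨A, a1, a2, a3⟩ := zeta hf (Nat.mul_pos (Nat.mul_pos hm hr) hb0) h4 (P0 := pl e x0)
    fun y => by rw [← h3 b x0 h0, iterate_mul, iterate_fixed hx0]
  have eQ : ((p : ℂ) ^ (m * r * b)) = ((p ^ m) ^ (r * b) : ℕ) := by
    rw [mul_assoc, pow_mul]; simp
  rw [eQ] at a2 a3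
  refine ⟨A, a1, fun a ha => ⟨(a2 a ha).1, by simpa using ((a2 a ha).2 1 one_pos).1,
    by simpa only [pow_one] using ((a2 a ha).2 1 one_pos).2, ?_⟩, fun j hj => ?_⟩
  · have hQ : (1 : ℝ) ≤ ((p ^ m) ^ (r * b) : ℕ) := by
      exact_mod_cast Nat.one_le_iff_ne_zero.2
        (pow_ne_zero _ (pow_ne_zero _ (Fact.out : p.Prime).ne_zero))
    refine norm_le (B := {1, (((p ^ m) ^ (r * b) : ℕ) : ℂ)}) (n := fun j => (Fx ((G ^ b) ^ j)).ncard)
      (fun j hj => ?_) (Nat.cast_nonneg _) (fun a ha => ?_) a ha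
    · rw [(a3 j hj).2]
      simp [ps]
    · rcases Multiset.mem_cons.1 ha with rfl | ha
      · rwa [norm_one]
      · rw [Multiset.mem_singleton.1 ha, Complex.norm_natCast]
  · obtain ⟨b1, b2⟩ := a3 j hj
    rw [← pow_mul] at b1 b2
    have s1 : Exc pt pl e ⊆ Fx (G ^ (b * j)) := fun R hR => by
      obtain ⟨d, hd⟩ := Finset.dvd_prod_of_mem n (hcof.mem_toFinset.2 hR)
      rw [hb, hd, mul_assoc, mul_assoc, pow_mul]
      exact Fx.pow (hn' R) _
    have s2 : Fx (G ^ (b * j)) \ Exc pt pl e = pl e '' {x | φ^[r * b * j] x = x ∧ pt x = e} := by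
      rw [mul_assoc r b j]
      ext R
      constructor
      · rintro ⟨c1, c2⟩
        simp only [Exc, Set.mem_setOf_eq, not_forall, not_not] at c2
        obtain ⟨x, hx, rfl⟩ := c2
        refine ⟨x, ⟨(hinj _ _ (hx.trans (hpt _ x hx).symm) ?_).symm, hx⟩, rfl⟩
        subst hx
        exact Subtype.ext (ValuationSubring.ext _ _ fun y => ((h3 _ x rfl y).trans (c1 y)).symm)
      · rintro ⟨x, ⟨c1, c2⟩, rfl⟩
        exact ⟨fun y => by rw [← h3 _ x c2, c1], fun H => H x c2 rfl⟩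
    rw [← b2, ← Set.ncard_diff_add_ncard_of_subset s1 b1, s2, Set.ncard_image_of_injOn]
    rintro x ⟨-, rfl⟩ x' ⟨-, c⟩ h
    exact hinj x x' c.symm h

end Ct

/-- **CNT**: comparison of the count of the periodic points with the zeta functions of the residue
curves. -/
theorem cnt (hf : ∀ a : k, a ≠ 0 → ∃ n : ℕ, 0 < n ∧ a ^ n = 1) (hm : 0 < m) (φ : P → P)
    (ψ : E → E) (F : ∀ e, κ (ψ e) →ₐ[k] κ e) (hF : ∀ e, Pw (F e) (p ^ m)) (pt : P → E)
    (hpt : Surjective pt) (hψ : ∀ x, pt (φ x) = ψ (pt x)) (pl : ∀ e, P → Plk k (κ e))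
    (hpl : ∀ x y, y ∈ (pl (ψ (pt x)) (φ x)).1 ↔ F (pt x) y ∈ (pl (pt x) x).1)
    (hinj : ∀ x x', pt x = pt x' → pl (pt x) x = pl (pt x) x' → x = x')
    (hcof : ∀ e, (Exc pt pl e).Finite) (hper : ∀ x, ∃ n, 0 < n ∧ φ^[n] x = x)
    {d : ℕ} (hd : 0 < d) (hfin : ∀ n, 0 < n → d ∣ n → {x | φ^[n] x = x}.Finite) {I : Type*}
    [Finite I] (cp : E → I) (hcp : Surjective cp) (W : Multiset ℂ)
    (hW : ∀ n, 0 < n → d ∣ n →
      ({x | φ^[n] x = x}.ncard : ℂ) = Nat.card I * ((p : ℂ) ^ m) ^ n - ps W n) :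
    Bijective cp ∧ (∀ w ∈ W, ∀ n, 0 < n → w ^ n ≠ ((p : ℂ) ^ m) ^ n) ∧
      (∀ Al ≤ W, (∀ a ∈ Al, ∃ b ∈ W, a * b = (p : ℂ) ^ m) → Al.card ≤ 2 * ∑ᶠ e, gen k (κ e)) ∧
      ∑ᶠ e, (Exc pt pl e).ncard + 2 * ∑ᶠ e, gen k (κ e) + W.count 0 = Nat.card I + W.card := by
  classical
  have h1 := fun e => (hpt e).elim fun x hx => (hper x).elim fun r hr =>
    Ct.one hf hm hF hψ hpl hinj (hcof e) hx hr.1 hr.2
  choose N hN hA using h1
  have hp : 1 < p ^ m := Nat.one_lt_pow hm.ne' (Fact.out : p.Prime).one_lt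
  -- the main identity
  have key : ∀ (S : Finset E) (M : ℕ), 0 < M → d ∣ M → (∀ e ∈ S, N e ∣ M) →
      ∃ A : Multiset ℂ, A.card = 2 * ∑ e ∈ S, gen k (κ e) ∧
        (∀ a ∈ A, a ≠ 0 ∧ a ≠ 1 ∧ a ≠ ((p ^ m) ^ M : ℕ) ∧ ‖a‖ ≤ ((p ^ m) ^ M : ℕ)) ∧
        ∀ j, 0 < j → ({x | φ^[M * j] x = x ∧ pt x ∉ S}.ncard : ℂ) =
          ps (.replicate (Nat.card I) ((p ^ m) ^ M : ℕ) + A +
            .replicate (∑ e ∈ S, (Exc pt pl e).ncard) 1) j -
          ps (W.map (· ^ M) + .replicate S.card ((p ^ m) ^ M : ℕ) + .replicate S.card 1) j := by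
    intro S M hM hdM hS
    have h2 : ∀ e, ∃ A : Multiset ℂ, e ∈ S → _ := fun e => by
      by_cases he : e ∈ S
      · exact (hA e M hM (hS e he)).imp fun A h _ => h
      · exact ⟨0, fun h => absurd h he⟩
    choose A hA using h2
    refine ⟨∑ e ∈ S, A e, ?_, fun a ha => ?_, fun j hj => ?_⟩
    · rw [Multiset.card_sum, Finset.mul_sum]
      exact Finset.sum_congr rfl fun e he => (hA e he).1
    · obtain ⟨e, he, ha⟩ := Multiset.mem_sum.1 ha
      exact (hA e he).2.1 a ha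
    · have f := hfin _ (Nat.mul_pos hM hj) (hdM.mul_right j)
      have c1 : {x | φ^[M * j] x = x}.ncard = {x | φ^[M * j] x = x ∧ pt x ∉ S}.ncard +
          ∑ e ∈ S, {x | φ^[M * j] x = x ∧ pt x = e}.ncard := by
        rw [Set.ncard_eq_toFinset_card _ f, ← Finset.card_filter_add_card_filter_not (pt · ∈ S),
          add_comm, ← Finset.sum_card_fiberwise_eq_card_filter]
        congr 1
        · rw [← Set.ncard_coe_finset]
          congr 1
          ext x
          simp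
        · refine Finset.sum_congr rfl fun e _ => ?_
          rw [← Set.ncard_coe_finset]
          congr 1
          ext x
          simp
      have c2 := hW _ (Nat.mul_pos hM hj) (hdM.mul_right j)
      have c3 := Finset.sum_congr rfl fun e he => (hA e he).2.2 j hj
      rw [c1, pow_mul] at c2
      simp only [ps_add, ps_replicate, ps_map_pow, ps_bind]
      simp only [Finset.sum_sub_distrib, Finset.sum_add_distrib, Finset.sum_const, Nat.cast_add,
        Nat.cast_sum, Nat.cast_pow, nsmul_eq_mul, one_pow] at c2 c3 ⊢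
      linear_combination c2 - c3
  have bound : ∀ (S : Finset E) (M : ℕ), 0 < M → d ∣ M → (∀ e ∈ S, N e ∣ M) →
      (W.map (· ^ M)).count (((p ^ m) ^ M : ℕ) : ℂ) + S.card ≤ Nat.card I := by
    intro S M hM hdM hS
    obtain ⟨A, -, a2, a3⟩ := key S M hM hdM hS
    have hQ : 1 < (p ^ m) ^ M := Nat.one_lt_pow hM.ne' hp
    have hQ1 : (1 : ℂ) ≠ ((p ^ m) ^ M : ℕ) := by exact_mod_cast hQ.ne
    have hQ2 : (1 : ℝ) ≤ ((p ^ m) ^ M : ℕ) := by exact_mod_cast hQ.le
    have b1 : ∀ a ∈ W.map (· ^ M), ‖a‖ ≤ ((p ^ m) ^ M : ℕ) :=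
      Ct.norm_le (B := .replicate (Nat.card I) ((p ^ m) ^ M : ℕ))
        (n := fun j => {x | φ^[M * j] x = x}.ncard) (fun j hj => by
          rw [hW _ (Nat.mul_pos hM hj) (hdM.mul_right j), ps_replicate, ps_map_pow, pow_mul]
          simp) (Nat.cast_nonneg _) fun a ha => by
        rw [Multiset.eq_of_mem_replicate ha, Complex.norm_natCast]
    have b2 := Ct.count_le' a3 (zero_lt_one.trans hQ) (fun a ha => by
      simp only [Multiset.mem_add] at ha
      rcases ha with (ha | ha) | ha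
      · rw [Multiset.eq_of_mem_replicate ha, Complex.norm_natCast]
      · exact (a2 a ha).2.2.2
      · rwa [Multiset.eq_of_mem_replicate ha, norm_one]) fun a ha => by
      simp only [Multiset.mem_add] at ha
      rcases ha with (ha | ha) | ha
      · exact b1 a ha
      · rw [Multiset.eq_of_mem_replicate ha, Complex.norm_natCast]
      · rwa [Multiset.eq_of_mem_replicate ha, norm_one]
    simp only [Multiset.count_add, Multiset.count_replicate_self, Multiset.count_replicate,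
      if_neg hQ1] at b2
    rw [Multiset.count_eq_zero_of_notMem (s := A) fun h => (a2 _ h).2.2.1 rfl] at b2
    simpa using b2
  have hle : ∀ S : Finset E, S.card ≤ Nat.card I := fun S =>
    le_of_add_le_right (bound S (d * ∏ e ∈ S, N e) (Nat.mul_pos hd (Finset.prod_pos fun e _ => hN e))
      (dvd_mul_right _ _) fun e he => (Finset.dvd_prod_of_mem N he).mul_left d)
  haveI : Finite E := by
    by_contra H
    haveI := not_finite_iff_infinite.1 H
    obtain ⟨S, hS⟩ := Infinite.exists_subset_card_eq E (Nat.card I + 1)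
    have := hle S
    omega
  haveI := Fintype.ofFinite E
  have hc : (Finset.univ : Finset E).card = Nat.card I := le_antisymm (hle _) (by
    rw [Finset.card_univ, ← Nat.card_eq_fintype_card]
    exact Nat.card_le_card_of_surjective cp hcp)
  set M := d * ∏ e, N e with hM
  have hM0 : 0 < M := Nat.mul_pos hd (Finset.prod_pos fun e _ => hN e)
  have hNM : ∀ e, N e ∣ M := fun e => (Finset.dvd_prod_of_mem N (Finset.mem_univ e)).mul_left d
  have hq : ∀ w ∈ W, ∀ n, 0 < n → w ^ n ≠ ((p : ℂ) ^ m) ^ n := fun w hw n hn e => by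
    have := bound Finset.univ (n * M) (Nat.mul_pos hn hM0) ((dvd_mul_right _ _).mul_left n)
      fun e _ => (hNM e).mul_left n
    rw [hc, add_le_iff_nonpos_left, nonpos_iff_eq_zero, Multiset.count_eq_zero] at this
    exact this (Multiset.mem_map.2 ⟨w, hw, by rw [pow_mul, e, ← pow_mul]; simp⟩)
  obtain ⟨A, a1, a2, a3⟩ := key Finset.univ M hM0 (dvd_mul_right _ _) fun e _ => hNM e
  rw [hc] at a3
  have k1 : ∀ y : ℂ, y ≠ 0 → (A + .replicate (∑ e, (Exc pt pl e).ncard) 1).count y =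
      (W.map (· ^ M) + .replicate (Nat.card I) 1).count y := fun y hy => by
    refine count_eq_of_ps (fun j hj => ?_) hy
    have := a3 j hj
    simp only [Finset.mem_univ, not_true, and_false, Set.setOf_false, Set.ncard_empty,
      Nat.cast_zero, ps_add] at this ⊢
    linear_combination -this
  rw [finsum_eq_sum_of_fintype, finsum_eq_sum_of_fintype, ← a1]
  refine ⟨hcp.bijective_of_nat_card_le ?_, hq, fun Al hAl h => ?_, ?_⟩
  · rw [← hc, Finset.card_univ, Nat.card_eq_fintype_card]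
  · rw [← Multiset.card_map (· ^ M) Al]
    refine Multiset.card_le_card (Multiset.le_iff_count.2 fun y => ?_)
    by_cases hy : y ∈ Al.map (· ^ M)
    · obtain ⟨a, ha, rfl⟩ := Multiset.mem_map.1 hy
      obtain ⟨b, hb, e⟩ := h a ha
      have hp0 : (p : ℂ) ^ m ≠ 0 := pow_ne_zero _ (Nat.cast_ne_zero.2 (Fact.out : p.Prime).ne_zero)
      have h0 : a ^ M ≠ 0 := pow_ne_zero _ fun z => hp0 (by rw [← e, z, zero_mul])
      have h1 : (1 : ℂ) ≠ a ^ M := fun z => hq b hb M hM0 (by rw [← e, mul_pow, ← z, one_mul])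
      have := k1 _ h0
      simp only [Multiset.count_add, Multiset.count_replicate, if_neg h1, add_zero] at this
      rw [this]
      exact Multiset.count_le_of_le _ (Multiset.map_le_map hAl)
    · rw [Multiset.count_eq_zero_of_notMem hy]
      exact Nat.zero_le _
  · have e : A + .replicate (∑ e, (Exc pt pl e).ncard) 1 + .replicate (W.count 0) 0 =
        W.map (· ^ M) + .replicate (Nat.card I) 1 := Multiset.ext.2 fun y => by
      by_cases hy : y = 0
      · subst hy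
        simp only [Multiset.count_add, Multiset.count_replicate, if_neg (one_ne_zero' ℂ), if_true,
          Multiset.count_eq_zero_of_notMem fun h => (a2 _ h).1 rfl, add_zero, zero_add]
        rw [Multiset.count_map, Multiset.count, Multiset.countP_eq_card_filter]
        congr 1
        exact Multiset.filter_congr fun w _ => by simp [eq_comm, hM0.ne']
      · rw [Multiset.count_add, k1 y hy, Multiset.count_replicate, if_neg (Ne.symm hy), add_zero]
    have := congrArg Multiset.card e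
    simp only [Multiset.card_add, Multiset.card_replicate, Multiset.card_map] at this
    omega

end Vale.Agent.P022K.FI
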