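import Vale.Agent.P022K.FI.Oc3
import Vale.Agent.P022K.FI.Cnt

/-!
# P022K, block FI: COUNT on a tower
-/

set_option autoImplicit false

open Module Function

noncomputable section

namespace Vale.Agent.P022K.FI.Oc

open Vale.Agent.P022K.Sh Vale.Agent.P019P

variable {G0 G : Type} [Group G0] [Group G] {T : Tw G0 G} {U : Subgroup G}
variable {O K : Type} [CommRing O] [IsDomain O] [IsDiscreteValuationRing O] [Field K] [Algebra O K]
variable {w : T.Lc O K} {e : K →+* ℂ}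

/-- **COUNT**: one residue curve on every component, and the genera add up -/
theorem count (hT : T.Ok) (hL : T.LEFT) (hc : Cmp w e) (sa : w.SA) (hU : U ∈ T.Lev)
    (hn : T.Neat U) (h : w.At (KK O K) U) {k : Type} [Field k] [IsAlgClosed k] {p m : ℕ}
    [Fact p.Prime] [CharP k p] {E : Type} {κ : E → Type} [∀ c, Field (κ c)] [∀ c, Algebra k (κ c)]
    [∀ c, CFF k (κ c)] (hf : ∀ a : k, a ≠ 0 → ∃ n : ℕ, 0 < n ∧ a ^ n = 1) (hm : 0 < m)
    (hq : qq O = p ^ m) (ψ : E → E) (F : ∀ c, κ (ψ c) →ₐ[k] κ c) (hF : ∀ c, Pw (F c) (p ^ m))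
    (pt : OP w e U → E) (hpt : Surjective pt) (hψ : ∀ x, pt (fw w e U x) = ψ (pt x))
    (pl : ∀ c, OP w e U → Plk k (κ c))
    (hpl : ∀ x y, y ∈ (pl (ψ (pt x)) (fw w e U x)).1 ↔ F (pt x) y ∈ (pl (pt x) x).1)
    (hinj : ∀ x x', pt x = pt x' → pl (pt x) x = pl (pt x) x' → x = x')
    (hcof : ∀ c, (Exc pt pl c).Finite) (cp : E → Cp T U) (hcp : Surjective cp) :
    Bijective cp ∧ finrank ℂ (T.Om U) ≤ ∑ᶠ c, gen k (κ c) := by
  have := fin_Cp hT hU
  obtain ⟨W, w1, w2⟩ := ocnt hT hL hc sa hU hn h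
  rw [hq, Nat.cast_pow] at w1 w2
  obtain ⟨c1, c2, c3, -⟩ := cnt hf hm _ ψ F hF pt hpt hψ pl hpl hinj hcof
    (per hT (ff hT hL) hc hU hn h) two_pos (fun n h0 _ => (fin_fix hT hL hc hU hn h h0).2) cp hcp W w1
  refine ⟨c1, ?_⟩
  rcases w2 with ⟨a, ha, e⟩ | ⟨Al, h1, h2, h3⟩
  · exact (c2 a ha 2 two_pos e).elim
  · have := c3 Al h1 h2
    omega

end Vale.Agent.P022K.FI.Oc
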