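import Vale.Agent.P022K.FI.St2
import Vale.Agent.P027M.G.Sp4

/-!
# P022K, block FI: the points of a disc specialise to its branch
-/

set_option autoImplicit false
set_option linter.unusedSectionVars false

open PowerSeries Vale.Agent.P019P P025H746 Module Function
open scoped LaurentSeries

noncomputable section

namespace Vale.Agent.P022K.FI

namespace Sp

/-- a bounded function on places which kills the principal divisors is constant -/
theorem const_of {k F : Type*} [Field k] [Field F] [Algebra k F] [CFF k F] (χ : Plk k F → ℤ)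
    (h1 : ∀ Q, -1 ≤ χ Q) (h2 : ∀ Q, χ Q ≤ 1)
    (h : ∀ f : F, f ≠ 0 → Finsupp.linearCombination ℤ χ (dv k f) = 0) (P Q : Plk k F) :
    χ Q ≤ χ P := by
  set g : ℤ := (gen k F : ℤ) with hg
  have g0 : 0 ≤ g := Int.natCast_nonneg _
  set D : Plk k F →₀ ℤ := Finsupp.single P (2 * g + 1 + g) - Finsupp.single Q (2 * g + 1) with hD
  have hd : dg D = g := by
    rw [hD, map_sub, dg_sgl, dg_sgl]
    ring
  have h3 := RR D
  obtain ⟨z, hz, h4⟩ := exists_ne_zero_of_l (D := D) (by omega)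
  have h5 : dg (D + dv k z) = g := by rw [map_add, dg_dv, add_zero, hd]
  have h6 : -dg (D + dv k z) ≤ Finsupp.linearCombination ℤ χ (D + dv k z) := by
    rw [dg_apply, Finsupp.linearCombination_apply, Finsupp.sum, Finsupp.sum,
      ← Finset.sum_neg_distrib]
    refine Finset.sum_le_sum fun R _ => ?_
    have h7 : 0 ≤ (D + dv k z) R := h4 R
    have h8 := h1 R
    rw [smul_eq_mul]
    nlinarith
  rw [h5, map_add, h z hz, add_zero, hD, map_sub, Finsupp.linearCombination_single,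
    Finsupp.linearCombination_single, smul_eq_mul, smul_eq_mul] at h6
  by_contra h7
  have h8 : χ P + 1 ≤ χ Q := not_le.1 h7
  have h9 := h2 P
  nlinarith

variable {C K : Type} [NontriviallyNormedField C] [IsUltrametricDist C] [Field K] [Algebra C K]
  [CFF C K] {ε : K →ₐ[C] C⸨X⸩} {j : C → Plk C K}

/-- the Gauss norm of a disc is unique -/
theorem gs_ext (hd : Dsc ε j) {η η' : NV C K} (h : Gs ε η) (h' : Gs ε η') : η = η' := by
  ext f
  by_cases h0 : f = 0
  · rw [h0, map_zero, map_zero]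
  obtain ⟨c, D, h1, -⟩ := hd.fac f h0
  exact (h f c D h1).trans (h' f c D h1).symm

/-- the branch of a disc is unique -/
theorem brn_ext (hd : Dsc ε j) {η : NV C K} (h : Gs ε η) {z z' : Plk (kC C) (kap η)}
    (hz : Brn ε η z) (hz' : Brn ε η z') : z = z' := by
  refine Subtype.ext (SetLike.ext fun y => ?_)
  obtain ⟨f, h1, rfl⟩ := NV.red_surj y
  by_cases h0 : η.red f = 0
  · rw [h0]
    exact iff_of_true (zero_mem _) (zero_mem _)
  have h2 := P027M.Gs.w_eq_one h1 h0
  obtain ⟨c, D, h3, -⟩ := hd.fac f (P027M.Gs.ne_of_w h2)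
  have h4 : ‖c‖ = 1 := (h f c D h3).symm.trans h2
  exact (hz f c D h3 h4).trans (hz' f c D h3 h4).symm

/-- every non zero function has a multiple of norm one -/
theorem exists_scale (hd : Dsc ε j) {η : NV C K} (h : Gs ε η) {f : K} (h0 : f ≠ 0) :
    ∃ c : C, c ≠ 0 ∧ η (c • f) = 1 := by
  obtain ⟨c, D, h1, -⟩ := hd.fac f h0
  refine ⟨c⁻¹, inv_ne_zero h1.1, ?_⟩
  rw [Algebra.smul_def, map_mul, η.ext', h f c D h1, norm_inv,
    inv_mul_cancel₀ (norm_ne_zero_iff.2 h1.1)]

open Classical in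
/-- the degree on the disc is the part of the divisor on the points of the disc -/
theorem dgD_eq (hd : Dsc ε j) {f : K} {c : C} {D : C →₀ ℤ} (h1 : Fac (ε f) c D)
    (h2 : ∀ a, ‖a‖ < 1 → ord (j a) f = D a) :
    ∑ Q ∈ (dv C f).support.filter (fun Q => Q ∈ j '' {a | ‖a‖ < 1}), dv C f Q = dgD D := by
  unfold dgD
  rw [Finsupp.sum]
  refine (Finset.sum_nbij j (fun a ha => ?_) (fun a ha b hb e => ?_) (fun Q hQ => ?_)
    fun a ha => ?_).symm
  · have h3 := h1.2.1 a ha
    refine Finset.mem_filter.2 ⟨Finsupp.mem_support_iff.2 ?_, a, h3, rfl⟩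
    rw [dv_apply, h2 a h3]
    exact Finsupp.mem_support_iff.1 ha
  · exact hd.inj (h1.2.1 a ha) (h1.2.1 b hb) e
  · obtain ⟨h3, a, h4, rfl⟩ := Finset.mem_filter.1 hQ
    refine ⟨a, Finsupp.mem_support_iff.2 ?_, rfl⟩
    rw [← h2 a h4, ← dv_apply]
    exact Finsupp.mem_support_iff.1 h3
  · rw [dv_apply, h2 a (h1.2.1 a ha)]

end Sp

variable {C : Type} [NontriviallyNormedField C] [IsUltrametricDist C] [CompleteSpace C]
  [IsAlgClosed C] [CharZero C]

/-- **SPB** -/
theorem spb (hB : BRA C) : SPB C := by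
  classical
  intro hG K _ _ _ ε j η _ z s hd hg hz hs a ha
  obtain ⟨η', h1, _, z', h2, h3⟩ := hB hG K ε j hd
  obtain rfl := Sp.gs_ext hd hg h1
  obtain rfl := Sp.brn_ext hd hg hz h2
  set χ : Plk C K → ℤ := fun Q => (if s Q = z then 1 else 0) -
    if Q ∈ j '' {a | ‖a‖ < 1} then 1 else 0 with hχ
  have key : ∀ f : K, f ≠ 0 → Finsupp.linearCombination ℤ χ (dv C f) = 0 := by
    intro f h0
    obtain ⟨b, hb, h4⟩ := Sp.exists_scale hd hg h0
    rw [← P027M.Gs.dv_smul hb h0]
    obtain ⟨c, D, h5, h6⟩ := hd.fac (b • f) (smul_ne_zero hb h0)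
    have h7 := h3 _ c D h5 ((hg _ c D h5).symm.trans h4)
    rw [hs.ord h4, P027M.Gs.mapDomain_apply', ← Sp.dgD_eq hd h5 h6, Finset.sum_filter,
      Finset.sum_filter, ← sub_eq_zero, ← Finset.sum_sub_distrib] at h7
    rw [Finsupp.linearCombination_apply, Finsupp.sum, ← h7]
    refine Finset.sum_congr rfl fun Q _ => ?_
    simp only [hχ, smul_eq_mul, mul_sub, mul_ite, mul_one, mul_zero]
  have b1 : ∀ Q, -1 ≤ χ Q := fun Q => by
    simp only [hχ]
    split_ifs <;> norm_num
  have b2 : ∀ Q, χ Q ≤ 1 := fun Q => by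
    simp only [hχ]
    split_ifs <;> norm_num
  by_contra h4
  obtain ⟨Q, hQ⟩ := hs.surj z
  have h5 := Sp.const_of χ b1 b2 key (j a) Q
  have h6 : j a ∈ j '' {a | ‖a‖ < 1} := ⟨a, ha, rfl⟩
  simp only [hχ, if_pos hQ, if_neg h4, if_pos h6] at h5
  split_ifs at h5 <;> omega

end Vale.Agent.P022K.FI
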