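import Vale.Agent.P022K.FI.Cmp
import Vale.Agent.P025.R2.H210.Conv

/-!
# P022K, block FI, row AN4: dominant linear term, inverse function, convergence criteria
-/

set_option linter.all false

noncomputable section

namespace Vale.Agent.P022K.FI.An4

open PowerSeries Filter Topology

variable {C : Type*} [NormedField C] [IsUltrametricDist C]

/-- positive radius of convergence -/
def Conv (f : C⟦X⟧) : Prop := ∃ r, 0 < r ∧ IsRestricted r f

/-- `φ = λ X + ...` and the linear term dominates on the disc of radius `r` -/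
structure Lin (r : ℝ) (φ : C⟦X⟧) : Prop where
  pos : 0 < r
  zero : constantCoeff φ = 0
  one : coeff 1 φ ≠ 0
  bnd : Bnd r (‖coeff 1 φ‖ * r) φ

variable {r ρ B c : ℝ} {φ ψ f g : C⟦X⟧}

omit [IsUltrametricDist C] in
theorem Bnd.conv (hr : 0 < r) (h : Bnd r B f) : Conv f :=
  ⟨r / 2, by positivity, h.res (by positivity) (by linarith)⟩

omit [IsUltrametricDist C] in
theorem Conv.bnd (h : Conv f) : ∃ r B, 0 < r ∧ 0 < B ∧ Bnd r B f := by
  obtain ⟨r, hr, h⟩ := h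
  obtain ⟨B, hB, h⟩ := exists_bnd h
  exact ⟨r, B, hr, hB, h⟩

omit [IsUltrametricDist C] in
theorem Conv.ev (h : Conv f) : ∀ᶠ r in 𝓝[>] (0 : ℝ), IsRestricted r f := by
  obtain ⟨r, hr, h⟩ := h
  filter_upwards [Ioo_mem_nhdsGT hr] with s hs
  exact res_anti h hs.1.le hs.2.le

/-- algebraic power series converge -/
theorem conv_of_alg [CharZero C] (h : IsAlgebraic (Polynomial C) f) : Conv f := by
  obtain ⟨B, M, hB, hM, h⟩ := P025H210.alg_bound h
  have hM0 : 0 < M := by linarith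
  refine Bnd.conv (B := B) (inv_pos.2 hM0) fun n => ?_
  rw [inv_pow, ← div_eq_mul_inv, div_le_iff₀ (by positivity)]
  exact h n

omit [IsUltrametricDist C] in
/-- Schwarz lemma: a series without constant term is bounded by `B * (r' / r)` -/
theorem Bnd.schwarz {r' : ℝ} (h : Bnd r B φ) (h0 : constantCoeff φ = 0) (hr : 0 < r) (h1 : 0 ≤ r')
    (h2 : r' ≤ r) : Bnd r' (B * (r' / r)) φ := by
  intro n
  have hB := h.nonneg
  rcases n with _ | n
  · rw [coeff_zero_eq_constantCoeff, h0, norm_zero, zero_mul]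
    positivity
  have e : ‖coeff (n + 1) φ‖ * r' ^ (n + 1) =
      ‖coeff (n + 1) φ‖ * r ^ (n + 1) * (r' / r) * (r' / r) ^ n := by
    rw [div_pow]; field_simp; ring
  rw [e]
  refine (mul_le_of_le_one_right (by positivity)
    (pow_le_one₀ (by positivity) ((div_le_one hr).2 h2))).trans ?_
  exact mul_le_mul_of_nonneg_right (h _) (by positivity)

omit [IsUltrametricDist C] in
theorem Lin.anti {r' : ℝ} (h : Lin r φ) (h1 : 0 < r') (h2 : r' ≤ r) : Lin r' φ := by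
  refine ⟨h1, h.zero, h.one, ?_⟩
  have := h.bnd.schwarz h.zero h.pos h1.le h2
  rwa [mul_assoc, mul_div_cancel₀ _ h.pos.ne'] at this

omit [IsUltrametricDist C] in
theorem Lin.rad_pos (h : Lin r φ) : 0 < ‖coeff 1 φ‖ * r := mul_pos (norm_pos_iff.2 h.one) h.pos

omit [IsUltrametricDist C] in
theorem Lin.res {r' : ℝ} (h : Lin r φ) (h1 : 0 ≤ r') (h2 : r' < r) : IsRestricted r' φ :=
  h.bnd.res h1 h2

omit [IsUltrametricDist C] in
theorem Lin.ne_zero (h : Lin r φ) : φ ≠ 0 := fun e => h.one (by rw [e, map_zero])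

omit [IsUltrametricDist C] in
theorem Conv.exists_lin (h : Conv φ) (h0 : constantCoeff φ = 0) (h1 : coeff 1 φ ≠ 0) :
    ∃ r, Lin r φ := by
  obtain ⟨r, B, hr, hB, h⟩ := h.bnd
  have hl : 0 < ‖coeff 1 φ‖ := norm_pos_iff.2 h1
  obtain ⟨s, hs, hsr, hsB⟩ : ∃ s, 0 < s ∧ s ≤ r ∧ s ≤ ‖coeff 1 φ‖ * r ^ 2 / B :=
    ⟨min r _, by positivity, min_le_left _ _, min_le_right _ _⟩
  refine ⟨s, hs, h0, h1, fun n => ?_⟩
  rcases n with _ | _ | n
  · rw [coeff_zero_eq_constantCoeff, h0, norm_zero, zero_mul]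
    positivity
  · simp
  have e : ‖coeff (n + 1 + 1) φ‖ * s ^ (n + 1 + 1) =
      ‖coeff (n + 1 + 1) φ‖ * r ^ (n + 1 + 1) * (s / r) ^ 2 * (s / r) ^ n := by
    rw [div_pow, div_pow]; field_simp; ring
  rw [e]
  refine (mul_le_of_le_one_right (by positivity)
    (pow_le_one₀ (by positivity) ((div_le_one hr).2 hsr))).trans ?_
  refine (mul_le_mul_of_nonneg_right (h _) (by positivity)).trans ?_
  rw [le_div_iff₀ hB] at hsB
  rw [div_pow, ← mul_div_assoc, div_le_iff₀ (by positivity)]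
  nlinarith

omit [IsUltrametricDist C] in
theorem summable_zero (h0 : constantCoeff ψ = 0) (φ : C⟦X⟧) (n : ℕ) :
    Summable fun d => coeff d φ * coeff n (ψ ^ d) :=
  summable_of_hasFiniteSupport (coeff_subst_finite' (HasSubst.of_constantCoeff_zero' h0) φ n)

omit [IsUltrametricDist C] in
/-- the coefficient of index `n` of `φ (ψ)` in terms of the truncation of `ψ` -/
theorem coeff_cmp_trunc (h0 : constantCoeff ψ = 0) (φ : C⟦X⟧) (n : ℕ) :
    coeff n (cmp ψ φ) =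
      coeff n (cmp ((trunc n ψ : Polynomial C) : C⟦X⟧) φ) + coeff 1 φ * coeff n ψ := by
  set ψ' : C⟦X⟧ := ((trunc n ψ : Polynomial C) : C⟦X⟧) with hψ'
  have h0' : constantCoeff ψ' = 0 := by
    rw [← coeff_zero_eq_constantCoeff_apply, hψ', Polynomial.coeff_coe, coeff_trunc]
    split_ifs
    · rw [coeff_zero_eq_constantCoeff_apply, h0]
    · rfl
  have hd : X ^ n ∣ ψ - ψ' := by
    rw [X_pow_dvd_iff]
    intro m hm
    rw [map_sub, hψ', Polynomial.coeff_coe, coeff_trunc, if_pos hm, sub_self]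
  have hn : coeff n ψ' = 0 := by
    rw [hψ', Polynomial.coeff_coe, coeff_trunc, if_neg (lt_irrefl n)]
  rw [← sub_eq_iff_eq_add', coeff_cmp, coeff_cmp,
    ← (summable_zero h0 φ n).tsum_sub (summable_zero h0' φ n), tsum_eq_single 1]
  · rw [pow_one, pow_one, hn, mul_zero, sub_zero]
  intro d hd1
  rw [← mul_sub, ← map_sub]
  rcases d with _ | _ | d
  · simp
  · exact absurd rfl hd1
  have h1 : X ^ (n + 1) ∣ ψ ^ (d + 1 + 1) - ψ' ^ (d + 1 + 1) := by
    have e : ψ ^ (d + 1 + 1) - ψ' ^ (d + 1 + 1) =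
        (ψ - ψ') * (ψ * ψ ^ d) + (ψ ^ (d + 1) - ψ' ^ (d + 1)) * ψ' := by ring
    rw [e, pow_succ]
    exact dvd_add (mul_dvd_mul hd (dvd_mul_of_dvd_left (X_dvd_iff.2 h0) _))
      (mul_dvd_mul (hd.trans (sub_dvd_pow_sub_pow _ _ _)) (X_dvd_iff.2 h0'))
  rw [X_pow_dvd_iff.1 h1 n n.lt_succ_self, mul_zero]

/-- the basic estimate for recursions -/
theorem rec_le (hρ : 0 < ρ) (hr : 0 ≤ r) (h0 : constantCoeff ψ = 0) {n : ℕ} (hψ : BndT ρ r n ψ)
    (hφ : Bnd r c φ) : ‖coeff n (cmp ψ φ) - coeff 1 φ * coeff n ψ‖ * ρ ^ n ≤ c := by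
  rw [coeff_cmp_trunc h0, add_sub_cancel_right]
  refine Bnd.cmp (ρ := r) hρ (fun m => ?_) hφ n
  rw [Polynomial.coeff_coe, coeff_trunc]
  split_ifs with h
  · exact hψ m h
  · simpa using hr

omit [IsUltrametricDist C] in
theorem bnd_of_step (h : ∀ n, BndT r B n f → ‖coeff n f‖ * r ^ n ≤ B) : Bnd r B f := by
  intro n
  induction n using Nat.strong_induction_on with
  | _ n ih => exact h n ih

omit [IsUltrametricDist C] in
theorem coeff_one_cmp (h0 : constantCoeff ψ = 0) (φ : C⟦X⟧) :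
    coeff 1 (cmp ψ φ) = coeff 1 φ * coeff 1 ψ := by
  have e : ((trunc 1 ψ : Polynomial C) : C⟦X⟧) = PowerSeries.C 0 := by
    ext m
    rw [Polynomial.coeff_coe, coeff_trunc, map_zero, map_zero]
    split_ifs with h
    · rw [Nat.lt_one_iff.1 h, coeff_zero_eq_constantCoeff_apply, h0]
    · rfl
  rw [coeff_cmp_trunc h0, e, C_cmp, coeff_C, if_neg one_ne_zero, zero_add]

omit [IsUltrametricDist C] in
theorem constantCoeff_cmp_zero (h0 : constantCoeff ψ = 0) (φ : C⟦X⟧) :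
    constantCoeff (cmp ψ φ) = constantCoeff φ := by
  rw [constantCoeff_cmp, h0, ev_zero]

omit [IsUltrametricDist C] in
/-- formal associativity -/
theorem cmp_cmp_zero (h0 : constantCoeff ψ = 0) (h1 : constantCoeff φ = 0) (f : C⟦X⟧) :
    cmp ψ (cmp φ f) = cmp (cmp ψ φ) f := by
  rw [cmp_eq_subst h0, cmp_eq_subst h1,
    cmp_eq_subst ((constantCoeff_cmp_zero h0 φ).trans h1), cmp_eq_subst h0]
  exact subst_comp_subst_apply (HasSubst.of_constantCoeff_zero' h1)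
    (HasSubst.of_constantCoeff_zero' h0) f

/-- inverse function theorem -/
theorem Lin.inv (h : Lin r φ) (h0 : constantCoeff ψ = 0) (e : cmp ψ φ = X) :
    coeff 1 φ * coeff 1 ψ = 1 ∧ Bnd (‖coeff 1 φ‖ * r) r ψ ∧ Lin (‖coeff 1 φ‖ * r) ψ := by
  have hl : 0 < ‖coeff 1 φ‖ := norm_pos_iff.2 h.one
  have h1 : coeff 1 φ * coeff 1 ψ = 1 := by rw [← coeff_one_cmp h0, e, coeff_one_X]
  have h2 : ‖coeff 1 ψ‖ * (‖coeff 1 φ‖ * r) = r := by
    rw [← mul_assoc, ← norm_mul, mul_comm (coeff 1 ψ), h1, norm_one, one_mul]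
  have h3 : Bnd (‖coeff 1 φ‖ * r) r ψ := by
    refine bnd_of_step fun n hn => ?_
    by_cases hn1 : n = 1
    · rw [hn1, pow_one, h2]
    have h4 := rec_le h.rad_pos h.pos.le h0 hn h.bnd
    rw [e, coeff_X, if_neg hn1, zero_sub, norm_neg, norm_mul, mul_assoc] at h4
    exact le_of_mul_le_mul_left h4 hl
  exact ⟨h1, h3, h.rad_pos, h0, right_ne_zero_of_mul_eq_one h1, by rwa [h2]⟩

omit [IsUltrametricDist C] in
theorem exists_inv (h0 : constantCoeff φ = 0) (h1 : coeff 1 φ ≠ 0) :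
    ∃ ψ : C⟦X⟧, constantCoeff ψ = 0 ∧ cmp ψ φ = X ∧ cmp φ ψ = X := by
  have hu : IsUnit (coeff 1 φ) := h1.isUnit
  refine ⟨φ.substInvOfIsUnit hu, constantCoeff_substInvOfIsUnit φ hu, ?_, ?_⟩
  · rw [cmp_eq_subst (constantCoeff_substInvOfIsUnit φ hu), subst_substInvOfIsUnit_right φ h0]
  · rw [cmp_eq_subst h0, subst_substInvOfIsUnit_left φ h0]

/-- the inverse of a convergent series converges -/
theorem Conv.inv (h : Conv φ) (h1 : constantCoeff φ = 0) (h0 : constantCoeff ψ = 0)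
    (e : cmp ψ φ = X) : Conv ψ := by
  have h2 : coeff 1 φ * coeff 1 ψ = 1 := by rw [← coeff_one_cmp h0, e, coeff_one_X]
  obtain ⟨r, hr⟩ := h.exists_lin h1 (left_ne_zero_of_mul_eq_one h2)
  exact (hr.inv h0 e).2.1.conv hr.rad_pos

/-- substitution of `φ` is isometric from radius `‖λ‖ r` to radius `r` -/
theorem Lin.bnd_iff (h : Lin r φ) (f : C⟦X⟧) :
    Bnd r B (cmp φ f) ↔ Bnd (‖coeff 1 φ‖ * r) B f := by
  refine ⟨fun hf => ?_, fun hf => h.bnd.cmp h.pos hf⟩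
  obtain ⟨ψ, h0, e1, e2⟩ := exists_inv h.zero h.one
  have := (h.inv h0 e1).2.1.cmp h.rad_pos hf
  rwa [cmp_cmp_zero h0 h.zero, e1, X_cmp] at this

theorem Lin.res_iff [CompleteSpace C] {r₀ : ℝ} (h : Lin r₀ φ) (hr : 0 < r) (hr₀ : r < r₀)
    (f : C⟦X⟧) : IsRestricted r (cmp φ f) ↔ IsRestricted (‖coeff 1 φ‖ * r) f := by
  have h' := h.anti hr hr₀.le
  refine ⟨fun hf => ?_, fun hf => cmp_res hr h'.bnd (h.res hr.le hr₀) hf⟩
  obtain ⟨ψ, h0, e1, e2⟩ := exists_inv h.zero h.one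
  have := cmp_res h'.rad_pos (h'.inv h0 e1).2.1 ((h.inv h0 e1).2.2.res h'.rad_pos.le
    (mul_lt_mul_of_pos_left hr₀ (norm_pos_iff.2 h.one))) hf
  rwa [cmp_cmp_zero h0 h.zero, e1, X_cmp] at this

theorem Conv.cmp (hφ : Conv φ) (h0 : constantCoeff φ = 0) (hf : Conv f) : Conv (cmp φ f) := by
  obtain ⟨r, B, hr, hB, h⟩ := hφ.bnd
  obtain ⟨ρ, B', hρ, hB', h'⟩ := hf.bnd
  obtain ⟨s, hs, hsr, hsB⟩ : ∃ s, 0 < s ∧ s ≤ r ∧ s ≤ ρ * r / B :=
    ⟨min r _, by positivity, min_le_left _ _, min_le_right _ _⟩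
  refine (((h.schwarz h0 hr hs.le hsr).mono (B' := ρ) ?_).cmp hs h').conv hs
  rw [le_div_iff₀ hB] at hsB
  rw [← mul_div_assoc, div_le_iff₀ hr]
  linarith

omit [IsUltrametricDist C] in
theorem cmp_smul_X (a : C) (f : C⟦X⟧) : cmp (PowerSeries.C a * X) f = rescale a f := by
  rw [cmp_eq_subst (by simp), rescale_eq_subst, smul_eq_C_mul]

/-- a formal solution of the Poincare equation `σ (l z) = φ (σ z)` converges -/
theorem conv_of_poincare {σ : C⟦X⟧} {l : C} (hφ : Conv φ) (h0 : constantCoeff φ = 0)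
    (h1 : coeff 1 φ = l) (hl0 : l ≠ 0) (hl : ‖l‖ ≠ 1) (hσ : constantCoeff σ = 0)
    (e : rescale l σ = cmp σ φ) : Conv σ := by
  have key : ∀ {φ : C⟦X⟧} {l : C}, Conv φ → constantCoeff φ = 0 → coeff 1 φ = l → l ≠ 0 →
      ‖l‖ < 1 → rescale l σ = cmp σ φ → Conv σ := by
    intro φ l hφ h0 h1 hl0 hl e
    obtain ⟨r, hr⟩ := hφ.exists_lin h0 (h1 ▸ hl0)
    have hp := hr.pos
    have hl1 : 0 < ‖l‖ := norm_pos_iff.2 hl0
    obtain ⟨ρ, hρ, hρr⟩ : ∃ ρ, 0 < ρ ∧ ‖coeff 1 σ‖ * ρ ≤ r := by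
      refine ⟨r / (‖coeff 1 σ‖ + 1), by positivity, ?_⟩
      rw [← mul_div_assoc, div_le_iff₀ (by positivity)]
      nlinarith [norm_nonneg (coeff 1 σ)]
    refine Bnd.conv (B := r) hρ (bnd_of_step fun n hn => ?_)
    rcases n with _ | _ | n
    · rw [coeff_zero_eq_constantCoeff, hσ, norm_zero, zero_mul]
      exact hp.le
    · simpa using hρr
    have h4 := rec_le hρ hp.le hσ hn hr.bnd
    have h5 : ‖l ^ (n + 1) - 1‖ = 1 := by
      have h6 : ‖l ^ (n + 1)‖ < 1 := by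
        rw [norm_pow]; exact pow_lt_one₀ hl1.le hl n.succ_ne_zero
      rw [sub_eq_add_neg, IsUltrametricDist.norm_add_eq_max_of_norm_ne_norm
        (by rw [norm_neg, norm_one]; exact h6.ne), norm_neg, norm_one, max_eq_right h6.le]
    have h7 : l ^ (n + 1 + 1) * coeff (n + 1 + 1) σ - l * coeff (n + 1 + 1) σ =
        l * (l ^ (n + 1) - 1) * coeff (n + 1 + 1) σ := by ring
    rw [← e, coeff_rescale, h1, h7, norm_mul, norm_mul, h5, mul_one, mul_assoc] at h4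
    exact le_of_mul_le_mul_left h4 hl1
  rcases lt_or_gt_of_ne hl with hl | hl
  · exact key hφ h0 h1 hl0 hl e
  obtain ⟨ψ, g0, e1, e2⟩ := exists_inv h0 (h1 ▸ hl0)
  have g1 : coeff 1 ψ = l⁻¹ := by
    have h2 : coeff 1 φ * coeff 1 ψ = 1 := by rw [← coeff_one_cmp g0, e1, coeff_one_X]
    rw [h1] at h2
    exact eq_inv_of_mul_eq_one_right h2
  refine key (hφ.inv h0 g0 e1) g0 g1 (inv_ne_zero hl0)
    (by rw [norm_inv]; exact inv_lt_one_of_one_lt₀ hl) ?_
  have z0 : constantCoeff (PowerSeries.C l⁻¹ * X : C⟦X⟧) = 0 := by simp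
  have s0 : constantCoeff (cmp (PowerSeries.C l⁻¹ * X) σ) = 0 :=
    (constantCoeff_cmp_zero z0 σ).trans hσ
  have h3 : cmp (cmp (PowerSeries.C l⁻¹ * X) σ) φ = σ := by
    rw [← cmp_cmp_zero z0 hσ, ← e, cmp_smul_X, rescale_rescale, mul_inv_cancel₀ hl0, rescale_one]
    rfl
  rw [← cmp_smul_X]
  conv_rhs => rw [← h3]
  rw [← cmp_cmp_zero s0 h0, e2, cmp_X]

end Vale.Agent.P022K.FI.An4
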