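import Vale.Agent.P022K.FI.Gnn
import Vale.Agent.P022K.FI.Cmp2

/-!
# P022K FI, row X0, file T: the translations by points of order `ϖ` in a basin

For the Lubin-Tate polynomial `ϖ X + X ^ q` the translations by the points of order `ϖ` move the
functions of `L_1` by at most `ρ`, `ρ ^ (q - 1) = ‖ϖ‖`, linearly modulo smaller terms, and some
function of the neighbouring vertex is moved by exactly `ρ`.
-/

set_option autoImplicit false
set_option linter.unusedSectionVars false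
set_option linter.style.haveILetI false

open PowerSeries Vale.Agent.P019P P025H746 P025H492 Module Filter Topology
open scoped MatrixGroups LaurentSeries

noncomputable section

namespace Vale.Agent.P022K.FI.X1

open Vale.Agent.P022K.Sh An4 Gn

section series

variable {C : Type} [NontriviallyNormedField C] [IsUltrametricDist C] [CompleteSpace C]
  {P Q s : C⟦X⟧} {B B' ρ : ℝ}

theorem b1_iff : Bnd 1 B P ↔ ∀ n, ‖coeff n P‖ ≤ B := by simp [Bnd]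

theorem ig_iff : Ig P ↔ Bnd 1 1 P := b1_iff.symm

theorem b1_mul (h : Bnd 1 B P) (h' : Bnd 1 B' Q) : Bnd 1 (B * B') (P * Q) := h.mul zero_le_one h'

theorem b1_ig (h : Bnd 1 B P) (h' : Bnd 1 1 Q) : Bnd 1 B (P * Q) := by
  simpa using b1_mul h h'

theorem ig_b1 (h : Bnd 1 1 P) (h' : Bnd 1 B Q) : Bnd 1 B (P * Q) := by
  simpa using b1_mul h h'

theorem b1_C {c : C} (h : ‖c‖ ≤ B) : Bnd 1 B (PowerSeries.C c) := (bnd_C 1 c).mono h

theorem b1_nat (d : ℕ) : Bnd 1 1 (d : C⟦X⟧) := by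
  rw [← map_natCast (PowerSeries.C (R := C))]
  exact b1_C (IsUltrametricDist.norm_natCast_le_one C d)

theorem b1_X : Bnd 1 1 (X : C⟦X⟧) := bnd_X zero_le_one

theorem b1_pow (h : Bnd 1 1 P) (d : ℕ) : Bnd 1 1 (P ^ d) := by simpa using h.pow zero_le_one d

theorem b1_der (h : Bnd 1 B P) : Bnd 1 B (d⁄dX C P) := by simpa using h.deriv one_pos

theorem pow_tay (hs : Bnd 1 ρ s) (hρ : ρ ≤ 1) (d : ℕ) :
    Bnd 1 (ρ * ρ) ((X + s) ^ (d + 1) - X ^ (d + 1) - ((d + 1 : ℕ) : C⟦X⟧) * X ^ d * s) := by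
  induction d with
  | zero => simpa using bnd_zero 1 (mul_self_nonneg ρ)
  | succ d ih =>
    have e : (X + s) ^ (d + 1 + 1) - X ^ (d + 1 + 1) - ((d + 1 + 1 : ℕ) : C⟦X⟧) * X ^ (d + 1) * s =
        (X + s) * ((X + s) ^ (d + 1) - X ^ (d + 1) - ((d + 1 : ℕ) : C⟦X⟧) * X ^ d * s) +
          ((d + 1 : ℕ) : C⟦X⟧) * X ^ d * (s * s) := by
      push_cast
      ring
    rw [e]
    exact (ig_b1 (b1_X.add zero_le_one (hs.mono hρ)) ih).add zero_le_one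
      (ig_b1 (ig_b1 (b1_nat _) (b1_pow b1_X d)) (b1_mul hs hs))

/-- Taylor's formula -/
theorem tay (hs : Bnd 1 ρ s) (hρ : ρ < 1) (hP : Bnd 1 1 P) :
    Bnd 1 (ρ * ρ) (cmp (X + s) P - P - d⁄dX C P * s) := by
  rw [b1_iff]
  intro n
  have h0 := hs.nonneg
  obtain ⟨r, hr1, hr2⟩ := exists_between hρ
  have hr : 0 < r := h0.trans_lt hr1
  have h1 : Bnd r r (X + s) := (bnd_X hr.le).add hr.le ((hs.anti hr.le hr2.le).mono hr1.le)
  have h2 := (summable_cmp hr h1 (hP.res hr.le hr2) n).hasSum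
  rw [← coeff_cmp] at h2
  have h3 : HasSum (fun d => coeff d P * coeff n (X ^ d : C⟦X⟧)) (coeff n P) := by
    have := hasSum_single (f := fun d => coeff d P * coeff n (X ^ d : C⟦X⟧)) n fun d hd => by
      rw [coeff_X_pow, if_neg hd.symm, mul_zero]
    simpa using this
  have h4 : HasSum (fun d => coeff (d + 1) P * coeff n (((d + 1 : ℕ) : C⟦X⟧) * X ^ d * s))
      (coeff n (d⁄dX C P * s)) := by
    have e : ∀ d, coeff (d + 1) P * coeff n (((d + 1 : ℕ) : C⟦X⟧) * X ^ d * s) =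
        if d ≤ n then coeff d (d⁄dX C P) * coeff (n - d) s else 0 := fun d => by
      rw [mul_assoc, ← map_natCast (PowerSeries.C (R := C)), coeff_C_mul, coeff_X_pow_mul',
        coeff_derivative]
      split_ifs
      · push_cast; ring
      · simp
    rw [coeff_mul, Finset.Nat.sum_antidiagonal_eq_sum_range_succ_mk]
    have : HasSum (fun d => coeff (d + 1) P * coeff n (((d + 1 : ℕ) : C⟦X⟧) * X ^ d * s))
        (∑ d ∈ Finset.range (n + 1), coeff (d + 1) P * coeff n (((d + 1 : ℕ) : C⟦X⟧) * X ^ d * s)) :=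
      hasSum_sum_of_ne_finset_zero fun d hd => by
        rw [e, if_neg (by simpa [Nat.lt_succ_iff] using hd)]
    convert this using 1
    exact Finset.sum_congr rfl fun d hd => by
      rw [e, if_pos (by simpa [Nat.lt_succ_iff] using hd)]
  have h5 := ((hasSum_nat_add_iff' 1).2 (h2.sub h3)).sub h4
  simp only [Finset.range_one, Finset.sum_singleton, pow_zero, sub_self, sub_zero] at h5
  rw [map_sub, map_sub, ← h5.tsum_eq]
  refine IsUltrametricDist.norm_tsum_le_of_forall_le_of_nonneg (mul_self_nonneg ρ) fun d => ?_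
  rw [← mul_sub, ← mul_sub, ← map_sub, ← map_sub, norm_mul]
  exact (mul_le_of_le_one_left (norm_nonneg _) (b1_iff.1 hP _)).trans
    (b1_iff.1 (pow_tay hs hρ.le d) n)

theorem lead {a b : ℕ} (hP : Bnd 1 1 P) (hQ : Bnd 1 1 Q) (ha : ∀ i < a, ‖coeff i P‖ < 1)
    (hb : ∀ j < b, ‖coeff j Q‖ < 1) :
    (∀ n < a + b, ‖coeff n (P * Q)‖ < 1) ∧ ‖coeff (a + b) (P * Q) - coeff a P * coeff b Q‖ < 1 := by
  have key : ∀ p : ℕ × ℕ, p.1 < a ∨ p.2 < b → ‖coeff p.1 P * coeff p.2 Q‖ < 1 := fun p hp => by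
    rw [norm_mul]
    rcases hp with h | h
    · exact mul_lt_one_of_nonneg_of_lt_one_left (norm_nonneg _) (ha _ h) (b1_iff.1 hQ _)
    · exact mul_lt_one_of_nonneg_of_lt_one_right (b1_iff.1 hP _) (norm_nonneg _) (hb _ h)
  have sm : ∀ S : Finset (ℕ × ℕ), (∀ p ∈ S, p.1 < a ∨ p.2 < b) →
      ‖∑ p ∈ S, coeff p.1 P * coeff p.2 Q‖ < 1 := fun S hS =>
    Finset.sum_induction _ (fun x : C => ‖x‖ < 1) (fun x y hx hy =>
      (IsUltrametricDist.norm_add_le_max x y).trans_lt (max_lt hx hy)) (by simp)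
      fun p hp => key p (hS p hp)
  refine ⟨fun n hn => ?_, ?_⟩
  · rw [coeff_mul]
    exact sm _ fun p hp => by
      have := Finset.HasAntidiagonal.mem_antidiagonal.1 hp
      omega
  · rw [coeff_mul, ← Finset.add_sum_erase _ _ (Finset.HasAntidiagonal.mem_antidiagonal.2 (rfl : (a, b).1 + (a, b).2 = _)),
      add_sub_cancel_left]
    exact sm _ fun p hp => by
      obtain ⟨h1, h2⟩ := Finset.mem_erase.1 hp
      have h3 := Finset.HasAntidiagonal.mem_antidiagonal.1 h2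
      by_contra h4
      exact h1 (Prod.ext (by dsimp only; omega) (by dsimp only; omega))

theorem norm_eq_one_of {x y : C} (h : ‖x - y‖ < 1) (hy : ‖y‖ = 1) : ‖x‖ = 1 := by
  have := IsUltrametricDist.norm_add_eq_max_of_norm_ne_norm (x := x - y) (y := y) (by rw [hy]; exact h.ne)
  rw [sub_add_cancel, hy, max_eq_right h.le] at this
  exact this

/-- integral series of degree `m` in the reduction -/
structure Dg (P : C⟦X⟧) (m : ℕ) : Prop where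
  ig : Bnd 1 1 P
  lt : ∀ n < m, ‖coeff n P‖ < 1
  eq : ‖coeff m P‖ = 1

theorem Dg.mul {m n : ℕ} (h : Dg P m) (h' : Dg Q n) : Dg (P * Q) (m + n) :=
  ⟨ig_b1 h.ig h'.ig, (lead h.ig h'.ig h.lt h'.lt).1,
    norm_eq_one_of (lead h.ig h'.ig h.lt h'.lt).2 (by rw [norm_mul, h.eq, h'.eq, mul_one])⟩

theorem dg_one : Dg (1 : C⟦X⟧) 0 := ⟨bnd_one 1, fun n hn => by omega, by simp⟩

theorem Dg.pow {m : ℕ} (h : Dg P m) (d : ℕ) : Dg (P ^ d) (m * d) := by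
  induction d with
  | zero => simpa using dg_one
  | succ d ih => rw [pow_succ, mul_add, mul_one]; exact ih.mul h

theorem dg_lin {a : C} (ha : ‖a‖ < 1) : Dg (X - PowerSeries.C a) 1 :=
  ⟨b1_X.sub zero_le_one (b1_C ha.le), fun n hn => by
    obtain rfl : n = 0 := by omega
    simpa using ha, by simp⟩

theorem Dg.add {m : ℕ} (h : Dg P m) (h' : Bnd 1 B Q) (hB : B < 1) : Dg (P + Q) m :=
  ⟨h.ig.add zero_le_one (h'.mono hB.le), fun n hn => by
    rw [map_add]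
    exact (IsUltrametricDist.norm_add_le_max _ _).trans_lt
      (max_lt (h.lt n hn) ((b1_iff.1 h' n).trans_lt hB)),
    norm_eq_one_of (by rw [map_add, add_sub_cancel_left]; exact (b1_iff.1 h' m).trans_lt hB) h.eq⟩

theorem dg_of {k : ℕ} (h : Bnd 1 1 P) (hk : ‖coeff k P‖ = 1) : ∃ m, Dg P m := by
  classical
  have e : ∃ k, ‖coeff k P‖ = 1 := ⟨k, hk⟩
  exact ⟨Nat.find e, h, fun n hn => (b1_iff.1 h n).lt_of_ne (Nat.find_min e hn), Nat.find_spec e⟩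

theorem fac_dg {x : C⸨X⸩} {c : C} {D : C →₀ ℤ} (h : Fac x c D) :
    ∃ (P Q : C⟦X⟧) (m n : ℕ), Dg P m ∧ Dg Q n ∧
    x * (Q : C⸨X⸩) = ((PowerSeries.C c * P : C⟦X⟧) : C⸨X⸩) ∧ (m : ℤ) - n = dgD D := by
  classical
  obtain ⟨-, h1, u, hu, rfl⟩ := h
  have key : ∀ S : Finset C, (∀ a ∈ S, ‖a‖ < 1) → ∃ (P Q : C⟦X⟧) (m n : ℕ), Dg P m ∧ Dg Q n ∧
      (∏ a ∈ S, ((X - PowerSeries.C a : C⟦X⟧) : C⸨X⸩) ^ D a) * (Q : C⸨X⸩) = P ∧
      (m : ℤ) - n = ∑ a ∈ S, D a := by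
    intro S hS
    induction S using Finset.induction_on with
    | empty => exact ⟨1, 1, 0, 0, dg_one, dg_one, by simp, by simp⟩
    | insert a S ha ih =>
      obtain ⟨P, Q, m, n, a1, a2, a3, a4⟩ := ih fun b hb => hS b (Finset.mem_insert_of_mem hb)
      have b1 := dg_lin (hS a (Finset.mem_insert_self _ _))
      have b0 : ((X - PowerSeries.C a : C⟦X⟧) : C⸨X⸩) ≠ 0 := fun e => by
        have e1 : (X - PowerSeries.C a : C⟦X⟧) = 0 :=
          HahnSeries.ofPowerSeries_injective (e.trans (map_zero _).symm)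
        have := b1.eq
        rw [e1] at this
        simp at this
      rw [Finset.prod_insert ha, Finset.sum_insert ha]
      obtain ⟨k, hk | hk⟩ := Int.eq_nat_or_neg (D a)
      · refine ⟨(X - PowerSeries.C a) ^ k * P, Q, 1 * k + m, n, (b1.pow k).mul a1, a2, ?_, by
          push_cast; omega⟩
        rw [hk, zpow_natCast, mul_assoc, a3, PowerSeries.coe_mul, PowerSeries.coe_pow]
      · refine ⟨P, (X - PowerSeries.C a) ^ k * Q, m, 1 * k + n, a1, (b1.pow k).mul a2, ?_, by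
          push_cast; omega⟩
        rw [hk, zpow_neg, zpow_natCast, PowerSeries.coe_mul, PowerSeries.coe_pow, ← a3]
        field_simp
  obtain ⟨P, Q, m, n, a1, a2, a3, a4⟩ := key D.support h1
  refine ⟨u * P, Q, 0 + m, n, Dg.mul ⟨ig_iff.1 hu.1, fun n hn => by omega, hu.2⟩ a1, a2, ?_, by
    rw [zero_add]; exact a4⟩
  rw [Finsupp.prod, mul_assoc, a3, PowerSeries.coe_mul, PowerSeries.coe_mul, mul_assoc]
  rfl

theorem fac_cross {x : C⸨X⸩} {c : C} {D : C →₀ ℤ} (h : Fac x c D) {P₂ Q₂ : C⟦X⟧}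
    (e : x * (Q₂ : C⸨X⸩) = P₂) :
    ∃ (P Q : C⟦X⟧) (m n : ℕ), Dg P m ∧ Dg Q n ∧ PowerSeries.C c * (P * Q₂) = P₂ * Q := by
  obtain ⟨P, Q, m, n, a1, a2, a3, -⟩ := fac_dg h
  refine ⟨P, Q, m, n, a1, a2, HahnSeries.ofPowerSeries_injective (Γ := ℤ) ?_⟩
  rw [← mul_assoc, map_mul _ _ Q₂, map_mul _ P₂]
  change ((PowerSeries.C c * P : C⟦X⟧) : C⸨X⸩) * (Q₂ : C⸨X⸩) = (P₂ : C⸨X⸩) * (Q : C⸨X⸩)
  rw [← a3, ← e]
  ring

theorem fac_le {x : C⸨X⸩} {c : C} {D : C →₀ ℤ} (h : Fac x c D) {P₂ Q₂ : C⟦X⟧} {n₂ : ℕ}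
    (e : x * (Q₂ : C⸨X⸩) = P₂) (hQ : Dg Q₂ n₂) (hP : Bnd 1 B P₂) : ‖c‖ ≤ B := by
  obtain ⟨P, Q, m, n, a1, a2, a3⟩ := fac_cross h e
  have h1 := b1_iff.1 (b1_ig hP a2.ig) (m + n₂)
  rwa [← a3, coeff_C_mul, norm_mul, (a1.mul hQ).eq, mul_one] at h1

theorem fac_ge {x : C⸨X⸩} {c a : C} {D : C →₀ ℤ} (h : Fac x c D) {P₂ Q₂ : C⟦X⟧} {m₂ : ℕ}
    (e : x * (Q₂ : C⸨X⸩) = ((PowerSeries.C a * P₂ : C⟦X⟧) : C⸨X⸩)) (hQ : Bnd 1 1 Q₂)
    (hP : Dg P₂ m₂) : ‖a‖ ≤ ‖c‖ := by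
  obtain ⟨P, Q, m, n, a1, a2, a3⟩ := fac_cross h e
  have h1 := b1_iff.1 (b1_ig (bnd_C 1 c) (ig_b1 a1.ig hQ)) (m₂ + n)
  rwa [a3, mul_assoc, coeff_C_mul, norm_mul, (hP.mul a2).eq, mul_one] at h1

/-- the Wronskian of a function of degree one -/
theorem dg_wr {n : ℕ} (hP : Dg P (n + 1)) (hQ : Dg Q n) :
    ∃ m, Dg (d⁄dX C P * Q - P * d⁄dX C Q) m := by
  have c1 : ∀ (R : C⟦X⟧) i, coeff i (X * d⁄dX C R) = i * coeff i R := fun R i => by
    cases i with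
    | zero => simp
    | succ i => rw [coeff_succ_X_mul, coeff_derivative]; push_cast; ring
  have c2 : ∀ (R : C⟦X⟧) i, ‖coeff i R‖ < 1 → ‖coeff i (X * d⁄dX C R)‖ < 1 := fun R i h => by
    rw [c1, norm_mul]
    exact mul_lt_one_of_nonneg_of_lt_one_right (IsUltrametricDist.norm_natCast_le_one C i)
      (norm_nonneg _) h
  have h1 := (lead (ig_b1 b1_X (b1_der hP.ig)) hQ.ig (fun i hi => c2 _ i (hP.lt i hi)) hQ.lt).2
  have h2 := (lead hP.ig (ig_b1 b1_X (b1_der hQ.ig)) hP.lt fun i hi => c2 _ i (hQ.lt i hi)).2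
  refine dg_of (k := n + n) ((b1_ig (b1_der hP.ig) hQ.ig).sub zero_le_one (b1_ig hP.ig (b1_der hQ.ig)))
    (norm_eq_one_of (y := coeff (n + 1) P * coeff n Q) ?_ (by rw [norm_mul, hP.eq, hQ.eq, mul_one]))
  have h3 := (IsUltrametricDist.norm_add_le_max _ _).trans_lt (max_lt h1 ((norm_neg _).trans_lt h2))
  refine Eq.trans_lt (congrArg norm ?_) h3
  rw [← coeff_succ_X_mul, show n + n + 1 = n + 1 + n by omega, c1, c1, mul_sub, map_sub,
    ← mul_assoc, mul_left_comm X P]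
  push_cast
  ring

theorem bnd_of_unit {G T : C⟦X⟧} (hG : Bnd 1 1 G) (h0 : ‖coeff 0 G‖ = 1) (h : Bnd 1 B (G * T)) :
    Bnd 1 B T := by
  rw [b1_iff]
  intro n
  induction n using Nat.strong_induction_on with
  | _ n ih =>
    have h1 := b1_iff.1 h n
    rw [coeff_mul, ← Finset.add_sum_erase _ _
      (Finset.HasAntidiagonal.mem_antidiagonal.2 (show (0, n).1 + (0, n).2 = n from zero_add n))] at h1
    have h2 : ‖∑ p ∈ (Finset.HasAntidiagonal.antidiagonal n).erase (0, n), coeff p.1 G * coeff p.2 T‖ ≤ B :=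
      IsUltrametricDist.norm_sum_le_of_forall_le_of_nonneg h.nonneg fun p hp => by
        obtain ⟨a1, a2⟩ := Finset.mem_erase.1 hp
        have a3 := Finset.HasAntidiagonal.mem_antidiagonal.1 a2
        have a4 : p.2 < n := by
          by_contra a5
          exact a1 (Prod.ext (by dsimp only; omega) (by dsimp only; omega))
        rw [norm_mul]
        exact (mul_le_of_le_one_left (norm_nonneg _) (b1_iff.1 hG _)).trans (ih _ a4)
    have h3 := (IsUltrametricDist.norm_add_le_max _ _).trans (max_le h1 ((norm_neg _).trans_le h2))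
    rwa [add_neg_cancel_right, norm_mul, h0, one_mul] at h3

/-- the normalised solutions of `f (X + s) = f X` -/
theorem sol {π : C} {k : ℕ} (hπ0 : π ≠ 0)
    (hc : ∀ i < k + 1, ‖((k + 2).choose (i + 1) : C)‖ ≤ ‖π‖) (hs : Bnd 1 1 s) (h0 : coeff 0 s ≠ 0)
    (e : PowerSeries.C π * (X + s) + (X + s) ^ (k + 2) = PowerSeries.C π * X + X ^ (k + 2)) :
    coeff 0 s ^ (k + 1) = -π ∧ ∃ S : C⟦X⟧, Bnd 1 1 S ∧ coeff 0 S = 1 ∧
      s = PowerSeries.C (coeff 0 s) * S ∧ Bnd 1 ‖coeff 0 s‖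
        (S ^ (k + 1) - (1 + PowerSeries.C (((k + 2 : ℕ) : C) / π) * X ^ (k + 1))) := by
  have s0 : s ≠ 0 := by rintro rfl; simp at h0
  have e1 : s ^ (k + 1) = -(PowerSeries.C π + ∑ i ∈ Finset.range (k + 1),
      PowerSeries.C ((k + 2).choose (i + 1) : C) * X ^ (k + 1 - i) * s ^ i) := by
    apply mul_left_cancel₀ s0
    rw [add_comm X s, add_pow, Finset.sum_range_succ, Finset.sum_range_succ'] at e
    simp only [Nat.choose_self, Nat.choose_zero_right, Nat.sub_self, pow_zero, Nat.cast_one, mul_one,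
      Nat.sub_zero, one_mul, show ∀ i, k + 2 - (i + 1) = k + 1 - i from fun i => by omega] at e
    rw [mul_neg, mul_add, Finset.mul_sum, Finset.sum_congr rfl (g := fun i =>
      s ^ (i + 1) * X ^ (k + 1 - i) * ((k + 2).choose (i + 1) : C⟦X⟧)) fun i _ => by
        rw [map_natCast]; ring]
    linear_combination e
  have e2 : coeff 0 s ^ (k + 1) = -π := by
    have := congrArg constantCoeff e1
    rw [map_pow, map_neg, map_add, map_sum, Finset.sum_eq_zero fun i hi => by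
      have : k + 1 - i ≠ 0 := by have := Finset.mem_range.1 hi; omega
      simp [this]] at this
    simpa using this
  have e3 : ‖coeff 0 s‖ ^ (k + 1) = ‖π‖ := by rw [← norm_pow, e2, norm_neg]
  have hb : Bnd 1 ‖coeff 0 s‖ s := by
    rw [b1_iff]
    intro n
    have h1 : ∀ r : ℝ, 0 < r → r < 1 → ‖coeff n s‖ * r ^ n ≤ ‖coeff 0 s‖ := fun r hr hr1 => by
      have c1 : Cv r s := Cv.of_bdd hr hr1 hs
      have c2 : Bnd 1 ‖π‖ (s ^ (k + 1)) := by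
        rw [e1]
        exact ((bnd_C 1 π).add zero_le_one (Bnd.sum zero_le_one (norm_nonneg _) _ fun i hi =>
          b1_ig (b1_ig (b1_C (hc i (Finset.mem_range.1 hi))) (b1_pow b1_X _)) (b1_pow hs _))).neg
      have c3 : gn r s ^ (k + 1) ≤ ‖coeff 0 s‖ ^ (k + 1) := by
        rw [← gn_pow hr c1, e3]
        exact gn_le (c2.anti hr.le hr1.le)
      exact (le_gn c1 n).trans (le_of_pow_le_pow_left₀ (Nat.succ_ne_zero k) (norm_nonneg _) c3)
    have h2 : Tendsto (fun r : ℝ => ‖coeff n s‖ * r ^ n) (𝓝[<] 1) (𝓝 (‖coeff n s‖ * 1 ^ n)) :=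
      ((continuous_const.mul (continuous_pow n)).tendsto 1).mono_left nhdsWithin_le_nhds
    rw [one_pow, mul_one] at h2
    refine le_of_tendsto h2 ?_
    filter_upwards [Ioo_mem_nhdsLT zero_lt_one] with r hr using h1 r hr.1 hr.2
  have n0 : ‖coeff 0 s‖ ≠ 0 := norm_ne_zero_iff.2 h0
  have n1 : ‖coeff 0 s‖ ≤ 1 := b1_iff.1 hs 0
  obtain ⟨S, hS⟩ : ∃ S : C⟦X⟧, S = PowerSeries.C (coeff 0 s)⁻¹ * s := ⟨_, rfl⟩
  have hS1 : Bnd 1 1 S := by
    have := b1_mul (bnd_C 1 (coeff 0 s)⁻¹) hb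
    rwa [norm_inv, inv_mul_cancel₀ n0, ← hS] at this
  have hS2 : s = PowerSeries.C (coeff 0 s) * S := by
    rw [hS, ← mul_assoc, ← map_mul, mul_inv_cancel₀ h0, map_one, one_mul]
  refine ⟨e2, S, hS1, by rw [hS, coeff_C_mul, inv_mul_cancel₀ h0], hS2, ?_⟩
  have e4 : S ^ (k + 1) - (1 + PowerSeries.C (((k + 2 : ℕ) : C) / π) * X ^ (k + 1)) =
      ∑ i ∈ Finset.range k, PowerSeries.C (((k + 2).choose (i + 1 + 1) : C) / π) *
        X ^ (k + 1 - (i + 1)) * s ^ i * s := by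
    have p0 : (PowerSeries.C π : C⟦X⟧) ≠ 0 := by simpa using hπ0
    apply mul_left_cancel₀ p0
    have e5 : PowerSeries.C π * S ^ (k + 1) = -s ^ (k + 1) := by
      conv_rhs => rw [hS2, mul_pow, ← map_pow, e2, map_neg, neg_mul, neg_neg]
    have e6 : ∀ i ∈ Finset.range k, PowerSeries.C π * (PowerSeries.C
        (((k + 2).choose (i + 1 + 1) : C) / π) * X ^ (k + 1 - (i + 1)) * s ^ i * s) =
        PowerSeries.C ((k + 2).choose (i + 1 + 1) : C) * X ^ (k + 1 - (i + 1)) * s ^ (i + 1) :=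
      fun i _ => by
        rw [← mul_assoc, ← mul_assoc, ← mul_assoc, ← map_mul, mul_div_cancel₀ _ hπ0]; ring
    rw [mul_sub, e5, e1, neg_neg, Finset.sum_range_succ', Finset.mul_sum, Finset.sum_congr rfl e6,
      mul_add, ← mul_assoc, ← map_mul, mul_div_cancel₀ _ hπ0]
    simp
  rw [e4]
  refine Bnd.sum zero_le_one (norm_nonneg _) _ fun i hi => ig_b1 (ig_b1 (ig_b1 (b1_C ?_)
    (b1_pow b1_X _)) (b1_pow hs _)) hb
  rw [norm_div]
  exact div_le_one_of_le₀ (hc _ (by have := Finset.mem_range.1 hi; omega)) (norm_nonneg _)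

theorem sol_eq {S S' U : C⟦X⟧} {k : ℕ} (hk : ‖((k + 1 : ℕ) : C)‖ = 1) (h : Bnd 1 1 S)
    (h' : Bnd 1 1 S') (h0 : coeff 0 S = 1) (h0' : coeff 0 S' = 1) (e : Bnd 1 B (S ^ (k + 1) - U))
    (e' : Bnd 1 B (S' ^ (k + 1) - U)) : Bnd 1 B (S - S') := by
  have h1 := e.sub zero_le_one e'
  rw [sub_sub_sub_cancel_right, ← (Commute.all S S').geom_sum₂_mul] at h1
  refine bnd_of_unit (Bnd.sum zero_le_one zero_le_one _ fun i _ =>
    ig_b1 (b1_pow h _) (b1_pow h' _)) ?_ h1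
  rw [coeff_zero_eq_constantCoeff] at h0 h0' ⊢
  simpa [map_sum, h0, h0'] using hk

theorem sm_b1 (h : Sm s) : Bnd 1 1 s := b1_iff.2 fun n => (h n).le

theorem dg_sub {n : ℕ} (hs : Bnd 1 ρ s) (hρ : ρ < 1) (hQ : Dg Q n) :
    Bnd 1 ρ (cmp (X + s) Q - Q) ∧ Dg (cmp (X + s) Q) n := by
  have h0 := hs.nonneg
  have h1 : Bnd 1 ρ (cmp (X + s) Q - Q) := by
    have := ((tay hs hρ hQ.ig).mono (mul_le_of_le_one_left h0 hρ.le)).add zero_le_one
      (ig_b1 (b1_der hQ.ig) hs)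
    rwa [sub_add_cancel] at this
  exact ⟨h1, by simpa using hQ.add h1 hρ⟩

/-- the first order term of a substitution in a quotient -/
theorem quo {x y : C⸨X⸩} (hs : Bnd 1 ρ s) (hρ : ρ < 1) (hP : Bnd 1 1 P) (hQ : Bnd 1 1 Q)
    (e : x * (Q : C⸨X⸩) = P) (h : Cm (X + s) x y) : ∃ R : C⟦X⟧, Bnd 1 (ρ * ρ) R ∧
      (y - x) * ((Q * cmp (X + s) Q : C⟦X⟧) : C⸨X⸩) =
        (((d⁄dX C P * Q - P * d⁄dX C Q) * s + R : C⟦X⟧) : C⸨X⸩) := by
  refine ⟨(cmp (X + s) P - P - d⁄dX C P * s) * Q - P * (cmp (X + s) Q - Q - d⁄dX C Q * s),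
    (b1_ig (tay hs hρ hP) hQ).sub zero_le_one (ig_b1 hP (tay hs hρ hQ)), ?_⟩
  have e' := h P Q (ig_iff.2 hP) (ig_iff.2 hQ) e
  have e1 : (d⁄dX C P * Q - P * d⁄dX C Q) * s + ((cmp (X + s) P - P - d⁄dX C P * s) * Q -
      P * (cmp (X + s) Q - Q - d⁄dX C Q * s)) = cmp (X + s) P * Q - P * cmp (X + s) Q := by ring
  rw [e1, PowerSeries.coe_sub, PowerSeries.coe_mul, PowerSeries.coe_mul, PowerSeries.coe_mul, ← e', ← e]
  ring

end series

section lt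

variable {C O E : Type} [NontriviallyNormedField C] [IsUltrametricDist C] [CompleteSpace C]
  [IsAlgClosed C] [CharZero C] [CommRing O] [IsDomain O] [IsDiscreteValuationRing O] [Field E]
  [Algebra O E] [Algebra E C] {ϖ : Eˣ} {D : LTD C O E}

theorem norm_le_pi (hL : LF O C ϖ) {m : ℕ} (h : (m : IsLocalRing.ResidueField O) = 0) :
    ‖(m : C)‖ ≤ ‖algebraMap E C ϖ‖ := by
  obtain ⟨p, hp, e⟩ := hL.irr
  rw [← map_natCast (IsLocalRing.residue O), IsLocalRing.residue_eq_zero_iff, hp.maximalIdeal_eq,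
    Ideal.mem_span_singleton'] at h
  obtain ⟨o, h⟩ := h
  rw [← map_natCast (algebraMap E C), ← map_natCast (algebraMap O E), ← h, map_mul, map_mul, e,
    norm_mul]
  exact mul_le_of_le_one_left (norm_nonneg _) ((hL.nrm _).2 ⟨o, rfl⟩)

theorem norm_unit (hL : LF O C ϖ) (c : Oˣ) : ‖algebraMap E C (algebraMap O E c)‖ = 1 := by
  have h1 := (hL.nrm _).2 (io_alg (E := E) (c : O))
  have h2 := (hL.nrm _).2 (io_alg (E := E) ((c⁻¹ : Oˣ) : O))
  have h3 : ‖algebraMap E C (algebraMap O E c)‖ * ‖algebraMap E C (algebraMap O E (c⁻¹ : Oˣ))‖ = 1 := by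
    rw [← norm_mul, ← map_mul, ← map_mul, Units.mul_inv, map_one, map_one, norm_one]
  by_contra h
  exact (mul_lt_one_of_nonneg_of_lt_one_left (norm_nonneg _) (h1.lt_of_ne h) h2).ne h3

theorem qq_two (hL : LF O C ϖ) : ∃ k, qq O = k + 2 ∧ ‖((k + 1 : ℕ) : C)‖ = 1 ∧
    ∀ i < k + 1, ‖((k + 2).choose (i + 1) : C)‖ ≤ ‖algebraMap E C ϖ‖ := by
  haveI := hL.fin
  letI := Fintype.ofFinite (IsLocalRing.ResidueField O)
  obtain ⟨k, hk⟩ : ∃ k, qq O = k + 2 :=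
    ⟨qq O - 2, by have : 1 < qq O := Finite.one_lt_card; omega⟩
  have hk' : Fintype.card (IsLocalRing.ResidueField O) = k + 2 := by
    rw [← hk, qq, Nat.card_eq_fintype_card]
  refine ⟨k, hk, norm_eq_one_of (y := -1) ?_ (by simp), fun i hi => norm_le_pi hL ?_⟩
  · have := (norm_le_pi hL (hk' ▸ FiniteField.cast_card_eq_zero _)).trans_lt (norm_pi_lt hL)
    rwa [show ((k + 1 : ℕ) : C) - -1 = ((k + 2 : ℕ) : C) by push_cast; ring]
  · obtain ⟨p, hp⟩ := CharP.exists (IsLocalRing.ResidueField O)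
    obtain ⟨n, h1, h2⟩ := FiniteField.card (IsLocalRing.ResidueField O) p
    rw [CharP.cast_eq_zero_iff _ p, ← hk', h2]
    exact h1.dvd_choose_pow (Nat.succ_ne_zero i) (by omega)

/-- the translations by the points of order `ϖ` -/
theorem ser (hL : LF O C ϖ) (hD : D.Ok ϖ)
    (hf : D.f = PowerSeries.C (algebraMap E C ϖ) * X + X ^ qq O) :
    ∃ (l : C) (S : C⟦X⟧), l ^ (qq O - 1) = -algebraMap E C ϖ ∧ 0 < ‖l‖ ∧ ‖l‖ < 1 ∧ Dg S 0 ∧
      D.tr (1 / ϖ) = X + PowerSeries.C l * S ∧ ∀ c : Oˣ, ∃ s, D.tr (algebraMap O E c / ϖ) = X + s ∧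
        Bnd 1 ‖l‖ s ∧ Bnd 1 (‖l‖ * ‖l‖)
          (s - PowerSeries.C (algebraMap E C (algebraMap O E c)) * (PowerSeries.C l * S)) := by
  obtain ⟨k, hk, h1, h2⟩ := qq_two hL
  obtain ⟨p, hp, e⟩ := hL.irr
  have π0 : algebraMap E C ϖ ≠ 0 := norm_pos_iff.1 (norm_pi_pos ϖ)
  have key : ∀ c : Oˣ, _ := fun c => sol (s := D.tr (algebraMap O E c / ϖ) - X) π0 h2
    (sm_b1 (hD.tr_red _)) (fun h => by
      have h3 := hD.tr_zero (algebraMap O E c / ϖ) (by simpa using h)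
      have h4 := (hL.nrm _).2 h3
      rw [map_div₀, norm_div, norm_unit hL, div_le_one (norm_pi_pos ϖ)] at h4
      exact (norm_pi_lt hL).not_ge h4) (by
      have h3 := hD.tr_br (algebraMap O E c / ϖ) p
      rw [hD.f_br p e, e, mul_div_cancel₀ _ ϖ.ne_zero, hD.tr_int _ (io_alg _), cmp_X, hf, hk] at h3
      rw [add_sub_cancel, ← h3]
      have h4 := cmp_poly (D.tr (algebraMap O E c / ϖ))
        (Polynomial.C (algebraMap E C ϖ) * Polynomial.X + Polynomial.X ^ (k + 2))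
      simp only [Polynomial.coe_add, Polynomial.coe_mul, Polynomial.coe_C, Polynomial.coe_X,
        Polynomial.coe_pow, map_add, map_mul, map_pow, Polynomial.aeval_C, Polynomial.aeval_X] at h4
      exact h4.symm)
  obtain ⟨a1, S, a2, a3, a4, a5⟩ := key 1
  simp only [Units.val_one, map_one] at a1 a4 a5
  obtain ⟨l, hl⟩ : ∃ l, l = coeff 0 (D.tr (1 / ϖ) - X) := ⟨_, rfl⟩
  rw [← hl] at a1 a4 a5
  have l1 : ‖l‖ < 1 := hl ▸ hD.tr_red _ 0
  have l0 : 0 < ‖l‖ := norm_pos_iff.2 fun h => by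
    rw [h, zero_pow (Nat.succ_ne_zero k), eq_comm, neg_eq_zero] at a1
    exact π0 a1
  have hs1 : Bnd 1 ‖l‖ (PowerSeries.C l * S) := b1_ig (bnd_C 1 l) a2
  have t1 : D.tr (1 / ϖ) = X + PowerSeries.C l * S := by rw [← a4, add_sub_cancel]
  refine ⟨l, S, by rw [hk]; exact a1, l0, l1, ⟨a2, fun n hn => by omega, by rw [a3, norm_one]⟩, t1,
    fun c => ⟨D.tr (algebraMap O E c / ϖ) - X, (add_sub_cancel _ _).symm, ?_⟩⟩
  obtain ⟨b1, S', b2, b3, b4, b5⟩ := key c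
  obtain ⟨l', hl'⟩ : ∃ l', l' = coeff 0 (D.tr (algebraMap O E c / ϖ) - X) := ⟨_, rfl⟩
  rw [← hl'] at b1 b4 b5
  have n1 : ‖l'‖ = ‖l‖ := (pow_left_inj₀ (norm_nonneg _) (norm_nonneg _) (Nat.succ_ne_zero k)).1
    (by rw [← norm_pow, ← norm_pow, a1, b1])
  rw [n1] at b5
  have c1 : coeff 1 (D.br c) = algebraMap E C (algebraMap O E c) := by
    have := congrArg (coeff 1) (hD.br_lg c)
    rwa [← cmp_eq_subst (hD.br0 c), coeff_one_cmp (hD.br0 c), hD.lg1, one_mul, coeff_smul, hD.lg1,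
      smul_eq_mul, mul_one] at this
  have c2 : ‖l' - algebraMap E C (algebraMap O E c) * l‖ ≤ ‖l‖ * ‖l‖ := by
    have h3 := b1_iff.1 (tay hs1 l1 (ig_iff.1 (hD.br_ig c))) 0
    rw [← t1, hD.tr_br, mul_one_div, coeff_zero_eq_constantCoeff, map_sub, map_sub,
      constantCoeff_cmp_zero (hD.br0 c), hD.br0, sub_zero, map_mul, map_mul,
      ← coeff_zero_eq_constantCoeff, a3, coeff_derivative, c1] at h3
    rw [hl']
    simpa using h3
  rw [b4]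
  refine ⟨n1 ▸ b1_ig (bnd_C 1 l') b2, ?_⟩
  have e1 : PowerSeries.C l' * S' - PowerSeries.C (algebraMap E C (algebraMap O E c)) *
      (PowerSeries.C l * S) = PowerSeries.C l' * (S' - S) +
        PowerSeries.C (l' - algebraMap E C (algebraMap O E c) * l) * S := by
    rw [map_sub, map_mul]; ring
  rw [e1]
  exact (b1_mul (b1_C n1.le) (sol_eq h1 b2 a2 b3 a3 b5 a5)).add zero_le_one (b1_ig (b1_C c2) a2)

end lt

section tower

variable {C L Γ O E : Type} [NontriviallyNormedField C] [IsUltrametricDist C] [CompleteSpace C]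
  [IsAlgClosed C] [CharZero C] [Field L] [Algebra C L] [Group Γ] [CommRing O] [IsDomain O]
  [IsDiscreteValuationRing O] [Field E] [Algebra O E] [Algebra E C] {A : AT C L Γ O E}
  {D : LTD C O E} {x : Plk C L} {θ : L →ₐ[C] C⸨X⸩} {g : GL (Fin 2) E} {b : C}
  {ε : ℤ → L →ₐ[C] C⸨X⸩} {ν : NV C L}

theorem act_mem_Ln (hA : A.Ok) {γ : Γ} {c : E} (hγ : Fm g (A.π γ) (un c)) {n : ℤ} {h : L}
    (hh : h ∈ A.Ln g n) : A.act γ h ∈ A.Ln g n := by
  obtain ⟨z, hz, e⟩ := fm_iff.1 hγ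
  have h1 := (Ln_act hA g n γ h).1 hh
  have e1 : A.π γ * g = g * un c * Sh.dg 1 * z := by
    rw [e, Gn.dg_one, mul_one, mul_assoc _ z g, ← zl_comm hz g]
    group
  rwa [e1, Ln_frame g n c 1 0 1 (by simp) hz, add_zero] at h1

theorem nu_le (hb : A.Bas D x θ g b ε) (hν : A.Gv g ε ν) {n : ℤ} {h : L} (hh : h ∈ A.Ln g n)
    {P Q : C⟦X⟧} {m : ℕ} {B : ℝ} (e : ε n h * (Q : C⸨X⸩) = P) (hQ : Dg Q m) (hP : Bnd 1 B P) :
    ν h ≤ B := by
  by_cases h0 : h = 0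
  · rw [h0, map_zero]; exact hP.nonneg
  · obtain ⟨c, Dv, hc⟩ := hb.fac n h hh h0
    rw [hν n h hh c Dv hc]
    exact fac_le hc e hQ hP

theorem nu_ge (hb : A.Bas D x θ g b ε) (hν : A.Gv g ε ν) {n : ℤ} {h : L} (hh : h ∈ A.Ln g n)
    {P Q : C⟦X⟧} {m : ℕ} {a : C}
    (e : ε n h * (Q : C⸨X⸩) = ((PowerSeries.C a * P : C⟦X⟧) : C⸨X⸩)) (hQ : Bnd 1 1 Q)
    (hP : Dg P m) : ‖a‖ ≤ ν h := by
  by_cases h0 : h = 0
  · rw [h0, map_zero, zero_mul] at e
    have e1 : PowerSeries.C a * P = 0 :=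
      HahnSeries.ofPowerSeries_injective (Γ := ℤ) (e.symm.trans (map_zero _).symm)
    have e2 := congrArg (fun f => ‖coeff m f‖) e1
    simp only [coeff_C_mul, norm_mul, hP.eq, mul_one, map_zero, norm_zero] at e2
    rw [e2]
    exact ν.av.nonneg _
  · obtain ⟨c, Dv, hc⟩ := hb.fac n h hh h0
    rw [hν n h hh c Dv hc]
    exact fac_ge hc e hQ hP

theorem nu_quo (hb : A.Bas D x θ g b ε) (hν : A.Gv g ε ν) {n : ℤ} {h : L} (hh : h ∈ A.Ln g n)
    (h1 : ν h ≤ 1) : ∃ (P Q : C⟦X⟧) (m : ℕ), Bnd 1 1 P ∧ Dg Q m ∧ ε n h * (Q : C⸨X⸩) = P := by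
  by_cases h0 : h = 0
  · exact ⟨0, 1, 0, bnd_zero 1 zero_le_one, dg_one, by simp [h0]⟩
  · obtain ⟨c, Dv, hc⟩ := hb.fac n h hh h0
    rw [hν n h hh c Dv hc] at h1
    obtain ⟨P, Q, m, n, a1, a2, a3, -⟩ := fac_dg hc
    exact ⟨_, Q, n, ig_b1 (b1_C h1) a1.ig, a2, a3⟩

/-- **TAME**, in the abstract tower -/
theorem tam (hA : A.Ok) (hB : BRA C) (hM : A.MAT) (hS : A.DSC) (hD : D.Ok A.ϖ)
    (hf : D.f = PowerSeries.C (algebraMap E C A.ϖ) * X + X ^ qq O) (h : A.Ord D ν g) :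
    ∃ l : C, l ^ (qq O - 1) = -algebraMap E C A.ϖ ∧ 0 < ‖l‖ ∧ ‖l‖ < 1 ∧
      (∀ γ ∈ A.H, ∀ c : Oˣ, Fm g (A.π γ) (un (algebraMap O E c)) → ∀ h ∈ A.Ln g 1, ν h ≤ 1 →
        ν (A.act γ h - h) ≤ ‖l‖ ∧ ∀ γ₁ ∈ A.H, Fm g (A.π γ₁) (un 1) →
          ν (A.act γ h - h - algebraMap C L (algebraMap E C (algebraMap O E c)) *
            (A.act γ₁ h - h)) < ‖l‖) ∧
      ∀ W ∈ A.Wl, ∃ h ∈ A.Kv W (g * dg A.ϖ), ν h ≤ 1 ∧
        ∀ γ₁ ∈ A.H, Fm g (A.π γ₁) (un 1) → ν (A.act γ₁ h - h) = ‖l‖ := by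
  obtain ⟨x, θ, b, ε, hb, hν⟩ := h
  obtain ⟨l, S, l1, l2, l3, hS0, t1, ht⟩ := ser hA.lf hD hf
  have hs1 : Bnd 1 ‖l‖ (PowerSeries.C l * S) := b1_ig (bnd_C 1 l) hS0.ig
  have tr1 : ∀ γ₁ ∈ A.H, Fm g (A.π γ₁) (un 1) → ∀ h ∈ A.Ln g 1,
      Cm (X + PowerSeries.C l * S) (ε 1 h) (ε 1 (A.act γ₁ h)) := fun γ₁ h1 h2 h hh => by
    have := hb.trn 1 1 γ₁ h1 h2 h hh
    rwa [zpow_one, t1] at this
  have main : ∀ γ ∈ A.H, ∀ c : Oˣ, Fm g (A.π γ) (un (algebraMap O E c)) → ∀ h ∈ A.Ln g 1, ν h ≤ 1 →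
      ν (A.act γ h - h) ≤ ‖l‖ ∧ ∀ γ₁ ∈ A.H, Fm g (A.π γ₁) (un 1) →
        ν (A.act γ h - h - algebraMap C L (algebraMap E C (algebraMap O E c)) *
          (A.act γ₁ h - h)) < ‖l‖ := fun γ hγ c hc h hh h1 => by
    obtain ⟨s, e1, e2, e3⟩ := ht c
    obtain ⟨P, Q, m, a1, a2, a3⟩ := nu_quo hb hν hh h1
    have b1 := hb.trn 1 _ γ hγ hc h hh
    rw [zpow_one, e1] at b1
    obtain ⟨R, r1, r2⟩ := quo e2 l3 a1 a2.ig a3 b1
    obtain ⟨q1, q2⟩ := dg_sub e2 l3 a2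
    have hW := (b1_ig (b1_der a1) a2.ig).sub zero_le_one (b1_ig a1 (b1_der a2.ig))
    have m1 := sub_mem (act_mem_Ln hA hc hh) hh
    refine ⟨nu_le hb hν m1 (by rw [map_sub]; exact r2) (a2.mul q2) ((ig_b1 hW e2).add zero_le_one
      (r1.mono (mul_le_of_le_one_left l2.le l3.le))), fun γ₁ h2 h3 => ?_⟩
    obtain ⟨R', r1', r2'⟩ := quo hs1 l3 a1 a2.ig a3 (tr1 γ₁ h2 h3 h hh)
    obtain ⟨q1', q2'⟩ := dg_sub hs1 l3 a2
    obtain ⟨c', hc'⟩ : ∃ c', c' = algebraMap E C (algebraMap O E c) := ⟨_, rfl⟩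
    have n1 : Bnd 1 1 (PowerSeries.C c') := b1_C (hc' ▸ (norm_unit hA.lf c).le)
    rw [← hc'] at e3 ⊢
    generalize d⁄dX C P * Q - P * d⁄dX C Q = W at hW r2 r2'
    generalize PowerSeries.C l * S = s' at *
    generalize cmp (X + s) Q = Q₁ at *
    generalize cmp (X + s') Q = Q₂ at *
    refine (nu_le hb hν (Q := Q * Q₁ * Q₂) (P := W * (s - PowerSeries.C c' * s') * Q +
      W * (s * (Q₂ - Q)) - PowerSeries.C c' * (W * (s' * (Q₁ - Q))) + R * Q₂ -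
        PowerSeries.C c' * (R' * Q₁)) (sub_mem m1 (mul_mem (IntermediateField.algebraMap_mem _ _)
          (sub_mem (act_mem_Ln hA h3 hh) hh))) ?_ ((a2.mul q2).mul q2') ?_).trans_lt
      (mul_lt_of_lt_one_left l2 l3)
    · have e4 : W * (s - PowerSeries.C c' * s') * Q + W * (s * (Q₂ - Q)) -
          PowerSeries.C c' * (W * (s' * (Q₁ - Q))) + R * Q₂ - PowerSeries.C c' * (R' * Q₁) =
          (W * s + R) * Q₂ - PowerSeries.C c' * ((W * s' + R') * Q₁) := by ring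
      rw [e4, PowerSeries.coe_sub, PowerSeries.coe_mul (W * s + R), PowerSeries.coe_mul (PowerSeries.C c'),
        PowerSeries.coe_mul (W * s' + R'), ← r2, ← r2', map_sub, map_sub, map_mul, map_sub,
        AlgHom.commutes]
      simp only [PowerSeries.coe_mul]
      change _ = _ - algebraMap C C⸨X⸩ c' * _
      ring
    · exact ((((b1_ig (ig_b1 hW e3) a2.ig).add zero_le_one (ig_b1 hW (b1_mul e2 q1'))).sub zero_le_one
        (ig_b1 n1 (ig_b1 hW (b1_mul hs1 q1)))).add zero_le_one (b1_ig r1 q2'.ig)).sub zero_le_one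
        (ig_b1 n1 (b1_ig r1' q2.ig))
  refine ⟨l, l1, l2, l3, main, fun W hW => ?_⟩
  have hN : Np O g (A.ϖ ^ (1 : ℤ)) (Vx O (g * dg A.ϖ)) := by
    have := hM.2.2.2.2.2.2.1 g 1 1 le_rfl
    rw [zpow_one] at this ⊢
    rwa [inf_idem] at this
  haveI := hA.cff W hW _ (hM.1 (g * dg A.ϖ))
  obtain ⟨j, hj, -⟩ := hS D hD x θ g b ε hb 1 W hW _ (hM.1 (g * dg A.ϖ)) hN
  obtain ⟨η, e1, _, z, -, e2⟩ := hB hA.gf _ _ j hj
  obtain ⟨t, t0, t1⟩ := exists_unif z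
  obtain ⟨h, h1, rfl⟩ := NV.red_surj t
  have h0 : h ≠ 0 := by rintro rfl; exact t0 (NV.red_of_lt (by simp))
  obtain ⟨c, Dv, hc, -⟩ := hj.fac h h0
  have c1 : ‖c‖ = 1 := by
    rw [← e1 h c Dv hc]
    exact h1.eq_of_not_lt fun h2 => t0 (NV.red_of_lt h2)
  have hh : (h : L) ∈ A.Ln g 1 := le_Ln hW (hM.1 _).z (fun c hc => (hN c).2 hc) h.2
  have n1 : ν h ≤ 1 := (hν 1 h hh c Dv hc).trans_le c1.le
  refine ⟨h, h.2, n1, fun γ₁ h2 h3 => le_antisymm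
    (main γ₁ h2 1 (by simpa using h3) h hh n1).1 ?_⟩
  obtain ⟨P, Q, m, n, a1, a2, a3, a4⟩ := fac_dg hc
  rw [← e2 h c Dv hc c1, t1] at a4
  obtain rfl : m = n + 1 := by omega
  have a5 : Dg (PowerSeries.C c * P) (n + 1) := by
    have := Dg.mul (P := PowerSeries.C c) (m := 0) ⟨b1_C c1.le, fun n hn => by omega, by simpa using c1⟩ a1
    rwa [zero_add] at this
  obtain ⟨m, hm⟩ := dg_wr a5 a2
  obtain ⟨R, r1, r2⟩ := quo hs1 l3 a5.ig a2.ig a3 (tr1 γ₁ h2 h3 h hh)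
  have l0 : l ≠ 0 := norm_pos_iff.1 l2
  have r3 : Bnd 1 ‖l‖ (PowerSeries.C l⁻¹ * R) := by
    have := b1_mul (bnd_C 1 l⁻¹) r1
    rwa [norm_inv, inv_mul_cancel_left₀ l2.ne'] at this
  refine nu_ge hb hν (sub_mem (act_mem_Ln hA h3 hh) hh) ?_ (ig_b1 a2.ig (dg_sub hs1 l3 a2).2.ig)
    ((hm.mul hS0).add r3 l3)
  rw [map_sub]
  refine r2.trans (congrArg _ ?_)
  rw [mul_add, ← mul_assoc (PowerSeries.C l) (PowerSeries.C l⁻¹), ← map_mul, mul_inv_cancel₀ l0,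
    map_one, one_mul]
  ring

end tower

end Vale.Agent.P022K.FI.X1
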