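import Vale.Agent.P022K.FI.X1S
import Vale.Agent.P022K.FI.X1T
import Vale.Agent.P022K.FI.Locx
import Vale.Agent.P022K.FI.AllB

/-!
# P022K FI, row X0, file U: the row TAMX
-/

set_option autoImplicit false
set_option linter.unusedSectionVars false

noncomputable section

namespace Vale.Agent.P022K.FI.X1

open Vale.Agent.P022K.Sh Hk Br

variable {G0 G : Type} [Group G0] [Group G] {T : Tw G0 G}
  {O K : Type} [CommRing O] [IsDomain O] [IsDiscreteValuationRing O] [Field K] [Algebra O K]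
  {w : T.Lc O K} {p : ℕ} [Fact p.Prime] (D : Emb w p)

/-- **TAMX** -/
theorem tamx (hT : T.Ok) [Algebra K (Cx D.ι)] (A : AT (Cx D.ι) (LW T) (Gm hT) O K) :
    TAMX D hT A := by
  intro hA hB d ha LD hD hf U hU hn hw τ x _ θ b ε ν hb hν
  obtain ⟨W, hW, lev⟩ := d.lev U hU hn hw x
  obtain ⟨l, l1, l2, -, l3, l4⟩ := tam hA hB hA.rMAT hA.rDSC hD hf ⟨_, θ, b, ε, hb, hν⟩
  have m := Lx.mem_K d hU (lev (Sh.dg w.ϖ))
  have key : ∀ c : K, ∃ γ ∈ A.H, Fm (w.π x) (A.π γ) (un c) ∧ ∀ ψ ∈ T.RU U, ∀ f : LW T,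
      f.1 = ψ (x * w.ι (Sh.dg w.ϖ)) → (A.act γ f).1 = ψ (x * w.ι (un c * Sh.dg w.ϖ)) := fun c => by
    obtain ⟨γ, h1, h2⟩ := Cl.exists_un hA.rSA (w.π x) c
    refine ⟨γ, h1, h2 ▸ Gn.fm_self _ _, fun ψ hψ f e => ?_⟩
    rw [Lx.act_un d hU hψ (k := (Sh.dg w.ϖ)⁻¹ * (un c * Sh.dg w.ϖ)) h1 (by
      rw [h2, map_mul, w.πι]; group) e, mul_assoc, ← map_mul, mul_inv_cancel_left]
  obtain ⟨γ₁, k1, k2, k3⟩ := key 1
  refine ⟨‖l‖, l2, by rw [← norm_pow, l1, norm_neg, ha, d.uni, Cx.norm_of],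
    fun ψ hψ c f f₁ g e e₁ e₂ h => ?_, ?_⟩
  · obtain ⟨γ, k4, k5, k6⟩ := key (algebraMap O K c)
    obtain rfl : g = A.act γ f := Subtype.ext (e₂.trans (k6 ψ hψ f e).symm)
    obtain rfl : f₁ = A.act γ₁ f := Subtype.ext (e₁.trans (k3 ψ hψ f e).symm)
    have h1 := Lx.kv_le hA.rMAT hW (w.π x) 1
    rw [zpow_one, d.uni] at h1
    have h2 := l3 γ k4 c k5 f (h1 ((m f).2 (e ▸ RU_mem hψ _))) h
    exact ⟨h2.1, ha _ ▸ h2.2 γ₁ k1 k2⟩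
  · obtain ⟨f, h1, h2, h3⟩ := l4 W hW
    rw [d.uni] at h1
    obtain ⟨ψ, hψ, e, -⟩ := Tw.ex_RU _ ((m f).1 h1)
    exact ⟨ψ, hψ, f, A.act γ₁ f, e.symm, k3 ψ hψ f e.symm, h2, h3 γ₁ k1 k2⟩

end Vale.Agent.P022K.FI.X1
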