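import Vale.Agent.P022K.FI.As1
import Vale.Agent.P022K.FI.Cof2
import Vale.Agent.P022K.FI.Fro
import Vale.Agent.P022K.FI.Gen
import Vale.Agent.P022K.FI.Spb
import Vale.Agent.P022K.FI.Famx
import Vale.Agent.P022K.FI.Locx
import Vale.Agent.P022K.FI.Injx
import Vale.Agent.P022K.FI.Br5
import Vale.Agent.P022K.FI.Dic
import Vale.Agent.P022K.FI.Oc4
import Vale.Agent.P022K.FI.Lt6
import Vale.Agent.P022K.FI.Na3
import Vale.Agent.P022K.FI.X1U
import Vale.Agent.P022K.F0.LefC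
import Vale.Agent.P022K.F0.Can

/-!
# P022K, block FI: the assembly, good reduction of Shimura curves
-/

set_option autoImplicit false
set_option linter.all false

open PowerSeries Vale.Agent.P019P P025H746 Module Function UpperHalfPlane
open scoped MatrixGroups LaurentSeries

noncomputable section

namespace Vale.Agent.P022K.FI

open Vale.Agent.P022K.Sh

section tower

variable {C L Γ O E : Type} [NontriviallyNormedField C] [IsUltrametricDist C] [CompleteSpace C]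
  [IsAlgClosed C] [CharZero C] [Field L] [Algebra C L] [Group Γ] [CommRing O] [IsDomain O]
  [IsDiscreteValuationRing O] [Field E] [Algebra O E] [Algebra E C] {A : AT C L Γ O E}

namespace AT.Ok

variable (hA : A.Ok)
include hA

theorem rFRO : A.FRO := fro hA hA.rSA hA.rNUE hA.rORB hA.rDSC bra

theorem rEND : A.END := end_fro hA hA.rSA hA.rNUE hA.rORB hA.rDSC bra

theorem rUPI : A.UPI := upi hA hA.rHYP hA.rCAL hA.rFRM hA.rOVU hA.rSIG hA.rDSC

theorem rCOF : A.COF :=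
  cof hA gen_row hA.rHYP hA.rSRN hA.rBAS hA.rCAL hA.rFRM hA.rNUE hA.rOVU hA.rDSC hA.rFRO

theorem rows : As.Rows A := ⟨hA, hA.rMAT, fac_row, fcs, bra, hA.rSA, hA.rHYP, hA.rBAS, hA.rUNQ,
  hA.rDSC, hA.rFRO, hA.rEND, hA.rUPI, hA.rCOF⟩

theorem rASM : A.ASM := asm hA.rows

/-- Lubin-Tate data with the standard series -/
theorem ex_lt : ∃ D : LTD C O E, D.Ok A.ϖ ∧
    D.f = PowerSeries.C (algebraMap E C A.ϖ) * X + X ^ qq O := by
  obtain ⟨π, h1, h2⟩ := hA.lf.irr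
  have hq : 1 < qq O := by
    have := hA.lf.fin
    exact Finite.one_lt_card
  have h3 : (Polynomial.C π * Polynomial.X : Polynomial O).degree < (qq O : ℕ) :=
    (Polynomial.degree_C_mul_X_le π).trans_lt (by exact_mod_cast hq)
  have h4 : ∀ n < qq O, (Polynomial.X ^ qq O + Polynomial.C π * Polynomial.X).coeff n =
      if n = 1 then π else 0 := fun n hn => by
    rw [Polynomial.coeff_add, Polynomial.coeff_X_pow, if_neg hn.ne, zero_add,
      Polynomial.coeff_C_mul_X]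
  obtain ⟨D, h5, h6⟩ := lt (C := C) O E A.ϖ hA.lf (Polynomial.X ^ qq O + Polynomial.C π * Polynomial.X)
    (Polynomial.monic_X_pow_add h3) (by
      rw [Polynomial.natDegree_add_eq_left_of_degree_lt (by rwa [Polynomial.degree_X_pow]),
        Polynomial.natDegree_X_pow]) (by rw [h4 0 (by omega), if_neg zero_ne_one])
    (by rw [h4 1 hq, if_pos rfl, h2]) fun n hn => by
      rw [h4 n hn]
      split_ifs
      exacts [h1.not_isUnit, zero_mem _]
  exact ⟨D, h5, by simp [h6, h2, add_comm]⟩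

end AT.Ok

namespace As

theorem one_of (R : Rows A) {D : LTD C O E} (hD : D.Ok A.ϖ)
    (h : ∀ W ∈ A.Wl, ∀ g, ∃ S, S = A.U W (Vx O g) ∧ ∃ _ : CFF C (A.K S), ∀ ν g', A.Ord D ν g' →
      g⁻¹ * g' ∈ KZ O E → ∀ [CFF (kC C) (kap (ν.comap (A.K S)))],
        gen C (A.K S) ≤ gen (kC C) (kap (ν.comap (A.K S)))) : A.One D := by
  intro W hW ν g ho
  refine (h W hW g).elim fun S h1 => h1.2.elim fun i h2 => ?_
  have e := h1.1
  clear h1
  subst e
  have k := fun g' => Vt.frame (g' := g') R.mat (g := g) ⟨W, hW, rfl⟩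
  refine ⟨fun ν' g' ho' hg => comap_eq.1 ?_, h2 ν g ho (by simp)⟩
  have := (k g (by simp)).cff R hD ho
  have := (k _ hg).cff R hD ho'
  exact good_unique R.ok.gf.sph R.ok.gf.onto
    ((R.ok.gen2 W hW _ (R.mat.1 g)).trans (h2 ν' g' ho' hg)) (h2 ν g ho (by simp))

end As

end tower

open Hk Br

variable {G0 G : Type} [Group G0] [Group G] {T : Tw G0 G} {U : Subgroup G}

namespace As

open Lf in
theorem omg (ok : T.Ok) (hU : U ∈ T.Lev) (hn : T.Neat U) [∀ x, CFF ℂ (KX T U x)]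
    (b : Cp T U → G) (hb : ∀ c, cm T U (b c) = c) :
    ∑ᶠ c, gen ℂ (KX T U (b c)) ≤ finrank ℂ (T.Om U) := by
  classical
  have := Oc.fin_Cp ok hU
  have := Fintype.ofFinite (Cp T U)
  have fd : ∀ x, FiniteDimensional ℂ (iv (sl T) (T.Gam U x)) := fun x =>
    fin_iv T.cf (ok.fu U hU x) (hn x)
  have := fin_om ok hU hn
  have fd1 : FiniteDimensional ℂ (T.H0 (sl T) U) := Module.Finite.equiv (omE T U)
  have h1 : Surjective (LinearMap.pi fun c => Lf.pr T U (sl T) (b c)) := fun v =>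
    ⟨∑ c, Lf.ex T U _ (b c) (v c), funext fun c => by
      rw [LinearMap.pi_apply, map_sum, Finset.sum_eq_single_of_mem c (Finset.mem_univ c)
        fun c' _ h => Subtype.ext (ex0_zero _ fun h' => h ((hb c').symm.trans
          ((cm_eq.2 h').trans (hb c))))]
      have := ex0_eq (v c) 1 (one_mem U)
      rw [map_one, map_one, one_mul, mul_one] at this
      exact Subtype.ext this⟩
  rw [finsum_eq_sum_of_fintype, (omE T U).finrank_eq]
  refine le_trans (le_of_eq ?_) (LinearMap.finrank_le_finrank_of_surjective h1)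
  rw [Module.finrank_pi_fintype]
  refine Finset.sum_congr rfl fun c _ => ?_
  obtain ⟨_, pt, h⟩ := T.cf _ (ok.fu U hU (b c))
  exact (finrank_iv h (hn _)).symm

end As

variable {hT : T.Ok} {O K : Type} [CommRing O] [IsDomain O] [IsDiscreteValuationRing O] [Field K]
  [Algebra O K] {w : T.Lc O K} {p : ℕ} [Fact p.Prime] {D : Emb w p} [Algebra K (Cx D.ι)]
  {A : AT (Cx D.ι) (LW T) (Gm hT) O K}

/-- **One** -/
theorem one (hA : A.Ok) (d : Dic hT D A) (hx : EXO w D.e) {LD : LTD (Cx D.ι) O K}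
    (hD : LD.Ok A.ϖ) : A.One LD := by
  classical
  have hL : T.LEFT := left _ _ T hT
  refine As.one_of hA.rows hD fun W hW g => ?_
  obtain ⟨U, hU, hn, hw, e⟩ := d.onto W hW
  have := Oc.fin_Cp hT hU
  have : ∀ x, CFF ℂ (KX T U x) := fun x => (T.cf _ (hT.fu U hU x)).1
  have hb : ∀ c, cm T U (update (fun c : Cp T U => c.out) (cm T U (w.ι g)) (w.ι g) c) = c :=
    fun c => by
      rcases eq_or_ne c (cm T U (w.ι g)) with rfl | h
      · rw [update_self]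
      · rw [update_of_ne h]
        exact DoubleCoset.out_eq' _ _ c
  obtain ⟨F, f1, f2, f3, f4⟩ := famx hT D A hA hA.rMAT hA.rHYP d hx U hU hn hw _ hb
  have i : ∀ c, CFF (Cx D.ι) (A.K (F.S c)) := fun c => by
    obtain ⟨W, hW, e⟩ := f1.vt c
    rw [e]
    exact hA.cff W hW _ (hA.rMAT.1 _)
  refine ⟨F.S (cm T U (w.ι g)), by rw [f3, update_self, e], i _, fun ν g' ho hg _ => ?_⟩
  have := hA.lf.fin
  obtain ⟨m, hm, hq⟩ := qq_eq_pow ((D.ι : ℂ →+* CS p).comp D.e) D.int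
  refine hA.rASM LD hD _ _ F f1 (finrank ℂ (T.Om U)) ?_ ?_ (cm T U (w.ι g)) ν g' ho (by
    rwa [f4, update_self, w.πι])
  · intro E κ _ _ _ ψ Φ h1 pt h2 h3 pl h4 h5 h6 cp h7
    rw [f2] at h3 h4
    exact Oc.count hT hL D.cmp (d.sa hA.rSA) hU hn hw hA.gf.tor hm hq ψ Φ (hq ▸ h1) pt h2 h3 pl h4
      h5 h6 cp h7
  · refine le_trans (le_of_eq (finsum_congr fun c => ?_)) (As.omg hT hU hn _ hb)
    obtain ⟨e, -⟩ := Lx.ex_equiv (Lx.inc hT D hU _) (Lx.range_inc d hU (f3 c))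
    exact P019P.gen_eq (e.symm : A.K (F.S c) ≃+* KX T U _) (RingEquiv.refl (Cx D.ι))
      e.symm.commutes

/-- one norm for all the basins over a point -/
theorem ex_nu (hA : A.Ok) (d : Dic hT D A) {LD : LTD (Cx D.ι) O K} (hD : LD.Ok A.ϖ) {τ : ℍ}
    {x₀ : G} (h : Ord w D.e τ x₀) : ∃ ν, ∀ x, Ord w D.e τ x → ∃ θ b ε,
      A.Bas LD (plL hT D.ι τ) θ (w.π x) b ε ∧ A.Gv (w.π x) ε ν := by
  have k : ∀ x, Ord w D.e τ x → ∃ θ b ε ν,
      A.Bas LD (plL hT D.ι τ) θ (w.π x) b ε ∧ A.Gv (w.π x) ε ν := fun x hx => by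
    obtain ⟨h1, θ, h2⟩ := d.cm τ x hx
    obtain ⟨b, ε, h3⟩ := hA.rBAS LD hD _ θ _ h2 h1
    obtain ⟨ν, h4, -⟩ := (hA.rNUE LD hD _ θ _ b ε h3).1
    exact ⟨θ, b, ε, ν, h3, h4⟩
  obtain ⟨θ₀, b₀, ε₀, ν, h1, h2⟩ := k x₀ h
  refine ⟨ν, fun x hx => ?_⟩
  obtain ⟨θ, b, ε, ν', h3, h4⟩ := k x hx
  exact ⟨θ, b, ε, h3, As.nu_eq hA.rows hD h1 h2 h3 h4 ▸ h4⟩

theorem rLOCX (hA : A.Ok) : LOCX hT D A :=
  locx hA hA.rMAT fac_row fcs bra (spb bra) hA.rSA hA.rCAL hA.rNUE hA.rDSC hA.rFRO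

/-- the reduction data -/
theorem rd_of (hA : A.Ok) (d : Dic hT D A) (hx : EXO w D.e)
    (ha : ∀ τ x, Ord w D.e τ x → Ari w τ x) (hU : U ∈ T.Lev) (hn : T.Neat U)
    (hw : w.At (KK O K) U) [∀ x, CFF ℂ (KX T U x)] : RD D U := by
  obtain ⟨LD, hD, -⟩ := hA.ex_lt
  have h1 := one hA d hx hD
  obtain ⟨h2, h3⟩ := injx hA (spb bra) ha d hx LD hD h1 U hU hn hw
  refine ⟨fun τ x₀ h => (ex_nu hA d hD h).imp fun ν h4 x h5 => ?_, h2, h3⟩
  obtain ⟨θ, b, ε, h6, h7⟩ := h4 x h5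
  exact rLOCX hA d LD hD h1 U hU hn hw τ x h5 θ b ε ν h6 h7

/-- the reduction data with tame valuations -/
theorem rdt_of (hA : A.Ok) (d : Dic hT D A) (hx : EXO w D.e)
    (ha : ∀ c, algebraMap K (Cx D.ι) c = Cx.of D.ι (D.e c)) (hU : U ∈ T.Lev) (hn : T.Neat U)
    (hw : w.At (KK O K) U) [∀ x, CFF ℂ (KX T U x)] : X1.RDT D U := by
  obtain ⟨LD, hD, hf⟩ := hA.ex_lt
  refine fun τ x₀ h => (ex_nu hA d hD h).imp fun ν h4 x h5 => ?_
  obtain ⟨θ, b, ε, h6, h7⟩ := h4 x h5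
  exact ⟨rLOCX hA d LD hD (one hA d hx hD) U hU hn hw τ x h5 θ b ε ν h6 h7,
    X1.tamx D hT A hA bra d ha LD hD hf U hU hn hw τ x h5 θ b ε ν h6 h7⟩

section quat

variable {F : Type} [Field F] [NumberField F] (X : QD F)

theorem dicx {L : X.tw.Lc O K} {v : Pl F} (h : X.IsPl v L) (D : Emb L p) :
    letI := alg D; Dic X.ok D (tw L X.ok D.ι) :=
  letI := alg D
  dic (alg_eq D) (Oc.ff X.ok (left _ _ _ X.ok)) (nlx h).choose_spec (denx h D.e)

/-- **RDX** -/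
theorem rdx : RDX X := by
  intro O K _ _ _ _ _ L v hv p _ D he
  have hL := left _ _ _ X.ok
  have hx := (cmpx X O K L v hv D.e he).2
  letI := alg D
  exact ⟨sax hL O K L v hv, fun U hU hn hw _ => rd_of (okx X.ok hL hv D hx) (dicx X hv D) hx
    (arx hL O K L v hv D.e) hU hn hw⟩

/-- **RTX** -/
theorem rtx : X1.RTX X := by
  intro O K _ _ _ _ _ L v hv p _ D he U hU hn hw _
  have hx := (cmpx X O K L v hv D.e he).2
  letI := alg D
  exact rdt_of (okx X.ok (left _ _ _ X.ok) hv D hx) (dicx X hv D) hx (alg_eq D) hU hn hw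

end quat

/-- strong approximation at all places -/
theorem saq : AllQ fun {_} _ _ X => X.tw.AllL fun {_ _} _ _ _ _ _ L => ∀ w, X.IsPl w L → L.SA :=
  fun _ _ _ X => sax (left _ _ _ X.ok)

/-- **GOOD** -/
theorem goodx : AllQ fun X => X.GOOD := fun F _ _ X =>
  good_of X noa (left _ _ _ X.ok) (can F X) (arix X) (rdx X)

end Vale.Agent.P022K.FI
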