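import Vale.Agent.P022K.FI.Exp

/-!
# P022K, block FI, row AN4: convergence of expansions, the place of an expansion
-/

set_option linter.all false

noncomputable section

namespace Vale.Agent.P022K.FI.An4

open PowerSeries Filter Topology LaurentSeries P025H552 Vale.Agent.P019P IntermediateField

section conv

variable {C : Type*} [NormedField C] [IsUltrametricDist C] {L : Type*} [Field L] [Algebra C L]
  {f g a b u φ : C⟦X⟧} {z w : C⸨X⸩}

omit [IsUltrametricDist C] in
theorem conv_of_ev (h : ∀ᶠ r in 𝓝[>] (0 : ℝ), IsRestricted r f) : Conv f := by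
  obtain ⟨r, h1, h2⟩ := (h.and self_mem_nhdsWithin).exists
  exact ⟨r, h2, h1⟩

omit [IsUltrametricDist C] in
theorem conv_poly (p : Polynomial C) : Conv (p : C⟦X⟧) := ⟨1, one_pos, res_poly 1 p⟩

omit [IsUltrametricDist C] in
theorem conv_C (c : C) : Conv (PowerSeries.C c) := ⟨1, one_pos, isRestricted_C 1 c⟩

omit [IsUltrametricDist C] in
theorem conv_one : Conv (1 : C⟦X⟧) := ⟨1, one_pos, isRestricted_one 1⟩

omit [IsUltrametricDist C] in
theorem conv_X : Conv (X : C⟦X⟧) := ⟨1, one_pos, res_X 1⟩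

omit [IsUltrametricDist C] in
theorem Conv.add (hf : Conv f) (hg : Conv g) : Conv (f + g) :=
  conv_of_ev ((hf.ev.and hg.ev).mono fun r h => isRestricted.add r h.1 h.2)

omit [IsUltrametricDist C] in
theorem Conv.sub (hf : Conv f) (hg : Conv g) : Conv (f - g) :=
  conv_of_ev ((hf.ev.and hg.ev).mono fun r h => res_sub h.1 h.2)

theorem Conv.mul (hf : Conv f) (hg : Conv g) : Conv (f * g) :=
  conv_of_ev ((hf.ev.and hg.ev).mono fun r h => isRestricted.mul r h.1 h.2)

theorem Conv.pow (hf : Conv f) (n : ℕ) : Conv (f ^ n) :=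
  conv_of_ev (hf.ev.mono fun r h => res_pow h n)

omit [IsUltrametricDist C] in
theorem Conv.of_X_pow_mul {n : ℕ} (h : Conv (X ^ n * f)) : Conv f := by
  obtain ⟨r, B, hr, hB, h⟩ := h.bnd
  refine Bnd.conv (B := B / r ^ n) hr fun m => ?_
  have := h (m + n)
  rwa [coeff_X_pow_mul, pow_add, ← mul_assoc, ← le_div_iff₀ (by positivity)] at this

/-- quotient by a unit -/
theorem Conv.div (ha : Conv a) (hu : Conv u) (h0 : constantCoeff u ≠ 0) (e : g * u = a) :
    Conv g := by
  obtain ⟨w, hw⟩ : ∃ w : C⟦X⟧, w = 1 - PowerSeries.C (constantCoeff u)⁻¹ * u := ⟨_, rfl⟩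
  have w0 : constantCoeff w = 0 := by simp [hw, inv_mul_cancel₀ h0]
  have w1 : Conv w := hw ▸ conv_one.sub ((conv_C _).mul hu)
  have hs := HasSubst.of_constantCoeff_zero' w0
  have h1 : Conv (An4.cmp w (PowerSeries.mk 1)) :=
    w1.cmp w0 (Bnd.conv (B := 1) one_pos fun n => by simp)
  have h2 : An4.cmp w (PowerSeries.mk 1) * (1 - w) = 1 := by
    have := congrArg (PowerSeries.substAlgHom (R := C) hs) (mk_one_mul_one_sub_eq_one C)
    rw [map_mul, map_sub, map_one, substAlgHom_X, coe_substAlgHom] at this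
    rwa [cmp_eq_subst w0]
  generalize An4.cmp w (PowerSeries.mk 1) = v at h1 h2
  have h3 : g = a * (PowerSeries.C (constantCoeff u)⁻¹ * v) := by
    rw [hw, sub_sub_cancel] at h2
    rw [← e]
    linear_combination (-g) * h2
  rw [h3]
  exact ha.mul ((conv_C _).mul h1)

/-- quotients which are power series converge -/
theorem Conv.div' (ha : Conv a) (hb : Conv b) (h0 : b ≠ 0) (e : g * b = a) : Conv g := by
  have e1 := X_pow_order_mul_divXPowOrder (f := b)
  have h2 : constantCoeff (divXPowOrder b) ≠ 0 := by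
    rwa [Ne, constantCoeff_divXPowOrder_eq_zero_iff]
  refine Conv.div (a := g * divXPowOrder b) (Conv.of_X_pow_mul (n := b.order.toNat) ?_)
    (Conv.of_X_pow_mul (n := b.order.toNat) (by rwa [e1])) h2 rfl
  rwa [mul_left_comm, e1, e]

/-- germs of meromorphic functions -/
def Mer (z : C⸨X⸩) : Prop :=
  ∃ a b : C⟦X⟧, Conv a ∧ Conv b ∧ b ≠ 0 ∧ z * ofPS b = ofPS a

omit [IsUltrametricDist C] in
theorem Conv.mer (h : Conv g) : Mer (ofPS g) :=
  ⟨g, 1, h, conv_one, one_ne_zero, by rw [map_one, mul_one]⟩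

theorem Mer.conv (h : Mer (ofPS g)) : Conv g := by
  obtain ⟨a, b, ha, hb, h0, e⟩ := h
  exact ha.div' hb h0 (ofPS_inj (by rw [map_mul, e]))

omit [IsUltrametricDist C] in
theorem Mer.inv (h : Mer z) : Mer z⁻¹ := by
  by_cases hz : z = 0
  · rwa [hz, inv_zero, ← hz]
  obtain ⟨a, b, ha, hb, h0, e⟩ := h
  refine ⟨b, a, hb, ha, fun e2 => ?_, by rw [← e, inv_mul_cancel_left₀ hz]⟩
  rw [e2, map_zero] at e
  exact mul_ne_zero hz (ofPS_ne h0) e

theorem Mer.mul (h : Mer z) (h' : Mer w) : Mer (z * w) := by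
  obtain ⟨a, b, ha, hb, h0, e⟩ := h
  obtain ⟨a', b', ha', hb', h0', e'⟩ := h'
  refine ⟨a * a', b * b', ha.mul ha', hb.mul hb', mul_ne_zero h0 h0', ?_⟩
  rw [map_mul, map_mul, ← e, ← e']
  ring

theorem Mer.add (h : Mer z) (h' : Mer w) : Mer (z + w) := by
  obtain ⟨a, b, ha, hb, h0, e⟩ := h
  obtain ⟨a', b', ha', hb', h0', e'⟩ := h'
  refine ⟨a * b' + a' * b, b * b', (ha.mul hb').add (ha'.mul hb), hb.mul hb',
    mul_ne_zero h0 h0', ?_⟩
  rw [map_add, map_mul, map_mul, map_mul, ← e, ← e']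
  ring

theorem Mer.sub {S : C⸨X⸩ →ₐ[C] C⸨X⸩} (hS : IsSub φ S) (h0 : constantCoeff φ = 0) (hφ : Conv φ)
    (h : Mer z) : Mer (S z) := by
  obtain ⟨a, b, ha, hb, b0, e⟩ := h
  refine ⟨cmp φ a, cmp φ b, hφ.cmp h0 ha, hφ.cmp h0 hb, ?_, ?_⟩
  · rw [cmp_eq_subst h0]
    exact subst_ne_zero h0 (hS.ne_zero h0) b0
  · rw [cmp_eq_subst h0, cmp_eq_subst h0, ← hS, ← hS, ← map_mul, e]

/-- algebraic Laurent series are meromorphic germs -/
theorem mer_of_alg [CharZero C] (h : IsAlgebraic (Polynomial C) z) : Mer z := by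
  have : IsScalarTower (Polynomial C) C⟦X⟧ C⸨X⸩ := IsScalarTower.of_algebraMap_eq fun P => rfl
  have key : ∀ {z : C⸨X⸩}, IsAlgebraic (Polynomial C) z → Reg z → Mer z := by
    rintro z h ⟨g, rfl⟩
    exact (conv_of_alg ((isAlgebraic_algebraMap_iff (R := Polynomial C) (S := C⟦X⟧) (A := C⸨X⸩)
      (ofPS_inj (C := C))).mp h)).mer
  rcases reg_or_inv z with h1 | h1
  · exact key h h1
  · rw [← inv_inv z]
    exact (key h.inv h1).inv

omit [IsUltrametricDist C] in
theorem alg_of_emb (ι : L →ₐ[C] C⸨X⸩) {s y : L} (hs : ι s = LX) (hy : IsAlgebraic C⟮s⟯ y) :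
    IsAlgebraic (Polynomial C) (ι y) := by
  rw [IntermediateField.isAlgebraic_adjoin_iff] at hy
  obtain ⟨P, P0, hP⟩ := hy
  have hm : ∀ p : Polynomial C, Polynomial.aeval s p ∈ Algebra.adjoin C {s} := fun p =>
    Polynomial.aeval_mem_adjoin_singleton C s
  let π : Polynomial C →+* Algebra.adjoin C {s} :=
    ((Polynomial.aeval s).codRestrict (Algebra.adjoin C {s}) hm).toRingHom
  have hπ : Function.Surjective π := by
    rintro ⟨x, hx⟩
    rw [Algebra.adjoin_singleton_eq_range_aeval] at hx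
    obtain ⟨p, rfl⟩ := hx
    exact ⟨p, rfl⟩
  obtain ⟨Q, rfl⟩ := Polynomial.map_surjective π hπ P
  refine ⟨Q, fun e => P0 (by rw [e, Polynomial.map_zero]), ?_⟩
  have e1 : (algebraMap (Polynomial C) C⸨X⸩) =
      (ι : L →+* C⸨X⸩).comp ((algebraMap (Algebra.adjoin C {s}) L).comp π) := by
    refine Polynomial.ringHom_ext (fun c => ?_) ?_
    · change ofPS ((Polynomial.C c : Polynomial C) : C⟦X⟧) = ι (Polynomial.aeval s (Polynomial.C c))
      rw [Polynomial.coe_C, Polynomial.aeval_C, AlgHom.commutes, ofPS_C]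
    · change ofPS ((Polynomial.X : Polynomial C) : C⟦X⟧) = ι (Polynomial.aeval s Polynomial.X)
      rw [Polynomial.coe_X, Polynomial.aeval_X, hs, ofPS_X]
  rw [Polynomial.aeval_def, Polynomial.eval₂_map] at hP
  have e2 := Polynomial.hom_eval₂ Q ((algebraMap (Algebra.adjoin C {s}) L).comp π)
    (ι : L →+* C⸨X⸩) y
  rw [hP, map_zero] at e2
  rw [Polynomial.aeval_def, e1]
  exact e2.symm

/-- the expansion in an algebraic local parameter converges -/
theorem mer_of_emb [CharZero C] (ι : L →ₐ[C] C⸨X⸩) {s y : L} (hs : ι s = LX)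
    (hy : IsAlgebraic C⟮s⟯ y) : Mer (ι y) := mer_of_alg (alg_of_emb ι hs hy)

/-- if one local parameter has a convergent expansion, then all expansions converge -/
theorem mer_of_param [CharZero C] (th : L →ₐ[C] C⸨X⸩) {s y : L} (hs : (th s).order = 1)
    (hm : Mer (th s)) (hy : IsAlgebraic C⟮s⟯ y) : Mer (th y) := by
  obtain ⟨σ, e, h0, h1⟩ := exists_lin_of_order hs
  obtain ⟨S, hS⟩ := exists_isSub h0 fun e2 => h1 (by rw [e2, map_zero])
  obtain ⟨ι, i1, i2, -⟩ := exists_norm th e h0 h1 hS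
  rw [i2]
  exact (mer_of_emb ι i1 hy).sub hS h0 (e ▸ hm).conv

/-- **CONV**: the expansion in a linearising coordinate converges -/
theorem mer_of_chart [CharZero C] (th : L →ₐ[C] C⸨X⸩) {s t y : L} {l : C}
    (hs : (th s).order = 1) (ht : IsAlgebraic C⟮s⟯ t) (hl0 : l ≠ 0) (hl : ‖l‖ ≠ 1)
    (e : ∀ n : ℤ, (th t).coeff n = l ^ n * (th s).coeff n) (hy : IsAlgebraic C⟮s⟯ y) :
    Mer (th y) := by
  refine mer_of_param th hs ?_ hy
  obtain ⟨σ, e1, h0, h1⟩ := exists_lin_of_order hs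
  obtain ⟨S, hS⟩ := exists_isSub h0 fun e2 => h1 (by rw [e2, map_zero])
  obtain ⟨ι, i1, i2, i3⟩ := exists_norm th e1 h0 h1 hS
  have e2 : th t = ofPS (rescale l σ) := by
    ext n
    rw [e, e1, PowerSeries.coeff_coe, PowerSeries.coeff_coe]
    split_ifs with h
    · rw [mul_zero]
    · obtain ⟨i, rfl⟩ := Int.eq_ofNat_of_zero_le (not_lt.1 h)
      rw [Int.natAbs_natCast, PowerSeries.coeff_rescale, zpow_natCast]
  have e3 : (ι t).order = 1 := by
    rw [i3, e2, order_eq_one_iff, ← coeff_zero_eq_constantCoeff_apply, PowerSeries.coeff_rescale,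
      PowerSeries.coeff_rescale, coeff_zero_eq_constantCoeff_apply, h0, mul_zero, pow_one]
    exact ⟨rfl, mul_ne_zero hl0 h1⟩
  obtain ⟨φ, e4, g0, -⟩ := exists_lin_of_order e3
  have e5 : rescale l σ = cmp σ φ := by
    apply ofPS_inj
    rw [← e2, i2, e4, hS, cmp_eq_subst h0]
  have e6 : coeff 1 φ = l := by
    have := congrArg (coeff 1) e5
    rw [PowerSeries.coeff_rescale, pow_one, coeff_one_cmp h0] at this
    exact (mul_right_cancel₀ h1 this).symm
  rw [e1]
  exact (conv_of_poincare (e4 ▸ mer_of_emb ι i1 ht).conv g0 e6 hl0 hl h0 e5).mer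

/-- two convergent expansions at the same place differ by a convergent change of coordinate -/
theorem lau_factor_conv (ι κ : L →ₐ[C] C⸨X⸩) {s : L} (hs : (ι s).order = 1)
    (hs' : (κ s).order = 1) (hreg : ∀ y, Reg (ι y) → Reg (κ y)) (m : Mer (ι s))
    (m' : Mer (κ s)) : ∃ (φ : C⟦X⟧) (r : ℝ), Lin r φ ∧ ∀ S, IsSub φ S → ∀ y, κ y = S (ι y) := by
  obtain ⟨φ, h0, h1, h⟩ := lau_factor' ι κ hs (by omega) hreg
  obtain ⟨S, hS⟩ := exists_isSub h0 h1
  obtain ⟨σ, e, s0, s1⟩ := exists_lin_of_order hs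
  obtain ⟨τ, e', t0, t1⟩ := exists_lin_of_order hs'
  have e1 : τ = cmp φ σ := by
    apply ofPS_inj
    rw [← e', h S hS, e, hS, cmp_eq_subst h0]
  obtain ⟨ψ, g0, g1, g2⟩ := exists_inv s0 s1
  have e2 : φ = cmp τ ψ := by rw [e1, ← cmp_cmp_zero h0 s0, g2, cmp_X]
  have h2 : Conv φ := by
    rw [e2]
    exact (e' ▸ m').conv.cmp t0 ((e ▸ m).conv.inv s0 g0 g1)
  obtain ⟨r, hr⟩ := h2.exists_lin h0 fun e3 => t1 (by rw [e1, coeff_one_cmp h0, e3, mul_zero])
  exact ⟨φ, r, hr, h⟩

end conv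

section fg

variable {k K A : Type*} [Field k] [Field K] [Algebra k K] [Field A] [Algebra k A]

/-- a finitely generated field is eventually contained in an exhausting family of fields -/
theorem eventually_all [Algebra.EssFiniteType k K] (th : K →ₐ[k] A) {ι : Type*} {l : Filter ι}
    (M : ι → IntermediateField k A) (h : ∀ y, ∀ᶠ r in l, th y ∈ M r) :
    ∀ᶠ r in l, ∀ y, th y ∈ M r := by
  obtain ⟨s, hs⟩ := (IntermediateField.fg_top_iff (F := k) (E := K)).2 ‹_›
  filter_upwards [(eventually_all_finset s).2 fun y _ => h y] with r hr y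
  have h1 : IntermediateField.adjoin k (s : Set K) ≤ (M r).comap th :=
    adjoin_le_iff.2 fun x hx => hr x hx
  exact h1 (hs ▸ IntermediateField.mem_top)

theorem cff_ess [CFF k K] : Algebra.EssFiniteType k K := by
  obtain ⟨t, -, h⟩ := CFF.ex (k := k) (F := K)
  exact CFld_essFin h

theorem cff_alg [CFF k K] {s : K} (hs : ∀ a : k, s ≠ algebraMap k K a) (y : K) :
    IsAlgebraic k⟮s⟯ y := by
  have := (finite_of_notMem hs).2
  exact Algebra.IsAlgebraic.isAlgebraic y

end fg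

section place

variable {k : Type*} [Field k] {L : Type*} [Field L] [Algebra k L] {E : L →ₐ[k] k⸨X⸩}
  {P Q : Plk k L}

/-- `E` is an expansion at the place `P` (possibly ramified) -/
def At (E : L →ₐ[k] k⸨X⸩) (P : Plk k L) : Prop := ∀ y, y ∈ P.1 ↔ Reg (E y)

theorem At.unique (h : At E P) (h' : At E Q) : P = Q :=
  Subtype.ext (SetLike.ext fun y => (h y).trans (h' y).symm)

theorem nc_of_order {y : L} (h : (E y).order ≠ 0) (a : k) : y ≠ algebraMap k L a := fun e =>
  h (e ▸ P025H401.ls_order_const E a)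

theorem exists_at (E : L →ₐ[k] k⸨X⸩) {x : L} (hx : ∀ a : k, x ≠ algebraMap k L a) :
    ∃ P, At E P := by
  have h1 : ∃ y, (E y).order < 0 := by
    by_cases h : Reg (E x)
    · obtain ⟨g, e⟩ := h
      have e1 : E (x - algebraMap k L (constantCoeff g)) =
          ofPS (g - PowerSeries.C (constantCoeff g)) := by
        rw [map_sub, map_sub, e, AlgHom.commutes, ofPS_C]
      have h2 : g - PowerSeries.C (constantCoeff g) ≠ 0 := fun e2 => by
        rw [e2, map_zero, _root_.map_eq_zero] at e1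
        exact hx _ (sub_eq_zero.1 e1)
      refine ⟨(x - algebraMap k L (constantCoeff g))⁻¹, ?_⟩
      rw [map_inv₀, order_inv', e1, neg_lt_zero]
      exact (order_pos_iff h2).2 (by simp)
    · exact ⟨x, by rwa [reg_iff, not_le] at h⟩
  have h2 : ∀ y, y ∈ P025H401.lsRing E ↔ Reg (E y) := fun y => by
    rw [P025H401.mem_lsRing, reg_iff]
    refine ⟨fun h => h.elim (fun e => by simp [e]) id, Or.inr⟩
  refine ⟨⟨P025H401.lsRing E, fun a => Or.inr (P025H401.ls_order_const E a).ge, fun e => ?_⟩, h2⟩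
  obtain ⟨y, hy⟩ := h1
  have h3 : y ∈ P025H401.lsRing E := e ▸ ValuationSubring.mem_top y
  rw [h2, reg_iff] at h3
  omega

theorem At.sub {φ : k⟦X⟧} {S : k⸨X⸩ →ₐ[k] k⸨X⸩} (h : At E P) (hS : IsSub φ S)
    (h0 : constantCoeff φ = 0) : At (S.comp E) P := fun y => by
  have h1 := (order_pos_iff (hS.ne_zero h0)).2 h0
  rw [h, AlgHom.comp_apply, reg_iff, reg_iff, hS.order h0]
  exact (mul_nonneg_iff_of_pos_right h1).symm

variable [CFF k L]

theorem exists_at_cff (E : L →ₐ[k] k⸨X⸩) : ∃ P, At E P := by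
  obtain ⟨x, hx, -⟩ := CFF.ex (k := k) (F := L)
  exact exists_at E (x := x) fun a e => hx (e ▸ isAlgebraic_algebraMap a)

theorem at_of_ord {e : ℤ} (he : 0 < e) (h : ∀ y, y ≠ 0 → (E y).order = e * ord P y) :
    At E P := fun y => by
  by_cases hy : y = 0
  · rw [hy, map_zero, reg_iff, HahnSeries.order_zero]
    exact ⟨fun _ => le_rfl, fun _ => zero_mem _⟩
  rw [mem_iff_ord, or_iff_right hy, reg_iff, h y hy]
  exact (mul_nonneg_iff_of_pos_left he).symm

/-- order of the expansion and order at the place -/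
theorem At.exists_ram (h : At E P) : ∃ e : ℕ, 0 < e ∧ ∀ y, (E y).order = e * ord P y := by
  obtain ⟨Q, e, he⟩ := P025H401.exists_place_of_hom E
  have e0 : 0 < e := by
    refine Nat.pos_of_ne_zero fun e0 => P.2.2 (eq_top_iff.2 fun y _ => ?_)
    by_cases hy : y = 0
    · rw [hy]; exact zero_mem _
    · rw [h, reg_iff, he y hy, e0, Nat.cast_zero, zero_mul]
  obtain rfl : P = Q := h.unique (at_of_ord (by exact_mod_cast e0) he)
  refine ⟨e, e0, fun y => ?_⟩
  by_cases hy : y = 0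
  · rw [hy, map_zero, HahnSeries.order_zero, ord_zero, mul_zero]
  · exact he y hy

theorem At.ord_eq (h : At E P) {s : L} (hs : (E s).order = 1) (y : L) :
    ord P y = (E y).order := by
  obtain ⟨e, e0, he⟩ := h.exists_ram
  have h1 : (e : ℤ) = 1 := Int.eq_one_of_mul_eq_one_right (by omega) ((he s).symm.trans hs)
  rw [he, h1, one_mul]

theorem At.ord_pos_iff (h : At E P) (y : L) : 0 < ord P y ↔ 0 < (E y).order := by
  obtain ⟨e, e0, he⟩ := h.exists_ram
  rw [he, mul_pos_iff_of_pos_left (by exact_mod_cast e0)]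

theorem At.sub_mem (h : At E P) {y : L} {g : k⟦X⟧} (e : E y = ofPS g) :
    y - algebraMap k L (constantCoeff g) ∈ Mge P 1 := by
  by_cases h0 : y - algebraMap k L (constantCoeff g) = 0
  · exact Or.inl h0
  have e1 : E (y - algebraMap k L (constantCoeff g)) =
      ofPS (g - PowerSeries.C (constantCoeff g)) := by
    rw [map_sub, map_sub, e, AlgHom.commutes, ofPS_C]
  have h2 : g - PowerSeries.C (constantCoeff g) ≠ 0 := fun e2 => by
    rw [e2, map_zero, _root_.map_eq_zero] at e1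
    exact h0 e1
  refine P025H492.mem_Mge_one_of_pos ((h.ord_pos_iff _).2 ?_)
  rw [e1]
  exact (order_pos_iff h2).2 (by simp)

/-- the value at the place is the constant coefficient -/
theorem At.vl_eq (h : At E P) {y : L} {g : k⟦X⟧} (e : E y = ofPS g) :
    P025H492.vl P y = constantCoeff g := P025H492.vl_eq (h.sub_mem e)

/-- the expansion at a place in a given local parameter -/
theorem exists_exp (P : Plk k L) {s : L} (hs : ord P s = 1) :
    ∃ E : L →ₐ[k] k⸨X⸩, E s = LX ∧ At E P ∧ ∀ y, (E y).order = ord P y := by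
  obtain ⟨E, h1, h2⟩ := exists_lau P s hs
  have h3 : At E P := at_of_ord one_pos fun y hy => by rw [h2 y hy, one_mul]
  exact ⟨E, h1, h3, fun y => (h3.ord_eq (s := s) (by rw [h1]; exact hasOrd_LX.order_eq) y).symm⟩

end place

end Vale.Agent.P022K.FI.An4
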