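import Vale.Agent.P022K.FI.Schw

/-!
# Block FI, row SCHW: the Schwarz bound over a Dedekind domain of functions
-/

set_option linter.unusedSectionVars false
set_option linter.style.haveILetI false

namespace Vale.Agent.P022K.FI

open Vale.Agent.P019P P025H492 TensorProduct IsDedekindDomain

universe u

section ext

variable {k R M : Type*} [CommRing k] [CommRing R] [Field M] [Algebra k R] [Algebra k M]
  [Algebra R M] [IsScalarTower k R M] [IsFractionRing R M]

/-- a derivation extends to the field of fractions. -/
theorem exists_der_frac (δ : Derivation k R R) :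
    ∃ d : Derivation k M M, ∀ a : R, d (algebraMap R M a) = algebraMap R M (δ a) := by
  haveI : Algebra.FormallyEtale R M := Algebra.FormallyEtale.of_isLocalization (nonZeroDivisors R)
  let D0 : Derivation k R M := (Algebra.linearMap R M).compDer δ
  let L : M ⊗[R] Ω[R⁄k] →ₗ[M] M := D0.liftKaehlerDifferential.liftBaseChange M
  let e := KaehlerDifferential.tensorKaehlerEquivOfFormallyEtale k R M
  refine ⟨(L ∘ₗ e.symm.toLinearMap).compDer (KaehlerDifferential.D k M), fun a => ?_⟩
  calc ((L ∘ₗ e.symm.toLinearMap).compDer (KaehlerDifferential.D k M)) (algebraMap R M a)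
      = L (e.symm (KaehlerDifferential.D k M (algebraMap R M a))) := rfl
    _ = L (1 ⊗ₜ KaehlerDifferential.D k R a) :=
        congrArg L (KaehlerDifferential.tensorKaehlerEquivOfFormallyEtale_symm_D_algebraMap k R M a)
    _ = algebraMap R M (δ a) := by
        simp only [L, LinearMap.liftBaseChange_tmul, Derivation.liftKaehlerDifferential_comp_D,
          one_smul]
        rfl

omit [Algebra k R] [IsScalarTower k R M] [IsFractionRing R M] [Algebra R M] in
theorem der_div (d : Derivation k M M) (a : M) {b : M} (hb : b ≠ 0) :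
    d (a / b) = (d a * b - a * d b) / b ^ 2 := by
  rw [div_eq_mul_inv, d.leibniz, d.leibniz_inv]
  simp only [smul_eq_mul]
  field_simp
  ring

end ext

section ded

variable {k K : Type*} [Field k] [Field K] [Algebra k K] [CFF k K] [CharZero k]

/-- the pull back of a regular differential to the fraction field of a Dedekind domain `R` which is
stable under the derivation lies in `R`. -/
theorem no_pole_ring {x θ : K} (hx : ∀ a : k, x ≠ algebraMap k K a) (hθ : θ ∈ LL k (wdv k x))
    {R M : Type*} [CommRing R] [IsDedekindDomain R] [Field M] [Algebra k R] [Algebra k M]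
    [Algebra R M] [IsScalarTower k R M] [IsFractionRing R M] (d : Derivation k M M)
    (hd : ∀ a : R, ∃ b : R, d (algebraMap R M a) = algebraMap R M b) (f : K →ₐ[k] M) :
    ∃ a : R, algebraMap R M a = f θ * d (f x) := by
  refine HeightOneSpectrum.mem_integers_of_valuation_le_one M _ fun v => ?_
  refine no_pole hx hθ d f (v.valuation M).valuationSubring (fun a => ?_) fun y hy => ?_
  · rw [IsScalarTower.algebraMap_apply k R M]
    exact v.valuation_le_one _
  · obtain ⟨n, ⟨b, hb⟩, h⟩ := v.exists_primeCompl_mul_eq_of_integer y hy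
    have h1 : v.valuation M (algebraMap R M b) = 1 := by
      rw [HeightOneSpectrum.valuation_of_algebraMap]
      exact (v.intValuation_eq_one_iff_mem_primeCompl b).2 hb
    have h0 : algebraMap R M b ≠ 0 := by
      intro e
      rw [e, map_zero] at h1
      exact zero_ne_one h1
    obtain ⟨n', hn'⟩ := hd n
    obtain ⟨b', hb'⟩ := hd b
    rw [Valuation.mem_valuationSubring_iff, eq_div_of_mul_eq h0 h, der_div d _ h0, hn', hb',
      ← map_mul, ← map_mul, ← map_sub, map_div₀, map_pow, h1, one_pow, div_one]
    exact v.valuation_le_one _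

end ded

section bd

variable {C K : Type*} [NormedField C] [Field K] [Algebra C K] [CFF C K] [CharZero C]

/-- the pull back of a regular differential is a bounded element of the ring of functions. -/
theorem bound_ring {x θ : K} (hx : ∀ a : C, x ≠ algebraMap C K a) (hθ : θ ∈ LL C (wdv C x)) :
    ∃ c : ℝ, 0 < c ∧ ∀ (R M : Type u) [CommRing R] [IsDedekindDomain R] [Field M] [Algebra C R]
      [Algebra C M] [Algebra R M] [IsScalarTower C R M] [IsFractionRing R M]
      (v : AbsoluteValue M ℝ), IsNonarchimedean v → (∀ a : C, v (algebraMap C M a) = ‖a‖) →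
      ∀ (δ : Derivation C R R) (d : Derivation C M M),
      (∀ a : R, d (algebraMap R M a) = algebraMap R M (δ a)) → ∀ ρ : ℝ,
      (∀ a : R, v (algebraMap R M (δ a)) ≤ ρ * v (algebraMap R M a)) → ∀ f : K →ₐ[C] M,
      ∃ a : R, algebraMap R M a = f θ * d (f x) ∧ v (algebraMap R M a) ≤ c * ρ := by
  obtain ⟨c, hc, h⟩ := bound.{u} hx hθ
  refine ⟨c, hc, fun R M _ _ _ _ _ _ _ _ v hna hv δ d hd ρ hρ f => ?_⟩
  obtain ⟨a, ha⟩ := no_pole_ring hx hθ (R := R) d (fun a => ⟨δ a, hd a⟩) f
  refine ⟨a, ha, ?_⟩
  rw [ha]
  exact h M v hv d ρ (der_frac v hna d fun y : R => by rw [hd]; exact hρ y) f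

end bd

end Vale.Agent.P022K.FI
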