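import Vale.Agent.P022K.FI.An0

/-!
# P022 block FI, row AN1: composition, units, Weierstrass division and preparation
-/

set_option linter.all false

noncomputable section

open PowerSeries Filter Topology

namespace Vale.Agent.P022K.FI

variable {C : Type} [NontriviallyNormedField C]

/-- composition `f ∘ g` -/
def cmp (g f : C⟦X⟧) : C⟦X⟧ := mk fun k => ∑' n, coeff n f * coeff k (g ^ n)

/-- formal substitution is a composition -/
theorem cmp_eq_subst {g : C⟦X⟧} (hg : constantCoeff g = 0) (f : C⟦X⟧) : cmp g f = f.subst g := by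
  ext k
  have hs : HasSubst g := HasSubst.of_constantCoeff_zero' hg
  rw [cmp, coeff_mk, coeff_subst' hs]
  exact tsum_eq_finsum (coeff_subst_finite' hs f k)

theorem cmp_X_left (f : C⟦X⟧) : cmp X f = f := by
  ext k
  rw [cmp, coeff_mk, tsum_eq_single k fun n hn => by rw [coeff_X_pow, if_neg hn.symm, mul_zero]]
  simp [coeff_X_pow]

theorem cmp_poly (g : C⟦X⟧) (P : Polynomial C) : cmp g (P : C⟦X⟧) = Polynomial.aeval g P := by
  ext k
  rw [cmp, coeff_mk, Polynomial.aeval_eq_sum_range,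
    tsum_eq_sum (s := Finset.range (P.natDegree + 1))]
  · simp [Polynomial.coeff_coe]
  · intro n hn
    rw [Polynomial.coeff_coe, Polynomial.coeff_eq_zero_of_natDegree_lt (by simpa using hn),
      zero_mul]

theorem cmp_X (g : C⟦X⟧) : cmp g X = g := by simpa using cmp_poly g Polynomial.X

theorem cmp_C (g : C⟦X⟧) (c : C) : cmp g (PowerSeries.C c) = PowerSeries.C c := by
  simpa using cmp_poly g (Polynomial.C c)

theorem cmp_one (g : C⟦X⟧) : cmp g 1 = 1 := by simpa using cmp_C g 1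

theorem cmp_zero (g : C⟦X⟧) : cmp g 0 = 0 := by simpa using cmp_C g 0

theorem constantCoeff_cmp (g f : C⟦X⟧) : constantCoeff (cmp g f) = ev (constantCoeff g) f := by
  simp [cmp, ev]

variable [IsUltrametricDist C] [CompleteSpace C] {r ρ σ : ℝ} {f f' g h : C⟦X⟧}

/-- an element of the Tate algebra -/
def tA (hf : Cv r f) : TA C r := ⟨f, hf⟩

@[simp] theorem tA_coe (hf : Cv r f) : (tA hf : C⟦X⟧) = f := rfl

theorem coe_ev [Fact (0 < ρ)] (g : TA C ρ) (hg : ‖g‖ ≤ r) (hf : Cv r f) :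
    ((ev g f : TA C ρ) : C⟦X⟧) = cmp (g : C⟦X⟧) f := by
  ext k
  rw [← cf_apply, ev, (cf C ρ k).map_tsum (ev_summable hg hf), cmp, coeff_mk]
  simp [cf_apply]

theorem Cv.cmp (hρ : 0 < ρ) (hg : Cv ρ g) (hgr : gn ρ g ≤ r) (hf : Cv r f) : Cv ρ (cmp g f) := by
  haveI := Fact.mk hρ
  have := (ev (tA hg) f).2
  rwa [coe_ev (tA hg) hgr hf] at this

theorem gn_cmp_le (hr : 0 < r) (hρ : 0 < ρ) (hg : Cv ρ g) (hgr : gn ρ g ≤ r) (hf : Cv r f) :
    gn ρ (cmp g f) ≤ gn r f := by
  haveI := Fact.mk hρ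
  have := norm_ev_le (g := tA hg) hr hgr hf
  rwa [norm_TA, coe_ev (tA hg) hgr hf] at this

variable (r) in
/-- composition as a homomorphism of Tate algebras -/
def cmT [Fact (0 < r)] [Fact (0 < ρ)] (hg : Cv ρ g) (hgr : gn ρ g ≤ r) : TA C r →ₐ[C] TA C ρ :=
  evH r (tA hg) hgr

theorem cmT_coe [Fact (0 < r)] [Fact (0 < ρ)] (hg : Cv ρ g) (hgr : gn ρ g ≤ r) (f : TA C r) :
    (cmT r hg hgr f : C⟦X⟧) = cmp g f := coe_ev (tA hg) hgr f.2

theorem cmT_xT [Fact (0 < r)] [Fact (0 < ρ)] (hg : Cv ρ g) (hgr : gn ρ g ≤ r) :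
    cmT r hg hgr (xT r) = tA hg := evH_xT (g := tA hg) hgr

theorem cmT_cont [Fact (0 < r)] [Fact (0 < ρ)] (hg : Cv ρ g) (hgr : gn ρ g ≤ r) :
    Continuous (cmT r hg hgr) := evH_cont (g := tA hg) hgr

section alg

variable (hr : 0 < r) (hρ : 0 < ρ) (hg : Cv ρ g) (hgr : gn ρ g ≤ r) (hf : Cv r f) (hf' : Cv r f')
include hr hρ hg hgr hf

theorem cmp_pow (n : ℕ) : cmp g (f ^ n) = cmp g f ^ n := by
  haveI := Fact.mk hr
  haveI := Fact.mk hρ
  have e := congrArg Subtype.val (map_pow (cmT r hg hgr) (tA hf) n)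
  rwa [cmT_coe, Subalgebra.coe_pow, Subalgebra.coe_pow, cmT_coe] at e

theorem cmp_neg : cmp g (-f) = -cmp g f := by
  haveI := Fact.mk hr
  haveI := Fact.mk hρ
  have e := congrArg Subtype.val (map_neg (cmT r hg hgr) (tA hf))
  rwa [cmT_coe, Subalgebra.coe_neg, Subalgebra.coe_neg, cmT_coe] at e

theorem cmp_smul (c : C) : cmp g (c • f) = c • cmp g f := by
  haveI := Fact.mk hr
  haveI := Fact.mk hρ
  have e := congrArg Subtype.val (map_smul (cmT r hg hgr) c (tA hf))
  rwa [cmT_coe, SetLike.val_smul, SetLike.val_smul, cmT_coe] at e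

include hf'

theorem cmp_add : cmp g (f + f') = cmp g f + cmp g f' := by
  haveI := Fact.mk hr
  haveI := Fact.mk hρ
  have e := congrArg Subtype.val (map_add (cmT r hg hgr) (tA hf) (tA hf'))
  rwa [cmT_coe, Subalgebra.coe_add, Subalgebra.coe_add, cmT_coe, cmT_coe] at e

theorem cmp_sub : cmp g (f - f') = cmp g f - cmp g f' := by
  haveI := Fact.mk hr
  haveI := Fact.mk hρ
  have e := congrArg Subtype.val (map_sub (cmT r hg hgr) (tA hf) (tA hf'))
  rwa [cmT_coe, Subalgebra.coe_sub, Subalgebra.coe_sub, cmT_coe, cmT_coe] at e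

theorem cmp_mul : cmp g (f * f') = cmp g f * cmp g f' := by
  haveI := Fact.mk hr
  haveI := Fact.mk hρ
  have e := congrArg Subtype.val (map_mul (cmT r hg hgr) (tA hf) (tA hf'))
  rwa [cmT_coe, Subalgebra.coe_mul, Subalgebra.coe_mul, cmT_coe, cmT_coe] at e

end alg

/-- evaluation of a composition -/
theorem ev_cmp {A : Type} [NormedCommRing A] [NormedAlgebra C A] [NormOneClass A]
    [IsUltrametricDist A] [CompleteSpace A] {a : A} (hr : 0 < r) (hρ : 0 < ρ) (ha : ‖a‖ ≤ ρ)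
    (hg : Cv ρ g) (hgr : gn ρ g ≤ r) (hf : Cv r f) : ev a (cmp g f) = ev (ev a g) f := by
  haveI := Fact.mk hr
  haveI := Fact.mk hρ
  have h1 : ((evH ρ a ha).comp (cmT r hg hgr)) (xT r) = ev a g := by
    rw [AlgHom.comp_apply, cmT_xT]; rfl
  have h2 := hom_eq_ev ((evH ρ a ha).comp (cmT r hg hgr))
    (by rw [AlgHom.coe_comp]; exact (evH_cont ha).comp (cmT_cont hg hgr))
    (by rw [h1]; exact (norm_ev_le hρ ha hg).trans hgr) (tA hf)
  rw [h1, AlgHom.comp_apply, evH_apply, cmT_coe] at h2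
  exact h2

theorem cmp_assoc (hr : 0 < r) (hρ : 0 < ρ) (hσ : 0 < σ) (hh : Cv σ h) (hhρ : gn σ h ≤ ρ)
    (hg : Cv ρ g) (hgr : gn ρ g ≤ r) (hf : Cv r f) : cmp h (cmp g f) = cmp (cmp h g) f := by
  haveI := Fact.mk hσ
  have h1 := ev_cmp (a := tA hh) hr hρ hhρ hg hgr hf
  have h2 := congrArg Subtype.val h1
  rw [coe_ev _ hhρ (Cv.cmp hρ hg hgr hf), coe_ev _ ((norm_ev_le hρ hhρ hg).trans hgr) hf,
    coe_ev _ hhρ hg] at h2
  exact h2

/-- chain rule -/
theorem deriv_cmp (hr : 0 < r) (hρ : 0 < ρ) (hg : Cv ρ g) (hgr : gn ρ g ≤ r) (hf : Cv r f) :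
    d⁄dX C (cmp g f) = cmp g (d⁄dX C f) * d⁄dX C g := by
  haveI := Fact.mk hr
  haveI := Fact.mk hρ
  let D : ∀ (s : ℝ) [Fact (0 < s)], TA C s →L[C] TA C s := fun s hs =>
    LinearMap.mkContinuous (((d⁄dX C).toLinearMap.comp (TA C s).val.toLinearMap).codRestrict
      (TA C s).toSubmodule fun x => x.2.deriv hs.out) s⁻¹ fun x => by
        rw [inv_mul_eq_div]; exact gn_deriv hs.out x.2
  have hD : ∀ (s : ℝ) [Fact (0 < s)] (x : TA C s), (D s x : C⟦X⟧) = d⁄dX C (x : C⟦X⟧) :=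
    fun _ _ _ => rfl
  have key : ∀ x : TA C r, D ρ (cmT r hg hgr x) =
      cmT r hg hgr (D r x) * D ρ (tA hg) := fun x => by
    refine dense_pl.induction_on x (isClosed_eq ((D ρ).continuous.comp (cmT_cont _ _))
      (((cmT_cont _ _).comp (D r).continuous).mul continuous_const)) fun P => Subtype.ext ?_
    rw [Subalgebra.coe_mul, hD, cmT_coe, cmT_coe, hD, hD, pl_coe, derivative_coe, cmp_poly,
      cmp_poly, Derivation.map_aeval, smul_eq_mul, tA_coe]
  have e := congrArg Subtype.val (key (tA hf))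
  rwa [Subalgebra.coe_mul, hD, cmT_coe, cmT_coe, hD, hD] at e

/-! ## units -/

theorem gn_sub_const_lt (hr : 0 < r) (hf : Cv r f) (f0 : f ≠ 0) (h : wd r f = 0) :
    gn r (f - PowerSeries.C (constantCoeff f)) < gn r f := by
  obtain ⟨θ, h1, h2, h3⟩ := exists_tail hr hf f0
  have hp := gn_pos hr hf f0
  refine (gn_le fun n => ?_).trans_lt (mul_lt_of_lt_one_left hp h2)
  rcases n with _ | n
  · simp; positivity
  · simpa [coeff_C] using h3 (n + 1) (by omega)

theorem gn_eq_const (hr : 0 < r) (hf : Cv r f) (h : wd r f = 0) : gn r f = ‖constantCoeff f‖ := by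
  simpa [h] using (coeff_wd hr hf).symm

/-- a series of degree zero is a unit -/
theorem exists_inv (hr : 0 < r) (hf : Cv r f) (f0 : f ≠ 0) (h : wd r f = 0) :
    ∃ g, Cv r g ∧ f * g = 1 := by
  haveI := Fact.mk hr
  have hc : constantCoeff f ≠ 0 := by simpa [h] using coeff_wd_ne hr hf f0
  let y : TA C r := 1 - (constantCoeff f)⁻¹ • ⟨f, hf⟩
  have h1 : (y : C⟦X⟧) = (-(constantCoeff f)⁻¹) • (f - PowerSeries.C (constantCoeff f)) := by
    simp only [y, Subalgebra.coe_sub, Subalgebra.coe_one, SetLike.val_smul, smul_sub, neg_smul,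
      smul_eq_C_mul, ← map_mul, inv_mul_cancel₀ hc, map_one]
    ring
  have h2 : ‖y‖ < 1 := by
    rw [norm_TA, h1, gn_smul hr, norm_neg, norm_inv, ← gn_eq_const hr hf h,
      inv_mul_lt_iff₀ (gn_pos hr hf f0), mul_one]
    exact gn_sub_const_lt hr hf f0 h
  obtain ⟨z, hz⟩ := (Units.oneSub y h2).isUnit.exists_right_inv
  refine ⟨(constantCoeff f)⁻¹ • (z : C⟦X⟧), z.2.smul _, ?_⟩
  have h3 := congrArg Subtype.val hz
  simpa [y] using h3

theorem wd_of_inv (hr : 0 < r) (hf : Cv r f) (hg : Cv r g) (h : f * g = 1) : wd r f = 0 := by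
  have := wd_mul hr hf hg (left_ne_zero_of_mul_eq_one h) (right_ne_zero_of_mul_eq_one h)
  rw [h, wd_one hr] at this
  omega

theorem isUnit_iff [hr : Fact (0 < r)] (f : TA C r) : IsUnit f ↔ f ≠ 0 ∧ wd r (f : C⟦X⟧) = 0 := by
  constructor
  · intro h
    obtain ⟨g, hg⟩ := h.exists_right_inv
    exact ⟨h.ne_zero, wd_of_inv hr.out f.2 g.2 (congrArg Subtype.val hg)⟩
  · rintro ⟨h0, h⟩
    obtain ⟨g, hg, e⟩ := exists_inv hr.out f.2 (fun e => h0 (Subtype.ext e)) h
    exact IsUnit.of_mul_eq_one ⟨g, hg⟩ (Subtype.ext e)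

/-- the formal inverse of a series of degree zero converges -/
theorem Cv.inv (hr : 0 < r) (hf : Cv r f) (h : wd r f = 0) : Cv r f⁻¹ := by
  by_cases f0 : f = 0
  · rw [f0, PowerSeries.zero_inv]; exact cv_zero r
  obtain ⟨g, hg, e⟩ := exists_inv hr hf f0 h
  have hc : constantCoeff f ≠ 0 := by simpa [h] using coeff_wd_ne hr hf f0
  have e' : g = f⁻¹ := (PowerSeries.eq_inv_iff_mul_eq_one hc).2 (by rw [mul_comm, e])
  rwa [e'] at hg

/-- values of a series of degree zero have constant norm -/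
theorem norm_ev_unit (hr : 0 < r) (hf : Cv r f) (h : wd r f = 0) {a : C} (ha : ‖a‖ ≤ r) :
    ‖ev a f‖ = gn r f := by
  by_cases f0 : f = 0
  · simp [f0, ev]
  have h1 := (norm_ev_le hr ha (hf.sub (cv_C r _))).trans_lt (gn_sub_const_lt hr hf f0 h)
  rw [ev_sub ha hf (cv_C r _), ev_C, gn_eq_const hr hf h, Algebra.algebraMap_self_apply] at h1
  rw [gn_eq_const hr hf h, ← sub_add_cancel (ev a f) (constantCoeff f),
    IsUltrametricDist.norm_add_eq_max_of_norm_ne_norm h1.ne, max_eq_right h1.le]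

/-! ## Weierstrass division -/

omit [CompleteSpace C] in
theorem gn_div (hr : 0 < r) (hf : Cv r f) (f0 : f ≠ 0) {q R : C⟦X⟧} (hq : Cv r q)
    (hR : ∀ n, wd r f ≤ n → coeff n R = 0) :
    gn r (q * f + R) = max (gn r q * gn r f) (gn r R) := by
  have hRc : Cv r R := Cv.of_fin r hR
  have h1 := gn_add_le hr (hq.mul hf) hRc
  rw [gn_mul hr hq hf] at h1
  refine le_antisymm h1 ?_
  have h2 : gn r q * gn r f ≤ gn r (q * f + R) := by
    by_cases q0 : q = 0
    · rw [q0, gn_zero, zero_mul]; exact gn_nonneg hr _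
    have h3 := le_gn ((hq.mul hf).add hRc) (wd r (q * f))
    rwa [map_add, hR _ (by rw [wd_mul hr hq hf q0 f0]; omega), add_zero, coeff_wd hr (hq.mul hf),
      gn_mul hr hq hf] at h3
  refine max_le h2 ?_
  have h3 := gn_sub_le hr ((hq.mul hf).add hRc) (hq.mul hf)
  rwa [add_sub_cancel_left, gn_mul hr hq hf, max_eq_left h2] at h3

omit [CompleteSpace C] in
theorem div_approx (hr : 0 < r) (hf : Cv r f) (f0 : f ≠ 0) : ∃ θ : ℝ, 0 < θ ∧ θ < 1 ∧
    ∀ g, Cv r g → ∃ q R : C⟦X⟧, Cv r q ∧ (∀ n, wd r f ≤ n → coeff n R = 0) ∧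
      gn r (g - (q * f + R)) ≤ θ * gn r g := by
  obtain ⟨θ, h1, h2, h3⟩ := exists_tail hr hf f0
  have hp := gn_pos hr hf f0
  have hN := coeff_wd_ne hr hf f0
  refine ⟨θ, h1, h2, ?_⟩
  have key : ∀ (M : ℕ) (B : ℝ) (g : C⟦X⟧), Cv r g → gn r g ≤ B →
      (∀ n, M ≤ n → ‖coeff n g‖ * r ^ n ≤ θ * B) →
      ∃ q R : C⟦X⟧, Cv r q ∧ (∀ n, wd r f ≤ n → coeff n R = 0) ∧
        gn r (g - (q * f + R)) ≤ θ * B := by
    intro M B
    induction M with
    | zero => exact fun g _ _ h => ⟨0, 0, cv_zero r, by simp, by simpa using gn_le fun n => h n (by simp)⟩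
    | succ M ih =>
      intro g hg hB h
      have hB0 : 0 ≤ B := (gn_nonneg hr g).trans hB
      rcases lt_or_ge M (wd r f) with e | e
      · have a1 := cv_monomial r M (coeff M g)
        obtain ⟨q, R, b1, b2, b3⟩ := ih (g - monomial M (coeff M g)) (hg.sub a1)
          ((gn_sub_le hr hg a1).trans (max_le hB (by
            rw [gn_monomial hr]; exact (le_gn hg M).trans hB))) fun n hn => by
              rw [map_sub, coeff_monomial]
              split_ifs with e'
              · rw [e', sub_self, norm_zero, zero_mul]; positivity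
              · rw [sub_zero]; exact h n (by omega)
        refine ⟨q, R + monomial M (coeff M g), b1, fun n hn => ?_, by convert b3 using 2; ring⟩
        rw [map_add, b2 n hn, coeff_monomial, if_neg (by omega), add_zero]
      · obtain ⟨k, rfl⟩ := Nat.exists_eq_add_of_le e
        set c := coeff (wd r f + k) g / coeff (wd r f) f with hc
        have a1 := cv_monomial r k c
        have a2 : ‖c‖ * r ^ k * gn r f ≤ B := by
          rw [← coeff_wd hr hf, hc, norm_div, mul_mul_mul_comm,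
            div_mul_cancel₀ _ (norm_ne_zero_iff.2 hN), ← pow_add, add_comm k]
          exact (le_gn hg _).trans hB
        have a3 : ∀ n, coeff (n + k) (monomial k c * f) = c * coeff n f := fun n => by
          rw [monomial_eq_C_mul_X_pow, mul_assoc, coeff_C_mul, coeff_X_pow_mul]
        obtain ⟨q, R, b1, b2, b3⟩ := ih (g - monomial k c * f) (hg.sub (a1.mul hf))
          ((gn_sub_le hr hg (a1.mul hf)).trans (max_le hB (by
            rw [gn_mul hr a1 hf, gn_monomial hr]; exact a2))) fun n hn => by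
              obtain ⟨m, rfl⟩ : ∃ m, n = m + k := ⟨n - k, by omega⟩
              rcases (show wd r f ≤ m by omega).eq_or_lt with e' | e'
              · rw [map_sub, a3, ← e', hc, div_mul_cancel₀ _ hN, sub_self, norm_zero, zero_mul]
                positivity
              · rw [sub_eq_add_neg]
                refine (coeff_add_le hr _ _ _).trans (max_le (h _ (by omega)) ?_)
                rw [map_neg, norm_neg, a3, norm_mul, pow_add, mul_comm (r ^ m), mul_mul_mul_comm]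
                refine (mul_le_mul_of_nonneg_left (h3 m e') (by positivity)).trans ?_
                rw [mul_left_comm]
                exact mul_le_mul_of_nonneg_left a2 h1.le
        exact ⟨q + monomial k c, R, b1.add a1, b2, by convert b3 using 2; ring⟩
  intro g hg
  by_cases g0 : g = 0
  · exact ⟨0, 0, cv_zero r, by simp, by simp [g0]⟩
  obtain ⟨M, hM⟩ := eventually_atTop.1 (hg.eventually (gt_mem_nhds (mul_pos h1 (gn_pos hr hg g0))))
  exact key M _ g hg le_rfl fun n hn => (hM n hn).le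

/-- **Weierstrass division** -/
theorem wdiv' (hr : 0 < r) (hf : Cv r f) (f0 : f ≠ 0) (hg : Cv r g) :
    ∃ q R : C⟦X⟧, Cv r q ∧ (∀ n, wd r f ≤ n → coeff n R = 0) ∧ g = q * f + R := by
  haveI := Fact.mk hr
  obtain ⟨θ, h1, h2, h3⟩ := div_approx hr hf f0
  have hp := gn_pos hr hf f0
  let Z : Submodule C (TA C r) := ⨅ n : {n // wd r f ≤ n}, LinearMap.ker (cf C r n.1).toLinearMap
  have hZ : ∀ x : TA C r, x ∈ Z ↔ ∀ n, wd r f ≤ n → coeff n (x : C⟦X⟧) = 0 := fun x => by
    simp [Z, Submodule.mem_iInf, cf_apply]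
  have hZc : IsClosed (Z : Set (TA C r)) := by
    rw [Submodule.coe_iInf]
    exact isClosed_iInter fun n => (cf C r n.1).isClosed_ker
  haveI : CompleteSpace Z := hZc.completeSpace_coe
  let Φ : (TA C r × Z) →L[C] TA C r :=
    ((ContinuousLinearMap.mul C (TA C r)) ⟨f, hf⟩).coprod Z.subtypeL
  have hΦ : ∀ x : TA C r × Z, (Φ x : C⟦X⟧) = x.1 * f + x.2 := fun x => by
    simp [Φ, mul_comm]
  have hK : AntilipschitzWith (max (gn r f)⁻¹ 1).toNNReal Φ := by
    refine AddMonoidHomClass.antilipschitz_of_bound Φ fun x => ?_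
    have a1 : ‖Φ x‖ = max (‖x.1‖ * gn r f) ‖x.2‖ := by
      rw [norm_TA, hΦ]; exact gn_div hr hf f0 x.1.2 ((hZ _).1 x.2.2)
    rw [Real.coe_toNNReal _ (le_max_of_le_right zero_le_one), Prod.norm_def, a1]
    refine max_le ?_ ?_
    · calc ‖x.1‖ = (gn r f)⁻¹ * (‖x.1‖ * gn r f) := by field_simp
        _ ≤ _ := mul_le_mul (le_max_left _ _) (le_max_left _ _) (by positivity) (by positivity)
    · calc ‖x.2‖ = 1 * ‖x.2‖ := (one_mul _).symm
        _ ≤ _ := mul_le_mul (le_max_right _ _) (le_max_right _ _) (by positivity) (by positivity)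
  have hcl : IsClosed (Set.range Φ) := hK.isClosed_range Φ.uniformContinuous
  have key : ∀ (n : ℕ) (x : TA C r), ∃ y, ‖x - Φ y‖ ≤ θ ^ n * ‖x‖ := by
    intro n
    induction n with
    | zero => exact fun x => ⟨0, by simp⟩
    | succ n ih =>
      intro x
      obtain ⟨y, hy⟩ := ih x
      obtain ⟨q, R, b1, b2, b3⟩ := h3 _ (x - Φ y).2
      let y' : TA C r × Z := (⟨q, b1⟩, ⟨⟨R, Cv.of_fin r b2⟩, (hZ _).2 b2⟩)
      refine ⟨y + y', ?_⟩
      have : ‖x - Φ (y + y')‖ ≤ θ * ‖x - Φ y‖ := by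
        rw [map_add, ← sub_sub, norm_TA, Subalgebra.coe_sub, hΦ y']
        exact b3
      refine this.trans ?_
      rw [pow_succ', mul_assoc]
      exact mul_le_mul_of_nonneg_left hy h1.le
  have hm : (⟨g, hg⟩ : TA C r) ∈ Set.range Φ := by
    refine hcl.closure_subset (Metric.mem_closure_iff.2 fun ε hε => ?_)
    have a1 : Tendsto (fun n : ℕ => θ ^ n * ‖(⟨g, hg⟩ : TA C r)‖) atTop (𝓝 0) := by
      simpa using (tendsto_pow_atTop_nhds_zero_of_lt_one h1.le h2).mul_const _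
    obtain ⟨n, hn⟩ := (a1.eventually (gt_mem_nhds hε)).exists
    obtain ⟨y, hy⟩ := key n ⟨g, hg⟩
    exact ⟨_, ⟨y, rfl⟩, by rw [dist_eq_norm]; exact hy.trans_lt hn⟩
  obtain ⟨y, hy⟩ := hm
  exact ⟨y.1, y.2, y.1.2, (hZ _).1 y.2.2, by rw [← hΦ, hy]⟩

theorem trunc_coe_of {R : C⟦X⟧} {N : ℕ} (h : ∀ n, N ≤ n → coeff n R = 0) :
    ((trunc N R : Polynomial C) : C⟦X⟧) = R := by
  ext n
  rw [Polynomial.coeff_coe, coeff_trunc]
  split_ifs with e
  · rfl
  · exact (h n (by omega)).symm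

/-- **Weierstrass division**, with a polynomial remainder and the norms -/
theorem wdiv (hr : 0 < r) (hf : Cv r f) (f0 : f ≠ 0) (hg : Cv r g) :
    ∃ (q : C⟦X⟧) (R : Polynomial C), Cv r q ∧ R.degree < wd r f ∧ g = q * f + R ∧
      gn r q * gn r f ≤ gn r g ∧ gn r (R : C⟦X⟧) ≤ gn r g := by
  obtain ⟨q, R, h1, h2, h3⟩ := wdiv' hr hf f0 hg
  have h4 := gn_div hr hf f0 h1 h2
  rw [← h3] at h4
  refine ⟨q, trunc (wd r f) R, h1, degree_trunc_lt _ _, ?_, ?_, ?_⟩
  · rw [trunc_coe_of h2, h3]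
  · rw [h4]; exact le_max_left _ _
  · rw [trunc_coe_of h2, h4]; exact le_max_right _ _

/-- **Weierstrass preparation** -/
theorem wprep (hr : 0 < r) (hf : Cv r f) (f0 : f ≠ 0) :
    ∃ (u : C⟦X⟧) (P : Polynomial C), Cv r u ∧ u ≠ 0 ∧ wd r u = 0 ∧ P.Monic ∧
      P.natDegree = wd r f ∧ wd r (P : C⟦X⟧) = wd r f ∧ f = u * P := by
  obtain ⟨q, R, h1, h2, h3, -, h5⟩ := wdiv hr hf f0 ((cv_X r).pow (wd r f))
  rw [gn_pow hr (cv_X r), gn_X hr] at h5
  have hm : (Polynomial.X ^ wd r f - R).Monic := Polynomial.monic_X_pow_sub h2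
  have hd : (Polynomial.X ^ wd r f - R).natDegree = wd r f := by
    rw [Polynomial.natDegree_eq_of_degree_eq_some (n := wd r f)]
    rw [Polynomial.degree_sub_eq_left_of_degree_lt (by simpa using h2), Polynomial.degree_X_pow]
  have hP : ((Polynomial.X ^ wd r f - R : Polynomial C) : C⟦X⟧) = q * f := by
    rw [Polynomial.coe_sub, Polynomial.coe_pow, Polynomial.coe_X, h3, add_sub_cancel_right]
  have hw : wd r ((Polynomial.X ^ wd r f - R : Polynomial C) : C⟦X⟧) = wd r f := by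
    refine (gn_wd_of (M := r ^ wd r f) (fun n => (le_gn (cv_poly r _) n).trans ?_) ?_
      fun n hn => ?_).2
    · rw [Polynomial.coe_sub, Polynomial.coe_pow, Polynomial.coe_X]
      refine (gn_sub_le hr ((cv_X r).pow _) (cv_poly r R)).trans (max_le ?_ h5)
      rw [gn_pow hr (cv_X r), gn_X hr]
    · have := hm.coeff_natDegree
      rw [hd] at this
      rw [Polynomial.coeff_coe, this, norm_one, one_mul]
    · rw [Polynomial.coeff_coe, Polynomial.coeff_eq_zero_of_natDegree_lt (by omega)]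
      simpa using pow_pos hr _
  have q0 : q ≠ 0 := fun e => hm.ne_zero (Polynomial.coe_injective C (by
    rw [hP, e, zero_mul, Polynomial.coe_zero]))
  have hq : wd r q = 0 := by
    have := wd_mul hr h1 hf q0 f0
    rw [← hP, hw] at this
    omega
  obtain ⟨u, hu, e⟩ := exists_inv hr h1 q0 hq
  exact ⟨u, _, hu, right_ne_zero_of_mul_eq_one e, wd_of_inv hr hu h1 (mul_comm q u ▸ e), hm, hd, hw,
    by rw [hP, ← mul_assoc, mul_comm u, e, one_mul]⟩

omit [CompleteSpace C] in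
theorem cv_prod (r : ℝ) (s : Multiset C) : Cv r (s.map fun a => X - PowerSeries.C a).prod :=
  (TA C r).multiset_prod_mem fun x hx => by
    obtain ⟨a, -, rfl⟩ := Multiset.mem_map.1 hx
    exact (cv_X r).sub (cv_C r a)

omit [CompleteSpace C] [IsUltrametricDist C] in
theorem X_sub_C_ne (a : C) : (X - PowerSeries.C a : C⟦X⟧) ≠ 0 := fun e => by
  simpa [coeff_X, coeff_C] using congrArg (coeff 1) e

omit [CompleteSpace C] [IsUltrametricDist C] in
theorem prod_ne (s : Multiset C) : (s.map fun a => X - PowerSeries.C a).prod ≠ 0 :=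
  Multiset.prod_ne_zero fun h => by
    obtain ⟨a, -, e⟩ := Multiset.mem_map.1 h
    exact X_sub_C_ne a e

omit [CompleteSpace C] in
open Classical in
theorem wd_prod (hr : 0 < r) (s : Multiset C) :
    wd r (s.map fun a => X - PowerSeries.C a).prod = (s.filter fun a => ‖a‖ ≤ r).card := by
  induction s using Multiset.induction_on with
  | empty => simpa using wd_one hr
  | cons a s ih =>
    rw [Multiset.map_cons, Multiset.prod_cons, wd_mul hr ((cv_X r).sub (cv_C r a)) (cv_prod r s)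
      (X_sub_C_ne a) (prod_ne s), ih, (gn_X_sub_C hr a).2, Multiset.filter_cons]
    split_ifs <;> simp [add_comm]

omit [CompleteSpace C] [IsUltrametricDist C] in
theorem coe_prod (s : Multiset C) :
    (((s.map fun a => Polynomial.X - Polynomial.C a).prod : Polynomial C) : C⟦X⟧) =
      (s.map fun a => X - PowerSeries.C a).prod := by
  induction s using Multiset.induction_on with
  | empty => simp
  | cons a s ih => simp [← ih]

/-- **the zeros in the closed disc** -/
theorem roots [IsAlgClosed C] (hr : 0 < r) (hf : Cv r f) (f0 : f ≠ 0) :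
    ∃ (u : C⟦X⟧) (s : Multiset C), Cv r u ∧ u ≠ 0 ∧ wd r u = 0 ∧ (∀ a ∈ s, ‖a‖ ≤ r) ∧
      s.card = wd r f ∧ f = u * (s.map fun a => X - PowerSeries.C a).prod := by
  classical
  obtain ⟨u, P, h1, h2, h3, h4, h5, h6, h7⟩ := wprep hr hf f0
  have h8 := (IsAlgClosed.splits P).eq_prod_roots_of_monic h4
  have h9 : P.roots.card = wd r f := by rw [← h5, (IsAlgClosed.splits P).natDegree_eq_card_roots]
  rw [h8, coe_prod] at h6 h7
  refine ⟨u, P.roots, h1, h2, h3, ?_, h9, h7⟩
  rw [wd_prod hr, ← h9] at h6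
  exact Multiset.filter_eq_self.1 (Multiset.eq_of_le_of_card_le (Multiset.filter_le _ _) h6.ge)

theorem ev_prod (hr : 0 < r) {A : Type} [NormedCommRing A] [NormedAlgebra C A] [NormOneClass A]
    [IsUltrametricDist A] [CompleteSpace A] (a : A) (s : Multiset C) :
    ev a (s.map fun b => X - PowerSeries.C b).prod = (s.map fun b => a - algebraMap C A b).prod := by
  rw [← coe_prod, ev_poly, map_multiset_prod]
  simp

/-- a series of positive degree has a zero in the disc -/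
theorem exists_zero [IsAlgClosed C] (hr : 0 < r) (hf : Cv r f) (h : wd r f ≠ 0) :
    ∃ a : C, ‖a‖ ≤ r ∧ ev a f = 0 := by
  have f0 : f ≠ 0 := fun e => h (e ▸ wd_zero r)
  obtain ⟨u, s, h1, -, -, h4, h5, h6⟩ := roots hr hf f0
  obtain ⟨a, ha⟩ := Multiset.card_pos_iff_exists_mem.1 (h5 ▸ Nat.pos_of_ne_zero h)
  refine ⟨a, h4 a ha, ?_⟩
  rw [h6, ev_mul hr (h4 a ha) h1 (cv_prod r s), ev_prod hr, mul_eq_zero]
  exact Or.inr (Multiset.prod_eq_zero (Multiset.mem_map.2 ⟨a, ha, by simp⟩))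

theorem wd_eq_zero_iff [IsAlgClosed C] (hr : 0 < r) (hf : Cv r f) (f0 : f ≠ 0) :
    wd r f = 0 ↔ ∀ a : C, ‖a‖ ≤ r → ev a f ≠ 0 := by
  constructor
  · intro h a ha e
    have := norm_ev_unit hr hf h ha
    rw [e, norm_zero] at this
    exact (gn_pos hr hf f0).ne this
  · intro h
    by_contra h1
    obtain ⟨a, ha, e⟩ := exists_zero hr hf h1
    exact h a ha e

/-- division by a linear factor -/
theorem exists_factor (hr : 0 < r) (hf : Cv r f) {a : C} (ha : ‖a‖ ≤ r) :
    ∃ q, Cv r q ∧ f = q * (X - PowerSeries.C a) + PowerSeries.C (ev a f) := by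
  obtain ⟨q, R, h1, h2, h3, -⟩ := wdiv hr ((cv_X r).sub (cv_C r a)) (X_sub_C_ne a) hf
  rw [(gn_X_sub_C hr a).2, if_pos ha] at h2
  have h4 := Polynomial.eq_C_of_degree_le_zero (Nat.WithBot.lt_one_iff_le_zero.1 h2)
  rw [h4, Polynomial.coe_C] at h3
  refine ⟨q, h1, ?_⟩
  have h5 : ev a f = R.coeff 0 := by
    rw [h3, ev_add ha (h1.mul ((cv_X r).sub (cv_C r a))) (cv_C r _),
      ev_mul hr ha h1 ((cv_X r).sub (cv_C r a)), ev_sub ha (cv_X r) (cv_C r a), ev_X, ev_C, ev_C]
    simp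
  rw [h5]; exact h3

/-- composition with a non-constant series is injective -/
theorem cmp_ne_zero [IsAlgClosed C] (hr : 0 < r) (hρ : 0 < ρ) (hg : Cv ρ g) (hgr : gn ρ g ≤ r)
    (hn : ∀ c, g ≠ PowerSeries.C c) (hf : Cv r f) (f0 : f ≠ 0) : cmp g f ≠ 0 := by
  obtain ⟨u, s, h1, h2, h3, -, -, h6⟩ := roots hr hf f0
  obtain ⟨v, hv, e⟩ := exists_inv hr h1 h2 h3
  rw [h6, cmp_mul hr hρ hg hgr h1 (cv_prod r s)]
  refine mul_ne_zero (left_ne_zero_of_mul_eq_one (b := cmp g v) ?_) ?_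
  · rw [← cmp_mul hr hρ hg hgr h1 hv, e, cmp_one]
  · rw [← coe_prod, cmp_poly, map_multiset_prod]
    refine Multiset.prod_ne_zero fun h => ?_
    simp only [Multiset.map_map, Multiset.mem_map, Function.comp] at h
    obtain ⟨a, -, e⟩ := h
    exact hn a (sub_eq_zero.1 (by simpa using e))

/-- norm and degree of a composition with a series of full norm and positive degree -/
theorem gn_wd_cmp [IsAlgClosed C] (hr : 0 < r) (hρ : 0 < ρ) (hg : Cv ρ g) (hgr : gn ρ g = r)
    (hn : wd ρ g ≠ 0) (hf : Cv r f) :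
    gn ρ (cmp g f) = gn r f ∧ wd ρ (cmp g f) = wd ρ g * wd r f := by
  by_cases f0 : f = 0
  · simp [f0, cmp_zero, wd_zero]
  have g0 : g ≠ 0 := fun e => hn (e ▸ wd_zero ρ)
  have lin : ∀ a : C, ‖a‖ ≤ r →
      gn ρ (g - PowerSeries.C a) = r ∧ wd ρ (g - PowerSeries.C a) = wd ρ g := fun a ha => by
    refine gn_wd_of (fun n => (le_gn (hg.sub (cv_C ρ a)) n).trans
      ((gn_sub_le hρ hg (cv_C ρ a)).trans (max_le hgr.le (by rwa [gn_C hρ])))) ?_ fun n h => ?_
    · rw [map_sub, coeff_C, if_neg hn, sub_zero, coeff_wd hρ hg, hgr]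
    · rw [map_sub, coeff_C, if_neg (by omega), sub_zero, ← hgr]; exact lt_gn hρ hg g0 h
  have key : ∀ (s : Multiset C) (u : C⟦X⟧), Cv r u → u ≠ 0 → wd r u = 0 → (∀ a ∈ s, ‖a‖ ≤ r) →
      gn ρ (cmp g (u * (s.map fun a => X - PowerSeries.C a).prod)) = gn r u * r ^ s.card ∧
      wd ρ (cmp g (u * (s.map fun a => X - PowerSeries.C a).prod)) = wd ρ g * s.card := by
    intro s u h1 h2 h3
    induction s using Multiset.induction_on with
    | empty =>
      intro _
      have a1 := (gn_cmp_le hr hρ hg hgr.le (h1.sub (cv_C r _))).trans_lt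
        (gn_sub_const_lt hr h1 h2 h3)
      rw [gn_eq_const hr h1 h3, ← gn_C hρ] at a1
      have a2 := gn_wd_add hρ (cv_C ρ _) (Cv.cmp hρ hg hgr.le (h1.sub (cv_C r _))) a1
      rw [cmp_sub hr hρ hg hgr.le h1 (cv_C r _), cmp_C, add_sub_cancel, gn_C hρ, wd_C hρ,
        ← gn_eq_const hr h1 h3] at a2
      simpa using a2
    | cons a s ih =>
      intro h4
      obtain ⟨b1, b2⟩ := ih fun b hb => h4 b (by simp [hb])
      obtain ⟨b3, b4⟩ := lin a (h4 a (by simp))
      have c1 := h1.mul (cv_prod r s)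
      have c2 := Cv.cmp hρ hg hgr.le c1
      have c3 : cmp g (u * (s.map fun a => X - PowerSeries.C a).prod) ≠ 0 := fun e => by
        rw [e, gn_zero] at b1
        exact (mul_pos (gn_pos hr h1 h2) (pow_pos hr _)).ne b1
      have c4 : g - PowerSeries.C a ≠ 0 := fun e => by
        rw [e, gn_zero] at b3; exact hr.ne b3
      rw [Multiset.map_cons, Multiset.prod_cons, mul_left_comm,
        cmp_mul hr hρ hg hgr.le ((cv_X r).sub (cv_C r a)) c1,
        cmp_sub hr hρ hg hgr.le (cv_X r) (cv_C r a), cmp_X, cmp_C,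
        gn_mul hρ (hg.sub (cv_C ρ a)) c2, wd_mul hρ (hg.sub (cv_C ρ a)) c2 c4 c3, b1, b2, b3, b4,
        Multiset.card_cons]
      exact ⟨by ring, by ring⟩
  obtain ⟨u, s, h1, h2, h3, h4, h5, h6⟩ := roots hr hf f0
  have k1 := key s u h1 h2 h3 h4
  have k2 : gn r f = gn r u * r ^ s.card := by
    have a : ∀ s : Multiset C, (∀ a ∈ s, ‖a‖ ≤ r) →
        gn r (s.map fun a => X - PowerSeries.C a).prod = r ^ s.card := fun s => by
      induction s using Multiset.induction_on with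
      | empty => intro _; simpa using gn_one hr
      | cons a s ih =>
        intro h
        rw [Multiset.map_cons, Multiset.prod_cons, gn_mul hr ((cv_X r).sub (cv_C r a)) (cv_prod r s),
          ih fun b hb => h b (by simp [hb]), (gn_X_sub_C hr a).1, max_eq_left (h a (by simp)),
          Multiset.card_cons, pow_succ']
    rw [h6, gn_mul hr h1 (cv_prod r s), a s h4]
  rw [← h6, ← k2, h5] at k1
  exact k1

end Vale.Agent.P022K.FI
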