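import Vale.Agent.P022K.FI.St2
import Vale.Agent.P022K.FI.Cal
import Vale.Agent.P022K.FI.Good2

/-!
# P022K, block FI, row ASM: the count gives good reduction
-/

set_option autoImplicit false
set_option linter.all false

open PowerSeries Vale.Agent.P019P P025H746 Module Function Vale.Agent.P027M
open scoped MatrixGroups LaurentSeries

noncomputable section

namespace Vale.Agent.P022K.FI

open Vale.Agent.P022K.Sh Gn Cl

namespace As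

section free

variable {C M M' L : Type} [NontriviallyNormedField C] [IsUltrametricDist C] [IsAlgClosed C]
  [Field M] [Algebra C M] [Field M'] [Algebra C M'] [Field L] [Algebra C L] {ν : NV C L}
  {η : NV C M} {η' : NV C M'}

/-- the map of residue fields -/
def rmA (i : M →ₐ[C] L) (h : ∀ x, ν (i x) = η x) : kap η →ₐ[kC C] kap ν :=
  { I.rm (i : M →+* L) h with
    commutes' := fun a => by
      obtain ⟨c, hc, rfl⟩ := cred_surj a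
      exact I.rm_const (s := RingEquiv.refl C) (i : M →+* L) h i.commutes (fun _ => rfl) hc }

theorem rmA_red (i : M →ₐ[C] L) (h : ∀ x, ν (i x) = η x) (x : M) :
    rmA i h (η.red x) = ν.red (i x) := I.rm_red (i : M →+* L) h x

theorem exists_F (i : M →ₐ[C] L) (i' : M' →ₐ[C] L) (h : ∀ x, ν (i x) = η x)
    (h' : ∀ x, ν (i' x) = η' x) (hs : ∀ f, η' f ≤ 1 → ∃ g, ν (i' f - i g) < 1) :
    ∃ F : kap η' →ₐ[kC C] kap η, ∀ f g, η' f ≤ 1 → ν (i' f - i g) < 1 →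
      F (η'.red f) = η.red g := by
  have key : ∀ f g, η' f ≤ 1 → ν (i' f - i g) < 1 → rmA i h (η.red g) = rmA i' h' (η'.red f) :=
    fun f g h1 h2 => by
      rw [← h'] at h1
      rw [rmA_red, rmA_red, eq_comm, I.red_eq_iff h1 (I.le_one_of_sub h1 h2)]
      exact h2
  have hz : ∀ z, rmA i' h' z ∈ (rmA i h).range := fun z => by
    obtain ⟨f, h1, rfl⟩ := NV.red_surj z
    obtain ⟨g, h2⟩ := hs f h1
    exact ⟨_, key f g h1 h2⟩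
  refine ⟨(AlgEquiv.ofInjectiveField (rmA i h)).symm.toAlgHom.comp
    ((rmA i' h').codRestrict _ hz), fun f g h1 h2 => ?_⟩
  exact (AlgEquiv.ofInjectiveField (rmA i h)).symm_apply_eq.2 (Subtype.ext (key f g h1 h2).symm)

theorem brn_ext {z z' : Plk (kC C) (kap η)}
    (h : ∀ x, η x = 1 → (η.red x ∈ z.1 ↔ η.red x ∈ z'.1)) : z = z' := by
  refine Subtype.ext (ValuationSubring.ext _ _ fun a => ?_)
  obtain ⟨x, h1, rfl⟩ := NV.red_surj a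
  rcases h1.eq_or_lt with e | e
  · exact h x e
  · rw [NV.red_of_lt e]
    exact iff_of_true (zero_mem _) (zero_mem _)

theorem gs_ext {ε : M →ₐ[C] C⸨X⸩} {η₁ : NV C M} (hf : ∀ x, x ≠ 0 → ∃ c D, Fac (ε x) c D)
    (h : Gs ε η) (h' : Gs ε η₁) : η = η₁ := by
  refine NV.ext (AbsoluteValue.ext fun x => ?_)
  rcases eq_or_ne x 0 with rfl | h0
  · simp
  · obtain ⟨c, D, e⟩ := hf x h0
    exact (h x c D e).trans (h' x c D e).symm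

theorem ne_of_one {x : M} (h : η x = 1) : x ≠ 0 := fun e => by simp [e] at h

theorem eq_of_sub {x y : L} (hx : ν x = 1) (h : ν (x - y) < 1) : ν y = 1 := by
  refine le_antisymm (I.le_one_of_sub hx.le h) (not_lt.1 fun h1 => ?_)
  have := ν.na (x - y) y
  rw [sub_add_cancel] at this
  exact absurd (hx ▸ this) (not_le.2 (max_lt h h1))

end free

section mat

variable {O E : Type} [CommRing O] [IsDomain O] [IsDiscreteValuationRing O] [Field E]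
  [Algebra O E] {μ : Eˣ} {c : E} {z : GL (Fin 2) E}

theorem zl_KZ (hz : z ∈ Zl E) : z ∈ KZ O E := Subgroup.mem_sup_right hz

theorem io_of_KZ (hz : z ∈ Zl E) (h : un c * dg μ * z ∈ KZ O E) : Io O c := by
  have h1 := mul_mem h (inv_mem (zl_KZ hz))
  rw [mul_inv_cancel_right] at h1
  have := kz_ent h1 0 1 1 1
  rw [mul_inv_rev, ← un_neg, ← dg_inv] at this
  simpa [un_val, dg_val, Matrix.mul_apply, Fin.sum_univ_two] using this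

theorem unit_of_KZ [IsFractionRing O E] (hz : z ∈ Zl E) (h : dg μ * z ∈ KZ O E) :
    ∃ o : Oˣ, (μ : E) = algebraMap O E o := by
  have h1 := mul_mem h (inv_mem (zl_KZ hz))
  rw [mul_inv_cancel_right] at h1
  have a := kz_ent h1 0 0 1 1
  have b := kz_ent h1 1 1 0 0
  rw [← dg_inv] at a b
  obtain ⟨a, ha⟩ : Io O (μ : E) := by simpa [dg_val] using a
  obtain ⟨b, hb⟩ : Io O (μ : E)⁻¹ := by simpa [dg_val] using b
  exact ⟨Units.mkOfMulEqOne a b (IsFractionRing.injective O E (by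
    rw [map_mul, ha, hb, map_one, mul_inv_cancel₀ μ.ne_zero])), ha.symm⟩

end mat

variable {C L Γ O E : Type} [NontriviallyNormedField C] [IsUltrametricDist C] [CompleteSpace C]
  [IsAlgClosed C] [CharZero C] [Field L] [Algebra C L] [Group Γ] [CommRing O] [IsDomain O]
  [IsDiscreteValuationRing O] [Field E] [Algebra O E] [Algebra E C] {A : AT C L Γ O E}
  {D : LTD C O E} {Y Y' : Plk C L} {θ θ' : L →ₐ[C] C⸨X⸩} {g g₀ g' : GL (Fin 2) E} {b b' : C}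
  {ε ε' : ℤ → L →ₐ[C] C⸨X⸩} {ν ν₀ ν' : NV C L} {S : Subgroup Γ}

/-- the rows which are used below -/
structure Rows (A : AT C L Γ O E) : Prop where
  ok : A.Ok
  mat : A.MAT
  fac : FAC C
  fcs : FCS C
  bra : BRA C
  sa : A.SA
  hyp : A.HYP
  bas : A.BAS
  unq : A.UNQ
  dsc : A.DSC
  fro : A.FRO
  en : A.END
  upi : A.UPI
  cof : A.COF

variable (A) in
/-- `S` is the group of the vertex `g` -/
def Vt (S : Subgroup Γ) (g : GL (Fin 2) E) : Prop := ∃ W ∈ A.Wl, S = A.U W (Vx O g)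

theorem np0 (hM : A.MAT) (g : GL (Fin 2) E) : Np O g (A.ϖ ^ (0 : ℤ)) (Vx O g) := by
  have := hM.2.2.2.2.2.2.1 g 0 0 le_rfl
  rwa [inf_idem, zpow_zero, dg_one, mul_one, ← zpow_zero A.ϖ] at this

theorem Vt.frame (hM : A.MAT) (h : Vt A S g) (hg : g⁻¹ * g' ∈ KZ O E) : Vt A S g' := by
  obtain ⟨W, hW, rfl⟩ := h
  exact ⟨W, hW, by rw [hM.2.2.2.2.2.2.2.1 g g' hg]⟩

theorem Vt.lv (hM : A.MAT) (h : Vt A S g) : A.Lv S := by
  obtain ⟨W, hW, rfl⟩ := h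
  exact AT.lv_U hW (hM.1 g)

theorem Vt.le (hM : A.MAT) (h : Vt A S g) : A.K S ≤ A.Ln g 0 := by
  obtain ⟨W, hW, rfl⟩ := h
  exact le_Ln hW (hM.1 g).z fun c hc => (np0 hM g c).2 hc

theorem Vt.kz (h : Vt A S g) {s : Γ} (hs : s ∈ S) (hg : g⁻¹ * g' ∈ KZ O E) :
    g⁻¹ * (A.π s * g') ∈ KZ O E := by
  obtain ⟨W, hW, rfl⟩ := h
  have := mul_mem (mem_cj.1 (mem_U.1 hs).2) hg
  simpa [mul_assoc] using this

theorem kz_trans (h : g₀⁻¹ * g ∈ KZ O E) (h' : g₀⁻¹ * g' ∈ KZ O E) : g⁻¹ * g' ∈ KZ O E := by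
  simpa [mul_assoc] using mul_mem (inv_mem h) h'

theorem gs_comap (hν : A.Gv g ε ν) {M : IntermediateField C L} {n : ℤ} (hM : M ≤ A.Ln g n) :
    Gs ((ε n).comp M.val) (ν.comap M) := fun h c Dv e => hν n h (hM h.2) c Dv e

theorem fac_val (hB : A.Bas D Y θ g b ε) {M : IntermediateField C L} {n : ℤ} (hM : M ≤ A.Ln g n)
    (x : M) (h : x ≠ 0) : ∃ c Dv, Fac ((ε n).comp M.val x) c Dv :=
  hB.fac n x (hM x.2) fun e => h (Subtype.ext e)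

theorem Ln_dg1 (g : GL (Fin 2) E) (n : ℤ) : A.Ln (g * dg A.ϖ⁻¹) n = A.Ln g (n + -1) := by
  rw [← Ln_dg, zpow_neg_one]

theorem nvA_eq {γ : Γ} (h : ∀ x, ν (A.act γ x) = ν' x) : nvA A ν γ = ν' :=
  NV.ext (AbsoluteValue.ext h)

theorem gv_step (hA : A.Ok) (h : A.Gv g ε ν) (γ : Γ) : A.Gv (A.π γ * (g * dg A.ϖ⁻¹))
    (fun n => (ε (n + -1)).comp (A.act γ⁻¹ : L →ₐ[C] L)) (nvA A ν γ⁻¹) :=
  gv_act hA (ε := fun n => ε (n + -1)) (fun n x hx => h _ x (Ln_dg1 (A := A) g n ▸ hx)) γ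

theorem bas_step (hA : A.Ok) (h : A.Bas D Y θ g b ε) (γ : Γ) :
    A.Bas D (A.sm γ Y) (θ.comp (A.act γ⁻¹ : L →ₐ[C] L)) (A.π γ * (g * dg A.ϖ⁻¹))
      (b * algebraMap E C A.ϖ ^ (-1 : ℤ)) fun n => (ε (n + -1)).comp (A.act γ⁻¹ : L →ₐ[C] L) := by
  have := bas_act hA (bas_pi h (-1)) γ
  rwa [zpow_neg_one A.ϖ] at this

theorem comap_eq {M : IntermediateField C L} : ν.comap M = ν'.comap M ↔ ∀ x ∈ M, ν x = ν' x :=
  ⟨fun h x hx => NV.congr h ⟨x, hx⟩, fun h => NV.ext (AbsoluteValue.ext fun x => h x x.2)⟩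

variable (R : Rows A) (hD : D.Ok A.ϖ)
include R hD

theorem Rows.orb : A.ORB := FI.orb R.ok R.mat R.fac R.fcs R.sa R.hyp R.bas R.unq

theorem Vt.cff (h : Vt A S g) (ho : A.Ord D ν g) : CFF (kC C) (kap (ν.comap (A.K S))) := by
  obtain ⟨W, hW, rfl⟩ := h
  exact (R.fro D hD ν g ho W hW 0).1 _ (R.mat.1 g) (np0 R.mat g)

theorem Vt.brn (h : Vt A S g) (hB : A.Bas D Y θ g b ε) (hν : A.Gv g ε ν) :
    ∃ z, Brn ((ε 0).comp (A.K S).val) (ν.comap (A.K S)) z := by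
  have h1 := h.le R.mat
  obtain ⟨W, hW, rfl⟩ := h
  have := R.ok.cff W hW _ (R.mat.1 g)
  obtain ⟨j, hj, -⟩ := R.dsc D hD _ _ _ _ _ hB 0 W hW _ (R.mat.1 g) (np0 R.mat g)
  obtain ⟨η, h2, -, z, h3, -⟩ := R.bra R.ok.gf _ _ j hj
  obtain rfl := gs_ext (fun x hx => (hj.fac x hx).imp fun _ h => h.imp fun _ h => h.1) h2 (gs_comap hν h1)
  exact ⟨z, h3⟩

theorem Vt.upi (h : Vt A S g) (hB : A.Bas D Y θ g b ε) (hB' : A.Bas D Y' θ' g' b' ε')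
    (hg : g⁻¹ * g' ∈ KZ O E) {η : NV C (A.K S)} {z : Plk (kC C) (kap η)}
    (h1 : Gs ((ε 0).comp (A.K S).val) η) (h2 : Gs ((ε' 0).comp (A.K S).val) η)
    (h3 : Brn ((ε 0).comp (A.K S).val) η z) (h4 : Brn ((ε' 0).comp (A.K S).val) η z) :
    ∃ u ∈ S, Y' = A.sm u Y := by
  obtain ⟨W, hW, rfl⟩ := h
  exact R.upi D hD _ _ _ _ _ _ _ _ _ _ hB hB' hg W hW η z h1 h2 h3 h4

theorem Vt.cof (h : Vt A S g) (ho : A.Ord D ν g) :
    ∃ Z : Set (Plk (kC C) (kap (ν.comap (A.K S)))), Z.Finite ∧ ∀ z ∉ Z, ∃ x θ g' b ε,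
      A.Bas D x θ g' b ε ∧ g⁻¹ * g' ∈ KZ O E ∧
      Gs ((ε 0).comp (A.K S).val) (ν.comap (A.K S)) ∧
      Brn ((ε 0).comp (A.K S).val) (ν.comap (A.K S)) z := by
  obtain ⟨W, hW, rfl⟩ := h
  exact R.cof D hD ν g ho W hW

theorem nu_eq (hB : A.Bas D Y θ g b ε) (hν : A.Gv g ε ν) (hB' : A.Bas D Y θ' g' b' ε')
    (hν' : A.Gv g' ε' ν') : ν' = ν :=
  ((R.orb hD D hD).2 ν g ⟨_, _, _, _, hB, hν⟩).2.2 _ _ _ _ _ _ _ _ _ hB hν hB' hν'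

theorem same_pt (hB : A.Bas D Y θ g b ε) (hB' : A.Bas D Y θ' g' b' ε') (hg : g⁻¹ * g' ∈ KZ O E) :
    ∃ o : Oˣ, ∀ n h, ε' n h = sub (D.br o) (ε n h) := by
  have := R.ok.lf.fr
  obtain ⟨a1, a2⟩ := (R.hyp Y θ g hB.cm).2.2 θ' g' hB'.cm
  obtain ⟨c, μ, z, hz, e, hc⟩ := borel a1
  rw [hc a2, un_zero, one_mul] at e
  obtain ⟨o, ho⟩ := unit_of_KZ hz (e ▸ hg)
  rw [inv_mul_eq_iff_eq_mul, ← mul_assoc] at e
  have h1 := bas_z (bas_o R.ok R.fac R.fcs hD hB ho) hz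
  rw [← e] at h1
  exact ⟨o, fun n h => by rw [R.unq D hD _ _ _ _ _ _ _ _ h1 hB']; rfl⟩

theorem brn_congr (h : Vt A S g) (hB : A.Bas D Y θ g b ε) {s : Γ} (hs : s ∈ S)
    (hB' : A.Bas D (A.sm s Y) θ' g' b' ε') (hg : g⁻¹ * g' ∈ KZ O E) {η : NV C (A.K S)}
    {z z' : Plk (kC C) (kap η)} (h1 : Gs ((ε 0).comp (A.K S).val) η)
    (h3 : Brn ((ε 0).comp (A.K S).val) η z) (h4 : Brn ((ε' 0).comp (A.K S).val) η z') :
    z = z' := by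
  obtain ⟨o, ho⟩ := same_pt R hD (bas_act R.ok hB s) hB'
    (kz_trans (by simpa using h.kz hs (g' := g) (by simp)) hg)
  refine brn_ext fun x hx => ?_
  obtain ⟨c, Dv, e⟩ := fac_val hB (h.le R.mat) x (ne_of_one hx)
  have hc : ‖c‖ = 1 := (h1 x c Dv e).symm.trans hx
  obtain ⟨c', D', e', a1, a2⟩ := fac_br R.fcs R.ok.lf hD o e
  have e2 : (ε' 0).comp (A.K S).val x = sub (D.br o) ((ε 0).comp (A.K S).val x) :=
    (ho 0 x).trans (congrArg (fun y => sub (D.br o) (ε 0 y)) (A.mem_K.1 x.2 _ (inv_mem hs)))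
  rw [h3 x c Dv e hc, h4 x c' D' (e2 ▸ e') (a1.trans hc), a2]

theorem dg_step (hB : A.Bas D Y θ g b ε) (hν : A.Gv g ε ν) {n m : ℤ} (hm : m = n + 1) {h h' : L}
    (h1 : h ∈ A.Ln g n) (h2 : h' ∈ A.Ln g m) (h3 : ν (h - h') < 1) {c c' : C}
    {Dv D' : C →₀ ℤ} (e : Fac (ε n h) c Dv) (hc : ‖c‖ = 1) (e' : Fac (ε m h') c' D') :
    ‖c'‖ = 1 ∧ (0 ≤ dgD Dv ↔ 0 ≤ dgD D') := by
  subst hm
  have hc' : ‖c'‖ = 1 := (hν _ _ h2 _ _ e').symm.trans (eq_of_sub ((hν _ _ h1 _ _ e).trans hc) h3)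
  obtain ⟨c₁, D₁, e₁, a1, a2⟩ := fac_sub R.fcs (f_deg hD).1 (qq_pos R.ok.lf) (f_deg hD).2.1
    (f_deg hD).2.2 (f_zero R.ok.lf hD) e
  rw [← eps_succ R.ok hD hB] at e₁
  have a3 : dgD D₁ = dgD D' := by
    rcases eq_or_ne (h - h') 0 with h0 | h0
    · rw [sub_eq_zero.1 h0] at e₁
      rw [(R.fac.1 _ _ _ _ _ e₁ e').2]
    · have h4 := sub_mem (Ln_mono R.ok g (Int.le_add_one le_rfl) h1) h2
      obtain ⟨c₃, D₃, e₃⟩ := hB.fac _ _ h4 h0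
      rw [hν _ _ h4 _ _ e₃] at h3
      exact ((R.fac.2.2.2.2.1 _ _ _ _ _ _ _ _ e₃ e' (by rwa [← map_add, sub_add_cancel])).2.2
        h3.le hc'.le (a1.trans hc)).1 h3
  refine ⟨hc', ?_⟩
  rw [← a3, a2, mul_nonneg_iff_of_pos_left (by exact_mod_cast qq_pos R.ok.lf)]

theorem norm_frame (h : Vt A S g₀) (ho : A.Ord D ν₀ g₀) (hB : A.Bas D Y θ g b ε)
    (hν : A.Gv g ε ν) (hg : g₀⁻¹ * g ∈ KZ O E) (e : ∀ x ∈ A.K S, ν₀ x = ν x) :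
    ∃ s ∈ S, ∃ θ' b' ε', A.Bas D (A.sm s Y) θ' g₀ b' ε' ∧ A.Gv g₀ ε' ν₀ := by
  obtain ⟨u, hu, -, e1⟩ := (h.lv R.mat).conj_nv R.ok le_rfl e
  have b1 := bas_act R.ok hB u⁻¹
  have v1 := gv_act R.ok hν u⁻¹
  rw [inv_inv, nvA_eq e1] at v1
  rw [inv_inv] at b1
  have k1 := h.kz (inv_mem hu) hg
  obtain ⟨c, μ, z, hz, e2, -⟩ := borel (R.en D hD ν₀ _ _ ho ⟨_, _, _, _, b1, v1⟩)
  have hc : Io O c := io_of_KZ hz (e2 ▸ k1)
  obtain ⟨δ, hδ, e3⟩ := exists_un R.sa g₀ (-c)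
  have b2 := bas_act R.ok b1 δ
  have v2 := gv_act R.ok v1 δ
  obtain ⟨_, _, _, _, b0, v0⟩ := ho
  rw [nvA_eq (nu_un R.ok R.mat R.fcs hD b0 v0 (inv_mem hδ) (c := c) (by
    rw [map_inv, e3, ← neg_neg c, un_neg (-c), neg_neg]
    exact fm_inv (fm_self _ _)))] at v2
  obtain ⟨b₃, ε₃, b3, v3⟩ := frame_diag R.ok R.mat R.fac R.fcs hD b2 v2 μ⁻¹ (inv_mem hz)
  have e4 : A.π δ * (A.π u⁻¹ * g) * dg μ⁻¹ * z⁻¹ = g₀ := by
    rw [inv_mul_eq_iff_eq_mul.1 e2, e3, un_neg, dg_inv, mul_assoc _ _ z⁻¹, zl_comm (inv_mem hz)]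
    group
  rw [e4] at b3 v3
  rw [← A.sm_mul] at b3
  refine ⟨δ * u⁻¹, mul_mem ?_ (inv_mem hu), _, _, _, b3, v3⟩
  obtain ⟨W, hW, rfl⟩ := h
  exact mem_U.2 ⟨mem_H.1 hδ W hW, e3 ▸ (np0 R.mat g₀ _).2 (by simpa using io_neg hc)⟩

/-- one step -/
theorem step {W : Subgroup Γ} (hW : W ∈ A.Wl) (ho : A.Ord D ν g) {S' : Subgroup Γ} {γ : Γ}
    (hS : S = A.U W (Vx O g)) (hS' : S' = cj γ (A.U W (Vx O (g * dg A.ϖ⁻¹)))) :
    ∃ F : kap ((nvA A ν γ⁻¹).comap (A.K S')) →ₐ[kC C] kap (ν.comap (A.K S)), Pw F (qq O) ∧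
      ∀ Y θ b ε, A.Bas D Y θ g b ε → A.Gv g ε ν → ∀ z z',
        Brn ((ε 0).comp (A.K S).val) (ν.comap (A.K S)) z →
        Brn (((ε (0 + -1)).comp (A.act γ⁻¹ : L →ₐ[C] L)).comp (A.K S').val)
          ((nvA A ν γ⁻¹).comap (A.K S')) z' → ∀ f, f ∈ z'.1 ↔ F f ∈ z.1 := by
  obtain ⟨-, -, f3, f4⟩ := R.fro D hD ν g ho W hW 0
  rw [zero_sub, zpow_neg_one, zpow_zero, dg_one, mul_one] at f3 f4
  subst hS hS'
  have m1 : ∀ f : A.K (cj γ (A.U W (Vx O (g * dg A.ϖ⁻¹)))),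
      A.act γ⁻¹ f ∈ A.Kv W (g * dg A.ϖ⁻¹) := fun f =>
    (AT.mem_K_cj γ).1 (by rw [A.act_inv']; exact f.2)
  obtain ⟨F, hF⟩ := exists_F (ν := ν) (η := ν.comap (A.Kv W g))
    (η' := (nvA A ν γ⁻¹).comap (A.K (cj γ (A.U W (Vx O (g * dg A.ϖ⁻¹)))))) (A.Kv W g).val
    ((A.act γ⁻¹ : L →ₐ[C] L).comp (IntermediateField.val _)) (fun _ => rfl) (fun _ => rfl)
    fun f hf => by
      obtain ⟨h', a1, -, a3⟩ := f3 _ (m1 f) hf
      exact ⟨⟨h', a1⟩ ^ qq O, a3⟩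
  refine ⟨F, ⟨fun x => ?_, fun y => ?_⟩, fun Y θ b ε hB hν z z' hz hz' f => ?_⟩
  · obtain ⟨x, hx, rfl⟩ := NV.red_surj x
    obtain ⟨h, a1, a2⟩ := f4 x x.2 hx
    have a3 : ν h ≤ 1 := by
      have := ν.na (h - x ^ qq O) (x ^ qq O)
      rw [sub_add_cancel] at this
      exact this.trans (max_le a2.le (by rw [map_pow]; exact pow_le_one₀ (ν.av.nonneg _) hx))
    rw [← A.act_inv γ h] at a2 a3
    exact ⟨_, (hF ⟨A.act γ h, (AT.mem_K_cj γ).2 a1⟩ (x ^ qq O) a3 a2).trans (NV.red_pow hx _)⟩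
  · obtain ⟨f, hf, rfl⟩ := NV.red_surj y
    obtain ⟨h', a1, a2, a3⟩ := f3 _ (m1 f) hf
    exact ⟨_, (hF f (⟨h', a1⟩ ^ qq O) hf a3).trans
      (NV.red_pow (w := ν.comap (A.Kv W g)) (x := ⟨h', a1⟩) a2 _)⟩
  · obtain ⟨f, hf, rfl⟩ := NV.red_surj f
    rcases hf.lt_or_eq with e | e
    · rw [NV.red_of_lt e, map_zero]
      exact iff_of_true (zero_mem _) (zero_mem _)
    obtain ⟨h', a1, -, a3⟩ := f3 _ (m1 f) hf
    rw [hF f (⟨h', a1⟩ ^ qq O) hf a3]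
    have l0 := Vt.le R.mat (⟨W, hW, rfl⟩ : Vt A _ g)
    have l1 := Vt.le R.mat (⟨W, hW, rfl⟩ : Vt A _ (g * dg A.ϖ⁻¹)) (m1 f)
    rw [Ln_dg1] at l1
    obtain ⟨c, Dv, e1⟩ := hB.fac _ _ l1 (ne_of_one (η := ν) e)
    have hc : ‖c‖ = 1 := (hν _ _ l1 _ _ e1).symm.trans e
    obtain ⟨c', D', e2⟩ := fac_val hB l0 (⟨h', a1⟩ ^ qq O)
      (ne_of_one (η := ν.comap _) (eq_of_sub (ν := ν) e a3))
    obtain ⟨b1, b2⟩ := dg_step R hD hB hν (by norm_num) l1 (l0 (pow_mem a1 (qq O))) a3 e1 hc e2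
    rw [hz' f c Dv e1 hc, hz _ c' D' e2 b1, b2]

omit R hD

variable {P I : Type} (D) (F : Fam A P I)

/-- a basin over the point `y` -/
def Dt (y : P) (ε : ℤ → L →ₐ[C] C⸨X⸩) (ν : NV C L) : Prop := ∃ Y θ g b, F.Rp y Y ∧
  A.Bas D Y θ g b ε ∧ (F.fr (F.cp y))⁻¹ * g ∈ KZ O E ∧ A.Gv g ε ν

/-- the ordinary norms on the curves of the family -/
def En : Type := Σ c : I, {η : NV C (A.K (F.S c)) //
  ∃ ν g, A.Ord D ν g ∧ (F.fr c)⁻¹ * g ∈ KZ O E ∧ η = ν.comap (A.K (F.S c))}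

variable {D F}

/-- the norm of a basin -/
def Dt.en {y : P} (h : Dt D F y ε ν) : En D F :=
  ⟨F.cp y, ν.comap _, by
    obtain ⟨Y, θ, g, b, -, h1, h2, h3⟩ := h
    exact ⟨ν, g, ⟨_, _, _, _, h1, h3⟩, h2, rfl⟩⟩

/-- an ordinary norm -/
def mkE {c : I} (ho : A.Ord D ν g) (h2 : (F.fr c)⁻¹ * g ∈ KZ O E) : En D F :=
  ⟨c, ν.comap _, ν, g, ho, h2, rfl⟩

/-- `z` is the branch of the point `y` -/
def Br (y : P) (e : En D F) (z : Plk (kC C) (kap e.2.1)) : Prop :=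
  ∃ ε ν, ∃ h : Dt D F y ε ν, h.en = e ∧ Brn ((ε 0).comp (A.K (F.S e.1)).val) e.2.1 z

variable (hF : F.Ok) {y : P}
include R hD hF

theorem vt (c : I) : Vt A (F.S c) (F.fr c) := hF.vt c

theorem ex_dt (y : P) : ∃ ε ν, Dt D F y ε ν := by
  obtain ⟨Y, hY⟩ := hF.ex y
  obtain ⟨h1, θ, g, h2, h3⟩ := hF.cm y Y hY
  obtain ⟨b, ε, hB⟩ := R.bas D hD Y θ g h2 h1
  obtain ⟨ν, hν⟩ := exists_gv R.ok R.mat R.fac R.fcs hD hB
  exact ⟨ε, ν, Y, θ, g, b, hY, hB, h3, hν⟩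

theorem Dt.en_eq (h : Dt D F y ε ν) (h' : Dt D F y ε' ν') : h.en = h'.en := by
  have : ν.comap (A.K (F.S (F.cp y))) = ν'.comap _ := by
    obtain ⟨Y, θ, g, b, h0, h1, h2, h3⟩ := h
    obtain ⟨Y', θ', g', b', h0', h1', h2', h3'⟩ := h'
    obtain ⟨s, hs, rfl⟩ := (hF.cnj y Y Y' h0).1 h0'
    rw [nu_eq R hD (bas_act R.ok h1 s) (gv_act R.ok h3 s) h1' h3', comap_eq]
    intro x hx
    rw [nvA_apply, A.mem_K.1 hx _ (inv_mem hs)]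
  exact congrArg (Sigma.mk (F.cp y)) (Subtype.ext this)

theorem Dt.gs (h : Dt D F y ε ν) : Gs ((ε 0).comp (A.K (F.S h.en.1)).val) h.en.2.1 := by
  obtain ⟨Y, θ, g, b, h0, h1, h2, h3⟩ := id h
  exact gs_comap h3 (((vt R hD hF _).frame R.mat h2).le R.mat)

theorem Dt.br (h : Dt D F y ε ν) : ∃ z, Br y h.en z := by
  obtain ⟨Y, θ, g, b, h0, h1, h2, h3⟩ := id h
  obtain ⟨z, hz⟩ := ((vt R hD hF _).frame R.mat h2).brn R hD h1 h3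
  exact ⟨z, ε, ν, h, rfl, hz⟩

theorem Br.unique {e : En D F} {z z' : Plk (kC C) (kap e.2.1)} (h : Br y e z) (h' : Br y e z') :
    z = z' := by
  obtain ⟨ε, ν, h, rfl, hz⟩ := h
  obtain ⟨ε', ν', h', -, hz'⟩ := h'
  have k := h.gs R hD hF
  obtain ⟨Y, θ, g, b, h0, h1, h2, h3⟩ := id h
  obtain ⟨Y', θ', g', b', h0', h1', h2', h3'⟩ := h'
  obtain ⟨s, hs, rfl⟩ := (hF.cnj y Y Y' h0).1 h0'
  exact brn_congr R hD ((vt R hD hF _).frame R.mat h2) h1 hs h1' (kz_trans h2 h2') k hz hz'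

theorem Br.inj {y' : P} {e : En D F} {z : Plk (kC C) (kap e.2.1)} (h : Br y e z) (h' : Br y' e z) :
    y = y' := by
  obtain ⟨ε, ν, h, rfl, hz⟩ := h
  obtain ⟨ε', ν', h', e, hz'⟩ := h'
  have k := h.gs R hD hF
  have k' := h'.gs R hD hF
  rw [e] at k'
  have hc : F.cp y' = F.cp y := congrArg Sigma.fst e
  obtain ⟨Y, θ, g, b, h0, h1, h2, h3⟩ := id h
  obtain ⟨Y', θ', g', b', h0', h1', h2', h3'⟩ := h'
  rw [hc] at h2'
  obtain ⟨u, hu, e1⟩ := ((vt R hD hF _).frame R.mat h2).upi R hD h1 h1' (kz_trans h2 h2') k k' hz hz'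
  exact hF.inj y y' Y' hc.symm ((hF.cnj y Y Y' h0).2 ⟨u, hu, e1⟩) h0'

theorem en_surj (e : En D F) : ∃ y ε ν, ∃ h : Dt D F y ε ν, h.en = e := by
  obtain ⟨c, _, ν, g, ⟨Y, θ, b, ε, h1, h3⟩, h2, rfl⟩ := e
  obtain ⟨y, rfl, h0⟩ := hF.pt c Y θ g h1.hyp h1.cm h2
  exact ⟨y, ε, ν, ⟨Y, θ, g, b, h0, h1, h2, h3⟩, rfl⟩

theorem br_cof (e : En D F) : ∃ Z : Set (Plk (kC C) (kap e.2.1)), Z.Finite ∧
    ∀ z ∉ Z, ∃ y, Br y e z := by
  obtain ⟨c, _, ν, g, ho, h2, rfl⟩ := e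
  have hV := (vt R hD hF c).frame R.mat h2
  obtain ⟨Z, hZ, h⟩ := hV.cof R hD ho
  refine ⟨Z, hZ, fun z hz => ?_⟩
  obtain ⟨Y, θ, g', b, ε, a1, a2, a3, a4⟩ := h z hz
  have a5 : (F.fr c)⁻¹ * g' ∈ KZ O E := by simpa [mul_assoc] using mul_mem h2 a2
  obtain ⟨y, rfl, h0⟩ := hF.pt c Y θ g' a1.hyp a1.cm a5
  obtain ⟨ν', hν⟩ := exists_gv R.ok R.mat R.fac R.fcs hD a1
  have l := (hV.frame R.mat a2).le R.mat
  exact ⟨y, ε, ν', ⟨Y, θ, g', b, h0, a1, a5, hν⟩, congrArg (Sigma.mk (F.cp y))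
    (Subtype.ext (gs_ext (fac_val a1 l) (gs_comap hν l) a3)), a4⟩

theorem br_norm {c : I} (ho : A.Ord D ν g) (h2 : (F.fr c)⁻¹ * g ∈ KZ O E)
    {z : Plk (kC C) (kap (ν.comap (A.K (F.S c))))} (hz : Br y (mkE ho h2) z) :
    ∃ Y θ b ε, F.cp y = c ∧ F.Rp y Y ∧ A.Bas D Y θ g b ε ∧ A.Gv g ε ν ∧
      Brn ((ε 0).comp (A.K (F.S c)).val) (ν.comap (A.K (F.S c))) z := by
  obtain ⟨ε₁, ν₁, h, e, -⟩ := id hz
  obtain rfl : F.cp y = c := congrArg Sigma.fst e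
  have e1 : ν₁.comap (A.K (F.S (F.cp y))) = ν.comap _ :=
    congrArg Subtype.val (eq_of_heq (Sigma.mk.inj e).2)
  obtain ⟨Y, θ, g₁, b, h0, h1, h3, h4⟩ := h
  have hV := (vt R hD hF _).frame R.mat h2
  obtain ⟨s, hs, θ', b', ε, a1, a2⟩ := norm_frame R hD hV ho h1 h4 (kz_trans h2 h3)
    (comap_eq.1 e1.symm)
  have a0 := (hF.cnj y Y _ h0).2 ⟨s, hs, rfl⟩
  obtain ⟨z₀, hz₀⟩ := hV.brn R hD a1 a2
  have : z = z₀ := hz.unique R hD hF ⟨ε, ν, ⟨_, _, _, _, a0, a1, h2, a2⟩, rfl, hz₀⟩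
  exact ⟨_, _, _, ε, rfl, a0, a1, a2, this ▸ hz₀⟩

theorem br_mk {c : I} (ho : A.Ord D ν g) (h2 : (F.fr c)⁻¹ * g ∈ KZ O E) (hc : F.cp y = c)
    (h0 : F.Rp y Y) (hB : A.Bas D Y θ g b ε) (hν : A.Gv g ε ν) :
    ∃ z, Br y (mkE ho h2) z ∧ Brn ((ε 0).comp (A.K (F.S c)).val) (ν.comap (A.K (F.S c))) z := by
  subst hc
  obtain ⟨z, hz⟩ := ((vt R hD hF _).frame R.mat h2).brn R hD hB hν
  exact ⟨z, ⟨_, _, ⟨_, _, _, _, h0, hB, h2, hν⟩, rfl, hz⟩, hz⟩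

theorem en_step (e : En D F) : ∃ (e' : En D F) (G : kap e'.2.1 →ₐ[kC C] kap e.2.1),
    Pw G (qq O) ∧ ∀ y z, Br y e z → ∃ z', Br (F.φ y) e' z' ∧ ∀ f, f ∈ z'.1 ↔ G f ∈ z.1 := by
  obtain ⟨c, _, ν, g, ho, h2, rfl⟩ := e
  obtain ⟨c', γ, W, hW, s1, s2, s3, s4⟩ := hF.st c g h2
  have ho' : A.Ord D (nvA A ν γ⁻¹) (A.π γ * (g * dg A.ϖ⁻¹)) := by
    obtain ⟨Y, θ, b, ε, h1, h3⟩ := ho
    exact ⟨_, _, _, _, bas_step R.ok h1 γ, gv_step R.ok h3 γ⟩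
  have key : ∀ y z, Br y (mkE ho h2) z → ∃ z', Br (F.φ y) (mkE ho' s3) z' ∧ ∃ Y θ b ε,
      A.Bas D Y θ g b ε ∧ A.Gv g ε ν ∧
      Brn ((ε 0).comp (A.K (F.S c)).val) (ν.comap (A.K (F.S c))) z ∧
      Brn (((ε (0 + -1)).comp (A.act γ⁻¹ : L →ₐ[C] L)).comp (A.K (F.S c')).val)
        ((nvA A ν γ⁻¹).comap (A.K (F.S c'))) z' := fun y z hz => by
    obtain ⟨Y, θ, b, ε, a0, a1, a2, a3, a4⟩ := br_norm R hD hF ho h2 hz
    obtain ⟨a5, a6⟩ := s4 y _ _ a0 a1 a2.cm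
    obtain ⟨z', a7, a8⟩ := br_mk R hD hF ho' s3 a5 a6 (bas_step R.ok a2 γ) (gv_step R.ok a3 γ)
    exact ⟨z', a7, Y, θ, b, ε, a2, a3, a4, a8⟩
  exact (step R hD hW ho s1 s2).elim fun G hG => ⟨mkE ho' s3, G, hG.1, fun y z hz =>
    (key y z hz).imp fun z' h => ⟨h.1, h.2.elim fun Y h => h.elim fun θ h => h.elim fun b h =>
      h.elim fun ε h => hG.2 Y θ b ε h.1 h.2.1 z z' h.2.2.1 h.2.2.2⟩⟩

end As

open As

variable {C L Γ O E : Type} [NontriviallyNormedField C] [IsUltrametricDist C] [CompleteSpace C]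
  [IsAlgClosed C] [CharZero C] [Field L] [Algebra C L] [Group Γ] [CommRing O] [IsDomain O]
  [IsDiscreteValuationRing O] [Field E] [Algebra O E] [Algebra E C] {A : AT C L Γ O E}

/-- **ASM** -/
theorem asm (R : Rows A) : A.ASM := by
  classical
  intro D hD P I _ F hF _ N hN hg c ν g ho h2 _
  have cf : ∀ e : En D F, CFF (kC C) (kap e.2.1) := by
    rintro ⟨c, _, ν, g, ho, h2, rfl⟩
    exact ((vt R hD hF c).frame R.mat h2).cff R hD ho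
  choose ε₀ ν₀ dt using ex_dt R hD hF
  have pt_eq : ∀ {y e z}, Br y e z → (dt y).en = e := by
    rintro y _ z ⟨ε, ν, h, rfl, -⟩
    exact (dt y).en_eq R hD hF h
  let pl : ∀ e : En D F, P → Plk (kC C) (kap e.2.1) := fun e y =>
    if h : ∃ z, Br y e z then h.choose else (nonempty_Plk (kC C) (kap e.2.1)).some
  have pl_eq : ∀ {y e z}, Br y e z → pl e y = z := fun {y e z} h => by
    have h1 : ∃ z, Br y e z := ⟨z, h⟩
    simp only [pl, dif_pos h1]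
    exact h1.choose_spec.unique R hD hF h
  have pl_br : ∀ y, Br y (dt y).en (pl _ y) := fun y => by
    obtain ⟨z, hz⟩ := (dt y).br R hD hF
    rwa [pl_eq hz]
  choose ψ G g1 g2 using en_step R hD hF
  obtain ⟨b1, b2⟩ := hN (En D F) (fun e => kap e.2.1) ψ G g1 (fun y => (dt y).en)
    (fun e => by
      obtain ⟨y, ε, ν, h, rfl⟩ := en_surj R hD hF e
      exact ⟨y, (dt y).en_eq R hD hF h⟩)
    (fun y => (g2 _ y _ (pl_br y)).elim fun z h => pt_eq h.1) pl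
    (fun y f => (g2 _ y _ (pl_br y)).elim fun z h => by rw [pl_eq h.1]; exact h.2 f)
    (fun y y' e e' => (pl_br y).inj R hD hF (by
      have := pl_br y'
      rw [e']
      rwa [← e] at this))
    (fun e => by
      obtain ⟨Z, hZ, h⟩ := br_cof R hD hF e
      refine hZ.subset fun z hz => by_contra fun h1 => ?_
      obtain ⟨y, hy⟩ := h z h1
      exact hz y (pt_eq hy) (pl_eq hy))
    Sigma.fst (fun c => (hF.sur c).elim fun y h => ⟨(dt y).en, h⟩)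
  have := Finite.of_injective _ b1.1
  have := Fintype.ofFinite (En D F)
  have := Fintype.ofFinite I
  rw [finsum_eq_sum_of_fintype] at b2 hg
  rw [← b1.sum_comp] at hg
  have le : ∀ e ∈ (Finset.univ : Finset (En D F)),
      gen (kC C) (kap e.2.1) ≤ gen C (A.K (F.S e.1)) := fun e _ =>
    gen_red_le e.2.1 R.ok.gf.sph R.ok.gf.onto
  exact ((Finset.sum_eq_sum_iff_of_le le).1 (le_antisymm (Finset.sum_le_sum le) (hg.trans b2))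
    ⟨c, _, ν, g, ho, h2, rfl⟩ (Finset.mem_univ _)).ge

end Vale.Agent.P022K.FI
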