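import Vale.Agent.P022K.FI.Cmp2
import Vale.Agent.P025.R2.H401.Plc
import Vale.Agent.P025.R2.H552.LauK
import Vale.Agent.P025.R2.H492.Line

/-!
# P022K, block FI, row AN4: expansions of a field at a place, convergence, places of points
-/

set_option linter.all false

noncomputable section

namespace Vale.Agent.P022K.FI.An4

open PowerSeries Filter Topology LaurentSeries P025H552 Vale.Agent.P019P IntermediateField

section formal

variable {k : Type*} [Field k] {L : Type*} [Field L] [Algebra k L]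

/-- a Laurent series without polar part -/
def Reg (z : k⸨X⸩) : Prop := ∃ g : k⟦X⟧, z = ofPS g

theorem order_ofPS_nonneg (g : k⟦X⟧) : 0 ≤ (ofPS g).order := by
  by_cases h : ofPS g = 0
  · rw [h, HahnSeries.order_zero]
  by_contra hlt
  apply HahnSeries.coeff_order_eq_zero.not.2 h
  rw [PowerSeries.coeff_coe, if_pos (not_le.1 hlt)]

theorem reg_iff {z : k⸨X⸩} : Reg z ↔ 0 ≤ z.order := by
  refine ⟨fun ⟨g, h⟩ => h ▸ order_ofPS_nonneg g, fun h => ?_⟩
  obtain ⟨n, hn⟩ := Int.eq_ofNat_of_zero_le h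
  exact ⟨X ^ n * z.powerSeriesPart, (X_order_mul_powerSeriesPart hn.symm).symm⟩

theorem coeff_ofPS (g : k⟦X⟧) (n : ℕ) : (ofPS g).coeff (n : ℤ) = coeff n g :=
  coeff_coe_powerSeries g n

theorem ofPS_ne {g : k⟦X⟧} (h : g ≠ 0) : ofPS g ≠ 0 := fun e => h (ofPS_inj (by rw [e, map_zero]))

theorem order_inv' (z : k⸨X⸩) : z⁻¹.order = -z.order := by
  by_cases h : z = 0
  · simp [h]
  exact (hasOrd_order h).inv.order_eq

theorem reg_or_inv (z : k⸨X⸩) : Reg z ∨ Reg z⁻¹ := by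
  rw [reg_iff, reg_iff, order_inv']
  omega

/-- the order of a power series: first non zero coefficient -/
theorem order_ofPS {g : k⟦X⟧} {n : ℕ} (h0 : ∀ m < n, coeff m g = 0) (h1 : coeff n g ≠ 0) :
    (ofPS g).order = n := by
  obtain ⟨u, rfl⟩ := X_pow_dvd_iff.2 h0
  have h2 : constantCoeff u ≠ 0 := by
    rwa [← coeff_zero_eq_constantCoeff_apply, ← coeff_X_pow_mul u n 0, zero_add]
  exact HasOrd.order_eq ⟨u, h2, by rw [map_mul, map_pow, ofPS_X, zpow_natCast]⟩

theorem coeff_of_lt_order {g : k⟦X⟧} {m : ℕ} (h : (m : ℤ) < (ofPS g).order) : coeff m g = 0 := by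
  rw [← coeff_ofPS]
  exact HahnSeries.coeff_eq_zero_of_lt_order h

theorem order_pos_iff {g : k⟦X⟧} (h : g ≠ 0) : 0 < (ofPS g).order ↔ constantCoeff g = 0 := by
  rw [← coeff_zero_eq_constantCoeff_apply]
  refine ⟨fun h1 => coeff_of_lt_order h1, fun h1 => ?_⟩
  refine (order_ofPS_nonneg g).lt_of_ne fun e => ?_
  apply HahnSeries.coeff_order_eq_zero.not.2 (ofPS_ne h)
  rw [← e, ← h1]
  exact coeff_ofPS g 0

theorem order_eq_one_iff {g : k⟦X⟧} :
    (ofPS g).order = 1 ↔ constantCoeff g = 0 ∧ coeff 1 g ≠ 0 := by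
  rw [← coeff_zero_eq_constantCoeff_apply]
  refine ⟨fun h => ⟨coeff_of_lt_order (by rw [h]; norm_num), ?_⟩, fun h => order_ofPS (n := 1)
    (fun m hm => by rw [Nat.lt_one_iff.1 hm]; exact h.1) h.2⟩
  have h0 : ofPS g ≠ 0 := fun e => by rw [e, HahnSeries.order_zero] at h; exact zero_ne_one h
  have := HahnSeries.coeff_order_eq_zero.not.2 h0
  rwa [h, ← Nat.cast_one, coeff_ofPS] at this

theorem exists_lin_of_order {z : k⸨X⸩} (h : z.order = 1) :
    ∃ g : k⟦X⟧, z = ofPS g ∧ constantCoeff g = 0 ∧ coeff 1 g ≠ 0 := by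
  obtain ⟨g, rfl⟩ := reg_iff.2 (show 0 ≤ z.order by omega)
  exact ⟨g, rfl, order_eq_one_iff.1 h⟩

/-- homomorphisms on Laurent series are determined by their values on power series -/
theorem lau_ext {A : Type*} [Field A] [Algebra k A] {S T : k⸨X⸩ →ₐ[k] A}
    (h : ∀ g : k⟦X⟧, S (ofPS g) = T (ofPS g)) : S = T := by
  refine AlgHom.ext fun z => ?_
  rcases reg_or_inv z with ⟨g, rfl⟩ | ⟨g, e⟩
  · exact h g
  · rw [← inv_inv z, e, map_inv₀, map_inv₀, h]

/-- `S` is the substitution of `φ` in Laurent series -/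
def IsSub (φ : k⟦X⟧) (S : k⸨X⸩ →ₐ[k] k⸨X⸩) : Prop :=
  ∀ f : k⟦X⟧, S (ofPS f) = ofPS (f.subst φ)

variable {φ ψ : k⟦X⟧} {S T : k⸨X⸩ →ₐ[k] k⸨X⸩}

theorem constantCoeff_subst' (h0 : constantCoeff φ = 0) (f : k⟦X⟧) :
    constantCoeff (f.subst φ : k⟦X⟧) = constantCoeff f := by
  have h := HasSubst.of_constantCoeff_zero' h0
  rw [← coeff_zero_eq_constantCoeff_apply, coeff_subst' h, finsum_eq_single _ 0]
  · simp
  · intro d hd
    rw [coeff_zero_eq_constantCoeff_apply, map_pow, h0, zero_pow hd, smul_zero]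

theorem subst_ne_zero (h0 : constantCoeff φ = 0) (h1 : φ ≠ 0) {f : k⟦X⟧} (hf : f ≠ 0) :
    (f.subst φ : k⟦X⟧) ≠ 0 := by
  have h := HasSubst.of_constantCoeff_zero' h0
  have e := X_pow_order_mul_divXPowOrder (f := f)
  have h2 : constantCoeff (divXPowOrder f) ≠ 0 := by
    rwa [Ne, constantCoeff_divXPowOrder_eq_zero_iff]
  rw [← e, subst_mul h, subst_pow h, subst_X h]
  refine mul_ne_zero (pow_ne_zero _ h1) fun e2 => h2 ?_
  rw [← constantCoeff_subst' h0, e2, map_zero]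

theorem exists_isSub (h0 : constantCoeff φ = 0) (h1 : φ ≠ 0) : ∃ S, IsSub φ S := by
  have h := HasSubst.of_constantCoeff_zero' h0
  have hinj : Function.Injective ((ofPS (C := k)).comp
      (substAlgHom (R := k) h : k⟦X⟧ →ₐ[k] k⟦X⟧).toRingHom) := by
    rw [injective_iff_map_eq_zero]
    intro a ha
    by_contra hne
    refine ofPS_ne (subst_ne_zero h0 h1 hne) ?_
    rw [← coe_substAlgHom h]
    exact ha
  have hl : ∀ f : k⟦X⟧, IsFractionRing.lift (K := k⸨X⸩) hinj (ofPS f) = ofPS (f.subst φ) := by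
    intro f
    rw [← coe_substAlgHom h]
    exact IsFractionRing.lift_algebraMap hinj f
  refine ⟨⟨IsFractionRing.lift (K := k⸨X⸩) hinj, fun c => ?_⟩, hl⟩
  change IsFractionRing.lift (K := k⸨X⸩) hinj (algebraMap k k⸨X⸩ c) = _
  rw [← ofPS_C, hl, subst_C]
  rfl

theorem IsSub.unique (hS : IsSub φ S) (hT : IsSub φ T) : S = T :=
  lau_ext fun g => (hS g).trans (hT g).symm

theorem IsSub.LX (hS : IsSub φ S) (h0 : constantCoeff φ = 0) : S LX = ofPS φ := by
  rw [← ofPS_X, hS, subst_X (HasSubst.of_constantCoeff_zero' h0)]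

theorem IsSub.ne_zero (hS : IsSub φ S) (h0 : constantCoeff φ = 0) : φ ≠ 0 := by
  intro e
  have := hS.LX h0
  rw [e, map_zero, _root_.map_eq_zero] at this
  exact LX_ne_zero this

theorem IsSub.order (hS : IsSub φ S) (h0 : constantCoeff φ = 0) (z : k⸨X⸩) :
    (S z).order = z.order * (ofPS φ).order := by
  by_cases hz : z = 0
  · simp [hz]
  obtain ⟨u, hu, e⟩ := hasOrd_order hz
  have h1 : HasOrd (S (ofPS u)) 0 := by
    rw [hS]
    exact hasOrd_ofPS (by rwa [constantCoeff_subst' h0])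
  have h2 := ((hasOrd_order (ofPS_ne (hS.ne_zero h0))).zpow z.order).mul h1
  rw [← hS.LX h0, ← map_zpow₀, ← map_mul, ← e, add_zero, hS.LX h0] at h2
  exact h2.order_eq

theorem IsSub.comp (hS : IsSub φ S) (hT : IsSub ψ T) (h0 : constantCoeff φ = 0)
    (g0 : constantCoeff ψ = 0) : IsSub (φ.subst ψ) (T.comp S) := fun f => by
  rw [AlgHom.comp_apply, hS, hT, subst_comp_subst_apply (HasSubst.of_constantCoeff_zero' h0)
    (HasSubst.of_constantCoeff_zero' g0)]

theorem isSub_id : IsSub (X : k⟦X⟧) (AlgHom.id k k⸨X⸩) := fun f => by rw [X_subst]; rfl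

theorem IsSub.inv (hS : IsSub φ S) (hT : IsSub ψ T) (h0 : constantCoeff φ = 0)
    (g0 : constantCoeff ψ = 0) (e : φ.subst ψ = X) (z : k⸨X⸩) : T (S z) = z := by
  have := hS.comp hT h0 g0
  rw [e] at this
  exact DFunLike.congr_fun (this.unique isSub_id) z

/-- coefficients after the substitution of `a X` -/
theorem IsSub.coeff_rescale {a : k} (hS : IsSub (PowerSeries.C a * X) S) (z : k⸨X⸩) (n : ℤ) :
    (S z).coeff n = a ^ n * z.coeff n := by
  have h0 : constantCoeff (PowerSeries.C a * X : k⟦X⟧) = 0 := by simp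
  have ha : a ≠ 0 := fun e => hS.ne_zero h0 (by rw [e, map_zero, zero_mul])
  have e : z = HahnSeries.single z.order 1 * ofPS z.powerSeriesPart :=
    (single_order_mul_powerSeriesPart z).symm
  generalize z.order = m at e
  generalize z.powerSeriesPart = g at e
  have e2 : S z = HahnSeries.single m (a ^ m) * ofPS (rescale a g) := by
    rw [e, map_mul, hS, rescale_eq_subst, smul_eq_C_mul, ← LX_zpow, map_zpow₀, hS.LX h0, map_mul,
      mul_zpow, ofPS_X, LX_zpow, ofPS_C, ← map_zpow₀, LaurentSeries.algebraMap_apply,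
      HahnSeries.C_apply, HahnSeries.single_mul_single, zero_add, mul_one]
  obtain ⟨j, rfl⟩ : ∃ j, n = j + m := ⟨n - m, by ring⟩
  rw [e2, e, HahnSeries.coeff_single_mul_add, HahnSeries.coeff_single_mul_add, one_mul,
    PowerSeries.coeff_coe, PowerSeries.coeff_coe]
  split_ifs with h
  · simp
  · obtain ⟨i, rfl⟩ := Int.eq_ofNat_of_zero_le (not_lt.1 h)
    rw [Int.natAbs_natCast, PowerSeries.coeff_rescale, zpow_add₀ ha, zpow_natCast]
    ring

/-- **change of the local parameter**: two expansions at the same place differ by a substitution -/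
theorem lau_factor (ι κ : L →ₐ[k] k⸨X⸩) {s : L} (hs : ι s = LX) (hφ : κ s = ofPS φ)
    (h0 : constantCoeff φ = 0) (hreg : ∀ y, Reg (ι y) → Reg (κ y)) (hS : IsSub φ S) (y : L) :
    κ y = S (ι y) := by
  have h := HasSubst.of_constantCoeff_zero' h0
  have hs0 : s ≠ 0 := fun e => LX_ne_zero (C := k) (by rw [← hs, e, map_zero])
  have key : ∀ (n : ℕ) (y : L) (g g' : k⟦X⟧), ι y = ofPS g → κ y = ofPS g' →
      X ^ n ∣ g' - g.subst φ := by
    intro n
    induction n with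
    | zero => intro y g g' _ _; rw [pow_zero]; exact one_dvd _
    | succ n ih =>
      intro y g g' hg hg'
      obtain ⟨g1, e1⟩ : X ∣ g - PowerSeries.C (constantCoeff g) := X_dvd_iff.2 (by simp)
      have h1 : ι ((y - algebraMap k L (constantCoeff g)) / s) = ofPS g1 := by
        rw [map_div₀, map_sub, hg, hs, AlgHom.commutes, ← ofPS_C, ← map_sub, e1, map_mul, ofPS_X,
          mul_div_cancel_left₀ _ LX_ne_zero]
      obtain ⟨g1', h2⟩ := hreg _ ⟨g1, h1⟩
      have h3 := ih _ _ _ h1 h2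
      have e2 : g' = PowerSeries.C (constantCoeff g) + φ * g1' := by
        apply ofPS_inj
        rw [map_add, map_mul, ← h2, ← hφ, ← hg', ofPS_C, ← κ.commutes, ← map_mul, ← map_add,
          mul_div_cancel₀ _ hs0, add_sub_cancel]
      have e3 : (g.subst φ : k⟦X⟧) = PowerSeries.C (constantCoeff g) + φ * g1.subst φ := by
        conv_lhs => rw [sub_eq_iff_eq_add'.1 e1]
        rw [subst_add h, subst_mul h, subst_X h, subst_C]
        rfl
      rw [e2, e3, add_sub_add_left_eq_sub, ← mul_sub, pow_succ']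
      exact mul_dvd_mul (X_dvd_iff.2 h0) h3
  have key2 : ∀ y, Reg (ι y) → κ y = S (ι y) := by
    rintro y ⟨g, hg⟩
    obtain ⟨g', hg'⟩ := hreg y ⟨g, hg⟩
    rw [hg, hS, hg']
    congr 1
    rw [← sub_eq_zero]
    ext n
    exact X_pow_dvd_iff.1 (key (n + 1) y g g' hg hg') n n.lt_succ_self
  rcases reg_or_inv (ι y) with h1 | h1
  · exact key2 y h1
  · rw [← map_inv₀] at h1
    have := key2 _ h1
    rwa [map_inv₀, map_inv₀, map_inv₀, inv_inj] at this

/-- uniqueness of the expansion in a given local parameter -/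
theorem lau_unique (ι κ : L →ₐ[k] k⸨X⸩) {s : L} (hs : ι s = LX) (hs' : κ s = LX)
    (hreg : ∀ y, Reg (ι y) → Reg (κ y)) : κ = ι :=
  AlgHom.ext (lau_factor ι κ hs (hs'.trans ofPS_X.symm) constantCoeff_X hreg isSub_id)

/-- normalisation of an expansion -/
theorem exists_norm (κ : L →ₐ[k] k⸨X⸩) {s : L} (hφ : κ s = ofPS φ) (h0 : constantCoeff φ = 0)
    (h1 : coeff 1 φ ≠ 0) (hS : IsSub φ S) : ∃ ι : L →ₐ[k] k⸨X⸩, ι s = LX ∧
      (∀ y, κ y = S (ι y)) ∧ ∀ y, (ι y).order = (κ y).order := by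
  have hu : IsUnit (coeff 1 φ) := h1.isUnit
  have g0 := constantCoeff_substInvOfIsUnit φ hu
  have g1 : coeff 1 (φ.substInvOfIsUnit hu) ≠ 0 := by
    rw [coeff_one_substInvOfIsUnit]; exact Units.ne_zero _
  obtain ⟨T, hT⟩ := exists_isSub g0 fun e => g1 (by rw [e, map_zero])
  refine ⟨T.comp κ, ?_, fun y => ?_, fun y => ?_⟩
  · rw [AlgHom.comp_apply, hφ, hT, subst_substInvOfIsUnit_right φ h0, ofPS_X]
  · exact (hT.inv hS g0 h0 (subst_substInvOfIsUnit_left φ h0 hu) _).symm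
  · rw [AlgHom.comp_apply, hT.order g0, order_eq_one_iff.2 ⟨g0, g1⟩, mul_one]

/-- the same with an arbitrary first expansion in which `s` is a local parameter -/
theorem lau_factor' (ι κ : L →ₐ[k] k⸨X⸩) {s : L} (hs : (ι s).order = 1) (hs' : 0 < (κ s).order)
    (hreg : ∀ y, Reg (ι y) → Reg (κ y)) : ∃ φ : k⟦X⟧, constantCoeff φ = 0 ∧ φ ≠ 0 ∧
      ∀ S, IsSub φ S → ∀ y, κ y = S (ι y) := by
  obtain ⟨σ, e, h0, h1⟩ := exists_lin_of_order hs
  have hσ : σ ≠ 0 := fun e => h1 (by rw [e, map_zero])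
  obtain ⟨T, hT⟩ := exists_isSub h0 hσ
  obtain ⟨ι', i1, i2, i3⟩ := exists_norm ι e h0 h1 hT
  obtain ⟨τ, e'⟩ := reg_iff.2 hs'.le
  have hτ : τ ≠ 0 := fun e2 => by
    rw [e', e2, map_zero, HahnSeries.order_zero] at hs'; exact lt_irrefl _ hs'
  have t0 := (order_pos_iff hτ).1 (e' ▸ hs')
  obtain ⟨U, hU⟩ := exists_isSub t0 hτ
  have f1 := lau_factor ι' κ i1 e' t0 (fun y hy => hreg y (by rwa [reg_iff, ← i3, ← reg_iff])) hU
  have hu : IsUnit (coeff 1 σ) := h1.isUnit
  have g0 := constantCoeff_substInvOfIsUnit σ hu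
  have g1 : σ.substInvOfIsUnit hu ≠ 0 := fun e2 => by
    have := coeff_one_substInvOfIsUnit σ hu
    rw [e2, map_zero] at this
    exact Units.ne_zero _ this.symm
  obtain ⟨V, hV⟩ := exists_isSub g0 g1
  refine ⟨(σ.substInvOfIsUnit hu).subst τ, (constantCoeff_subst' t0 _).trans g0,
    subst_ne_zero t0 hτ g1, fun S hS y => ?_⟩
  rw [hS.unique (hV.comp hU g0 t0), AlgHom.comp_apply, i2,
    hT.inv hV h0 g0 (subst_substInvOfIsUnit_right σ h0 hu), f1]

end formal

end Vale.Agent.P022K.FI.An4
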