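import Vale.Agent.P022K.FI.Pt
import Vale.Agent.P022K.F0.Hec

/-!
# P022K, block FI: the valuation at a place of a tower, matrices, levels
-/

set_option autoImplicit false
set_option linter.unusedSectionVars false

open UpperHalfPlane WithZero
open scoped MatrixGroups

noncomputable section

namespace Vale.Agent.P022K.FI.Lv

open Vale.Agent.P022K.Sh

variable {G0 G : Type} [Group G0] [Group G] {T : Tw G0 G}
variable {O K : Type} [CommRing O] [IsDomain O] [IsDiscreteValuationRing O] [Field K] [Algebra O K]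
variable (w : T.Lc O K)

/-- the valuation -/
def vl : Valuation K ℤᵐ⁰ :=
  haveI := w.fr
  (IsDiscreteValuationRing.maximalIdeal O).valuation K

theorem vl_alg (y : O) :
    vl w (algebraMap O K y) = (IsDiscreteValuationRing.maximalIdeal O).intValuation y :=
  haveI := w.fr
  IsDedekindDomain.HeightOneSpectrum.valuation_of_algebraMap _ y

theorem le_one {c : K} : vl w c ≤ 1 ↔ ∃ y : O, algebraMap O K y = c :=
  haveI := w.fr
  ⟨IsDiscreteValuationRing.exists_lift_of_le_one, fun ⟨y, h⟩ => h ▸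
    IsDedekindDomain.HeightOneSpectrum.valuation_le_one _ y⟩

theorem alg_le (y : O) : vl w (algebraMap O K y) ≤ 1 := (le_one w).2 ⟨y, rfl⟩

theorem vl_pi : vl w w.ϖ = exp (-1) := by
  obtain ⟨p, hp, e⟩ := w.irr
  rw [← e, vl_alg]
  exact IsDedekindDomain.HeightOneSpectrum.intValuation_singleton _ hp.ne_zero hp.maximalIdeal_eq

theorem pi_pow (m : ℕ) : vl w w.ϖ ^ m = exp (-(m : ℤ)) := by
  rw [vl_pi, ← exp_nsmul]
  simp

theorem pos (a : Kˣ) : 0 < vl w a := (vl w).pos_iff.2 a.ne_zero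

theorem pi_lt : vl w w.ϖ < 1 := by
  rw [vl_pi, ← exp_zero, exp_lt_exp]
  norm_num

theorem alg_le_pow {y : O} {m : ℕ} :
    vl w (algebraMap O K y) ≤ vl w w.ϖ ^ m ↔ y ∈ IsLocalRing.maximalIdeal O ^ m := by
  rw [pi_pow, vl_alg]
  exact IsDedekindDomain.HeightOneSpectrum.intValuation_le_pow_iff_mem _ y m

theorem alg_lt {y : O} : vl w (algebraMap O K y) < 1 ↔ y ∈ IsLocalRing.maximalIdeal O := by
  rw [vl_alg]
  exact IsDedekindDomain.HeightOneSpectrum.intValuation_lt_one_iff_mem _ y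

theorem lt_one {c : K} : vl w c < 1 ↔ sm O c := by
  refine ⟨fun h => ?_, fun ⟨y, hy, e⟩ => e ▸ (alg_lt w).2 hy⟩
  obtain ⟨y, rfl⟩ := (le_one w).1 h.le
  exact ⟨y, (alg_lt w).1 h, rfl⟩

theorem unit_iff {y : O} : IsUnit y ↔ vl w (algebraMap O K y) = 1 := by
  rw [← IsLocalRing.notMem_maximalIdeal, ← alg_lt w, not_lt]
  exact ⟨fun h => (alg_le w y).antisymm h, fun h => h.ge⟩

theorem lt_iff {a b : ℤᵐ⁰} (hb : 0 < b) : a < b ↔ a ≤ b * vl w w.ϖ := by
  rw [vl_pi]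
  rcases eq_or_ne a 0 with rfl | ha
  · simp [hb]
  · rw [← exp_log ha, ← exp_log hb.ne', ← exp_add, exp_lt_exp, exp_le_exp]
    omega

theorem eq_zero {c : K} (h : ∀ m : ℕ, vl w c ≤ vl w w.ϖ ^ m) : c = 0 := by
  by_contra hc
  have h0 : vl w c ≠ 0 := (vl w).ne_zero_iff.2 hc
  have := h ((-log (vl w c)).toNat + 1)
  rw [pi_pow, ← exp_log h0, exp_le_exp, log_exp] at this
  omega

theorem mul_lt {a b A B : ℤᵐ⁰} (h : a ≤ A) (h' : b < B) (hA : 0 < A) : a * b < A * B :=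
  (mul_le_mul_left h b).trans_lt (mul_lt_mul_of_pos_left h' hA)

/-- `(1 c; 0 1)` -/
def up (c : K) : GL (Fin 2) K :=
  ⟨!![1, c; 0, 1], !![1, -c; 0, 1], by simp [Matrix.one_fin_two], by simp [Matrix.one_fin_two]⟩

/-- `(1 0; c 1)` -/
def lw (c : K) : GL (Fin 2) K :=
  ⟨!![1, 0; c, 1], !![1, 0; -c, 1], by simp [Matrix.one_fin_two], by simp [Matrix.one_fin_two]⟩

theorem det_up (c : K) : (up c).det = 1 := by
  ext
  simp [up, Matrix.det_fin_two]

theorem det_lw (c : K) : (lw c).det = 1 := by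
  ext
  simp [lw, Matrix.det_fin_two]

theorem det_d2 (a d : Kˣ) : (d2 a d).det = a * d := by
  ext
  simp [d2_val, Matrix.det_fin_two]

theorem mem_KK {g : GL (Fin 2) K} :
    g ∈ KK O K ↔ (∀ i j, vl w (g i j) ≤ 1) ∧ vl w g.det = 1 := by
  constructor
  · rintro ⟨k, rfl⟩
    refine ⟨fun i j => alg_le w _, ?_⟩
    rw [Matrix.GeneralLinearGroup.map_det]
    exact (unit_iff w).1 k.det.isUnit
  · rintro ⟨h1, h2⟩
    choose m hm using fun i j => (le_one w).1 (h1 i j)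
    have e : (algebraMap O K).mapMatrix (Matrix.of m) = (g : Matrix (Fin 2) (Fin 2) K) := by
      ext i j
      exact hm i j
    have u : IsUnit (Matrix.of m) := by
      rw [Matrix.isUnit_iff_isUnit_det, unit_iff w, RingHom.map_det, e]
      exact h2
    exact ⟨u.unit, Units.ext e⟩

theorem mul_d2 (g : GL (Fin 2) K) (c : Kˣ) (i j : Fin 2) : (g * d2 c c) i j = g i j * c := by
  fin_cases j <;> simp [d2_val, Matrix.mul_apply, Fin.sum_univ_two]

theorem mem_KZ {g : GL (Fin 2) K} : g ∈ KK O K ⊔ Zl K ↔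
    ∃ c : Kˣ, (∀ i j, vl w (g i j) ≤ vl w c) ∧ vl w g.det = vl w c ^ 2 := by
  constructor
  · intro h
    obtain ⟨k, hk, z, hz, rfl⟩ := Subgroup.mem_sup_of_normal_right.1 h
    obtain ⟨c, rfl⟩ := mem_Zl.1 hz
    obtain ⟨h1, h2⟩ := (mem_KK w).1 hk
    refine ⟨c, fun i j => ?_, ?_⟩
    · rw [mul_d2, map_mul]
      exact mul_le_of_le_one_left' (h1 i j)
    · rw [map_mul, Units.val_mul, map_mul, h2, det_d2, Units.val_mul, map_mul, one_mul, sq]
  · rintro ⟨c, h1, h2⟩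
    have hc := pos w c
    refine Subgroup.mem_sup_of_normal_right.2 ⟨g * d2 c⁻¹ c⁻¹, (mem_KK w).2 ⟨fun i j => ?_, ?_⟩,
      d2 c c, mem_Zl.2 ⟨c, rfl⟩, by rw [← d2_inv, inv_mul_cancel_right]⟩
    · rw [mul_d2, map_mul, Units.val_inv_eq_inv_val, map_inv₀]
      exact (mul_inv_le_iff₀ hc).2 (by simpa using h1 i j)
    · rw [map_mul, Units.val_mul, map_mul, h2, det_d2, Units.val_mul, map_mul,
        Units.val_inv_eq_inv_val, map_inv₀]
      field_simp

theorem d2_mem {a d : Kˣ} : d2 a d ∈ KK O K ⊔ Zl K ↔ vl w d = vl w a := by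
  rw [mem_KZ w, det_d2, Units.val_mul, map_mul]
  constructor
  · rintro ⟨c, h1, h2⟩
    have ha : vl w a ≤ vl w c := by simpa [d2_val] using h1 0 0
    have hd : vl w d ≤ vl w c := by simpa [d2_val] using h1 1 1
    rw [sq] at h2
    have e1 : vl w d = vl w c := hd.eq_of_not_lt fun h => (mul_lt ha h (pos w c)).ne h2
    rw [mul_comm] at h2
    exact e1.trans (ha.eq_of_not_lt fun h => (mul_lt hd h (pos w c)).ne h2).symm
  · intro h
    refine ⟨a, fun i j => ?_, by rw [h, sq]⟩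
    fin_cases i <;> fin_cases j <;> simp [d2_val, h]

theorem km_ent {m : ℕ} {g : GL (Fin 2) K} (h : g ∈ Km O K m ⊔ Zl K) : ∃ c : Kˣ, ∀ i j,
    vl w (g i j - (1 : Matrix (Fin 2) (Fin 2) K) i j * c) ≤ vl w w.ϖ ^ m * vl w c := by
  obtain ⟨_, ⟨k, hk, rfl⟩, z, hz, rfl⟩ := Subgroup.mem_sup_of_normal_right.1 h
  obtain ⟨c, rfl⟩ := mem_Zl.1 hz
  refine ⟨c, fun i j => ?_⟩
  rw [mul_d2, ← sub_mul, map_mul]
  refine mul_le_mul_left ?_ _
  have e := congrArg (fun g : GL (Fin 2) (O ⧸ IsLocalRing.maximalIdeal O ^ m) => g i j)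
    (MonoidHom.mem_ker.1 hk)
  have e' : k i j - (1 : Matrix (Fin 2) (Fin 2) O) i j ∈ IsLocalRing.maximalIdeal O ^ m := by
    rw [← Ideal.Quotient.eq]
    refine Eq.trans e ?_
    simp only [Units.val_one, Matrix.one_apply]
    split_ifs <;> simp
  have := (alg_le_pow w).2 e'
  rw [map_sub] at this
  have e1 : algebraMap O K ((1 : Matrix (Fin 2) (Fin 2) O) i j) =
      (1 : Matrix (Fin 2) (Fin 2) K) i j := by
    simp only [Matrix.one_apply]
    split_ifs <;> simp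
  rwa [e1] at this

theorem up_mem {m : ℕ} {c : K} (h : vl w c ≤ vl w w.ϖ ^ m) : up c ∈ Km O K m := by
  obtain ⟨y, rfl⟩ := (le_one w).1 (h.trans (pow_le_one' (pi_lt w).le m))
  refine ⟨nO y, MonoidHom.mem_ker.2 ?_, ?_⟩
  · have := Ideal.Quotient.eq_zero_iff_mem.2 ((alg_le_pow w).1 h)
    ext i j
    fin_cases i <;> fin_cases j <;> simp [nO, this]
  · ext i j
    fin_cases i <;> fin_cases j <;> simp [nO, up]

theorem Km_le (m : ℕ) : Km O K m ≤ KK O K := by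
  rintro _ ⟨k, -, rfl⟩
  exact ⟨k, rfl⟩

theorem KK_le : KK O K ≤ Km O K 0 := by
  rintro _ ⟨k, rfl⟩
  refine ⟨k, MonoidHom.mem_ker.2 ?_, rfl⟩
  have : Subsingleton (O ⧸ IsLocalRing.maximalIdeal O ^ 0) := by
    rw [pow_zero, Ideal.one_eq_top]
    infer_instance
  ext i j
  exact Subsingleton.elim _ _

/-! ## the part away from `w` -/

/-- the part of `g` away from `w` -/
def aw : G →* G where
  toFun g := g * (w.ι (w.π g))⁻¹
  map_one' := by simp
  map_mul' g h := by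
    have := (w.com (w.π g) (h * (w.ι (w.π h))⁻¹) (by simp [w.πι])).inv_left.eq
    rw [mul_assoc g (w.ι (w.π g))⁻¹, this, map_mul, map_mul]
    group

theorem aw_eq (g : G) : aw w g = g * (w.ι (w.π g))⁻¹ := rfl

theorem pi_aw (g : G) : w.π (aw w g) = 1 := by simp [aw_eq, w.πι]

theorem aw_mul (g : G) : aw w g * w.ι (w.π g) = g := by simp [aw_eq]

theorem aw_iota (k : GL (Fin 2) K) : aw w (w.ι k) = 1 := by simp [aw_eq, w.πι]

theorem aw_of {g : G} (h : w.π g = 1) : aw w g = g := by simp [aw_eq, h]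

theorem aw_com (k : GL (Fin 2) K) (g : G) : Commute (w.ι k) (aw w g) := w.com _ _ (pi_aw w g)

theorem aw_Z {z : G} (h : z ∈ T.Z) : aw w z ∈ T.Z := mul_mem h (inv_mem (w.cen _ (w.cen' _ h)))

variable {w} {U : Subgroup G} {V : Subgroup (GL (Fin 2) K)}

theorem At_mem (h : w.At V U) (hU : U ∈ T.Lev) {g : G} :
    g ∈ U ↔ aw w g ∈ U ∧ w.π g ∈ V ⊔ Zl K :=
  ⟨fun m => ⟨mul_mem m (inv_mem ((h.iff hU).2 (h.2 _ m))), h.2 _ m⟩,
    fun m => aw_mul w g ▸ mul_mem m.1 ((h.iff hU).2 m.2)⟩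

theorem mem_set (hU : U ∈ T.Lev) {g : G} :
    g ∈ w.set V U ↔ aw w g ∈ U ∧ w.π g ∈ V ⊔ Zl K := by
  have hZ : T.Z ≤ U := sInf_le hU
  constructor
  · intro h
    refine (sup_le (sup_le ?_ ?_) ?_ :
      w.set V U ≤ U.comap (aw w) ⊓ (V ⊔ Zl K).comap w.π) h
    · exact fun u hu => ⟨show aw w u ∈ U from (aw_of w hu.2).symm ▸ hu.1,
        show w.π u ∈ V ⊔ Zl K from (show w.π u = 1 from hu.2) ▸ one_mem _⟩
    · exact fun z hz => ⟨hZ (aw_Z w hz), Subgroup.mem_sup_right (w.cen' z hz)⟩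
    · rintro _ ⟨k, hk, rfl⟩
      exact ⟨show aw w _ ∈ U from aw_iota w k ▸ one_mem _,
        show w.π _ ∈ V ⊔ Zl K from (w.πι k).symm ▸ Subgroup.mem_sup_left hk⟩
  · rintro ⟨h1, h2⟩
    rw [← aw_mul w g]
    refine mul_mem (Subgroup.mem_sup_left (Subgroup.mem_sup_left ⟨h1, pi_aw w g⟩)) ?_
    exact (sup_le (fun k hk => Subgroup.mem_sup_right ⟨k, hk, rfl⟩)
      (fun k hk => Subgroup.mem_sup_left (Subgroup.mem_sup_right (w.cen k hk))) :
        V ⊔ Zl K ≤ (w.set V U).comap w.ι) h2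

theorem At_set (hU : U ∈ T.Lev) : w.At V (w.set V U) :=
  ⟨fun k hk => Subgroup.mem_sup_right ⟨k, hk, rfl⟩, fun _ hu => ((mem_set hU).1 hu).2⟩

theorem set_KK (hU : U ∈ T.Lev) : w.set (KK O K) U ∈ T.Lev :=
  le_antisymm (Km_le (O := O) (K := K) 0) KK_le ▸ w.lev U hU 0

theorem neat_le {U' : Subgroup G} (h : T.Neat U) (hl : U' ≤ U) : T.Neat U' :=
  fun x γ hγ => h x γ (T.mem_Gam.2 (hl (T.mem_Gam.1 hγ)))

end Vale.Agent.P022K.FI.Lv
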