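import Vale.Agent.P022K.FI.Br1
import Vale.Agent.P022K.FI.Exp
import Vale.Agent.P022K.FI.Mx
import Vale.Agent.P022K.FI.Lv
import Mathlib.RingTheory.Henselian

/-!
# P022K, block FI, bridge: the expansion at a point, hyperbolic matrices
-/

set_option autoImplicit false
set_option linter.unusedSectionVars false
set_option linter.style.haveILetI false

open UpperHalfPlane
open scoped MatrixGroups LaurentSeries ComplexConjugate

noncomputable section

namespace Vale.Agent.P022K.FI.Br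

open Vale.Agent.P022K.Sh Vale.Agent.P022.H218.L3 Vale.Agent.P019P Vale.Agent.P022K.F0.Cf
  P025H552

section chart

/-- evaluation -/
def evH (a : ℍ) : Hol →ₐ[ℂ] ℂ where
  toFun f := f.1 a
  map_one' := rfl
  map_mul' _ _ := rfl
  map_zero' := rfl
  map_add' _ _ := rfl
  commutes' _ := rfl

theorem tayH (a : ℍ) : TaylorData (evH a) (tz a) where
  ne_zero e := jt_ne a (by rw [e, jm, map_zero])
  rho_s := tz_self a
  dvd f hf := by
    by_cases h : f = 0
    · exact h ▸ dvd_zero _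
    obtain ⟨m, u, hu, rfl⟩ := ex_fac a h
    cases m with
    | zero => exact absurd (by rw [pow_zero, one_mul] at hf; exact hf) hu
    | succ m => exact (dvd_pow_self _ m.succ_ne_zero).mul_right u

theorem ex_exp0 (a : ℍ) : ∃ E : Mer →ₐ[ℂ] ℂ⸨X⸩, ∀ y, (E y).order = od a y := by
  have h := tayH a
  have hu : ∀ u : Hol, u.1 a ≠ 0 → HasOrd (ofPS (h.tayHom u)) 0 := fun u hu =>
    hasOrd_ofPS (by rwa [h.constantCoeff_tayHom])
  have hinj : Function.Injective ((ofPS (C := ℂ)).comp h.tayHom.toRingHom) := by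
    rw [injective_iff_map_eq_zero]
    intro f hf
    by_contra hne
    obtain ⟨m, u, h1, rfl⟩ := ex_fac a hne
    have h2 : ofPS (h.tayHom (tz a ^ m * u)) = 0 := hf
    rw [map_mul, map_pow, h.tayHom_s, map_mul, map_pow, ofPS_X] at h2
    exact mul_ne_zero (pow_ne_zero _ LX_ne_zero) (hu u h1).ne_zero h2
  have hl : ∀ f : Hol, IsFractionRing.lift (K := Mer) hinj (jm f) = ofPS (h.tayHom f) :=
    fun f => IsFractionRing.lift_algebraMap hinj f
  refine ⟨⟨IsFractionRing.lift (K := Mer) hinj, fun c => ?_⟩, fun y => ?_⟩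
  · show IsFractionRing.lift (K := Mer) hinj (algebraMap ℂ Mer c) = _
    rw [← jm_const, hl, AlgHom.commutes]
    exact ofPS_C c
  · show (IsFractionRing.lift (K := Mer) hinj y).order = _
    by_cases hy : y = 0
    · rw [hy, map_zero, od_zero, HahnSeries.order_zero]
    obtain ⟨g, k, hg, hk, e⟩ := isOd a hy
    have e2 := congrArg (IsFractionRing.lift (K := Mer) hinj) e
    rw [map_mul, map_mul, map_zpow₀, hl, hl, hl, h.tayHom_s, ofPS_X] at e2
    have := ((hasOrd_LX_zpow (k := ℂ) (od a y)).mul (hu g hg)).div (hu k hk)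
    rw [← e2, mul_div_cancel_right₀ _ (hu k hk).ne_zero, add_zero, sub_zero] at this
    exact this.order_eq

/-- `z - conj a` -/
def tb (a : ℍ) : Hol := ⟨fun τ => (τ : ℂ) - conj (a : ℂ), mdifferentiable_coe.sub mdifferentiable_const⟩

theorem tb_ne (a τ : ℍ) : (tb a).1 τ ≠ 0 := fun e => by
  have : ((τ : ℂ) - conj (a : ℂ)).im = 0 := congrArg Complex.im e
  simp only [Complex.sub_im, Complex.conj_im, coe_im] at this
  linarith [τ.im_pos, a.im_pos]

/-- the coordinate in which the stabiliser of `a` is linear -/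
def zc (a : ℍ) : Mer := jm (tz a) / jm (tb a)

theorem od_zc (a : ℍ) : od a (zc a) = 1 := by
  rw [zc, od_div a (jt_ne a) (jm_ne' (tb_ne a a)), od_tz, od_unit (tb_ne a a), sub_zero]

theorem lin_pt {g : GP} {a : ℍ} (h : g • a = a) (τ : ℍ) :
    (((g • τ : ℍ) : ℂ) - a) * ((τ : ℂ) - conj (a : ℂ)) =
      mu g a * (((τ : ℂ) - a) * (((g • τ : ℍ) : ℂ) - conj (a : ℂ))) := by
  have hg : 0 < (g : GL (Fin 2) ℝ).det.val := g.2
  have hd := denom_ne_zero (g : GL (Fin 2) ℝ) a
  have hd' := denom_ne_zero (g : GL (Fin 2) ℝ) τ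
  have e := congrArg (fun z : ℍ => (z : ℂ)) h
  have h0 : (a : ℂ) - conj (a : ℂ) ≠ 0 := tb_ne a a
  simp only [Subgroup.smul_def, coe_smul_of_det_pos hg] at e ⊢
  rw [div_eq_iff hd] at e
  rw [mu, Matrix.GeneralLinearGroup.val_det_apply, Matrix.det_fin_two]
  simp only [num, denom] at *
  have e' := congrArg conj e
  simp only [map_add, map_mul, Complex.conj_ofReal] at e'
  push_cast
  generalize conj (a : ℂ) = s at *
  generalize (a : ℂ) = t at *
  generalize (τ : ℂ) = z at *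
  generalize (((g : GL (Fin 2) ℝ) 0 0 : ℝ) : ℂ) = A at *
  generalize (((g : GL (Fin 2) ℝ) 0 1 : ℝ) : ℂ) = B at *
  generalize (((g : GL (Fin 2) ℝ) 1 0 : ℝ) : ℂ) = C at *
  generalize (((g : GL (Fin 2) ℝ) 1 1 : ℝ) : ℂ) = D at *
  have e1 : A = C * (t + s) + D := mul_left_cancel₀ h0 (by linear_combination e - e')
  have e2 : B = -C * t * s := by linear_combination e - t * e1
  subst e1 e2
  field_simp
  ring

theorem act_zc {g : GP} {a : ℍ} (h : g • a = a) :
    actM g (zc a) = algebraMap ℂ Mer (mu g a)⁻¹ * zc a := by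
  have hi : g⁻¹ • a = a := inv_smul_eq_iff.2 h.symm
  have e : actH g (tz a) * tb a = algebraMap ℂ Hol (mu g a)⁻¹ * (tz a * actH g (tb a)) :=
    Subtype.ext (funext fun τ => mu_inv h ▸ lin_pt hi τ)
  have e2 := congrArg jm e
  simp only [jm, map_mul] at e2
  rw [zc, map_div₀, actM_algebraMap, actM_algebraMap, ← mul_div_assoc,
    div_eq_div_iff (jm_ne' (f := actH g (tb a)) (τ := a) (tb_ne a _)) (jm_ne' (tb_ne a a)), ← jm_const, e2, mul_assoc]

theorem ex_exp (a : ℍ) : ∃ E : Mer →ₐ[ℂ] ℂ⸨X⸩, (∀ y, (E y).order = od a y) ∧ E (zc a) = LX ∧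
    ∀ g : GP, g • a = a → ∀ y (n : ℤ), (E (actM g y)).coeff n * mu g a ^ n = (E y).coeff n := by
  obtain ⟨E0, h0⟩ := ex_exp0 a
  obtain ⟨φ, e, h1, h2⟩ := An4.exists_lin_of_order ((h0 _).trans (od_zc a))
  obtain ⟨S0, hS0⟩ := An4.exists_isSub h1 fun e => h2 (by rw [e, map_zero])
  obtain ⟨E, k1, -, k2⟩ := An4.exists_norm E0 e h1 h2 hS0
  have k3 : ∀ y, (E y).order = od a y := fun y => (k2 y).trans (h0 y)
  refine ⟨E, k3, k1, fun g hg y n => ?_⟩
  have m0 := mu_ne g a
  have c0 : PowerSeries.constantCoeff (PowerSeries.C (mu g a) * PowerSeries.X) = 0 := by simp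
  have c1 : PowerSeries.coeff 1 (PowerSeries.C (mu g a) * PowerSeries.X) ≠ 0 := by simpa using m0
  obtain ⟨S, hS⟩ := An4.exists_isSub c0 fun e => c1 (by rw [e, map_zero])
  have := An4.lau_unique E (S.comp (E.comp (actM g).toAlgHom)) k1 (by
    show S (E (actM g (zc a))) = LX
    rw [act_zc hg, map_mul, AlgHom.commutes, k1, map_mul, AlgHom.commutes, hS.LX c0, map_mul,
      ofPS_C, ofPS_X, ← mul_assoc, ← map_mul, inv_mul_cancel₀ m0, map_one, one_mul]) fun y hy => by
    rw [An4.reg_iff, k3] at hy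
    show An4.Reg (S (E (actM g y)))
    rw [An4.reg_iff, hS.order c0, An4.order_eq_one_iff.2 ⟨c0, c1⟩, mul_one, k3]
    rwa [← od_ac a y g, hg] at hy
  rw [← DFunLike.congr_fun this y, mul_comm]
  exact (hS.coeff_rescale _ n).symm

/-- the expansion at `a` -/
def thM (a : ℍ) : Mer →ₐ[ℂ] ℂ⸨X⸩ := (ex_exp a).choose

theorem thM_order (a : ℍ) (y : Mer) : (thM a y).order = od a y := (ex_exp a).choose_spec.1 y

theorem thM_zc (a : ℍ) : thM a (zc a) = LX := (ex_exp a).choose_spec.2.1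

theorem thM_lin {a : ℍ} {g : GP} (h : g • a = a) (y : Mer) (n : ℤ) :
    (thM a (actM g y)).coeff n * mu g a ^ n = (thM a y).coeff n :=
  (ex_exp a).choose_spec.2.2 g h y n

end chart

section matrices

variable {O E C : Type} [CommRing O] [IsDomain O] [IsDiscreteValuationRing O] [Field E]
  [Algebra O E] [NontriviallyNormedField C] [IsUltrametricDist C] [Algebra E C] {ϖ : Eˣ}

open Mx

theorem conj_eq {k g : GL (Fin 2) E} {M : Matrix (Fin 2) (Fin 2) E}
    (h : (k : Matrix (Fin 2) (Fin 2) E) * g = g * M) : ((g⁻¹ * k * g : GL (Fin 2) E) :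
      Matrix (Fin 2) (Fin 2) E) = M := by
  rw [mul_assoc, Units.val_mul, Units.val_mul, h, Units.inv_mul_cancel_left]

/-- the companion form -/
theorem companion {k : GL (Fin 2) E} (hk : k ∉ Zl E) {c : E} (hc : c ≠ 0) :
    ∃ g : GL (Fin 2) E, ((g⁻¹ * k * g : GL (Fin 2) E) : Matrix (Fin 2) (Fin 2) E) =
      !![0, -k.det.val / c; c, k 0 0 + k 1 1] := by
  have key : ∀ x y : E, x * (k 1 0 * x + k 1 1 * y) - (k 0 0 * x + k 0 1 * y) * y ≠ 0 →
      ∃ g : GL (Fin 2) E, ((g⁻¹ * k * g : GL (Fin 2) E) : Matrix (Fin 2) (Fin 2) E) =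
        !![0, -k.det.val / c; c, k 0 0 + k 1 1] := fun x y h => by
    refine ⟨Matrix.GeneralLinearGroup.mkOfDetNeZero
      !![x, (k 0 0 * x + k 0 1 * y) / c; y, (k 1 0 * x + k 1 1 * y) / c] (by
        rw [Matrix.det_fin_two_of]
        convert div_ne_zero h hc using 1
        ring), conj_eq ?_⟩
    rw [det_eq]
    ext i j
    fin_cases i <;> fin_cases j <;>
      simp [Matrix.GeneralLinearGroup.mkOfDetNeZero, Matrix.mul_apply, Fin.sum_univ_two] <;>
      field_simp <;> ring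
  by_cases h1 : k 1 0 = 0
  · by_cases h2 : k 0 1 = 0
    · exact key 1 1 (by
        simpa [h1, h2, sub_eq_zero] using fun h => hk (mem_Z_iff.2 ⟨h2, h1, h.symm⟩))
    · exact key 0 1 (by simpa using h2)
  · exact key 1 0 (by simpa using h1)

variable (C E) in
/-- matrices whose determinant has even valuation -/
def Ev : Subgroup (GL (Fin 2) E) where
  carrier := {k | ∃ c : Eˣ, nn C (k.det : E) = nn C (c : E) ^ 2}
  mul_mem' := by
    rintro k k' ⟨c, h⟩ ⟨c', h'⟩
    exact ⟨c * c', by rw [map_mul, Units.val_mul, Units.val_mul, nn_mul, nn_mul, h, h', mul_pow]⟩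
  one_mem' := ⟨1, by simp [nn]⟩
  inv_mem' := by
    rintro k ⟨c, h⟩
    exact ⟨c⁻¹, by simpa [nn] using h⟩

theorem Ev_conj {k : GL (Fin 2) E} (g : GL (Fin 2) E) : g⁻¹ * k * g ∈ Ev E C ↔ k ∈ Ev E C := by
  have : (g⁻¹ * k * g).det = k.det := by
    rw [map_mul, map_mul, map_inv, mul_right_comm, inv_mul_cancel, one_mul]
  exact exists_congr fun c => by rw [this]

theorem Z_le_Ev : Zl E ≤ Ev E C := fun z hz => by
  obtain ⟨c, rfl⟩ := Mx.mem_Z.1 hz
  exact ⟨c, by simp [nn]⟩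

theorem sq_mem_Ev (k : GL (Fin 2) E) : k ^ 2 ∈ Ev E C := ⟨k.det, by simp [nn]⟩

theorem sl_mem_Ev {k : GL (Fin 2) E} (h : k.det = 1) : k ∈ Ev E C := ⟨1, by simp [nn, h]⟩

variable (hF : LF O C ϖ)
include hF

theorem KZ_le_Ev : KZ O E ≤ Ev E C :=
  sup_le (fun k hk => ⟨1, by simpa [nn] using ((mem_KK hF).1 hk).2⟩) Z_le_Ev

theorem Vx_le_Ev (g : GL (Fin 2) E) : Vx O g ≤ Ev E C := fun _ hk =>
  (Ev_conj g).1 (KZ_le_Ev hF (mem_cj.1 hk))

theorem ex_root {e : E} (he : nn C e < 1) : ∃ y : E, y ^ 2 - y + e = 0 ∧ nn C y < 1 := by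
  haveI := hF.cpl
  obtain ⟨o, rfl⟩ := (io_iff hF).2 he.le
  have hm : ∀ a : O, a ∈ IsLocalRing.maximalIdeal O ↔ nn C (algebraMap O E a) < 1 := fun a => by
    rw [IsLocalRing.mem_maximalIdeal, mem_nonunits_iff, unit_iff hF]
    exact ⟨fun h => (nn_O hF a).lt_of_ne h, fun h => h.ne⟩
  obtain ⟨y, h1, h2⟩ := HenselianRing.is_henselian (I := IsLocalRing.maximalIdeal O)
    (Polynomial.X ^ 2 - Polynomial.X + Polynomial.C o) (by monicity!) 0
    (by simpa using (hm o).2 he) (by simp)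
  refine ⟨algebraMap O E y, ?_, (hm y).1 (by simpa using h2)⟩
  simpa using congrArg (algebraMap O E) h1

/-- an even matrix that fixes no vertex is hyperbolic -/
theorem hyperbolic {k : GL (Fin 2) E} (he : k ∈ Ev E C) (hk : ∀ g, k ∉ Vx O g) :
    ∃ (g : GL (Fin 2) E) (a d : Eˣ), g⁻¹ * k * g = d2 a d ∧ nn C ((d : E) / a) < 1 := by
  obtain ⟨c, hc⟩ := he
  have hz : k ∉ Zl E := fun h => hk 1 (Z_le_cj 1 le_sup_right h)
  have hD := nn_upos (C := C) k.det
  have hdet : ∀ g : GL (Fin 2) E, (g⁻¹ * k * g).det = k.det := fun g => by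
    rw [map_mul, map_mul, map_inv, mul_right_comm, inv_mul_cancel, one_mul]
  have ht : nn C (k.det : E) < nn C (k 0 0 + k 1 1) ^ 2 := by
    by_contra! h
    obtain ⟨g, hg⟩ := companion hz c.ne_zero
    refine hk g (mem_cj.2 ((mem_KZ hF).2 fun i j => ?_))
    rw [hdet, hg]
    fin_cases i <;> fin_cases j
    · simp [nn]
    · show nn C (-k.det.val / c) ^ 2 ≤ _
      rw [nn_div, div_pow, ← hc, div_le_iff₀ hD, nn, map_neg, norm_neg, sq]
    · exact hc.ge
    · exact h
  obtain ⟨g, hg⟩ := companion hz one_ne_zero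
  generalize k 0 0 + k 1 1 = t at *
  have t0 : t ≠ 0 := fun e => by simp [e, nn] at ht; exact absurd ht (not_lt.2 (norm_nonneg _))
  obtain ⟨y, h1, h2⟩ := ex_root hF (e := k.det / t ^ 2) (by
    rw [nn_div, sq, nn_mul, ← sq, div_lt_one (pow_pos (nn_pos t0) 2)]
    exact ht)
  have h3 : nn C (1 - y) = 1 := by
    simpa [sub_eq_add_neg] using nn_one_add (C := C) (a := -y) (by simpa [nn] using h2)
  have y1 : 1 - y ≠ 0 := fun e => by simp [e, nn] at h3
  have y2 : 1 - y - y ≠ 0 := fun e => by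
    rw [sub_eq_zero.1 e] at h3
    exact h2.ne h3
  have hd : (k.det : E) = t * (1 - y) * (t * y) := by
    have : (k.det : E) = t ^ 2 * (k.det / t ^ 2) := by field_simp
    rw [this]
    linear_combination t ^ 2 * h1
  have y0 : t * y ≠ 0 := right_ne_zero_of_mul (hd ▸ k.det.ne_zero)
  refine ⟨g * Matrix.GeneralLinearGroup.mkOfDetNeZero !![-(t * y), -(t * (1 - y)); 1, 1] (by
    rw [Matrix.det_fin_two_of]
    convert mul_ne_zero t0 y2 using 1
    ring), Units.mk0 _ (mul_ne_zero t0 y1), Units.mk0 _ y0, Units.ext ?_, ?_⟩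
  · rw [mul_inv_rev, show ∀ a b : GL (Fin 2) E, a * g⁻¹ * k * (g * b) = a * (g⁻¹ * k * g) * b from
      fun a b => by group]
    refine conj_eq ?_
    rw [hg, hd]
    ext i j
    fin_cases i <;> fin_cases j <;>
      simp [Matrix.GeneralLinearGroup.mkOfDetNeZero, Matrix.mul_apply, Fin.sum_univ_two, d2_val] <;>
      ring
  · rw [Units.val_mk0, Units.val_mk0, mul_div_mul_left _ _ t0, nn_div, h3, div_one]
    exact h2

end matrices

end Vale.Agent.P022K.FI.Br
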