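import Vale.Agent.P022K.FI.Cmpx

/-!
# P022K, block FI, bridge: the rows NB and DEN for the tower of a quaternion algebra
-/

set_option autoImplicit false
set_option linter.unusedSectionVars false

open UpperHalfPlane NumberField
open scoped MatrixGroups

noncomputable section

namespace Vale.Agent.P022K.FI.B3

open Vale.Agent.P022K.Sh Vale.Agent.P022K.F0 Qx

/-- the real span of `1` and of an element which fixes `τ` -/
theorem real_lin {g : GP} {τ : ℍ} (h : g • τ = τ) (u v : ℝ) {A : Matrix (Fin 2) (Fin 2) ℝ}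
    (hA : A = algebraMap ℝ _ u + v • ((g : GL (Fin 2) ℝ) : Matrix (Fin 2) (Fin 2) ℝ)) :
    0 ≤ A.det ∧ ∀ δ : GP, ((δ : GL (Fin 2) ℝ) : Matrix (Fin 2) (Fin 2) ℝ) = A → δ • τ = τ := by
  have e := fix_eq h
  refine ⟨?_, fun δ hδ => smul_eq_of ?_⟩
  · have r1 := congrArg Complex.re e
    have i1 := congrArg Complex.im e
    simp at r1 i1
    have e1 : (g : GL (Fin 2) ℝ) 0 0 = (g : GL (Fin 2) ℝ) 1 1 + 2 * (g : GL (Fin 2) ℝ) 1 0 * τ.re :=
      mul_right_cancel₀ τ.im_pos.ne' (by linear_combination i1)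
    have e2 : (g : GL (Fin 2) ℝ) 0 1 = -((g : GL (Fin 2) ℝ) 1 0 * (τ.re ^ 2 + τ.im ^ 2)) := by
      linear_combination r1 - τ.re * e1
    have e3 : A.det = (u + v * ((g : GL (Fin 2) ℝ) 1 1 + (g : GL (Fin 2) ℝ) 1 0 * τ.re)) ^ 2 +
        (v * (g : GL (Fin 2) ℝ) 1 0 * τ.im) ^ 2 := by
      rw [hA, Matrix.det_fin_two]
      simp [Matrix.algebraMap_matrix_apply, e1, e2]
      ring
    rw [e3]
    positivity
  · rw [hδ, hA]
    simp [Matrix.algebraMap_matrix_apply]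
    linear_combination (v : ℂ) * e

/-- the quotients `(u + v a) / (u + v d)` are dense -/
theorem den_top {A E : Type*} [Field E] [TopologicalSpace E] [IsTopologicalDivisionRing E]
    [T1Space E] {i : A → E} (hi : DenseRange i) {S : Set E} (hS : S ∈ nhds (0 : E)) {a d : E} (h : a ≠ d)
    (c p : E) : ∃ u v : A, i u + i v * d ≠ 0 ∧ ((i u + i v * a) / (i u + i v * d) - c) / p ∈ S := by
  have h0 : a - d ≠ 0 := sub_ne_zero.2 h
  obtain ⟨z, z1, z2⟩ : ∃ z : E × E, z.1 + z.2 * d = 1 ∧ z.1 + z.2 * a = c :=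
    ⟨(1 - (c - 1) / (a - d) * d, (c - 1) / (a - d)), by simp, by field_simp; ring⟩
  have c1 : Continuous fun z : E × E => z.1 + z.2 * d := by fun_prop
  have c2 : ContinuousAt (fun z : E × E => ((z.1 + z.2 * a) / (z.1 + z.2 * d) - c) / p) z :=
    ((ContinuousAt.div (by fun_prop) c1.continuousAt (by simp [z1])).sub
      continuousAt_const).div_const p
  have n1 := (c1.continuousAt (x := z)).eventually_ne (y := 0) (by simp [z1])
  have n2 := c2.eventually (p := fun y => y ∈ S) (by simpa [z1, z2] using hS)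
  obtain ⟨⟨u, v⟩, h1, h2⟩ := (hi.prodMap hi).mem_nhds (n1.and n2)
  exact ⟨u, v, h1, h2⟩

variable {F : Type} [Field F] [NumberField F]

variable (X : QD F)
variable {O K : Type} [CommRing O] [IsDomain O] [IsDiscreteValuationRing O] [Field K] [Algebra O K]
  {L : X.tw.Lc O K} {w : Pl F}

/-- **NB**: the global points do not lie in a Borel subgroup -/
theorem nb (h : X.IsPl w L) (g : GL (Fin 2) K) :
    ∃ γ : X.G0, (g⁻¹ * L.π (X.tw.j γ) * g) 1 0 ≠ 0 := by
  obtain ⟨γ, -, -, h2⟩ := pl_apx X h (g⁻¹ : GL (Fin 2) K) g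
    (g.val * !![0, 0; 1, 0] * g⁻¹.val)
  refine ⟨γ, fun e => sm_sq_ne L (h2 1 0) ?_⟩
  rw [mul_sub, sub_mul, ← Units.val_mul, ← Units.val_mul, Matrix.sub_apply, ← mul_assoc,
    ← mul_assoc, Units.inv_mul, one_mul, Units.inv_mul_cancel_right]
  rw [show ((g⁻¹ * L.π (X.tw.j γ) * g : GL (Fin 2) K) : Matrix (Fin 2) (Fin 2) K) 1 0 = 0 from e]
  simp

/-- the stabiliser of a point is dense in the split torus -/
theorem den_of (h : X.IsPl w L) {τ : ℍ} {x : X.G} {δ : X.G0} {a d : Kˣ} (h1 : X.tw.r δ • τ = τ)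
    (h2 : L.π (lc X.tw x δ) = d2 a d) (had : a ≠ d) (c p : K) :
    ∃ (γ : X.G0) (a d : Kˣ), X.tw.r γ • τ = τ ∧ L.π (lc X.tw x γ) = d2 a d ∧
      ig O (((a : K) / d - c) / p) := by
  obtain ⟨f, s, hf, hs, hπ, -⟩ := h
  have ho : IsOpen {y : Fw w | Valued.v y < 1} := by simpa using Valued.isOpen_ball (Fw w) 1
  obtain ⟨u, v, k1, k2⟩ := den_top (IsDedekindDomain.HeightOneSpectrum.denseRange_algebraMap F w)
    (ho.mem_nhds (by simp)) (a := f.symm a) (d := f.symm d)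
    (fun e => had (Units.ext (f.symm.injective e))) (f.symm c) (f.symm p)
  have k3 := (map_ne_zero f).2 k1
  have k4 := (hf _).1 (mem_Ow.2 (le_of_lt k2))
  simp only [map_add, map_mul, map_sub, map_div₀, f.apply_symm_apply] at k3 k4
  obtain ⟨q, hq⟩ : ∃ q : X.D, q = algebraMap F _ u + v • ((δ : X.Dˣ) : X.D) := ⟨_, rfl⟩
  have e1 : ((L.π x)⁻¹ : GL (Fin 2) K) * s (X.cw w (X.jD q)) * L.π x =
      !![f (algebraMap F (Fw w) u) + f (algebraMap F (Fw w) v) * a, 0;
        0, f (algebraMap F (Fw w) u) + f (algebraMap F (Fw w) v) * d] := by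
    have e2 := congrArg (fun g : GL (Fin 2) K => (g : Matrix (Fin 2) (Fin 2) K)) h2
    simp only [lc, map_mul, map_inv, Units.val_mul] at e2
    rw [hq, Algebra.smul_def, map_add, map_mul, X.jD_algebraMap, X.jD_algebraMap, map_add, map_mul,
      map_add, map_mul, ← X.coe_j, ← hπ, QD.cw, qmap_alg, qmap_alg, hs, hs, ev_alg, ev_alg,
      ← Algebra.smul_def, mul_add, add_mul, Matrix.mul_smul, Matrix.smul_mul, e2,
      ← Algebra.commutes, Units.inv_mul_cancel_right, d2_val]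
    ext i j
    fin_cases i <;> fin_cases j <;> simp [Matrix.algebraMap_matrix_apply]
  have q0 : q ≠ 0 := by
    rintro rfl
    have := congrFun (congrFun e1 1) 1
    simp at this
    exact k3 this.symm
  obtain ⟨r1, r2⟩ := real_lin h1 (X.t1 u) (X.t1 v) (A := X.s q)
    (by rw [hq, map_add, s_smul, X.hs, coe_r])
  rw [X.ovr.det X.a_ne X.b_ne] at r1
  obtain ⟨γ, hγ⟩ := exists_G0 X (r1.lt_of_ne' ((map_ne_zero _).2 (X.div q q0)))
  have e3 := e1
  rw [← hγ, ← X.coe_j, ← hπ, ← Units.val_mul, ← Units.val_mul, ← map_inv, ← map_mul, ← map_mul,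
    ← lc] at e3
  obtain ⟨a', d', e4⟩ := eq_d2 (g := L.π (lc X.tw x γ)) (by simp [e3]) (by simp [e3])
  refine ⟨γ, a', d', r2 _ (by rw [coe_r, hγ]), e4, ?_⟩
  rw [e4, d2_val] at e3
  have e5 := congrFun (congrFun e3 0) 0
  have e6 := congrFun (congrFun e3 1) 1
  simp at e5 e6
  rw [e5, e6]
  exact k4

/-- **DEN** -/
theorem den (h : X.IsPl w L) {e : K →+* ℂ} {τ : ℍ} {x : X.G} (ho : Ord L e τ x) (c : K) (m : ℕ) :
    ∃ (γ : X.G0) (a d : Kˣ), X.tw.r γ • τ = τ ∧ L.π (lc X.tw x γ) = d2 a d ∧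
      ig O (((a : K) / d - c) / (L.ϖ : K) ^ m) := by
  obtain ⟨δ, a, d, h1, h2, h3, -⟩ := ho
  refine den_of X h h1 h2 ?_ c _
  rintro rfl
  exact sm_sq_ne L h3 (by rw [div_self a.ne_zero, one_pow])

end Vale.Agent.P022K.FI.B3
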