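import Vale.Agent.P022K.FI.Br3
import Vale.Agent.P022K.FI.Nbd
import Vale.Agent.P022K.FI.Oc3
import Vale.Agent.P022K.F0.Ntw

/-!
# P022K, block FI, bridge: the abstract tower of a quaternion algebra
-/

set_option autoImplicit false
set_option linter.unusedSectionVars false

noncomputable section

namespace Vale.Agent.P022K.FI.Br

open Vale.Agent.P022K.Sh Vale.Agent.P022K.FI.Hk

variable {F : Type} [Field F] [NumberField F] {X : QD F}
variable {O K : Type} [CommRing O] [IsDomain O] [IsDiscreteValuationRing O] [Field K] [Algebra O K]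
  {L : X.tw.Lc O K} {w : Pl F}

theorem nbx (h : X.IsPl w L) : NB L := B3.nb X h

theorem denx (h : X.IsPl w L) (e : K →+* ℂ) : DEN L e := fun _ _ ho c m => B3.den X h ho c m

theorem nlx (h : X.IsPl w L) : ∃ U, Nl L U :=
  let ⟨U, h1, h2, h3⟩ := h.neat_at
  ⟨U, h1, h2, h3⟩

/-- the bridge for the tower of a quaternion algebra -/
theorem okx (hT : X.tw.Ok) (hL : X.tw.LEFT) (h : X.IsPl w L) {p : ℕ} [Fact p.Prime] (D : Emb L p)
    (hx : EXO L D.e) : letI := alg D; (tw L hT D.ι).Ok :=
  letI := alg D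
  ok (alg_eq D) (Oc.ff hT hL) hx.1 (nlx h).choose_spec (nbx h) (denx h D.e)

end Vale.Agent.P022K.FI.Br
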