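import Vale.Agent.P022K.FI.Upi

/-!
# P022K, block FI, COF 1: the contracting monoid of matrices, values at places of the tower
-/

set_option autoImplicit false
set_option linter.unusedSectionVars false
set_option linter.style.haveILetI false

open PowerSeries Vale.Agent.P019P P025H746 P025H492
open scoped MatrixGroups LaurentSeries

noncomputable section

namespace Vale.Agent.P022K.FI.Res

open Vale.Agent.P022K.Sh Mx

section mat

variable {O E : Type} [CommRing O] [IsDomain O] [IsDiscreteValuationRing O] [Field E] [Algebra O E]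
  {C : Type} [NontriviallyNormedField C] [IsUltrametricDist C] [CompleteSpace C] [Algebra E C]
  {ϖ : Eˣ} {k k' : GL (Fin 2) E} {r r' : ℝ}

theorem nn_nonneg (a : E) : 0 ≤ nn C a := norm_nonneg _

theorem nn_zero : nn C (0 : E) = 0 := by simp [nn]

theorem nn_one : nn C (1 : E) = 1 := by simp [nn]

theorem nn_sub_eq {a b : E} (h : nn C b < nn C a) : nn C (a - b) = nn C a := by
  simp only [nn, map_sub] at h ⊢
  exact norm_sub_of_lt h

theorem nn_add_eq {a b : E} (h : nn C a < nn C b) : nn C (a + b) = nn C b := by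
  rw [add_comm, ← sub_neg_eq_add, nn_sub_eq (by simpa [nn] using h)]

variable (C) in
/-- matrices with a dominant last entry -/
structure Mo (r : ℝ) (k : GL (Fin 2) E) : Prop where
  a : nn C (k 0 0) ≤ nn C (k 1 1)
  b : nn C (k 0 1) ≤ nn C (k 1 1)
  c : nn C (k 1 0) < nn C (k 1 1)
  d : nn C (k.det : E) = r * nn C (k 1 1) ^ 2

theorem Mo.pos (h : Mo C r k) : 0 < nn C (k 1 1) := (nn_nonneg _).trans_lt h.c

theorem Mo.off (h : Mo C r k) : nn C (k 0 1 * k 1 0) < nn C (k 1 1) ^ 2 := by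
  rw [nn_mul, sq]
  exact mul_lt_mul' h.b h.c (nn_nonneg _) h.pos

theorem Mo.mul (h : Mo C r k) (h' : Mo C r' k') : Mo C (r * r') (k * k') := by
  have p := h.pos
  have p' := h'.pos
  have e : nn C ((k * k' : GL (Fin 2) E) 1 1) = nn C (k 1 1) * nn C (k' 1 1) := by
    rw [mul_ent, nn_add_eq, nn_mul]
    rw [nn_mul, nn_mul]
    exact lt_of_le_of_lt (mul_le_mul_of_nonneg_left h'.b (nn_nonneg _))
      (mul_lt_mul_of_pos_right h.c p')
  refine ⟨?_, ?_, ?_, ?_⟩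
  · rw [e, mul_ent]
    refine (nn_add _ _).trans (max_le ?_ ?_) <;> rw [nn_mul]
    exacts [mul_le_mul h.a h'.a (nn_nonneg _) p.le, mul_le_mul h.b h'.c.le (nn_nonneg _) p.le]
  · rw [e, mul_ent]
    refine (nn_add _ _).trans (max_le ?_ ?_) <;> rw [nn_mul]
    exacts [mul_le_mul h.a h'.b (nn_nonneg _) p.le, mul_le_mul h.b le_rfl (nn_nonneg _) p.le]
  · rw [e, mul_ent]
    refine (nn_add _ _).trans_lt (max_lt ?_ ?_) <;> rw [nn_mul]
    exacts [lt_of_le_of_lt (mul_le_mul_of_nonneg_left h'.a (nn_nonneg _))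
      (mul_lt_mul_of_pos_right h.c p'), mul_lt_mul_of_pos_left h'.c p]
  · rw [e, map_mul, Units.val_mul, nn_mul, h.d, h'.d]
    ring

theorem mo_of (a : nn C (k 0 0) = nn C (k 1 1)) (b : nn C (k 0 1) ≤ nn C (k 1 1))
    (c : nn C (k 1 0) < nn C (k 1 1)) : Mo C 1 k := by
  refine ⟨a.le, b, c, ?_⟩
  rw [det_eq, nn_sub_eq, nn_mul, a, one_mul, sq]
  rw [nn_mul, nn_mul, a]
  exact mul_lt_mul' b c (nn_nonneg _) ((nn_nonneg _).trans_lt c)

theorem Mo.eq (h : Mo C 1 k) : nn C (k 0 0) = nn C (k 1 1) := by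
  have e : k 0 0 * k 1 1 = k 0 1 * k 1 0 + k.det := by rw [det_eq]; ring
  have h1 := congrArg (nn C) e
  rw [nn_add_eq (by rw [h.d, one_mul]; exact h.off), nn_mul, h.d, one_mul, sq] at h1
  exact mul_right_cancel₀ h.pos.ne' h1

theorem Mo.lt (h : Mo C r k) (hr : r < 1) : nn C (k 0 0) < nn C (k 1 1) :=
  h.a.lt_of_ne fun e => by
    have := (mo_of e h.b h.c).d
    rw [h.d] at this
    exact hr.ne (mul_right_cancel₀ (pow_pos h.pos 2).ne' this)

theorem mo_dg {μ : Eˣ} (h : nn C (μ : E) ≤ 1) : Mo C (nn C (μ : E)) (dg μ) := by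
  constructor <;> simp [dg_val, nn_zero, nn_one, h]

theorem mo_z {z : GL (Fin 2) E} (h : z ∈ Zl E) : Mo C 1 z := by
  obtain ⟨c, rfl⟩ := mem_Z.1 h
  refine mo_of ?_ ?_ ?_ <;> simp [nn_zero]

theorem mo_un {c : E} : Mo C 1 (un c) ↔ nn C c ≤ 1 :=
  ⟨fun h => by simpa [un_val, nn_one] using h.b,
    fun h => mo_of (by simp [un_val]) (by simpa [un_val, nn_one]) (by simp [un_val, nn_zero, nn_one])⟩

theorem Mo.inv (h : Mo C 1 k) : Mo C 1 k⁻¹ := by
  have p : 0 < nn C ((k.det : E)⁻¹) := nn_pos (inv_ne_zero k.det.ne_zero)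
  have e : ∀ a : E, nn C (-a) = nn C a := fun a => by simp [nn]
  refine mo_of ?_ ?_ ?_ <;> simp only [Gn.inv_val, Matrix.smul_apply, smul_eq_mul, nn_mul,
    Matrix.of_apply, Matrix.cons_val', Matrix.cons_val_zero, Matrix.cons_val_one,
    Matrix.cons_val_fin_one, e, h.eq]
  exacts [mul_le_mul_of_nonneg_left h.b p.le, mul_lt_mul_of_pos_left h.c p]

theorem Mo.left (h : Mo C 1 k) (h' : Mo C r k') : Mo C r (k * k') := by simpa using h.mul h'

theorem Mo.right (h : Mo C r k) (h' : Mo C 1 k') : Mo C r (k * k') := by simpa using h.mul h'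

theorem Mo.fm {g k₀ : GL (Fin 2) E} (h : Mo C r k₀) (h' : Fm g k k₀) : Mo C r (g⁻¹ * k * g) := by
  have := h.right (mo_z h')
  rwa [mul_inv_cancel_left] at this

theorem conj_KZ (hF : LF O C ϖ) (s : Eˣ) : dg s * k * (dg s)⁻¹ ∈ KZ O E ↔
    nn C (k 0 0) ^ 2 ≤ nn C (k.det : E) ∧ (nn C (s : E) * nn C (k 0 1)) ^ 2 ≤ nn C (k.det : E) ∧
    (nn C (k 1 0) / nn C (s : E)) ^ 2 ≤ nn C (k.det : E) ∧ nn C (k 1 1) ^ 2 ≤ nn C (k.det : E) := by
  obtain ⟨e1, e2, e3, e4⟩ := dg_conj s k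
  rw [mem_KZ hF, Fin.forall_fin_two, Fin.forall_fin_two, Fin.forall_fin_two, e1, e2, e3, e4,
    map_mul, map_mul, map_inv, mul_right_comm, mul_inv_cancel, one_mul, nn_mul, nn_div, and_assoc]

theorem mo_path (hF : LF O C ϖ) {s : Eˣ} (hs : nn C (s : E) < 1) :
    k ∈ KZ O E ∧ dg s * k * (dg s)⁻¹ ∈ KZ O E ↔
      Mo C 1 k ∧ nn C (k 1 0) ≤ nn C (s : E) * nn C (k 1 1) := by
  have p := nn_upos (C := C) s
  have pd := nn_upos (C := C) k.det
  have n1 := nn_nonneg (C := C) (k 0 0)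
  have n2 := nn_nonneg (C := C) (k 0 1)
  have n3 := nn_nonneg (C := C) (k 1 0)
  have n4 := nn_nonneg (C := C) (k 1 1)
  rw [conj_KZ hF, mem_KZ hF, Fin.forall_fin_two, Fin.forall_fin_two, Fin.forall_fin_two, div_pow,
    div_le_iff₀ (by positivity)]
  constructor
  · rintro ⟨⟨⟨h1, h2⟩, -, h4⟩, -, -, h3, -⟩
    have h5 : nn C (k 1 0) ^ 2 < nn C (k.det : E) :=
      h3.trans_lt (mul_lt_of_lt_one_right pd (pow_lt_one₀ p.le hs two_ne_zero))
    have h6 : nn C (k 0 1 * k 1 0) < nn C (k.det : E) := by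
      rw [nn_mul]
      nlinarith
    have e : k 0 0 * k 1 1 = k 0 1 * k 1 0 + k.det := by rw [det_eq]; ring
    have h7 := congrArg (nn C) e
    rw [nn_add_eq h6, nn_mul] at h7
    have h8 : nn C (k 0 0) = nn C (k 1 1) := by
      have : (nn C (k 0 0) - nn C (k 1 1)) ^ 2 ≤ 0 := by nlinarith
      exact sub_eq_zero.1 (pow_eq_zero_iff two_ne_zero |>.1 (le_antisymm this (sq_nonneg _)))
    rw [← h7, h8, ← sq] at h2 h3 h5
    exact ⟨mo_of h8 (le_of_sq_le_sq h2 n4) (lt_of_pow_lt_pow_left₀ 2 n4 h5),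
      le_of_sq_le_sq (by rwa [mul_pow, mul_comm]) (by positivity)⟩
  · rintro ⟨h, h1⟩
    rw [h.d, one_mul, h.eq]
    have h2 := pow_le_pow_left₀ n2 h.b 2
    refine ⟨⟨⟨le_rfl, h2⟩, pow_le_pow_left₀ n3 h.c.le 2, le_rfl⟩, le_rfl,
      pow_le_pow_left₀ (by positivity) ((mul_le_of_le_one_left n2 hs.le).trans h.b) 2, ?_, le_rfl⟩
    rw [← mul_pow, mul_comm]
    exact pow_le_pow_left₀ n3 h1 2

theorem mem_path (hF : LF O C ϖ) {g : GL (Fin 2) E} {n : ℤ} (hn : n < 0) :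
    k ∈ Vx O (g * dg (ϖ ^ n)) ⊓ Vx O (g * dg (ϖ ^ (0 : ℤ))) ↔ Mo C 1 (g⁻¹ * k * g) ∧
      nn C ((g⁻¹ * k * g : GL (Fin 2) E) 1 0) ≤
        nn C (ϖ : E) ^ (-n) * nn C ((g⁻¹ * k * g : GL (Fin 2) E) 1 1) := by
  rw [← nn_zpow, ← mo_path hF (by
    rw [nn_zpow]
    exact zpow_lt_one₀ (nn_upos ϖ) (nn_pi_lt hF) (by omega)), Subgroup.mem_inf, and_comm, Vx, Vx,
    mem_cj, mem_cj, zpow_zero, dg_one, mul_one, zpow_neg, dg_inv, inv_inv, mul_inv_rev]
  simp only [mul_assoc]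

theorem mem_iw (hF : LF O C ϖ) {g : GL (Fin 2) E} :
    k ∈ Vx O (g * dg (ϖ ^ (-1 : ℤ))) ⊓ Vx O (g * dg (ϖ ^ (0 : ℤ))) ↔ Mo C 1 (g⁻¹ * k * g) := by
  rw [mem_path hF (by omega), neg_neg, zpow_one, mul_comm (nn C (ϖ : E))]
  exact ⟨fun h => h.1, fun h => ⟨h, le_of_lt hF h.c⟩⟩

theorem Mo.kz (hF : LF O C ϖ) (h : Mo C 1 k) : k ∈ KZ O E :=
  ((mo_path hF (nn_pi_lt hF)).2 ⟨h, by rw [mul_comm]; exact le_of_lt hF h.c⟩).1

theorem Mo.conj {μ : Eˣ} (h : Mo C 1 k) (hμ : nn C (μ : E) ≤ 1)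
    (h' : nn C (k 1 0) < nn C (μ : E) * nn C (k 1 1)) : Mo C 1 (dg μ * k * (dg μ)⁻¹) := by
  obtain ⟨e1, e2, e3, e4⟩ := dg_conj μ k
  refine mo_of (by rw [e1, e4, h.eq]) ?_ ?_
  · rw [e2, e4, nn_mul]
    exact (mul_le_of_le_one_left (nn_nonneg _) hμ).trans h.b
  · rwa [e3, e4, nn_div, div_lt_iff₀' (nn_upos μ)]

theorem Mo.dec (h : Mo C r k) {μ : Eˣ} (hμ : nn C (μ : E) = r) :
    ∃ c : E, nn C c ≤ 1 ∧ Mo C 1 ((dg μ)⁻¹ * (un c)⁻¹ * k) := by
  have p : k 1 1 ≠ 0 := fun e => h.pos.ne' (by rw [e, nn_zero])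
  refine ⟨k 0 1 / k 1 1, by rw [nn_div, div_le_one h.pos]; exact h.b, ?_⟩
  rw [← dg_inv, ← un_neg]
  have e1 : (dg μ⁻¹ * un (-(k 0 1 / k 1 1)) * k : GL (Fin 2) E) 0 0 = k.det / (μ * k 1 1) := by
    rw [det_eq]
    simp [mul_ent, dg_val, un_val]
    field_simp
    ring
  have e2 : (dg μ⁻¹ * un (-(k 0 1 / k 1 1)) * k : GL (Fin 2) E) 0 1 = 0 := by
    simp [mul_ent, dg_val, un_val]
    field_simp
    ring
  have e3 : ∀ i, (dg μ⁻¹ * un (-(k 0 1 / k 1 1)) * k : GL (Fin 2) E) 1 i = k 1 i := fun i => by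
    simp [mul_ent, dg_val, un_val]
  refine mo_of ?_ (by rw [e2, nn_zero]; exact nn_nonneg _) (by rw [e3, e3]; exact h.c)
  rw [e1, e3, nn_div, nn_mul, h.d, ← hμ, div_eq_iff (mul_pos (nn_upos μ) h.pos).ne']
  ring

theorem Mo.eig (h : Mo C r k) (hr : r < 1) {n : GL (Fin 2) E} {μ : Eˣ} (hμ : nn C (μ : E) < 1)
    (hn : Fm n k (dg μ)) : nn C (μ : E) = r ∧ ∃ a : Eˣ, Mo C 1 (n * dg a) := by
  obtain ⟨ζ, e⟩ := fm_iff.1 hn
  have e0 : k * n = n * dg μ * Mx.sc ζ := by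
    rw [e, mul_assoc _ (Mx.sc ζ), ← Gn.zl_comm (sc_mem ζ)]
    group
  have e1 : ∀ i, k i 0 * n 0 0 + k i 1 * n 1 0 = n i 0 * μ * ζ := fun i => by
    rw [← mul_ent, e0, mul_sc, mul_ent]
    simp [dg_val]
  have e2 : ∀ i, k i 0 * n 0 1 + k i 1 * n 1 1 = n i 1 * ζ := fun i => by
    rw [← mul_ent, e0, mul_sc, mul_ent]
    simp [dg_val]
  have hd := det_ne n
  have e3 : k 0 0 + k 1 1 = μ * ζ + ζ := mul_right_cancel₀ hd (by
    linear_combination n 1 1 * e1 0 - n 1 0 * e2 0 + n 0 0 * e2 1 - n 0 1 * e1 1)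
  have e4 : (k.det : E) = μ * ζ ^ 2 := mul_right_cancel₀ hd (by
    rw [det_eq]
    linear_combination (k 1 0 * n 0 1 + k 1 1 * n 1 1) * e1 0 + n 0 0 * μ * ζ * e2 1 -
      (k 1 0 * n 0 0 + k 1 1 * n 1 0) * e2 0 - n 0 1 * ζ * e1 1)
  have hl := h.lt hr
  have pz := nn_upos (C := C) ζ
  have l1 : nn C (μ * ζ : E) < nn C (ζ : E) := by
    rw [nn_mul]
    exact mul_lt_of_lt_one_left pz hμ
  have e5 : nn C (k 1 1) = nn C (ζ : E) := by rw [← nn_add_eq hl, e3, nn_add_eq l1]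
  have e6 : nn C (k 1 0) * nn C (n 0 0) = nn C (ζ : E) * nn C (n 1 0) := by
    have : -(k 1 0 * n 0 0) = (k 1 1 - μ * ζ) * n 1 0 := by linear_combination -e1 1
    have := congrArg (nn C) this
    rw [nn_mul, nn_sub_eq (e5 ▸ l1), e5] at this
    simpa [nn] using this
  have e7 : nn C (k 0 1) * nn C (n 1 1) = nn C (ζ : E) * nn C (n 0 1) := by
    have : k 0 1 * n 1 1 = (ζ - k 0 0) * n 0 1 := by linear_combination e2 0
    have := congrArg (nn C) this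
    rwa [nn_mul, nn_mul, nn_sub_eq (e5 ▸ hl)] at this
  have z0 : ∀ a : E, nn C (ζ : E) * nn C a = 0 → a = 0 := fun a e => by_contra fun ha =>
    (mul_pos pz (nn_pos ha)).ne' e
  have p0 : n 0 0 ≠ 0 := fun e => hd (by
    rw [z0 (n 1 0) (by rw [← e6, e, nn_zero, mul_zero]), e]; ring)
  have p1 : n 1 1 ≠ 0 := fun e => hd (by
    rw [z0 (n 0 1) (by rw [← e7, e, nn_zero, mul_zero]), e]; ring)
  refine ⟨?_, Units.mk0 (n 1 1 / n 0 0) (div_ne_zero p1 p0), mo_of ?_ ?_ ?_⟩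
  · have := h.d
    rw [e4, sq, nn_mul, nn_mul, ← sq, e5] at this
    exact mul_right_cancel₀ (pow_pos pz 2).ne' this
  · simp [mul_ent, dg_val, mul_div_cancel₀ _ p0]
  · have h1 := mul_le_mul_of_nonneg_right (e5 ▸ h.b) (nn_nonneg (C := C) (n 1 1))
    rw [e7] at h1
    simpa [mul_ent, dg_val] using le_of_mul_le_mul_left h1 pz
  · have h1 := mul_lt_mul_of_pos_right (e5 ▸ h.c) (nn_pos (C := C) p0)
    rw [e6] at h1
    have h2 := (div_lt_one (nn_pos p0)).2 (lt_of_mul_lt_mul_left h1 pz.le)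
    have h3 := mul_lt_of_lt_one_left (nn_pos (C := C) p1) h2
    rw [← nn_div, ← nn_mul, div_mul_eq_mul_div, mul_div_assoc] at h3
    simpa [mul_ent, dg_val] using h3

theorem char_ex (hF : LF O C ϖ) :
    ∃ p e : ℕ, p.Prime ∧ CharP (kC C) p ∧ 0 < e ∧ qq O = p ^ e := by
  haveI := hF.fin
  haveI := Fintype.ofFinite (IsLocalRing.ResidueField O)
  obtain ⟨e, hp, he⟩ := FiniteField.card (IsLocalRing.ResidueField O) (ringChar _)
  refine ⟨_, e, hp, (CharP.charP_iff_prime_eq_zero hp).2 ?_, e.2,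
    by rw [qq, Nat.card_eq_fintype_card, he]⟩
  set p := ringChar (IsLocalRing.ResidueField O)
  have h1 : ¬ IsUnit (p : O) := by
    rw [← mem_nonunits_iff, ← IsLocalRing.mem_maximalIdeal, ← IsLocalRing.residue_eq_zero_iff,
      map_natCast]
    exact ringChar.Nat.cast_ringChar
  have h2 := (nn_O hF (p : O)).lt_of_ne fun e => h1 ((unit_iff hF).2 e)
  rw [nn, map_natCast, map_natCast] at h2
  have h3 := (cred_eq_zero h2.le).2 h2
  rw [cred_of h2.le] at h3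
  rw [← h3, ← map_natCast (IsLocalRing.residue (OC C))]
  rfl

end mat

end Vale.Agent.P022K.FI.Res
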