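import Vale.Agent.P022K.F0.Defs
import Vale.Agent.P022K.FI.An0
import Vale.Agent.P022K.FI.Cmp
import Vale.Agent.P027M.G.Defs

/-!
# P022K, block FI: discs of function fields, abstract towers with a factor `GL₂(E)` (definitions)

`L` is the function field of one component of the full tower, `Γ` its group (the kernel of the
action is the centre), the members of `Wl` are the groups (neat level away from `w`) times
`GL₂(E)`, even part.  In a frame `g` the torus is diagonal, `N` is the group of upper unipotent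
matrices, the vertices of the axis are `g * dg (ϖ ^ n)`, and `n → -∞` is the end fixed by `N`.
-/

set_option autoImplicit false
set_option linter.unusedSectionVars false

open PowerSeries Vale.Agent.P019P P025H746
open scoped MatrixGroups LaurentSeries

noncomputable section

namespace Vale.Agent.P022K.FI

open Vale.Agent.P022K.Sh

/-! ## series and discs -/

section series

variable {C : Type} [NontriviallyNormedField C] [IsUltrametricDist C]

/-- integral series -/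
def Ig (u : C⟦X⟧) : Prop := ∀ n, ‖coeff n u‖ ≤ 1

/-- units of the ring of integral series -/
def Un (u : C⟦X⟧) : Prop := Ig u ∧ ‖coeff 0 u‖ = 1

/-- series with reduction zero -/
def Sm (u : C⟦X⟧) : Prop := ∀ n, ‖coeff n u‖ < 1

/-- meromorphic on the closed disc of radius `r` -/
def Mr (r : ℝ) (x : C⸨X⸩) : Prop :=
  ∃ f g : C⟦X⟧, Cv r f ∧ Cv r g ∧ g ≠ 0 ∧ x * (g : C⸨X⸩) = (f : C⸨X⸩)

/-- `x = c * unit * ∏ (X - a) ^ D a` -/
def Fac (x : C⸨X⸩) (c : C) (D : C →₀ ℤ) : Prop :=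
  c ≠ 0 ∧ (∀ a ∈ D.support, ‖a‖ < 1) ∧ ∃ u : C⟦X⟧, Un u ∧
    x = algebraMap C C⸨X⸩ c * (u : C⸨X⸩) *
      D.prod fun a n => ((X - PowerSeries.C a : C⟦X⟧) : C⸨X⸩) ^ n

/-- `y = x ∘ φ`, formal substitution (`φ` without constant term) -/
def Sb (φ : C⟦X⟧) (x y : C⸨X⸩) : Prop := ∀ P Q : C⟦X⟧, x * (Q : C⸨X⸩) = (P : C⸨X⸩) →
  y * ((Q.subst φ : C⟦X⟧) : C⸨X⸩) = ((P.subst φ : C⟦X⟧) : C⸨X⸩)

/-- `y = x ∘ φ`, analytic substitution in quotients of integral series -/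
def Cm (φ : C⟦X⟧) (x y : C⸨X⸩) : Prop := ∀ P Q : C⟦X⟧, Ig P → Ig Q →
  x * (Q : C⸨X⸩) = (P : C⸨X⸩) → y * (An4.cmp φ Q : C⸨X⸩) = (An4.cmp φ P : C⸨X⸩)

/-- the degree of a divisor on the disc -/
def dgD (D : C →₀ ℤ) : ℤ := D.sum fun _ n => n

variable {K : Type} [Field K] [Algebra C K]

/-- an open disc in the curve of `K` -/
structure Dsc [CFF C K] (ε : K →ₐ[C] C⸨X⸩) (j : C → Plk C K) : Prop where
  fac : ∀ h : K, h ≠ 0 → ∃ c D, Fac (ε h) c D ∧ ∀ a, ‖a‖ < 1 → ord (j a) h = D a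
  inj : Set.InjOn j {a | ‖a‖ < 1}

/-- `η` is the Gauss norm of `ε` -/
def Gs (ε : K →ₐ[C] C⸨X⸩) (η : NV C K) : Prop := ∀ h c D, Fac (ε h) c D → η h = ‖c‖

/-- `z` is the branch of `ε` -/
def Brn (ε : K →ₐ[C] C⸨X⸩) (η : NV C K) (z : Plk (kC C) (kap η)) : Prop :=
  ∀ h c D, Fac (ε h) c D → ‖c‖ = 1 → (η.red h ∈ z.1 ↔ 0 ≤ dgD D)

variable (C) in
/-- the properties of the ground field (all true for `CS p`) -/
structure GF : Prop where
  sph : P025H458.Sph C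
  onto : ∀ r : ℝ, 0 ≤ r → ∃ x : C, ‖x‖ = r
  tor : ∀ a : kC C, a ≠ 0 → ∃ n : ℕ, 0 < n ∧ a ^ n = 1
  iso : Nonempty (C ≃+* ℂ)

end series

/-! ## matrices -/

section matrices

variable (O : Type) {E : Type} [CommRing O] [IsDomain O] [IsDiscreteValuationRing O] [Field E]
  [Algebra O E]

/-- integral elements -/
def Io (c : E) : Prop := c ∈ (algebraMap O E).range

/-- `(1 c; 0 1)` -/
def un (c : E) : GL (Fin 2) E :=
  Matrix.GeneralLinearGroup.mkOfDetNeZero !![1, c; 0, 1] (by simp [Matrix.det_fin_two])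

theorem un_val (c : E) : (un c : Matrix (Fin 2) (Fin 2) E) = !![1, c; 0, 1] := rfl

theorem un_add (c d : E) : un (c + d) = un c * un d := by
  ext i k
  fin_cases i <;> fin_cases k <;> simp [un_val, Matrix.mul_apply, Fin.sum_univ_two, add_comm]

theorem un_zero : un (0 : E) = 1 := by
  ext i k
  fin_cases i <;> fin_cases k <;> simp [un_val]

theorem un_neg (c : E) : un (-c) = (un c)⁻¹ :=
  eq_inv_of_mul_eq_one_left (by rw [← un_add, neg_add_cancel, un_zero])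

/-- the unipotent matrices with entry in `s O` -/
def Nu (s : Eˣ) : Subgroup (GL (Fin 2) E) where
  carrier := {k | ∃ c : E, Io O (c / s) ∧ k = un c}
  mul_mem' := by
    rintro _ _ ⟨c, hc, rfl⟩ ⟨d, hd, rfl⟩
    exact ⟨c + d, by rw [add_div]; exact add_mem hc hd, (un_add c d).symm⟩
  one_mem' := ⟨0, by rw [zero_div]; exact zero_mem _, un_zero.symm⟩
  inv_mem' := by
    rintro _ ⟨c, hc, rfl⟩
    exact ⟨-c, by rw [neg_div]; exact neg_mem hc, (un_neg c).symm⟩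

variable (E) in
/-- the stabiliser of the standard vertex -/
def KZ : Subgroup (GL (Fin 2) E) := KK O E ⊔ Zl E

/-- the stabiliser of the vertex `g` -/
def Vx (g : GL (Fin 2) E) : Subgroup (GL (Fin 2) E) := cj g (KZ O E)

/-- local levels: open subgroups of the stabiliser of a vertex, with the centre -/
structure Ll (V : Subgroup (GL (Fin 2) E)) : Prop where
  z : Zl E ≤ V
  op : ∃ m, Km O E m ≤ V
  vx : ∃ g, V ≤ Vx O g

/-- `k` is `k₀` in the frame `g`, modulo the centre -/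
def Fm (g k k₀ : GL (Fin 2) E) : Prop := k₀⁻¹ * (g⁻¹ * k * g) ∈ Zl E

/-- the unipotent part of `V` in the frame `g` is `s O` -/
def Np (g : GL (Fin 2) E) (s : Eˣ) (V : Subgroup (GL (Fin 2) E)) : Prop :=
  ∀ c : E, g * un c * g⁻¹ ∈ V ↔ Io O (c / s)

variable (C : Type) [NontriviallyNormedField C] [Algebra E C]

/-- `E` is a local field with integers `O` and uniformiser `ϖ`, inside `C` -/
structure LF (ϖ : Eˣ) : Prop where
  fr : IsFractionRing O E
  fin : Finite (IsLocalRing.ResidueField O)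
  cpl : IsAdicComplete (IsLocalRing.maximalIdeal O) O
  irr : ∃ p : O, Irreducible p ∧ algebraMap O E p = ϖ
  nrm : ∀ x : E, ‖algebraMap E C x‖ ≤ 1 ↔ Io O x

end matrices

/-! ## Lubin-Tate data -/

section lt

variable (C O E : Type) [NontriviallyNormedField C] [IsUltrametricDist C] [CharZero C]
  [CommRing O] [IsDomain O] [IsDiscreteValuationRing O] [Field E] [Algebra O E] [Algebra E C]

/-- `f = [ϖ]`, the logarithm, the endomorphisms, the translations by torsion points, a character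
of `E / O` and its period -/
structure LTD where
  f : C⟦X⟧
  lg : C⟦X⟧
  br : O → C⟦X⟧
  tr : E → C⟦X⟧
  ψ : AddChar E C
  Ω : C

variable {C O E}

/-- the function `exp (Ω b log)` -/
def LTD.y (D : LTD C O E) (b : E) : C⟦X⟧ :=
  (PowerSeries.exp C).subst ((D.Ω * algebraMap E C b) • D.lg)

/-- the properties of Lubin-Tate data -/
structure LTD.Ok (D : LTD C O E) (ϖ : Eˣ) : Prop where
  f_red : Sm (D.f - X ^ qq O)
  f_br : ∀ p : O, algebraMap O E p = ϖ → D.br p = D.f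
  lg0 : constantCoeff D.lg = 0
  lg1 : coeff 1 D.lg = 1
  lg_un : Un (d⁄dX C D.lg)
  br_ig : ∀ a, Ig (D.br a)
  br0 : ∀ a, constantCoeff (D.br a) = 0
  br_lg : ∀ a, D.lg.subst (D.br a) = algebraMap E C (algebraMap O E a) • D.lg
  tr_red : ∀ x, Sm (D.tr x - X)
  tr_lg : ∀ x, An4.cmp (D.tr x) D.lg = D.lg
  tr_add : ∀ x x', D.tr (x + x') = An4.cmp (D.tr x') (D.tr x)
  tr_int : ∀ x, Io O x → D.tr x = X
  tr_zero : ∀ x, constantCoeff (D.tr x) = 0 → Io O x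
  tr_br : ∀ x a, An4.cmp (D.tr x) (D.br a) = An4.cmp (D.br a) (D.tr (algebraMap O E a * x))
  fib : ∀ a a' : C, ‖a‖ < 1 → ‖a'‖ < 1 → An4.ev a D.f = An4.ev a' D.f →
    ∃ x : E, Io O (ϖ * x) ∧ a' = An4.ev a (D.tr x)
  ψ_int : ∀ x, Io O x → D.ψ x = 1
  ψ_prim : ∀ x, (∀ b, Io O b → D.ψ (b * x) = 1) → Io O x
  Ω0 : D.Ω ≠ 0
  y_un : ∀ b, Io O b → Un (D.y b)
  y_tr : ∀ b x, Io O b → An4.cmp (D.tr x) (D.y b) = D.ψ (b * x) • D.y b

end lt

/-! ## towers -/

section tower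

/-- the data of a tower -/
structure AT (C L Γ O E : Type) [Field C] [Field L] [Algebra C L] [Group Γ] [Field E] where
  ϖ : Eˣ
  act : Γ →* (L ≃ₐ[C] L)
  π : Γ →* GL (Fin 2) E
  Wl : Set (Subgroup Γ)

variable {C L Γ O E : Type} [NontriviallyNormedField C] [IsUltrametricDist C] [CharZero C]
  [Field L] [Algebra C L] [Group Γ] [CommRing O] [IsDomain O] [IsDiscreteValuationRing O]
  [Field E] [Algebra O E] [Algebra E C]

namespace AT

variable (A : AT C L Γ O E)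

/-- the level with the part `W` away from `w` and `V` at `w` -/
def U (W : Subgroup Γ) (V : Subgroup (GL (Fin 2) E)) : Subgroup Γ := W ⊓ V.comap A.π

/-- the fixed field -/
def K (S : Subgroup Γ) : IntermediateField C L := IntermediateField.fixedField (S.map A.act)

theorem mem_K {S : Subgroup Γ} {h : L} : h ∈ A.K S ↔ ∀ γ ∈ S, A.act γ h = h := by
  simp [K, IntermediateField.mem_fixedField_iff]

/-- the function field of the vertex `g` -/
abbrev Kv (W : Subgroup Γ) (g : GL (Fin 2) E) : IntermediateField C L := A.K (A.U W (Vx O g))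

/-- the elements which are trivial away from `w` -/
def H : Subgroup Γ := sInf A.Wl

/-- the action on places -/
def sm (γ : Γ) (y : Plk C L) : Plk C L :=
  ⟨y.1.comap (A.act γ⁻¹ : L →+* L), fun a => by
    rw [ValuationSubring.mem_comap]
    exact ((A.act γ⁻¹).commutes a).symm ▸ y.2.1 a,
   fun e => y.2.2 (eq_top_iff.2 fun h _ => by
    have h1 : A.act γ h ∈ y.1.comap (A.act γ⁻¹ : L →+* L) := by
      rw [e]
      exact ValuationSubring.mem_top _
    rw [ValuationSubring.mem_comap] at h1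
    have h2 : A.act γ⁻¹ (A.act γ h) = h := by
      rw [← AlgEquiv.mul_apply, ← map_mul, inv_mul_cancel, map_one, AlgEquiv.one_apply]
    exact h2 ▸ h1)⟩

theorem mem_sm {γ : Γ} {y : Plk C L} {h : L} : h ∈ (A.sm γ y).1 ↔ A.act γ⁻¹ h ∈ y.1 := Iff.rfl

theorem act_mul (γ δ : Γ) (h : L) : A.act (γ * δ) h = A.act γ (A.act δ h) := by
  rw [map_mul, AlgEquiv.mul_apply]

theorem act_one (h : L) : A.act 1 h = h := by rw [map_one, AlgEquiv.one_apply]

theorem act_inv (γ : Γ) (h : L) : A.act γ⁻¹ (A.act γ h) = h := by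
  rw [← act_mul, inv_mul_cancel, act_one]

theorem act_inv' (γ : Γ) (h : L) : A.act γ (A.act γ⁻¹ h) = h := by
  rw [← act_mul, mul_inv_cancel, act_one]

theorem sm_one (y : Plk C L) : A.sm 1 y = y :=
  Subtype.ext (SetLike.ext fun h => by rw [mem_sm, inv_one, act_one])

theorem sm_mul (γ δ : Γ) (y : Plk C L) : A.sm (γ * δ) y = A.sm γ (A.sm δ y) :=
  Subtype.ext (SetLike.ext fun h => by rw [mem_sm, mem_sm, mem_sm, mul_inv_rev, act_mul])

/-- the stabiliser of a place -/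
def St (y : Plk C L) : Subgroup Γ where
  carrier := {γ | A.sm γ y = y}
  mul_mem' {γ δ} h h' := by
    have e : A.sm γ y = y := h
    have e' : A.sm δ y = y := h'
    show A.sm (γ * δ) y = y
    rw [sm_mul, e', e]
  one_mem' := A.sm_one y
  inv_mem' {γ} h := by
    have e : A.sm γ y = y := h
    show A.sm γ⁻¹ y = y
    conv_lhs => rw [← e, ← sm_mul, inv_mul_cancel, sm_one]

theorem mem_St {γ : Γ} {y : Plk C L} : γ ∈ A.St y ↔ A.sm γ y = y := Iff.rfl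

/-- a chart at a special point: `θ` is the expansion in a coordinate in which the stabiliser acts
by multiplications, `g` is a frame in which it is diagonal -/
structure CM (x : Plk C L) (θ : L →ₐ[C] C⸨X⸩) (g : GL (Fin 2) E) : Prop where
  pl : ∀ h, h ∈ x.1 ↔ 0 ≤ (θ h).order
  uni : ∃ s, (θ s).order = 1
  lin : ∀ t ∈ A.St x, ∃ μ : Eˣ, Fm g (A.π t) (dg μ) ∧
    ∀ h (n : ℤ), (θ (A.act t h)).coeff n * algebraMap E C μ ^ n = (θ h).coeff n
  den : ∀ (c : Eˣ) (e : ℝ), 0 < e → ∃ t ∈ A.St x, ∃ μ : Eˣ, Fm g (A.π t) (dg μ) ∧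
    ‖algebraMap E C μ - algebraMap E C c‖ < e

/-- the place is fixed by a non central element of a group `W` -/
def Hyp (x : Plk C L) : Prop := ∃ W ∈ A.Wl, ∃ γ ∈ W, γ ∈ A.St x ∧ γ ∉ A.act.ker

/-- the axioms of a tower -/
structure Ok : Prop where
  gf : GF C
  lf : LF O C A.ϖ
  inf : ∀ W ∈ A.Wl, ∀ W' ∈ A.Wl, W ⊓ W' ∈ A.Wl
  conj : ∀ W ∈ A.Wl, ∀ γ, cj γ W ∈ A.Wl
  fi : ∀ W ∈ A.Wl, ∀ W' ∈ A.Wl, W.relIndex W' ≠ 0
  zw : ∀ W ∈ A.Wl, A.act.ker ≤ W
  zs : ∀ z ∈ A.act.ker, A.π z ∈ Zl E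
  sc : ∀ c ∈ Zl E, ∃ z ∈ A.act.ker, A.π z = c
  ev : ∀ W ∈ A.Wl, ∀ γ ∈ W, ∃ c : E,
    ‖algebraMap E C (A.π γ).det.val‖ = ‖algebraMap E C c‖ ^ 2
  smo : ∀ h : L, ∃ W ∈ A.Wl, ∃ m, h ∈ A.K (A.U W (Km O E m ⊔ Zl E))
  cff : ∀ W ∈ A.Wl, ∀ V, Ll O V → CFF C (A.K (A.U W V))
  gal : ∀ W ∈ A.Wl, ∀ V, Ll O V → ∀ σ : L ≃ₐ[C] L, (∀ h ∈ A.K (A.U W V), σ h = h) →
    ∃ u ∈ A.U W V, A.act u = σ
  neat : ∀ W ∈ A.Wl, ∀ g, ∀ γ ∈ A.U W (Vx O g), ∀ y, γ ∈ A.St y → γ ∈ A.act.ker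
  gen2 : ∀ W ∈ A.Wl, ∀ V, Ll O V → ∀ [CFF C (A.K (A.U W V))], 2 ≤ gen C (A.K (A.U W V))
  nb : ∀ g : GL (Fin 2) E, ∃ γ, (g⁻¹ * A.π γ * g) 1 0 ≠ 0
  ex : ∃ x, A.Hyp x
  cm : ∀ x, A.Hyp x → ∃ θ g, A.CM x θ g

/-- the place `y` of `L` lies over the place `P` of a subfield -/
def Ly {M : IntermediateField C L} (y : Plk C L) (P : Plk C M) : Prop :=
  ∀ h : M, h ∈ P.1 ↔ (h : L) ∈ y.1

/-- the unipotent elements with entry in `ϖ ^ n O` in the frame `g`, trivial away from `w` -/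
def Nn (g : GL (Fin 2) E) (n : ℤ) : Subgroup Γ := A.U A.H (cj g (Nu O (A.ϖ ^ n) ⊔ Zl E))

/-- the field `L_n` -/
abbrev Ln (g : GL (Fin 2) E) (n : ℤ) : IntermediateField C L := A.K (A.Nn g n)

/-- the decomposition group of the disc of radius `r` -/
def Sr (θ : L →ₐ[C] C⸨X⸩) (S : Subgroup Γ) (r : ℝ) : Set Γ :=
  {u | u ∈ S ∧ ∀ h, Mr r (θ h) → A.act u h = h}

/-- the basin of a special point: `ε n` is the expansion in the coordinate of level `n` -/
structure Bas (D : LTD C O E) (x : Plk C L) (θ : L →ₐ[C] C⸨X⸩) (g : GL (Fin 2) E) (b : C)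
    (ε : ℤ → L →ₐ[C] C⸨X⸩) : Prop where
  cm : A.CM x θ g
  hyp : A.Hyp x
  b0 : b ≠ 0
  sb : ∀ (n : ℤ) h, Sb ((b * algebraMap E C A.ϖ ^ n) • D.lg) (θ h) (ε n h)
  fac : ∀ n, ∀ h ∈ A.Ln g n, h ≠ 0 → ∃ c Dv, Fac (ε n h) c Dv
  trn : ∀ (n : ℤ) (c : E), ∀ γ ∈ A.H, Fm g (A.π γ) (un c) → ∀ h ∈ A.Ln g n,
    Cm (D.tr (c / (A.ϖ ^ n : Eˣ))) (ε n h) (ε n (A.act γ h))

/-- `ν` is the boundary norm of the basin -/
def Gv (g : GL (Fin 2) E) (ε : ℤ → L →ₐ[C] C⸨X⸩) (ν : NV C L) : Prop :=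
  ∀ n, ∀ h ∈ A.Ln g n, ∀ c Dv, Fac (ε n h) c Dv → ν h = ‖c‖

/-- `y` lies over the point `a` of the disc of level `n` -/
def Ov (g : GL (Fin 2) E) (ε : ℤ → L →ₐ[C] C⸨X⸩) (n : ℤ) (a : C) (y : Plk C L) : Prop :=
  ‖a‖ < 1 ∧ ∀ h ∈ A.Ln g n, ∀ c Dv, Fac (ε n h) c Dv → (h ∈ y.1 ↔ 0 ≤ Dv a)

/-- ordinary norms with the frame `g` -/
def Ord (D : LTD C O E) (ν : NV C L) (g : GL (Fin 2) E) : Prop :=
  ∃ x θ b ε, A.Bas D x θ g b ε ∧ A.Gv g ε ν

/-- the function field of the path from the vertex `m` to the vertex `n` of the axis of `g` -/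
abbrev Kp (W : Subgroup Γ) (g : GL (Fin 2) E) (m n : ℤ) : IntermediateField C L :=
  A.K (A.U W (Vx O (g * dg (A.ϖ ^ m)) ⊓ Vx O (g * dg (A.ϖ ^ n))))

end AT

end tower

end Vale.Agent.P022K.FI
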