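import Vale.Agent.P022K.FI.Fro0

/-!
# P022K, block FI, row END: an ordinary norm determines the end of its frame
-/

set_option autoImplicit false
set_option linter.all false

open Vale.Agent.P019P P025H746
open scoped MatrixGroups

namespace Vale.Agent.P022K.FI

open Vale.Agent.P022K.Sh

variable {C L Γ O E : Type} [NontriviallyNormedField C] [IsUltrametricDist C] [CompleteSpace C]
  [IsAlgClosed C] [CharZero C] [Field L] [Algebra C L] [Group Γ] [CommRing O] [IsDomain O]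
  [IsDiscreteValuationRing O] [Field E] [Algebra O E] [Algebra E C] {A : AT C L Γ O E}

theorem red_eq_iff {K : Type} [Field K] [Algebra C K] {w : NV C K} {x y : K} (hx : w x ≤ 1)
    (hy : w y ≤ 1) : w.red x = w.red y ↔ w (x - y) < 1 := by
  rw [← sub_eq_zero, ← NV.red_sub hx hy, NV.red_eq_zero (NV.sub_le hx hy)]

/-- **END** -/
theorem end_row (hA : A.Ok) (hO : A.ORB) (hF : A.FRO) : A.END := fun D hD ν g g' h h' => by
  by_contra hne
  obtain ⟨W, hW⟩ := Gn.exists_W hA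
  have h1 := ((hO D hD).2 ν g h).1 _ (Fro.un_low ((g⁻¹ * g') 0 0 / (g⁻¹ * g') 1 0))
  have h2 := ((hO D hD).2 ν g' h').1 _ (Fro.bru_low hne)
  rw [mul_inv_rev, inv_inv, ← mul_assoc, mul_inv_cancel_left, ← mul_assoc] at h2
  generalize g * un ((g⁻¹ * g') 0 0 / (g⁻¹ * g') 1 0) = k at h1 h2
  obtain ⟨-, -, a, -⟩ := hF D hD ν k h1 W hW 1
  obtain ⟨-, -, b, -⟩ := hF D hD ν _ h2 W hW 0
  simp only [AT.Kv, Fro.Vx_ww hA.lf, ← zpow_neg, sub_self, zero_sub, neg_neg, neg_zero] at a b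
  have c := (hF D hD ν k h1 W hW 0).1 _ (Mx.ll_Vx hA.lf (k * dg (A.ϖ ^ (0 : ℤ)))) (by
    simpa only [inf_idem] using Mx.np_Vx hA.lf k (le_refl 0))
  obtain ⟨z⟩ := nonempty_Plk (k := kC C)
    (F := kap (ν.comap (A.K (A.U W (Vx O (k * dg (A.ϖ ^ (0 : ℤ))))))))
  obtain ⟨s, -, hs⟩ := exists_unif z
  obtain ⟨x, hx, rfl⟩ := NV.red_surj s
  obtain ⟨y, y1, y2, y3⟩ := a x x.2 hx
  obtain ⟨u, u1, u2, u3⟩ := b y y1 y2
  have hx' : ν (x : L) ≤ 1 := hx
  have e1 := (red_eq_iff hx' (NV.pow_le_one' y2 _)).2 y3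
  have e2 := (red_eq_iff y2 (NV.pow_le_one' u2 _)).2 u3
  rw [NV.red_pow y2, e2, ← NV.red_pow (NV.pow_le_one' u2 _),
    red_eq_iff hx' (NV.pow_le_one' (NV.pow_le_one' u2 _) _)] at e1
  have u4 : ν.comap (A.K (A.U W (Vx O (k * dg (A.ϖ ^ (0 : ℤ)))))) ⟨u, u1⟩ ≤ 1 := u2
  rw [(red_eq_iff hx (NV.pow_le_one' (NV.pow_le_one' u4 (qq O)) (qq O))).2 e1,
    NV.red_pow (NV.pow_le_one' u4 _), ord_pow] at hs
  have := hA.lf.fin
  have h3 : 1 < qq O := Finite.one_lt_card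
  have := Int.eq_one_of_mul_eq_one_right (Int.natCast_nonneg _) hs
  omega

end Vale.Agent.P022K.FI
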