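import Vale.Agent.P025.R2.H746.Defs
import Vale.Agent.P025.R2.H458.Ortho

/-!
# P022K FI, row FIELD, part 1: maximal subfields with residue field algebraic over `F_p`

`Tor z` : the residue class of `z` is zero or a root of unity.  A maximal subfield with this
property of a spherically complete algebraically closed field with surjective norm is again
closed, algebraically closed, spherically complete, and its norm is surjective (`exists_big`).
-/

open Polynomial P025H746 P025H373 P025H458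

set_option linter.unusedSectionVars false
set_option linter.style.haveILetI false

namespace Vale.Agent.P022K.FI

/-- induction on polynomials over an algebraically closed field -/
theorem pind {L : Type*} [Field L] [IsAlgClosed L] {T : L[X] → Prop} (h0 : ∀ a, T (C a))
    (h1 : ∀ a, T (X - C a)) (hm : ∀ P Q, T P → T Q → T (P * Q)) (P : L[X]) : T P := by
  have h := IsAlgClosed.splits P
  induction h using Submonoid.closure_induction with
  | mem x hx =>
    rcases hx with ⟨a, rfl⟩ | ⟨a, rfl⟩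
    · exact h0 a
    · have := h1 (-a)
      rwa [C_neg, sub_neg_eq_add] at this
  | one => simpa using h0 1
  | mul x y _ _ hx hy => exact hm x y hx hy

/-- zero or a root of unity -/
def Tr {k : Type*} [Field k] (a : k) : Prop := a ≠ 0 → ∃ n > 0, a ^ n = 1

theorem tr_iff {k : Type*} [Field k] (p : ℕ) [Fact p.Prime] [Algebra (ZMod p) k] (a : k) :
    Tr a ↔ IsAlgebraic (ZMod p) a := by
  constructor
  · intro h
    by_cases h0 : a = 0
    · rw [h0]; exact isAlgebraic_zero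
    · obtain ⟨n, hn, h1⟩ := h h0
      refine ⟨X ^ n - C 1, X_pow_sub_C_ne_zero hn 1, ?_⟩
      simp [h1]
  · intro h h0
    haveI := IntermediateField.adjoin.finiteDimensional h.isIntegral
    haveI : Finite (IntermediateField.adjoin (ZMod p) {a}) := Module.finite_of_finite (ZMod p)
    have h1 : IntermediateField.AdjoinSimple.gen (ZMod p) a ≠ 0 := fun e =>
      h0 (congrArg Subtype.val e)
    obtain ⟨n, hn, h2⟩ := isOfFinOrder_iff_pow_eq_one.1 (isOfFinOrder_of_finite (Units.mk0 _ h1))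
    exact ⟨n, hn, congrArg Subtype.val (congrArg Units.val h2)⟩

theorem Tr.root {k : Type*} [Field k] (p : ℕ) [Fact p.Prime] [CharP k p] {Q : k[X]} (hQ : Q ≠ 0)
    (hc : ∀ i, Tr (Q.coeff i)) {a : k} (ha : Q.eval a = 0) : Tr a := by
  letI := ZMod.algebra k p
  obtain ⟨R, hR⟩ : Q ∈ lifts (algebraMap (algebraicClosure (ZMod p) k) k) :=
    (lifts_iff_coeff_lifts _).2 fun i =>
      ⟨⟨_, mem_algebraicClosure_iff.2 ((tr_iff p _).1 (hc i))⟩, rfl⟩
  have hR' : R.map (algebraMap _ k) = Q := hR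
  have h1 : IsAlgebraic (algebraicClosure (ZMod p) k) a :=
    ⟨R, fun e => hQ (by rw [← hR', e, Polynomial.map_zero]), by
      rw [aeval_def, ← eval_map, hR', ha]⟩
  exact (tr_iff p a).2 (h1.restrictScalars _)

section ultra

variable {Ω : Type*} [NormedField Ω] [IsUltrametricDist Ω]

theorem nsub_le {x y : Ω} {r : ℝ} (hx : ‖x‖ ≤ r) (hy : ‖y‖ ≤ r) : ‖x - y‖ ≤ r := by
  rw [sub_eq_add_neg]
  exact (IsUltrametricDist.norm_add_le_max _ _).trans (max_le hx (by rwa [norm_neg]))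

theorem nadd_lt {x y : Ω} {r : ℝ} (hx : ‖x‖ < r) (hy : ‖y‖ < r) : ‖x + y‖ < r :=
  (IsUltrametricDist.norm_add_le_max _ _).trans_lt (max_lt hx hy)

/-- isosceles triangles -/
theorem norm_eq_of_sub_lt {x y : Ω} (h : ‖x - y‖ < ‖x‖) : ‖y‖ = ‖x‖ := by
  refine le_antisymm ?_ (not_lt.1 fun h1 => ?_)
  · have := nsub_le le_rfl h.le
    rwa [sub_sub_cancel] at this
  · have := nadd_lt h h1
    rw [sub_add_cancel] at this
    exact lt_irrefl _ this

theorem norm_sub_max {x y : Ω} (h : ‖x‖ ≠ ‖y‖) : ‖x - y‖ = max ‖x‖ ‖y‖ := by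
  rw [sub_eq_add_neg, IsUltrametricDist.norm_add_eq_max_of_norm_ne_norm (by rwa [norm_neg]),
    norm_neg]

theorem cred_congr {x y : Ω} (h : ‖x - y‖ < 1) : cred x = cred y := by
  by_cases hy : ‖y‖ ≤ 1
  · rw [← sub_add_cancel x y, cred_add h.le hy, (cred_eq_zero h.le).2 h, zero_add]
  · have h1 : ‖x‖ = ‖y‖ := norm_eq_of_sub_lt (by rw [norm_sub_rev]; linarith)
    rw [cred, cred, dif_neg hy, dif_neg (by rwa [h1])]

theorem lt_of_cred_eq {x y : Ω} (hx : ‖x‖ ≤ 1) (hy : ‖y‖ ≤ 1) (h : cred x = cred y) :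
    ‖x - y‖ < 1 := by
  have h1 := nsub_le hx hy
  have h2 := cred_add h1 hy
  rw [sub_add_cancel, h] at h2
  exact (cred_eq_zero h1).1 (by linear_combination -h2)

theorem cred_pow {x : Ω} (hx : ‖x‖ ≤ 1) (n : ℕ) : cred (x ^ n) = cred x ^ n := by
  rw [cred_of hx, cred_of (by rw [norm_pow]; exact pow_le_one₀ (norm_nonneg _) hx), ← map_pow]
  rfl

theorem cred_natCast (n : ℕ) : cred (n : Ω) = n := by
  rw [cred_of (IsUltrametricDist.norm_natCast_le_one Ω n), ← map_natCast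
    (IsLocalRing.residue (OC Ω))]
  rfl

theorem charP_kC (p : ℕ) [Fact p.Prime] (hp : ‖(p : Ω)‖ < 1) : CharP (kC Ω) p :=
  (CharP.charP_iff_prime_eq_zero Fact.out).2 (by
    rw [← cred_natCast]; exact (cred_eq_zero hp.le).2 hp)

/-- the residue class of `z` is zero or a root of unity -/
def Tor {Ω : Type*} [NormedField Ω] (z : Ω) : Prop := ‖z‖ = 1 → ∃ n > 0, ‖z ^ n - 1‖ < 1

theorem tor_iff (z : Ω) : Tor z ↔ Tr (cred z) := by
  constructor
  · intro h h0
    have h1 : ‖z‖ ≤ 1 := by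
      by_contra h1
      exact h0 (dif_neg h1)
    obtain ⟨n, hn, h2⟩ := h (le_antisymm h1 (not_lt.1 fun h2 => h0 ((cred_eq_zero h1).2 h2)))
    exact ⟨n, hn, by rw [← cred_pow h1, cred_congr h2, cred_one]⟩
  · intro h h1
    obtain ⟨n, hn, h2⟩ := h fun h0 => ((cred_eq_zero h1.le).1 h0).ne h1
    refine ⟨n, hn, lt_of_cred_eq (by rw [norm_pow, h1, one_pow]) norm_one.le ?_⟩
    rw [cred_pow h1.le, h2, cred_one]

theorem tr_kC (h : ∀ z : Ω, Tor z) (a : kC Ω) : a ≠ 0 → ∃ n > 0, a ^ n = 1 := by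
  obtain ⟨x, -, rfl⟩ := cred_surj a
  exact (tor_iff x).1 (h x)

theorem Tor.congr {x y : Ω} (hy : Tor y) (h : ‖x - y‖ < 1) : Tor x := by
  rw [tor_iff] at hy ⊢
  rwa [cred_congr h]

/-- algebraic elements keep the property -/
theorem tor_alg (p : ℕ) [Fact p.Prime] (hp : ‖(p : Ω)‖ < 1) {M : Subfield Ω}
    (hM : ∀ z ∈ M, Tor z) {z : Ω} (hz : IsAlgebraic M z) : Tor z := by
  intro h1
  haveI := charP_kC p hp
  obtain ⟨P, hP, hz⟩ := hz
  have hP' : P.map (algebraMap M Ω) ≠ 0 := Polynomial.map_ne_zero hP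
  obtain ⟨i, hi⟩ := exists_coeff_eq (P.map (algebraMap M Ω))
  have hg : 0 < gp (P.map (algebraMap M Ω)) :=
    lt_of_le_of_ne (gp_nonneg _) fun e => hP' (gp_eq_zero.1 e.symm)
  set c := (P.map (algebraMap M Ω)).coeff i with hc
  have hcM : c ∈ M := by rw [hc, coeff_map]; exact (P.coeff i).2
  have hn : ∀ j, ‖(C c⁻¹ * P.map (algebraMap M Ω)).coeff j‖ ≤ 1 := fun j => by
    rw [coeff_C_mul, norm_mul, norm_inv, hi, inv_mul_le_one₀ hg]
    exact norm_coeff_le _ j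
  obtain ⟨R, hR⟩ : C c⁻¹ * P.map (algebraMap M Ω) ∈ lifts (OC Ω).subtype :=
    (lifts_iff_coeff_lifts _).2 fun j => ⟨⟨_, hn j⟩, rfl⟩
  have hR' : R.map (OC Ω).subtype = C c⁻¹ * P.map (algebraMap M Ω) := hR
  have hco : ∀ j, (R.map (IsLocalRing.residue (OC Ω))).coeff j =
      cred ((C c⁻¹ * P.map (algebraMap M Ω)).coeff j) := fun j => by
    rw [coeff_map, cred_of (hn j)]
    congr 1
    exact Subtype.ext ((coeff_map (OC Ω).subtype j).symm.trans (congrArg (coeff · j) hR'))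
  refine (tor_iff z).2 (Tr.root p (Q := R.map (IsLocalRing.residue (OC Ω))) (fun e => ?_)
    (fun j => ?_) ?_) h1
  · have := hco i
    rw [e, coeff_zero, coeff_C_mul, ← hc, inv_mul_cancel₀ (by
      rw [← norm_pos_iff, hi]; exact hg), cred_one] at this
    exact zero_ne_one this
  · rw [hco, ← tor_iff, coeff_C_mul, coeff_map]
    exact hM _ (M.mul_mem (M.inv_mem hcM) (P.coeff j).2)
  · have h2 : R.eval ⟨z, h1.le⟩ = 0 := by
      apply (OC Ω).subtype_injective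
      rw [← eval₂_hom, ← eval_map, hR', eval_mul, eval_map, map_zero]
      exact mul_eq_zero_of_right _ hz
    rw [cred_of h1.le, eval_map, eval₂_hom, h2, map_zero]

/-- simple extensions keep the property, if `x - a` is close to a multiplicative set with it -/
theorem tor_adjoin {M : Subfield Ω} [IsAlgClosed M] {x : Ω} {Γ : Set Ω}
    (hm : ∀ u ∈ Γ, ∀ v ∈ Γ, u * v ∈ Γ) (hi : ∀ u ∈ Γ, u⁻¹ ∈ Γ) (h0 : ∀ a ∈ M, a ∈ Γ)
    (h1 : ∀ a ∈ M, ∃ w ∈ Γ, ‖x - a - w‖ < ‖x - a‖) (hΓ : ∀ w ∈ Γ, Tor w) :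
    ∀ z ∈ IntermediateField.adjoin M {x}, Tor z := by
  let T : Ω → Prop := fun z => ∃ w ∈ Γ, ∃ u : Ω, ‖u - 1‖ < 1 ∧ z = u * w
  have hu : ∀ u : Ω, ‖u - 1‖ < 1 → ‖u‖ = 1 := fun u h => by
    have := norm_eq_of_sub_lt (x := 1) (y := u) (by rwa [norm_sub_rev, norm_one])
    rwa [norm_one] at this
  have Tm : ∀ y z, T y → T z → T (y * z) := by
    rintro _ _ ⟨w, hw, u, h, rfl⟩ ⟨w', hw', u', h', rfl⟩
    refine ⟨w * w', hm _ hw _ hw', u * u', ?_, by ring⟩
    rw [show u * u' - 1 = u * (u' - 1) + (u - 1) by ring]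
    exact nadd_lt (by rwa [norm_mul, hu u h, one_mul]) h
  have Ti : ∀ y, T y → T y⁻¹ := by
    rintro _ ⟨w, hw, u, h, rfl⟩
    have h2 : u ≠ 0 := by rw [← norm_pos_iff, hu u h]; exact one_pos
    refine ⟨w⁻¹, hi _ hw, u⁻¹, ?_, mul_inv _ _⟩
    rw [show u⁻¹ - 1 = -(u⁻¹ * (u - 1)) by field_simp; ring, norm_neg, norm_mul, norm_inv,
      hu u h, inv_one, one_mul]
    exact h
  have TP : ∀ P : M[X], T (aeval x P) := fun P => by
    refine pind (T := fun P => T (aeval x P)) (fun a => ?_) (fun a => ?_)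
      (fun P Q hP hQ => ?_) P
    · exact ⟨a, h0 _ a.2, 1, by simp, by rw [aeval_C, one_mul]; rfl⟩
    · obtain ⟨w, hw, h⟩ := h1 a a.2
      have h2 := norm_eq_of_sub_lt h
      have h3 : 0 < ‖w‖ := by rw [h2]; exact (norm_nonneg _).trans_lt h
      have h4 := norm_pos_iff.1 h3
      refine ⟨w, hw, (x - a) / w, ?_, ?_⟩
      · rw [div_sub_one h4, norm_div, div_lt_one h3, h2]
        exact h
      · rw [map_sub, aeval_X, aeval_C, div_mul_cancel₀ _ h4]
        rfl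
    · rw [map_mul]
      exact Tm _ _ hP hQ
  intro z hz hz1
  obtain ⟨r, s, e⟩ := (IntermediateField.mem_adjoin_simple_iff M z).1 hz
  obtain ⟨w, hw, u, h, e'⟩ := Tm _ _ (TP r) (Ti _ (TP s))
  rw [← div_eq_mul_inv, ← e] at e'
  refine (hΓ w hw).congr ?_ hz1
  have h2 : ‖w‖ = 1 := by rwa [e', norm_mul, hu u h, one_mul] at hz1
  rwa [e', show u * w - w = (u - 1) * w by ring, norm_mul, h2, mul_one]

/-- **Maximal subfields with residue field algebraic over `F_p`.** -/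
theorem exists_big [IsAlgClosed Ω] (p : ℕ) [Fact p.Prime] (hp : ‖(p : Ω)‖ < 1) (hS : Sph Ω)
    (hn : ∀ r : ℝ, 0 ≤ r → ∃ x : Ω, ‖x‖ = r) (A : Subfield Ω) (hA : ∀ z ∈ A, Tor z) :
    ∃ M : Subfield Ω, A ≤ M ∧ (∀ z ∈ M, Tor z) ∧ IsClosed (M : Set Ω) ∧
      (∀ z, IsAlgebraic M z → z ∈ M) ∧ IsAlgClosed M ∧ Sph M ∧
      ∀ r : ℝ, 0 ≤ r → ∃ x : M, ‖x‖ = r := by
  obtain ⟨M, hAM, hM⟩ := zorn_le_nonempty₀ {M : Subfield Ω | ∀ z ∈ M, Tor z}
    (fun c hc hch y hy => ⟨sSup c, fun z hz => by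
      obtain ⟨N, hN, hz⟩ := (Subfield.mem_sSup_of_directedOn ⟨y, hy⟩ hch.directedOn).1 hz
      exact hc hN z hz, fun z hz => le_sSup hz⟩) A hA
  have hT : ∀ z ∈ M, Tor z := hM.prop
  have hmax : ∀ N : IntermediateField M Ω, (∀ z ∈ N, Tor z) → ∀ z ∈ N, z ∈ M := fun N hN z hz =>
    hM.le_of_ge (y := N.toSubfield) hN (fun a ha => N.algebraMap_mem ⟨a, ha⟩) hz
  have halg : ∀ z, IsAlgebraic M z → z ∈ M := fun z hz =>
    hmax (algebraicClosure M Ω) (fun y hy => tor_alg p hp hT (mem_algebraicClosure_iff.1 hy)) z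
      (mem_algebraicClosure_iff.2 hz)
  haveI hac : IsAlgClosed M := IsAlgClosed.of_exists_root _ fun P hP hi => by
    obtain ⟨z, hz⟩ := IsAlgClosed.exists_aeval_eq_zero Ω P (degree_pos_of_irreducible hi).ne'
    refine ⟨⟨z, halg z ⟨P, hP.ne_zero, hz⟩⟩, (algebraMap M Ω).injective ?_⟩
    rw [map_zero, ← eval₂_hom]
    exact hz
  refine ⟨M, hAM, hT, ?_, halg, hac, ?_, ?_⟩
  · refine isClosed_of_closure_subset (hM.le_of_ge (y := M.topologicalClosure) ?_
      M.le_topologicalClosure)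
    intro z hz
    obtain ⟨b, hb, h⟩ := Metric.mem_closure_iff.1 hz 1 one_pos
    exact (hT b hb).congr (by rwa [dist_eq_norm] at h)
  · intro S hS'
    obtain ⟨x, hx⟩ := hS ((fun q : M × ℝ => ((q.1 : Ω), q.2)) '' S) (by
      rintro _ ⟨q, hq, rfl⟩ _ ⟨q', hq', rfl⟩ h
      exact hS' q hq q' hq' h)
    by_contra hcon
    push Not at hcon
    have h1 : ∀ a ∈ M, ∃ w ∈ (M : Set Ω), ‖x - a - w‖ < ‖x - a‖ := fun a ha => by
      obtain ⟨q, hq, h⟩ := hcon ⟨a, ha⟩
      have h2 : ‖x - q.1‖ < ‖a - q.1‖ := (hx _ ⟨q, hq, rfl⟩).trans_lt h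
      refine ⟨q.1 - a, M.sub_mem q.1.2 ha, ?_⟩
      have h3 := norm_eq_of_sub_lt (x := a - q.1) (y := a - x)
        (by rwa [sub_sub_sub_cancel_left])
      rw [sub_sub_sub_cancel_right, norm_sub_rev x a, h3]
      exact h2
    have h4 := hmax _ (tor_adjoin (fun u hu v hv => M.mul_mem hu hv) (fun u hu => M.inv_mem hu)
      (fun a ha => ha) h1 hT) x (IntermediateField.mem_adjoin_simple_self _ x)
    obtain ⟨w, -, h⟩ := h1 x h4
    rw [sub_self, norm_zero] at h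
    exact (norm_nonneg _).not_gt h
  · intro r hr
    by_contra hcon
    push Not at hcon
    obtain ⟨x, rfl⟩ := hn r hr
    have hx : x ≠ 0 := fun e => hcon 0 (by rw [e, norm_zero, norm_zero])
    refine hcon ⟨x, hmax _ (tor_adjoin (Γ := {w | ∃ c ∈ M, ∃ n : ℤ, w = c * x ^ n}) ?_ ?_ ?_ ?_
      ?_) x (IntermediateField.mem_adjoin_simple_self _ x)⟩ rfl
    · rintro _ ⟨c, hc, n, rfl⟩ _ ⟨d, hd, m, rfl⟩
      exact ⟨c * d, M.mul_mem hc hd, n + m, by rw [zpow_add₀ hx]; ring⟩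
    · rintro _ ⟨c, hc, n, rfl⟩
      exact ⟨c⁻¹, M.inv_mem hc, -n, by rw [zpow_neg, mul_inv]⟩
    · exact fun a ha => ⟨a, ha, 0, by simp⟩
    · intro a ha
      have h1 : ‖x‖ ≠ ‖a‖ := fun e => hcon ⟨a, ha⟩ e.symm
      rw [norm_sub_max h1]
      rcases lt_or_gt_of_ne h1 with h | h
      · exact ⟨-a, ⟨-a, M.neg_mem ha, 0, by simp⟩, by
          rw [sub_neg_eq_add, sub_add_cancel]; exact lt_max_of_lt_right h⟩
      · exact ⟨x, ⟨1, M.one_mem, 1, by simp⟩, by
          rw [sub_sub_cancel_left, norm_neg]; exact lt_max_of_lt_left h⟩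
    · rintro _ ⟨c, hc, n, rfl⟩ h1
      by_cases h0 : n = 0
      · rw [h0, zpow_zero, mul_one] at h1 ⊢
        exact hT c hc h1
      · exfalso
        have hc0 : c ≠ 0 := by
          rintro rfl
          simp at h1
        obtain ⟨d, hd⟩ := IsAlgClosed.exists_pow_nat_eq ((⟨c, hc⟩ : M) ^ (-n.sign))
          (Int.natAbs_pos.2 h0)
        refine hcon d ((pow_left_inj₀ (norm_nonneg _) (norm_nonneg _)
          (Int.natAbs_pos.2 h0).ne').1 ?_)
        rw [← norm_pow, hd, norm_zpow]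
        change ‖c‖ ^ _ = _
        rw [norm_mul, norm_zpow] at h1
        rw [eq_inv_of_mul_eq_one_left h1, ← zpow_neg, ← zpow_mul, ← zpow_natCast, neg_mul_neg,
          Int.mul_sign_self]

end ultra

end Vale.Agent.P022K.FI
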