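import Vale.Agent.P022K.FI.Fld1

/-!
# P022K FI, row FIELD, part 2: homogeneity

Two isometrically compatible maps `f : R → Ω`, `g : R → Ω'` differ by an isometric embedding
`Ω → Ω'` (`embed`), by an isometric isomorphism if both fields are big (`homog`).
-/

open Polynomial P025H746 P025H373 P025H458

set_option linter.unusedSectionVars false
set_option linter.style.haveILetI false

namespace Vale.Agent.P022K.FI

variable {Ω Ω' : Type} [NormedField Ω] [IsUltrametricDist Ω] [NormedField Ω']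
  [IsUltrametricDist Ω']

/-- residue classes come from any algebraically closed subfield -/
theorem near_of_tor {L : Type*} [Field L] [IsAlgClosed L] (f : L →+* Ω) {z : Ω} (hz : Tor z)
    (h1 : ‖z‖ ≤ 1) : ∃ a, ‖z - f a‖ < 1 := by
  by_contra hcon
  push Not at hcon
  obtain ⟨n, hn, h⟩ := hz (le_antisymm h1 (by simpa using hcon 0))
  have h2 := pind (T := fun P => ‖f P.leadingCoeff‖ ≤ ‖eval₂ f z P‖) (fun a => by simp)
    (fun a => by simpa using hcon a) (fun P Q hP hQ => by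
      rw [leadingCoeff_mul, map_mul, norm_mul, eval₂_mul, norm_mul]
      exact mul_le_mul hP hQ (norm_nonneg _) (norm_nonneg _)) (X ^ n - C 1)
  rw [leadingCoeff_X_pow_sub_C hn] at h2
  simp only [map_one, norm_one, eval₂_sub, eval₂_X_pow, eval₂_one] at h2
  linarith

/-- one point extension of an isometry -/
theorem exists_pt (hS : Sph Ω') (hn : ∀ r : ℝ, 0 ≤ r → ∃ y : Ω', ‖y‖ = r) (hT : ∀ z : Ω, Tor z)
    {L : Type*} [Field L] [IsAlgClosed L] (f : L →+* Ω) (g : L →+* Ω')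
    (h : ∀ a, ‖f a‖ = ‖g a‖) (x : Ω) : ∃ y : Ω', ∀ a, ‖x - f a‖ = ‖y - g a‖ := by
  by_cases hb : ∃ b, ∀ a, ‖x - f b‖ ≤ ‖x - f a‖
  · obtain ⟨b, hb⟩ := hb
    obtain ⟨t, ht⟩ := hn _ (norm_nonneg (x - f b))
    refine ⟨t + g b, fun a => ?_⟩
    rw [show x - f a = (x - f b) - f (a - b) by rw [map_sub]; ring,
      show t + g b - g a = t - g (a - b) by rw [map_sub]; ring]
    by_cases h0 : ‖x - f b‖ = 0
    · rw [h0] at ht
      rw [norm_eq_zero.1 h0, norm_eq_zero.1 ht, zero_sub, zero_sub, norm_neg, norm_neg, h]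
    have h1 : ∀ c, ‖x - f b‖ ≠ ‖f c‖ := fun c e => by
      have h2 : 0 < ‖f c‖ := by rw [← e]; exact lt_of_le_of_ne (norm_nonneg _) (Ne.symm h0)
      obtain ⟨d, hd⟩ := near_of_tor f (hT ((x - f b) / f c)) (by rw [norm_div, e, div_self h2.ne'])
      have h3 := hb (b + d * c)
      rw [div_sub' (norm_pos_iff.1 h2), norm_div, div_lt_one h2, ← e] at hd
      rw [map_add, map_mul, ← sub_sub, mul_comm] at h3
      linarith
    rw [norm_sub_max (h1 _), norm_sub_max (x := t) (by rw [ht, ← h]; exact h1 _), ht, h]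
  · push Not at hb
    obtain ⟨y, hy⟩ := hS (Set.range fun a => (g a, ‖x - f a‖)) (by
      rintro _ ⟨a, rfl⟩ _ ⟨b, rfl⟩ hab
      change ‖g a - g b‖ ≤ ‖x - f b‖
      rw [← map_sub, ← h, map_sub, ← sub_sub_sub_cancel_left (f b) (f a) x]
      exact nsub_le le_rfl hab)
    refine ⟨y, fun a => ?_⟩
    obtain ⟨b, hab⟩ := hb a
    have h1 := norm_eq_of_sub_lt (x := x - f a) (y := f b - f a)
      (by rwa [sub_sub_sub_cancel_right])
    have h2 : ‖g b - g a‖ = ‖x - f a‖ := by rw [← map_sub, ← h, map_sub, h1]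
    rw [← h2]
    refine (norm_eq_of_sub_lt ?_).symm
    rw [sub_sub_sub_cancel_right, norm_sub_rev, h2]
    exact (hy _ ⟨b, rfl⟩).trans_lt hab

/-- absolute values on an algebraic extension of a complete field -/
theorem norm_hom_eq {K L : Type*} [NontriviallyNormedField K] [IsUltrametricDist K]
    [CompleteSpace K] [Field L] [Algebra K L] [Algebra.IsAlgebraic K L] (f : L →+* Ω)
    (hf : ∀ a, ‖f (algebraMap K L a)‖ = ‖a‖) (z : L) : ‖f z‖ = spectralNorm K L z :=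
  spectralNorm_unique_field_norm_ext (f := (nv Ω).comp f.injective) hf z

theorem exists_lift [IsAlgClosed Ω] {K : Type*} [Field K] (f : K →+* Ω) :
    ∃ f' : AlgebraicClosure K →+* Ω, ∀ a, f' (algebraMap K _ a) = f a := by
  letI := f.toAlgebra
  exact ⟨(IsAlgClosed.lift : AlgebraicClosure K →ₐ[K] Ω),
    (IsAlgClosed.lift : AlgebraicClosure K →ₐ[K] Ω).commutes⟩

/-- a maximal isometric graph -/
theorem exists_graph [IsAlgClosed Ω] [IsAlgClosed Ω'] [CompleteSpace Ω] [CompleteSpace Ω']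
    {R : Type*} [CommRing R] (f : R →+* Ω) (g : R →+* Ω') (h : ∀ a, ‖f a‖ = ‖g a‖)
    (hnt : ∃ a, f a ≠ 0 ∧ ‖f a‖ ≠ 1) :
    ∃ G : Subring (Ω × Ω'), (∀ u ∈ G, ‖u.1‖ = ‖u.2‖) ∧ (∀ a, (f a, g a) ∈ G) ∧
      ∃ (L : Type) (_ : Field L) (_ : IsAlgClosed L) (f' : L →+* Ω) (g' : L →+* Ω'),
        (∀ a, ‖f' a‖ = ‖g' a‖) ∧ ∀ x y, (∀ a, ‖x - f' a‖ = ‖y - g' a‖) → (x, y) ∈ G := by
  obtain ⟨G, hRG, hG⟩ := zorn_le_nonempty₀ {G : Subring (Ω × Ω') | ∀ u ∈ G, ‖u.1‖ = ‖u.2‖}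
    (fun c hc hch y hy => ⟨sSup c, fun z hz => by
      obtain ⟨N, hN, hz⟩ := (Subring.mem_sSup_of_directedOn ⟨y, hy⟩ hch.directedOn).1 hz
      exact hc hN z hz, fun z hz => le_sSup hz⟩) (f.prod g).range (by
      rintro _ ⟨a, rfl⟩
      exact h a)
  have hI : ∀ u ∈ G, ‖u.1‖ = ‖u.2‖ := hG.prop
  have hfg : ∀ a, (f a, g a) ∈ G := fun a => hRG ⟨a, rfl⟩
  refine ⟨G, hI, hfg, ?_⟩
  have hcl : IsClosed (G : Set (Ω × Ω')) :=
    isClosed_of_closure_subset (hG.le_of_ge (y := G.topologicalClosure) (fun u hu =>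
      closure_minimal (t := {u : Ω × Ω' | ‖u.1‖ = ‖u.2‖}) hI
        (isClosed_eq continuous_fst.norm continuous_snd.norm) hu) G.le_topologicalClosure)
  have n1 : ∀ u : G, ‖u‖ = ‖u.1.1‖ := fun u => by
    change max ‖u.1.1‖ ‖u.1.2‖ = _
    rw [← hI u u.2, max_self]
  have hinv : ∀ u ∈ G, u.1 ≠ 0 → (u.1⁻¹, u.2⁻¹) ∈ G := fun u hu h0 => by
    let G' : Subring (Ω × Ω') :=
      { carrier := {v | ∃ b ∈ G, b.1 ≠ 0 ∧ v * b ∈ G}
        mul_mem' := by
          rintro v w ⟨b, hb, b0, hv⟩ ⟨c, hc, c0, hw⟩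
          exact ⟨b * c, G.mul_mem hb hc, mul_ne_zero b0 c0, by
            rw [mul_mul_mul_comm]; exact G.mul_mem hv hw⟩
        one_mem' := ⟨1, G.one_mem, one_ne_zero, by rw [one_mul]; exact G.one_mem⟩
        add_mem' := by
          rintro v w ⟨b, hb, b0, hv⟩ ⟨c, hc, c0, hw⟩
          exact ⟨b * c, G.mul_mem hb hc, mul_ne_zero b0 c0, by
            rw [show (v + w) * (b * c) = v * b * c + w * c * b by ring]
            exact G.add_mem (G.mul_mem hv hc) (G.mul_mem hw hb)⟩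
        zero_mem' := ⟨1, G.one_mem, one_ne_zero, by rw [zero_mul]; exact G.zero_mem⟩
        neg_mem' := by
          rintro v ⟨b, hb, b0, hv⟩
          exact ⟨b, hb, b0, by rw [neg_mul]; exact G.neg_mem hv⟩ }
    have h2 : u.2 ≠ 0 := by rw [← norm_pos_iff, ← hI u hu, norm_pos_iff]; exact h0
    refine hG.le_of_ge (y := G') ?_ (fun v hv => ⟨1, G.one_mem, one_ne_zero, by rwa [mul_one]⟩)
      ⟨u, hu, h0, ?_⟩
    · rintro v ⟨b, hb, b0, hv⟩
      have h3 := hI _ hv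
      rw [Prod.fst_mul, Prod.snd_mul, norm_mul, norm_mul, ← hI b hb] at h3
      exact mul_right_cancel₀ (norm_ne_zero_iff.2 b0) h3
    · rw [show (u.1⁻¹, u.2⁻¹) * u = 1 from Prod.ext (inv_mul_cancel₀ h0) (inv_mul_cancel₀ h2)]
      exact G.one_mem
  have hF : IsField G :=
    { exists_pair_ne := ⟨0, 1, zero_ne_one⟩
      mul_comm := mul_comm
      mul_inv_cancel := fun {u} hu => by
        have h0 : u.1.1 ≠ 0 := by rw [← norm_ne_zero_iff, ← n1, norm_ne_zero_iff]; exact hu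
        have h2 : u.1.2 ≠ 0 := by rw [← norm_pos_iff, ← hI u u.2, norm_pos_iff]; exact h0
        exact ⟨⟨_, hinv u u.2 h0⟩,
          Subtype.ext (Prod.ext (mul_inv_cancel₀ h0) (mul_inv_cancel₀ h2))⟩ }
  letI : NormedField G :=
    { (inferInstance : NormedCommRing G), hF.toField with
      norm_mul := fun u v => by rw [n1, n1, n1]; exact norm_mul _ _ }
  letI : NontriviallyNormedField G := .ofNormNeOne (by
    obtain ⟨a, h0, h1⟩ := hnt
    exact ⟨⟨_, hfg a⟩, fun e => h0 (congrArg (fun u : G => u.1.1) e), by rwa [n1]⟩)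
  haveI : CompleteSpace G := hcl.completeSpace_coe
  haveI : IsUltrametricDist G :=
    IsUltrametricDist.isUltrametricDist_of_forall_norm_add_le_max_norm fun u v => by
      rw [n1, n1, n1]
      exact IsUltrametricDist.norm_add_le_max _ _
  obtain ⟨f', hf⟩ := exists_lift ((RingHom.fst Ω Ω').comp G.subtype)
  obtain ⟨g', hg⟩ := exists_lift ((RingHom.snd Ω Ω').comp G.subtype)
  have hfg' : ∀ z, ‖f' z‖ = ‖g' z‖ := fun z =>
    (norm_hom_eq (K := G) f' (fun a => by rw [hf, n1]; rfl) z).trans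
      (norm_hom_eq (K := G) g' (fun a => by rw [hg, n1, hI a a.2]; rfl) z).symm
  refine ⟨_, inferInstance, inferInstance, f', g', hfg', fun x y hxy => ?_⟩
  refine hG.le_of_ge (y := ((eval₂RingHom f' x).prod (eval₂RingHom g' y)).range) ?_
    (fun u hu => ⟨C (algebraMap G _ ⟨u, hu⟩), Prod.ext ?_ ?_⟩) ⟨X, by simp⟩
  · rintro _ ⟨P, rfl⟩
    exact pind (T := fun P => ‖eval₂ f' x P‖ = ‖eval₂ g' y P‖) (fun a => by simpa using hfg' a)
      (fun a => by simpa using hxy a) (fun P Q hP hQ => by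
        rw [eval₂_mul, eval₂_mul, norm_mul, norm_mul, hP, hQ]) P
  · exact (eval₂_C _ _).trans (hf _)
  · exact (eval₂_C _ _).trans (hg _)

/-- the map defined by an isometric graph with full domain -/
theorem hom_of_graph {G : Subring (Ω × Ω')} (hI : ∀ u ∈ G, ‖u.1‖ = ‖u.2‖)
    (hs : ∀ x, ∃ y, (x, y) ∈ G) :
    ∃ e : Ω →+* Ω', (∀ z, ‖e z‖ = ‖z‖) ∧ ∀ x y, (x, y) ∈ G → e x = y := by
  have hb : Function.Bijective ((RingHom.fst Ω Ω').comp G.subtype) := by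
    refine ⟨(injective_iff_map_eq_zero _).2 fun u hu => ?_, fun x => ?_⟩
    · have h1 : u.1.1 = 0 := hu
      refine Subtype.ext (Prod.ext h1 ?_)
      rw [← norm_eq_zero, hI u u.2, norm_eq_zero] at h1
      exact h1
    · obtain ⟨y, hy⟩ := hs x
      exact ⟨⟨_, hy⟩, rfl⟩
  have key : ∀ x y, (x, y) ∈ G → (((RingHom.snd Ω Ω').comp G.subtype).comp
      (RingEquiv.ofBijective _ hb).symm.toRingHom) x = y := fun x y hy =>
    congrArg (fun u : G => u.1.2) ((RingEquiv.ofBijective _ hb).symm_apply_apply ⟨_, hy⟩)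
  refine ⟨_, fun z => ?_, key⟩
  obtain ⟨y, hy⟩ := hs z
  rw [key z y hy]
  exact (hI _ hy).symm

/-- **Universality.** -/
theorem embed [IsAlgClosed Ω] [IsAlgClosed Ω'] [CompleteSpace Ω] [CompleteSpace Ω']
    (hS : Sph Ω') (hn : ∀ r : ℝ, 0 ≤ r → ∃ y : Ω', ‖y‖ = r) (hT : ∀ z : Ω, Tor z)
    {R : Type*} [CommRing R] (f : R →+* Ω) (g : R →+* Ω') (h : ∀ a, ‖f a‖ = ‖g a‖)
    (hnt : ∃ a, f a ≠ 0 ∧ ‖f a‖ ≠ 1) :
    ∃ e : Ω →+* Ω', (∀ z, ‖e z‖ = ‖z‖) ∧ ∀ a, e (f a) = g a := by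
  obtain ⟨G, hI, hfg, L, _, _, f', g', h', hG⟩ := exists_graph f g h hnt
  obtain ⟨e, h1, h2⟩ := hom_of_graph hI fun x => (exists_pt hS hn hT f' g' h' x).imp (hG x)
  exact ⟨e, h1, fun a => h2 _ _ (hfg a)⟩

/-- **Homogeneity.** -/
theorem homog [IsAlgClosed Ω] [IsAlgClosed Ω'] [CompleteSpace Ω] [CompleteSpace Ω']
    (hS : Sph Ω) (hn : ∀ r : ℝ, 0 ≤ r → ∃ y : Ω, ‖y‖ = r) (hT : ∀ z : Ω, Tor z)
    (hS' : Sph Ω') (hn' : ∀ r : ℝ, 0 ≤ r → ∃ y : Ω', ‖y‖ = r) (hT' : ∀ z : Ω', Tor z)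
    {R : Type*} [CommRing R] (f : R →+* Ω) (g : R →+* Ω') (h : ∀ a, ‖f a‖ = ‖g a‖)
    (hnt : ∃ a, f a ≠ 0 ∧ ‖f a‖ ≠ 1) :
    ∃ e : Ω ≃+* Ω', (∀ z, ‖e z‖ = ‖z‖) ∧ ∀ a, e (f a) = g a := by
  obtain ⟨G, hI, hfg, L, _, _, f', g', h', hG⟩ := exists_graph f g h hnt
  obtain ⟨e, h1, h2⟩ := hom_of_graph hI fun x => (exists_pt hS' hn' hT f' g' h' x).imp (hG x)
  refine ⟨RingEquiv.ofBijective e ⟨e.injective, fun y => ?_⟩, h1, fun a => h2 _ _ (hfg a)⟩
  obtain ⟨x, hx⟩ := exists_pt hS hn hT' g' f' (fun a => (h' a).symm) y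
  exact ⟨x, h2 _ _ (hG x y fun a => (hx a).symm)⟩

end Vale.Agent.P022K.FI
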