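import Vale.Agent.P022K.FI.Gnn
import Vale.Agent.P022K.FI.Twr
import Vale.Agent.P022K.FI.Mx

/-!
# P022K, block FI, rows FRO and END, part 0: the neighbours of a vertex
-/

set_option autoImplicit false
set_option linter.unusedSectionVars false
set_option linter.style.haveILetI false

open Vale.Agent.P019P P025H746 P025H492 Module
open scoped MatrixGroups

noncomputable section

namespace Vale.Agent.P022K.FI

open Vale.Agent.P022K.Sh

namespace Fro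

section mat

variable {O E : Type} [CommRing O] [IsDomain O] [IsDiscreteValuationRing O] [Field E]
  [Algebra O E]

variable (E) in
/-- the Weyl element -/
def ww : GL (Fin 2) E :=
  Matrix.GeneralLinearGroup.mkOfDetNeZero !![0, -1; 1, 0] (by simp [Matrix.det_fin_two])

theorem ww_val : (ww E : Matrix (Fin 2) (Fin 2) E) = !![0, -1; 1, 0] := rfl

theorem ww_det : (ww E).det = 1 := by
  ext; simp [ww_val, Matrix.det_fin_two]

theorem det_conj (g : GL (Fin 2) E) : (g * ww E * g⁻¹).det = 1 := by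
  rw [map_mul, map_mul, ww_det, mul_one, map_inv, mul_inv_cancel]

theorem det_un (g : GL (Fin 2) E) (c : E) : (g * un c * g⁻¹).det = 1 := by
  have : (un c).det = 1 := by ext; simp [un_val, Matrix.det_fin_two]
  rw [map_mul, map_mul, this, mul_one, map_inv, mul_inv_cancel]

theorem dg_ww (μ : Eˣ) : dg μ * ww E * dg μ = ww E * Mx.sc μ := by
  ext i j
  fin_cases i <;> fin_cases j <;>
    simp [Mx.dg_val, ww_val, Matrix.mul_apply, Fin.sum_univ_two]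

theorem ww_ww : ww E * ww E = Mx.sc (-1) := by
  ext i j
  fin_cases i <;> fin_cases j <;> simp [ww_val, Matrix.mul_apply, Fin.sum_univ_two]

theorem dg_low (μ : Eˣ) : (dg μ : GL (Fin 2) E) 1 0 = 0 := by simp [Mx.dg_val]

theorem un_low (c : E) : (un c : GL (Fin 2) E) 1 0 = 0 := by simp [un_val]

theorem bru_low {h : GL (Fin 2) E} (h0 : h 1 0 ≠ 0) :
    (h⁻¹ * (un (h 0 0 / h 1 0) * ww E) : GL (Fin 2) E) 1 0 = 0 := by
  have e : ((h⁻¹ * (un (h 0 0 / h 1 0) * ww E) : GL (Fin 2) E) : Matrix (Fin 2) (Fin 2) E) =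
      (h⁻¹ : GL (Fin 2) E) * (un (h 0 0 / h 1 0) * ww E) := by simp
  change ((h⁻¹ * (un (h 0 0 / h 1 0) * ww E) : GL (Fin 2) E) : Matrix (Fin 2) (Fin 2) E) 1 0 = 0
  rw [e, Gn.inv_val]
  simp [un_val, ww_val, Matrix.mul_apply, Fin.sum_univ_two]
  field_simp
  ring

theorem inv_low {k : GL (Fin 2) E} (h : k 1 0 = 0) : (k⁻¹ : GL (Fin 2) E) 1 0 = 0 := by
  rw [Gn.inv_val]
  simp [h]

theorem mem_Vx {g k : GL (Fin 2) E} : k ∈ Vx O g ↔ g⁻¹ * k * g ∈ KZ O E := mem_cj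

theorem cj_Vx (a g : GL (Fin 2) E) : cj a (Vx O g) = Vx O (a * g) := Gn.cj_cj _ _ _

variable {C : Type} [NontriviallyNormedField C] [IsUltrametricDist C] [Algebra E C] {ϖ : Eˣ}
  (hF : LF O C ϖ)

include hF

theorem ww_mem : ww E ∈ KZ O E := by
  rw [Mx.mem_KZ hF, ww_det]
  intro i j
  fin_cases i <;> fin_cases j <;> simp [ww_val, Mx.nn]

theorem Vx_ww (g : GL (Fin 2) E) (μ : Eˣ) : Vx O (g * ww E * dg μ) = Vx O (g * dg μ⁻¹) := by
  refine Mx.Vx_eq ?_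
  rw [Mx.dg_inv, show (g * (dg μ)⁻¹)⁻¹ * (g * ww E * dg μ) = dg μ * ww E * dg μ by group, dg_ww]
  exact mul_mem (ww_mem hF) (Subgroup.mem_sup_right (Mx.sc_mem μ))

theorem Vx_ww' (g : GL (Fin 2) E) : Vx O (g * ww E) = Vx O g :=
  Mx.Vx_eq (by rw [inv_mul_cancel_left]; exact ww_mem hF)

/-- conjugation towards the end -/
theorem conj_mem {k : GL (Fin 2) E} (hk : k ∈ KZ O E) {a : Eˣ} (ha : Mx.nn C (a : E) ≤ 1)
    (h : Mx.nn C (k 1 0 / a) ^ 2 ≤ Mx.nn C (k.det : E)) : dg a * k * (dg a)⁻¹ ∈ KZ O E := by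
  rw [Mx.mem_KZ hF] at hk ⊢
  obtain ⟨e1, e2, e3, e4⟩ := Mx.dg_conj a k
  rw [map_mul, map_mul, map_inv, mul_inv_cancel_comm]
  intro i j
  fin_cases i <;> fin_cases j
  · exact e1 ▸ hk 0 0
  · refine le_trans ?_ (hk 0 1)
    change Mx.nn C ((dg a * k * (dg a)⁻¹ : GL (Fin 2) E) 0 1) ^ 2 ≤ _
    rw [e2, Mx.nn_mul]
    exact pow_le_pow_left₀ (by positivity) (mul_le_of_le_one_left (norm_nonneg _) ha) 2
  · exact e3 ▸ h
  · exact e4 ▸ hk 1 1

theorem up_mem {g k : GL (Fin 2) E} (hk : k ∈ Vx O g) (h : (g⁻¹ * k * g : GL (Fin 2) E) 1 0 = 0)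
    {a : Eˣ} (ha : Mx.nn C (a : E) ≤ 1) : k ∈ Vx O (g * dg a⁻¹) := by
  rw [mem_Vx, Mx.dg_inv, show (g * (dg a)⁻¹)⁻¹ * k * (g * (dg a)⁻¹) =
    dg a * (g⁻¹ * k * g) * (dg a)⁻¹ by group]
  exact conj_mem hF (mem_Vx.1 hk) ha (by rw [h]; simp [Mx.nn])

/-- the Bruhat decomposition modulo the uniformiser -/
theorem bruhat {g k : GL (Fin 2) E} (hk : k ∈ Vx O g) : k ∈ Vx O (g * dg ϖ⁻¹) ∨
    ∃ c, Io O c ∧ (g * (un c * ww E) * g⁻¹)⁻¹ * k ∈ Vx O (g * dg ϖ⁻¹) := by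
  have h0 := mem_Vx.1 hk
  set k₀ := g⁻¹ * k * g with hk₀
  have h1 := (Mx.mem_KZ hF).1 h0
  have hp := (Mx.nn_pi_lt hF).le
  by_cases h : Mx.nn C (k₀ 1 0 / ϖ) ^ 2 ≤ Mx.nn C (k₀.det : E)
  · left
    rw [mem_Vx, Mx.dg_inv, show (g * (dg ϖ)⁻¹)⁻¹ * k * (g * (dg ϖ)⁻¹) =
      dg ϖ * (g⁻¹ * k * g) * (dg ϖ)⁻¹ by group]
    exact conj_mem hF h0 hp h
  · have h2 : k₀ 1 0 ≠ 0 := fun e => h (by rw [e]; simp [Mx.nn])
    have h3 : Io O (k₀ 0 0 / k₀ 1 0) := by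
      rw [Mx.io_div hF h2]
      by_contra h3
      have h4 := Mx.le_of_lt hF (not_le.1 h3)
      refine h (le_trans (pow_le_pow_left₀ (norm_nonneg _) ?_ 2) (h1 0 0))
      exact (Mx.nn_div _ _).trans_le ((div_le_iff₀ (Mx.nn_upos ϖ)).2 h4)
    refine Or.inr ⟨_, h3, up_mem hF (mul_mem (inv_mem (mem_Vx.2 ?_)) hk) ?_ hp⟩
    · rw [show g⁻¹ * (g * (un (k₀ 0 0 / k₀ 1 0) * ww E) * g⁻¹) * g =
        un (k₀ 0 0 / k₀ 1 0) * ww E by group]
      exact mul_mem (Subgroup.mem_sup_left (Gn.un_mem_KK h3)) (ww_mem hF)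
    · rw [show g⁻¹ * ((g * (un (k₀ 0 0 / k₀ 1 0) * ww E) * g⁻¹)⁻¹ * k) * g =
        (k₀⁻¹ * (un (k₀ 0 0 / k₀ 1 0) * ww E))⁻¹ by rw [hk₀]; group]
      exact inv_low (bru_low h2)

theorem uw_mem {g : GL (Fin 2) E} {c : E} (hc : Io O c) : g * (un c * ww E) * g⁻¹ ∈ Vx O g := by
  rw [mem_Vx, show g⁻¹ * (g * (un c * ww E) * g⁻¹) * g = un c * ww E by group]
  exact mul_mem (Subgroup.mem_sup_left (Gn.un_mem_KK hc)) (ww_mem hF)

theorem uw_iff {g : GL (Fin 2) E} {c c' : E} :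
    (g * (un c * ww E) * g⁻¹)⁻¹ * (g * (un c' * ww E) * g⁻¹) ∈ Vx O (g * dg ϖ⁻¹) ↔
      Io O ((c' - c) / ϖ) := by
  have e := Vx_ww hF g ϖ⁻¹
  rw [inv_inv] at e
  rw [Mx.io_div hF ϖ.ne_zero, ← Mx.un_mem_Vx hF (g := g), ← e, mem_Vx,
    mem_Vx, sub_eq_neg_add, un_add, un_neg]
  rw [show (g * dg ϖ⁻¹)⁻¹ * ((g * (un c * ww E) * g⁻¹)⁻¹ * (g * (un c' * ww E) * g⁻¹)) *
    (g * dg ϖ⁻¹) = (g * ww E * dg ϖ⁻¹)⁻¹ * (g * ((un c)⁻¹ * un c') * g⁻¹) * (g * ww E * dg ϖ⁻¹)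
    by group]

theorem uw_not {g : GL (Fin 2) E} (c : E) : g * (un c * ww E) * g⁻¹ ∉ Vx O (g * dg ϖ⁻¹) := by
  rw [mem_Vx, Mx.dg_inv, show (g * (dg ϖ)⁻¹)⁻¹ * (g * (un c * ww E) * g⁻¹) * (g * (dg ϖ)⁻¹) =
    dg ϖ * (un c * ww E) * (dg ϖ)⁻¹ by group, Mx.mem_KZ hF]
  intro h
  have h1 := h 1 0
  have h2 : (un c).det = 1 := by ext; simp [un_val, Matrix.det_fin_two]
  have h3 : (un c * ww E : GL (Fin 2) E) 1 0 = 1 := by
    simp [un_val, ww_val, Matrix.mul_apply, Fin.sum_univ_two]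
  rw [(Mx.dg_conj ϖ _).2.2.1, map_mul, map_mul, map_inv, mul_inv_cancel_comm, map_mul, h2, ww_det,
    h3, Mx.nn_div] at h1
  simp only [mul_one, Units.val_one, map_one, norm_one, Mx.nn] at h1
  have h4 : 1 < 1 / ‖algebraMap E C ϖ‖ := one_lt_one_div (Mx.nn_upos ϖ) (Mx.nn_pi_lt hF)
  nlinarith

theorem io_res (a : O) : Io O (algebraMap O E a / ϖ) ↔ IsLocalRing.residue O a = 0 := by
  rw [Mx.io_div hF ϖ.ne_zero, IsLocalRing.residue_eq_zero_iff, ← pow_one (Mx.nn C (ϖ : E)),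
    ← Mx.mem_pow_iff hF, pow_one]

end mat

variable {C L Γ O E : Type} [NontriviallyNormedField C] [IsUltrametricDist C] [CompleteSpace C]
  [IsAlgClosed C] [CharZero C] [Field L] [Algebra C L] [Group Γ] [CommRing O] [IsDomain O]
  [IsDiscreteValuationRing O] [Field E] [Algebra O E] [Algebra E C] {A : AT C L Γ O E}
  {S S₀ W : Subgroup Γ} {g : GL (Fin 2) E}

/-- a system of representatives of `S / S₀` -/
structure Rep (S S₀ : Subgroup Γ) {I : Type} (r : I → Γ) : Prop where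
  mem : ∀ i, r i ∈ S
  sur : ∀ u ∈ S, ∃ i, (r i)⁻¹ * u ∈ S₀
  inj : ∀ i j, (r i)⁻¹ * r j ∈ S₀ → i = j

theorem act_of {a b : Γ} (h : a⁻¹ * b ∈ S₀) {x : L} (hx : x ∈ A.K S₀) : A.act b x = A.act a x := by
  rw [show b = a * (a⁻¹ * b) by group, A.act_mul, A.mem_K.1 hx _ h]

theorem Rep.perm {I : Type} [Finite I] {r : I → Γ} (h : Rep S S₀ r) {u : Γ} (hu : u ∈ S) :
    ∃ e : I ≃ I, ∀ i, ∀ x ∈ A.K S₀, A.act u (A.act (r i) x) = A.act (r (e i)) x := by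
  choose e he using fun i => h.sur (u * r i) (mul_mem hu (h.mem i))
  have h1 : Function.Injective e := fun i j hij => h.inj i j (by
    have := mul_mem (inv_mem (he i)) (he j)
    rwa [hij, show ((r (e j))⁻¹ * (u * r i))⁻¹ * ((r (e j))⁻¹ * (u * r j)) = (r i)⁻¹ * r j
      by group] at this)
  exact ⟨Equiv.ofBijective e (Finite.injective_iff_bijective.1 h1), fun i x hx => by
    rw [← A.act_mul]; exact act_of (he i) hx⟩

theorem Rep.sum_mem {I : Type} [Fintype I] {r : I → Γ} (h : Rep S S₀ r) {x : L}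
    (hx : x ∈ A.K S₀) : ∑ i, A.act (r i) x ∈ A.K S := A.mem_K.2 fun u hu => by
  obtain ⟨e, he⟩ := h.perm (A := A) hu
  rw [map_sum, ← e.sum_comp fun i => A.act (r i) x]
  exact Finset.sum_congr rfl fun i _ => he i x hx

theorem Rep.prod_mem {I : Type} [Fintype I] {r : I → Γ} (h : Rep S S₀ r) {x : L}
    (hx : x ∈ A.K S₀) : ∏ i, A.act (r i) x ∈ A.K S := A.mem_K.2 fun u hu => by
  obtain ⟨e, he⟩ := h.perm (A := A) hu
  rw [map_prod, ← e.prod_comp fun i => A.act (r i) x]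
  exact Finset.prod_congr rfl fun i _ => he i x hx

theorem Rep.index {I : Type} {r : I → Γ} (h : Rep S S₀ r) : S₀.relIndex S = Nat.card I := by
  refine (Nat.card_congr (Equiv.ofBijective
    (fun i => (QuotientGroup.mk ⟨r i, h.mem i⟩ : S ⧸ S₀.subgroupOf S)) ⟨fun i j e => ?_, ?_⟩)).symm
  · exact h.inj i j (by simpa [QuotientGroup.eq, Subgroup.mem_subgroupOf] using e)
  · intro q
    obtain ⟨u, rfl⟩ := QuotientGroup.mk_surjective q
    obtain ⟨i, hi⟩ := h.sur u u.2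
    exact ⟨i, by simpa [QuotientGroup.eq, Subgroup.mem_subgroupOf] using hi⟩

theorem rep_out (S S₀ : Subgroup Γ) :
    Rep S S₀ fun q : S ⧸ S₀.subgroupOf S => (q.out : Γ) where
  mem q := q.out.2
  sur u hu := ⟨QuotientGroup.mk ⟨u, hu⟩, by
    have := QuotientGroup.eq.1 (QuotientGroup.out_eq' (QuotientGroup.mk (⟨u, hu⟩ : S) :
      S ⧸ S₀.subgroupOf S))
    simpa [Subgroup.mem_subgroupOf] using this⟩
  inj i j h := by
    rw [← QuotientGroup.out_eq' i, ← QuotientGroup.out_eq' j, QuotientGroup.eq]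
    simpa [Subgroup.mem_subgroupOf] using h

/-- the image of a norm -/
def tw (A : AT C L Γ O E) (ν : NV C L) (γ : Γ) : NV C L where
  av := ν.av.comp (f := (A.act γ : L →+* L)) (A.act γ).injective
  na x y := by
    have := ν.na (A.act γ x) (A.act γ y)
    rw [← map_add] at this
    exact this
  ext' c := by
    change ν.av (A.act γ (algebraMap C L c)) = _
    rw [AlgEquiv.commutes, ν.ext']

theorem tw_apply (ν : NV C L) (γ : Γ) (x : L) : tw A ν γ x = ν (A.act γ x) := rfl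

/-- approximation with respect to finitely many norms on a subfield -/
theorem approx (M : IntermediateField C L) {I : Type} [Finite I] (ν : NV C L) (μ : I → NV C L)
    {x : L} (hx : x ∈ M) : ∃ y ∈ M, ν (y - x) < 1 ∧
      ∀ i, (∀ z ∈ M, μ i z = ν z) ∨ μ i y < 1 := by
  let f : Option I → NV C M := fun o => (o.elim ν μ).comap M
  haveI : Finite (Set.range f) := Set.finite_range f
  obtain ⟨y, h1, h2⟩ := P025H458.exists_approx (C := C) (fun w : Set.range f => w.1.av)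
    (fun w => w.1.na) (fun w => w.1.ext') (fun w w' e => Subtype.ext (NV.ext e))
    ⟨f none, none, rfl⟩ ⟨x, hx⟩ one_pos
  refine ⟨y, y.2, h1, fun i => ?_⟩
  by_cases e : f (some i) = f none
  · exact Or.inl fun z hz => NV.congr e ⟨z, hz⟩
  · exact Or.inr (h2 ⟨f (some i), some i, rfl⟩ fun e' => e (congrArg Subtype.val e'))

/-- the residue field does not grow up to the decomposition field -/
theorem den_of_dec (hA : A.Ok) (h : A.Lv S) (h₀ : A.Lv S₀) (hle : S₀ ≤ S) {ν : NV C L}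
    (hd : ∀ u ∈ S, (∀ x, ν (A.act u x) = ν x) → u ∈ S₀) {x : L} (hx : x ∈ A.K S₀) :
    ∃ y ∈ A.K S, ν (x - y) < 1 := by
  classical
  haveI : Finite (S ⧸ S₀.subgroupOf S) := Nat.finite_of_card_ne_zero (h.relIndex_ne hA h₀)
  haveI := Fintype.ofFinite (S ⧸ S₀.subgroupOf S)
  have hr := rep_out S S₀
  obtain ⟨y, hy, h1, h2⟩ := approx (A.K S₀) ν (fun q : S ⧸ S₀.subgroupOf S => tw A ν q.out) hx
  obtain ⟨i, hi⟩ := hr.sur 1 (one_mem _)
  refine ⟨_, hr.sum_mem hy, ?_⟩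
  rw [← Finset.add_sum_erase _ _ (Finset.mem_univ i), ← act_of hi hy, A.act_one, ← _root_.sub_sub]
  refine NV.sub_lt (by rw [← NV.map_neg', neg_sub]; exact h1) (NV.sum_lt one_pos fun j hj => ?_)
  refine (h2 j).resolve_left fun e => Finset.ne_of_mem_erase hj (hr.inj _ _ ?_)
  obtain ⟨u, hu, -, h3⟩ := h₀.conj_nv hA le_rfl (ν := ν) (ν' := tw A ν j.out)
    fun z hz => (e z hz).symm
  have h4 := hd _ (mul_mem j.out.2 (hle hu)) fun z => by rw [A.act_mul]; exact h3 z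
  have h5 := mul_mem (inv_mem (mul_mem h4 (inv_mem hu))) (inv_mem hi)
  simpa using h5

/-- the stabiliser of the edge towards the end -/
abbrev Se (A : AT C L Γ O E) (W : Subgroup Γ) (g : GL (Fin 2) E) : Subgroup Γ :=
  A.U W (Vx O (g * dg A.ϖ⁻¹) ⊓ Vx O g)

theorem mem_Se {γ : Γ} :
    γ ∈ Se A W g ↔ γ ∈ W ∧ A.π γ ∈ Vx O (g * dg A.ϖ⁻¹) ∧ A.π γ ∈ Vx O g := by
  rw [Gn.mem_U, Subgroup.mem_inf]

theorem lv_Vx (hA : A.Ok) (hW : W ∈ A.Wl) (g : GL (Fin 2) E) : A.Lv (A.U W (Vx O g)) :=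
  AT.lv_U hW (Mx.ll_Vx hA.lf g)

theorem lv_two (hA : A.Ok) (hW : W ∈ A.Wl) (g g' : GL (Fin 2) E) :
    A.Lv (A.U W (Vx O g ⊓ Vx O g')) :=
  AT.lv_U hW (Mx.ll_inf hA.lf (Mx.ll_Vx hA.lf g) (Mx.ll_Vx hA.lf g'))

/-- the `q + 1` edges at a vertex -/
theorem exists_rep (hA : A.Ok) (hS : A.SA) (hW : W ∈ A.Wl) (g : GL (Fin 2) E) :
    ∃ (s : Γ) (t : IsLocalRing.ResidueField O → Γ), s ∈ A.H ∧ A.π s = g * ww E * g⁻¹ ∧
      (∀ a, t a ∈ A.H ∧ ∃ c, Fm g (A.π (t a)) (un c)) ∧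
      Rep (A.U W (Vx O g)) (Se A W g) fun o : Option (IsLocalRing.ResidueField O) =>
        o.elim 1 fun a => t a * s := by
  obtain ⟨s, hs, hs'⟩ := hS.1 _ (det_conj g)
  choose l hl using IsLocalRing.residue_surjective (R := O)
  choose t ht ht' using fun a => hS.1 _ (det_un g (algebraMap O E (l a)))
  have hp : ∀ a, A.π (t a * s) = g * (un (algebraMap O E (l a)) * ww E) * g⁻¹ := fun a => by
    rw [map_mul, ht', hs']; group
  have hm : ∀ a, t a * s ∈ W := fun a => Gn.mem_H.1 (mul_mem (ht a) hs) W hW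
  have hv : ∀ a, A.π (t a * s) ∈ Vx O g := fun a => hp a ▸ uw_mem hA.lf (Gn.io_alg _)
  refine ⟨s, t, hs, hs', fun a => ⟨ht a, _, ht' a ▸ Mx.fm_self _ _⟩, ?_, fun u hu => ?_, ?_⟩
  · rintro (_ | a)
    exacts [one_mem _, Gn.mem_U.2 ⟨hm a, hv a⟩]
  · obtain ⟨h1, h2⟩ := Gn.mem_U.1 hu
    rcases bruhat hA.lf h2 with h3 | ⟨_, ⟨c, rfl⟩, h3⟩
    · exact ⟨none, by simpa using mem_Se.2 ⟨h1, h3, h2⟩⟩
    · refine ⟨some (IsLocalRing.residue O c), mem_Se.2 ⟨mul_mem (inv_mem (hm _)) h1, ?_, ?_⟩⟩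
      · have h4 := (uw_iff hA.lf (g := g) (c := algebraMap O E (l (IsLocalRing.residue O c)))
          (c' := algebraMap O E c)).2 (by rw [← map_sub, io_res hA.lf, map_sub, hl, sub_self])
        have h5 := mul_mem h4 h3
        rw [mul_assoc, mul_inv_cancel_left] at h5
        change A.π ((t _ * s)⁻¹ * u) ∈ _
        rwa [map_mul, map_inv, hp]
      · change A.π ((t _ * s)⁻¹ * u) ∈ _
        rw [map_mul, map_inv]
        exact mul_mem (inv_mem (hv _)) h2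
  · rintro (_ | a) (_ | b) h
    · rfl
    · have h1 := (mem_Se.1 h).2.1
      simp only [Option.elim, inv_one, one_mul] at h1
      exact absurd (hp b ▸ h1) (uw_not hA.lf _)
    · have h1 := inv_mem (mem_Se.1 h).2.1
      simp only [Option.elim, mul_one, map_inv, inv_inv] at h1
      exact absurd (hp a ▸ h1) (uw_not hA.lf _)
    · have h1 := (mem_Se.1 h).2.1
      change A.π ((t a * s)⁻¹ * (t b * s)) ∈ _ at h1
      rw [map_mul, map_inv, hp, hp, uw_iff hA.lf, ← map_sub, io_res hA.lf, map_sub, hl, hl] at h1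
      rw [sub_eq_zero.1 h1]

/-- the reflection turns the edge towards the end into the opposite edge -/
theorem mem_K_refl (hA : A.Ok) (hW : W ∈ A.Wl) {s : Γ} (hs : s ∈ A.H)
    (hs' : A.π s = g * ww E * g⁻¹) (x : L) :
    x ∈ A.K (Se A W g) ↔ A.act s x ∈ A.K (A.U W (Vx O g ⊓ Vx O (g * dg A.ϖ))) := by
  refine Gn.mem_K_conj (fun δ => ?_) x
  have h1 := Gn.mem_H.1 hs W hW
  have h2 : ∀ a : GL (Fin 2) E, A.π (s⁻¹ * δ * s) ∈ Vx O a ↔ A.π δ ∈ Vx O (g * ww E * g⁻¹ * a) :=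
    fun a => by rw [← cj_Vx, mem_cj (x := g * ww E * g⁻¹), map_mul, map_mul, map_inv, hs']
  rw [Gn.mem_U, Gn.mem_U, Subgroup.mem_inf, Subgroup.mem_inf, h2, h2, inv_mul_cancel_right,
    Vx_ww' hA.lf, show g * ww E * g⁻¹ * (g * dg A.ϖ⁻¹) = g * ww E * dg A.ϖ⁻¹ by group,
    Vx_ww hA.lf, inv_inv, mul_mem_cancel_right h1, mul_mem_cancel_left (inv_mem h1), and_comm (a :=
      A.π δ ∈ Vx O g)]

end Fro

end Vale.Agent.P022K.FI
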