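import Vale.Agent.P022K.FI.Exp3
import Mathlib.FieldTheory.Galois.Profinite

/-!
# P022K, block FI, row TWR: places in infinite Galois extensions of function fields
-/

set_option linter.all false

noncomputable section

namespace Vale.Agent.P022K.FI.An4

open P025H492 Vale.Agent.P019P IntermediateField Polynomial

variable {k K L : Type*} [Field k] [Field K] [Field L] [Algebra k K] [Algebra k L] [Algebra K L]
  [IsScalarTower k K L]

instance tower_if (K' : IntermediateField K L) : IsScalarTower k K' L :=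
  IsScalarTower.of_algebraMap_eq fun c => by
    rw [IsScalarTower.algebraMap_apply k K K', ← IsScalarTower.algebraMap_apply K K' L,
      ← IsScalarTower.algebraMap_apply]

/-- places extend to algebraic extensions -/
theorem exists_over' [Algebra.IsAlgebraic K L] (P : Plk k K) : ∃ y : Plk k L, down K y = P := by
  obtain ⟨B, h1, h2⟩ := IsLocalRing.exists_factor_valuationRing
    ((algebraMap K L).comp P.1.subtype)
  have h3 : ∀ x : K, algebraMap K L x ∈ B ↔ x ∈ P.1 := by
    refine fun x => ⟨fun hx => ?_, fun hx => h1 ⟨x, hx⟩⟩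
    by_contra hn
    have x0 : x ≠ 0 := fun e => hn (e ▸ zero_mem _)
    have h4 : x⁻¹ ∈ P.1 := (P.1.mem_or_inv_mem x).resolve_left hn
    have h5 : IsUnit (⟨x⁻¹, h4⟩ : P.1) := by
      refine h2.map_nonunit _ (IsUnit.of_mul_eq_one ⟨algebraMap K L x, hx⟩ (Subtype.ext ?_))
      change algebraMap K L x⁻¹ * algebraMap K L x = 1
      rw [← map_mul, inv_mul_cancel₀ x0, map_one]
    obtain ⟨z, hz⟩ := h5.exists_right_inv
    have h6 : x⁻¹ * (z : K) = 1 := congrArg Subtype.val hz
    rw [inv_mul_eq_one₀ x0] at h6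
    exact hn (h6 ▸ z.2)
  refine ⟨⟨B, fun a => ?_, fun e => P.2.2 (eq_top_iff.2 fun x _ => (h3 x).1 ?_)⟩,
    Subtype.ext (SetLike.ext h3)⟩
  · rw [IsScalarTower.algebraMap_apply k K L]
    exact (h3 _).2 (P.2.1 a)
  · rw [e]; exact ValuationSubring.mem_top _

omit [Algebra k K] [Algebra k L] [IsScalarTower k K L] in
/-- an algebraic extension of the fixed field of its automorphisms is normal -/
theorem normal_of_fixed [Algebra.IsAlgebraic K L]
    (h : ∀ x : L, (∀ σ : L ≃ₐ[K] L, σ x = x) → x ∈ Set.range (algebraMap K L)) : Normal K L := by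
  classical
  refine normal_iff.2 fun x => ⟨Algebra.IsIntegral.isIntegral x, ?_⟩
  have hi : IsIntegral K x := Algebra.IsIntegral.isIntegral x
  have hf : (Set.range fun σ : L ≃ₐ[K] L => σ x).Finite := by
    refine ((minpoly K x).rootSet_finite L).subset ?_
    rintro _ ⟨σ, rfl⟩
    rw [mem_rootSet_of_ne (minpoly.ne_zero hi), aeval_algEquiv, AlgHom.comp_apply, minpoly.aeval,
      map_zero]
  let f : L[X] := ∏ z ∈ hf.toFinset, (X - C z)
  have h1 : ∀ σ : L ≃ₐ[K] L, f.map (σ : L →+* L) = f := by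
    intro σ
    simp only [f, Polynomial.map_prod, Polynomial.map_sub, map_X, map_C]
    refine Finset.prod_equiv σ.toEquiv (fun z => ?_) fun z _ => rfl
    simp only [Set.Finite.mem_toFinset, Set.mem_range]
    constructor
    · rintro ⟨τ, rfl⟩
      exact ⟨σ * τ, rfl⟩
    · rintro ⟨τ, e⟩
      exact ⟨σ⁻¹ * τ, by rw [AlgEquiv.mul_apply, e]; exact σ.symm_apply_apply z⟩
  obtain ⟨g, hg⟩ := (mem_lifts f).1 ((lifts_iff_coeff_lifts (f := algebraMap K L) f).2 fun n =>
    h _ fun σ => by
      have := congrArg (fun p => p.coeff n) (h1 σ)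
      simp only [coeff_map] at this
      exact this)
  have h2 : f.Splits := Splits.prod fun z _ => Splits.X_sub_C z
  have h3 : f ≠ 0 := (monic_prod_of_monic _ _ fun z _ => monic_X_sub_C z).ne_zero
  refine h2.of_dvd h3 (hg ▸ Polynomial.map_dvd _ (minpoly.dvd K x ?_))
  rw [← eval_map_algebraMap, hg, eval_prod]
  exact Finset.prod_eq_zero (i := x) (hf.mem_toFinset.2 ⟨1, rfl⟩) (by simp)

omit [Algebra k K] [Algebra k L] [IsScalarTower k K L] in
theorem exists_fin_gal [IsGalois K L] (s : Finset L) : ∃ K' : IntermediateField K L,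
    FiniteDimensional K K' ∧ IsGalois K K' ∧ ∀ x ∈ s, x ∈ K' :=
  ⟨(FiniteGaloisIntermediateField.adjoin K (s : Set L)).toIntermediateField, inferInstance,
    inferInstance, fun x hx => FiniteGaloisIntermediateField.subset_adjoin K (s : Set L) hx⟩

omit [Algebra k K] [Algebra k L] [IsScalarTower k K L] in
/-- conditions on the image of one element are closed -/
theorem isClosed_apply [Algebra.IsAlgebraic K L] (x : L) (p : L → Prop) :
    IsClosed {σ : L ≃ₐ[K] L | p (σ x)} := by
  rw [← isOpen_compl_iff, isOpen_iff_forall_mem_open]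
  intro σ hσ
  refine ⟨(fun τ => σ⁻¹ * τ) ⁻¹' (MulAction.stabilizer (L ≃ₐ[K] L) x : Set _), fun τ hτ => ?_,
    (stabilizer_isOpen_of_isIntegral x).preimage (continuous_const_mul _), ?_⟩
  · have h1 : σ.symm (τ x) = x := hτ
    have h2 : τ x = σ x := by rw [← h1, AlgEquiv.apply_symm_apply, h1]
    change ¬ p (τ x)
    rw [h2]
    exact hσ
  · change σ⁻¹ * σ ∈ MulAction.stabilizer (L ≃ₐ[K] L) x
    rw [inv_mul_cancel]
    exact one_mem _

omit [Algebra k K] [Algebra k L] [IsScalarTower k K L] in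
/-- compactness of the Galois group -/
theorem exists_of_finite [IsGalois K L] {ι : Type*} (x : ι → L) (p : ι → L → Prop)
    (h : ∀ s : Finset ι, ∃ σ : L ≃ₐ[K] L, ∀ i ∈ s, p i (σ (x i))) :
    ∃ σ : L ≃ₐ[K] L, ∀ i, p i (σ (x i)) := by
  obtain ⟨σ, -, hσ⟩ := isCompact_univ.inter_iInter_nonempty
    (fun i => {σ : L ≃ₐ[K] L | p i (σ (x i))}) (fun i => isClosed_apply (x i) (p i)) fun s => by
      obtain ⟨σ, hσ⟩ := h s
      exact ⟨σ, trivial, Set.mem_iInter₂.2 hσ⟩
  exact ⟨σ, Set.mem_iInter.1 hσ⟩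

/-- the Galois group is transitive on the places over a given place -/
theorem exists_conj' [CFF k K] [IsGalois K L] {y y' : Plk k L} (h : down K y = down K y') :
    ∃ σ : L ≃ₐ[K] L, conj k σ y = y' := by
  obtain ⟨σ, hσ⟩ := exists_of_finite (K := K) (fun x : L => x) (fun x z => z ∈ y.1 ↔ x ∈ y'.1)
    fun s => by
      obtain ⟨K', _, _, hs⟩ := exists_fin_gal (K := K) s
      have : CFF k K' := cff_of_finite (K := K)
      obtain ⟨τ, hτ⟩ := exists_conj_eq (K := K) (P := down K' y) (Q := down K' y')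
        (by rw [down_down, down_down, h])
      refine ⟨τ.symm.liftNormal L, fun x hx => ?_⟩
      have h1 := τ.symm.liftNormal_commutes L ⟨x, hs x hx⟩
      have h2 := mem_conj τ (down K' y) ⟨x, hs x hx⟩
      rw [hτ, mem_down, mem_down, ← h1] at h2
      exact h2.symm
  exact ⟨σ.symm, Subtype.ext (SetLike.ext hσ)⟩

/-- a free action on the places gives an unramified tower -/
theorem unrT_of_free [CFF k K] [IsGalois K L]
    (h : ∀ (σ : L ≃ₐ[K] L) (y : Plk k L), conj k σ y = y → σ = 1) : UnrT k K L := by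
  intro x
  obtain ⟨K', h1, h2, hs⟩ := exists_fin_gal (K := K) {x}
  have h3 : CFF k K' := cff_of_finite (K := K)
  refine ⟨K', hs x (Finset.mem_singleton_self x), h1, h3, inferInstance,
    isUnr_iff_inertia.2 fun P => eq_bot_iff.2 fun σ hσ => ?_⟩
  have : IsGalois K' L := IsGalois.tower_top_intermediateField K'
  obtain ⟨y, rfl⟩ := exists_over' (L := L) P
  have h4 : down K' (conj k (σ.liftNormal L) y) = down K' y := by
    rw [← mem_inertia.1 hσ]
    refine Subtype.ext (SetLike.ext fun z => ?_)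
    rw [mem_down, mem_conj, mem_conj, mem_down]
    have h5 := σ.liftNormal_commutes L (σ.symm z)
    rw [AlgEquiv.apply_symm_apply] at h5
    rw [← h5, AlgEquiv.symm_apply_apply]
  obtain ⟨τ, hτ⟩ := exists_conj' h4
  have h6 := h (τ.restrictScalars K * σ.liftNormal L) y (by rw [P025H492.conj_mul]; exact hτ)
  refine Subgroup.mem_bot.2 (AlgEquiv.ext fun z => (algebraMap K' L).injective ?_)
  have h7 := DFunLike.congr_fun h6 (algebraMap K' L z)
  rw [AlgEquiv.mul_apply, σ.liftNormal_commutes L] at h7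
  exact (τ.commutes _).symm.trans h7

end Vale.Agent.P022K.FI.An4
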