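import Vale.Agent.P025.R2.H746.Stab

/-!
# P022K FI, row GEN, part 1: a plane model adapted to one absolute value

For an absolute value `w` on a function field `K` with a function field as residue field there are
`T`, `θ` and a monic `P ∈ O[T][Y]` with `K = C(T, θ)`, `P(T, θ) = 0`, `w (P_Y(T, θ)) = 1`, such that
the valuation ring of `w` is a localisation of `O[T, θ]` (`model`).
-/

set_option linter.all false

noncomputable section

namespace Vale.Agent.P022K.FI.Ge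

open Polynomial IntermediateField Module P025H373 P025H746 P025H458 Vale.Agent.P019P

section ev

variable {R F G : Type*} [CommRing R] [CommRing F] [CommRing G]

/-- evaluation of a polynomial in two variables -/
def e2 (φ : R →+* F) (x y : F) : R[X][X] →+* F := eval₂RingHom (eval₂RingHom φ x) y

theorem e1_map (g : F →+* G) (φ : R →+* F) (x : F) :
    g.comp (eval₂RingHom φ x) = eval₂RingHom (g.comp φ) (g x) :=
  Polynomial.ringHom_ext (fun a => by simp) (by simp)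

theorem e2_map (g : F →+* G) (φ : R →+* F) (x y : F) (H : R[X][X]) :
    g (e2 φ x y H) = e2 (g.comp φ) (g x) (g y) H := by
  rw [e2, e2, coe_eval₂RingHom, coe_eval₂RingHom, hom_eval₂, e1_map]

theorem e2_C (φ : R →+* F) (x y : F) (a : R[X]) : e2 φ x y (C a) = eval₂RingHom φ x a := by
  simp [e2]

theorem e2_CC (φ : R →+* F) (x y : F) (a : R) : e2 φ x y (C (C a)) = φ a := by simp [e2]

theorem e2_CX (φ : R →+* F) (x y : F) : e2 φ x y (C X) = x := by simp [e2]

theorem e2_X (φ : R →+* F) (x y : F) : e2 φ x y X = y := by simp [e2]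

theorem e2_eq (φ : R →+* F) (x y : F) (H : R[X][X]) :
    e2 φ x y H = (H.map (eval₂RingHom φ x)).eval y := by
  rw [e2, coe_eval₂RingHom, eval_map]

end ev

section den

variable {A L : Type*} [CommRing A] [Field L] (ρ : A →+* L)

/-- common denominators -/
theorem com_den {ι : Type*} (p : A → Prop) (h1 : p 1) (hm : ∀ a b, p a → p b → p (a * b))
    (s : Finset ι) (y : ι → L) (h : ∀ i ∈ s, ∃ a d, p d ∧ y i * ρ d = ρ a) :
    ∃ d, p d ∧ ∀ i ∈ s, ∃ a, y i * ρ d = ρ a := by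
  classical
  induction s using Finset.induction_on with
  | empty => exact ⟨1, h1, by simp⟩
  | insert i s hi ih =>
    obtain ⟨d, hd, h2⟩ := ih fun j hj => h j (Finset.mem_insert_of_mem hj)
    obtain ⟨a, e, he, h3⟩ := h i (Finset.mem_insert_self _ _)
    refine ⟨d * e, hm _ _ hd he, fun j hj => ?_⟩
    rcases Finset.mem_insert.1 hj with rfl | hj
    · exact ⟨d * a, by rw [map_mul, map_mul, ← h3]; ring⟩
    · obtain ⟨b, hb⟩ := h2 j hj
      exact ⟨b * e, by rw [map_mul, map_mul, ← hb]; ring⟩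

theorem clear_den (m : L[X]) (h : ∀ i, ∃ a d, ρ d ≠ 0 ∧ m.coeff i * ρ d = ρ a) :
    ∃ (d : A) (g : A[X]), ρ d ≠ 0 ∧ g.map ρ = m * C (ρ d) := by
  obtain ⟨d, hd, h2⟩ := com_den ρ (fun d => ρ d ≠ 0) (by simp)
    (fun a b ha hb => by rw [map_mul]; exact mul_ne_zero ha hb) m.support m.coeff fun i _ => h i
  obtain ⟨g, hg⟩ := (mem_lifts (f := ρ) (m * C (ρ d))).1 ((lifts_iff_coeff_lifts _).2 fun i => by
    rw [coeff_mul_C]
    by_cases hi : i ∈ m.support
    · obtain ⟨a, ha⟩ := h2 i hi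
      exact ⟨a, ha.symm⟩
    · exact ⟨0, by rw [notMem_support_iff.1 hi, zero_mul, map_zero]⟩)
  exact ⟨d, g, hd, hg⟩

/-- a homomorphism of fields from two homomorphisms with the same kernel -/
theorem hom_of_ker {K : Type*} [Field K] (f : A →+* K) (h : ∀ a, f a = 0 ↔ ρ a = 0)
    (hs : ∀ x, ∃ a b, x = f a / f b) : ∃ ε : K →+* L, ∀ a, ε (f a) = ρ a := by
  let g : f.range →+* L := f.rangeRestrict.liftOfSurjective f.rangeRestrict_surjective
    ⟨ρ, fun a ha => (h a).1 (congrArg Subtype.val ha)⟩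
  have hg : ∀ a, g (f.rangeRestrict a) = ρ a := fun a =>
    RingHom.liftOfRightInverse_comp_apply _ _ _ _ a
  have hi : Function.Injective g := (injective_iff_map_eq_zero g).2 fun x hx => by
    obtain ⟨a, rfl⟩ := f.rangeRestrict_surjective x
    exact Subtype.ext ((h a).2 ((hg a).symm.trans hx))
  haveI : IsFractionRing f.range K := IsFractionRing.of_field _ _ fun x => by
    obtain ⟨a, b, e⟩ := hs x
    exact ⟨f.rangeRestrict a, f.rangeRestrict b, e⟩
  exact ⟨IsFractionRing.lift hi, fun a =>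
    (IsFractionRing.lift_algebraMap hi (f.rangeRestrict a)).trans (hg a)⟩

end den

variable {C K : Type} [NontriviallyNormedField C] [IsUltrametricDist C] [Field K] [Algebra C K]

variable (C K) in
/-- integral constants -/
def iK : OC C →+* K := (algebraMap C K).comp (OC C).subtype

variable (C) in
/-- reduction of integral constants -/
def ik (κ : Type) [CommRing κ] [Algebra (kC C) κ] : OC C →+* κ :=
  (algebraMap (kC C) κ).comp (IsLocalRing.residue (OC C))

variable {w : NV C K} {T θ : K}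

theorem red_e2 (hT : w T ≤ 1) (hθ : w θ ≤ 1) (H : (OC C)[X][X]) : w (e2 (iK C K) T θ H) ≤ 1 ∧
    w.red (e2 (iK C K) T θ H) = e2 (ik C (kap w)) (w.red T) (w.red θ) H := by
  have h1 := e2_map w.ring.subtype w.incl ⟨T, hT⟩ ⟨θ, hθ⟩ H
  have h2 := e2_map (IsLocalRing.residue w.ring) w.incl ⟨T, hT⟩ ⟨θ, hθ⟩ H
  have h3 : (IsLocalRing.residue w.ring).comp w.incl = ik C (kap w) :=
    RingHom.ext fun a => (IsLocalRing.ResidueField.map_residue w.incl a).symm
  have h4 : e2 (iK C K) T θ H = (e2 w.incl ⟨T, hT⟩ ⟨θ, hθ⟩ H : w.ring) := h1.symm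
  rw [h4, NV.red_of (e2 w.incl ⟨T, hT⟩ ⟨θ, hθ⟩ H).2, NV.red_of hT, NV.red_of hθ, ← h3]
  exact ⟨(e2 w.incl ⟨T, hT⟩ ⟨θ, hθ⟩ H).2, h2⟩

theorem red_e1 (hT : w T ≤ 1) (a : (OC C)[X]) : w (eval₂RingHom (iK C K) T a) ≤ 1 ∧
    w.red (eval₂RingHom (iK C K) T a) = eval₂RingHom (ik C (kap w)) (w.red T) a := by
  simpa only [e2_C] using red_e2 hT hT (Polynomial.C a)

theorem e1_eq (T : K) (a : (OC C)[X]) :
    eval₂RingHom (iK C K) T a = aeval T (a.map (OC C).subtype) := by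
  rw [aeval_def, eval₂_map]; rfl

theorem e1_mem {κ : Type} [Field κ] [Algebra (kC C) κ] (t : κ) (a : (OC C)[X]) :
    eval₂RingHom (ik C κ) t a ∈ (kC C)⟮t⟯ := by
  have : eval₂RingHom (ik C κ) t a = aeval t (a.map (IsLocalRing.residue (OC C))) := by
    rw [aeval_def, eval₂_map]; rfl
  rw [this]
  exact (mem_adjoin_simple_iff _ _).2 ⟨a.map _, 1, by rw [map_one, div_one]⟩

theorem lift_gp {P : C[X]} (h : gp P ≤ 1) : ∃ a : (OC C)[X], a.map (OC C).subtype = P :=
  (mem_lifts _).1 ((lifts_iff_coeff_lifts _).2 fun i => ⟨⟨_, gp_le_iff.1 h i⟩, rfl⟩)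

theorem eq_on (hw : w.OverG T) {v : NV C K} (hv : v.OverG T) {y : K} (hy : y ∈ C⟮T⟯) :
    v y = w y := by
  obtain ⟨r, s, rfl⟩ := (mem_adjoin_simple_iff _ _).1 hy
  rw [map_div₀, map_div₀, hw, hw, hv, hv]

/-- the valuation ring of the Gauss norm -/
theorem frac (hw : w.OverG T) {y : K} (hy : y ∈ C⟮T⟯) (h : w y ≤ 1) : ∃ a d : (OC C)[X],
    w (eval₂RingHom (iK C K) T d) = 1 ∧
      y * eval₂RingHom (iK C K) T d = eval₂RingHom (iK C K) T a := by
  obtain ⟨r, s, rfl⟩ := (mem_adjoin_simple_iff _ _).1 hy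
  by_cases hs : s = 0
  · exact ⟨0, 1, by simp, by simp [hs]⟩
  obtain ⟨i, hi⟩ := exists_coeff_eq s
  have hp : 0 < gp s := lt_of_le_of_ne (gp_nonneg s) fun e => hs (gp_eq_zero.1 e.symm)
  rw [map_div₀, hw, hw, div_le_one hp] at h
  have h1 : gp (Polynomial.C (s.coeff i)⁻¹ * s) = 1 := by
    rw [gp_mul, gp_C, norm_inv, hi, inv_mul_cancel₀ hp.ne']
  have h2 : gp (Polynomial.C (s.coeff i)⁻¹ * r) ≤ 1 := by
    rw [gp_mul, gp_C, norm_inv, hi, inv_mul_le_iff₀ hp, mul_one]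
    exact h
  obtain ⟨d, hd⟩ := lift_gp h1.le
  obtain ⟨a, ha⟩ := lift_gp h2
  have h3 : aeval T s ≠ 0 := fun e => hp.ne' (by rw [← hw, e, map_zero])
  refine ⟨a, d, by rw [e1_eq, hd, hw, h1], ?_⟩
  rw [e1_eq, e1_eq, hd, ha, map_mul, map_mul]
  field_simp

theorem red_mem_adj (hw : w.OverG T) {y : K} (hy : y ∈ C⟮T⟯) (h : w y ≤ 1) :
    w.red y ∈ (kC C)⟮w.red T⟯ := by
  obtain ⟨a, d, h1, h2⟩ := frac hw hy h
  have h3 := congrArg w.red h2
  rw [NV.red_mul h h1.le] at h3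
  rw [eq_div_of_mul_eq (NV.red_ne_zero h1) h3, (red_e1 hw.apply_T.le a).2,
    (red_e1 hw.apply_T.le d).2]
  exact div_mem (e1_mem _ _) (e1_mem _ _)

variable [IsAlgClosed C]

/-- the integral closure of the Gauss ring is finitely generated -/
theorem exists_basis (hC : Sph C) (hn : ∀ r : ℝ, 0 ≤ r → ∃ x : C, ‖x‖ = r)
    [FiniteDimensional C⟮T⟯ K] (hw : w.OverG T) :
    ∃ (n : ℕ) (z : Fin n → K), (∀ i, ∀ v : NV C K, v.OverG T → v (z i) ≤ 1) ∧
      ∀ x : K, (∀ v : NV C K, v.OverG T → v x ≤ 1) →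
        ∃ a : Fin n → K, (∀ i, a i ∈ C⟮T⟯ ∧ w (a i) ≤ 1) ∧ x = ∑ i, a i * z i := by
  classical
  let W := {v : NV C K // v.OverG T}
  haveI := fun v : W => v.2.finite
  let n : W → ℕ := fun v => finrank (kC C)⟮v.1.red T⟯ (kap v.1)
  let y := fun v : W => Module.finBasis (kC C)⟮v.1.red T⟯ (kap v.1)
  choose x hx1 hx2 using fun (v : W) (j : Fin (n v)) => NV.red_surj (y v j)
  choose z hz hz' using fun (v : W) (j : Fin (n v)) =>
    exists_approx (fun v : W => v.1.av) (fun v => v.1.na) (fun v => v.1.ext')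
      (fun _ _ h => Subtype.ext (NV.ext h)) v (x v j) zero_lt_one
  have hzle : ∀ (v : W) j (u : W), u.1 (z v j) ≤ 1 := fun v j u => by
    by_cases e : u = v
    · subst e
      rw [← sub_add_cancel (z u j) (x u j)]
      exact NV.add_le (hz u j).le (hx1 u j)
    · exact (hz' v j u e).le
  have hzred : ∀ (v : W) j, v.1.red (z v j) = y v j := fun v j => by
    have h1 := NV.red_sub (hzle v j v) (hx1 v j)
    rw [NV.red_of_lt (hz v j), hx2] at h1
    exact sub_eq_zero.1 h1.symm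
  have on1 : ∀ a : (Σ v : W, Fin (n v)) → K, (∀ p, a p ∈ C⟮T⟯ ∧ w (a p) ≤ 1) →
      (∀ v : W, v.1 (∑ p, a p * z p.1 p.2) < 1) → ∀ p, w (a p) < 1 := by
    rintro a ha h ⟨v, j⟩
    have hv : ∀ p, v.1 (a p) ≤ 1 := fun p => (eq_on hw v.2 (ha p).1).trans_le (ha p).2
    have h1 := NV.red_of_lt (h v)
    rw [NV.red_sum fun p _ => NV.mul_le_one (hv p) (hzle _ _ v), ← Finset.univ_sigma_univ,
      Finset.sum_sigma, Finset.sum_eq_single v _ (by simp)] at h1
    · have h2 := Fintype.linearIndependent_iff.1 (y v).linearIndependent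
        (fun i => ⟨v.1.red (a ⟨v, i⟩), red_mem_adj v.2 (ha _).1 (hv _)⟩) (by
          rw [← h1]
          refine Finset.sum_congr rfl fun i _ => ?_
          rw [NV.red_mul (hv _) (hzle _ _ v), hzred]
          rfl) j
      rw [← eq_on hw v.2 (ha _).1]
      exact (NV.red_eq_zero (hv _)).1 (congrArg Subtype.val h2)
    · intro u _ hu
      refine Finset.sum_eq_zero fun i _ => ?_
      rw [NV.red_mul (hv _) (hzle _ _ v), NV.red_of_lt (hz' u i v hu.symm), mul_zero]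
  have on2 : ∀ a : (Σ v : W, Fin (n v)) → K, (∀ p, a p ∈ C⟮T⟯) → ∀ p,
      ∃ v : W, w (a p) ≤ v.1 (∑ p, a p * z p.1 p.2) := by
    intro a ha p
    obtain ⟨q, -, hq⟩ := Finset.exists_max_image Finset.univ (fun p => w (a p))
      ⟨p, Finset.mem_univ _⟩
    by_contra hc
    push Not at hc
    have hp : 0 < w (a q) := ((w.av.nonneg _).trans_lt (hc ⟨w, hw⟩)).trans_le (hq p (by simp))
    have h0 : a q ≠ 0 := fun e => by simp [e] at hp
    have := on1 (fun p => a p / a q) (fun p => ⟨div_mem (ha p) (ha q), by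
      rw [map_div₀, div_le_one hp]; exact hq p (by simp)⟩) (fun v => by
        have e : ∑ p, a p / a q * z p.1 p.2 = (∑ p, a p * z p.1 p.2) / a q := by
          rw [Finset.sum_div]
          exact Finset.sum_congr rfl fun p _ => by ring
        rw [e, map_div₀, eq_on hw v.2 (ha q), div_lt_one hp]
        exact (hc v).trans_le (hq p (by simp))) q
    simp [div_self h0] at this
  have hli : LinearIndependent C⟮T⟯ fun p : (Σ v : W, Fin (n v)) => z p.1 p.2 := by
    refine Fintype.linearIndependent_iff.2 fun a ha p => ?_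
    obtain ⟨v, hv⟩ := on2 (fun p => a p) (fun p => (a p).2) p
    have e : ∑ p, (a p : K) * z p.1 p.2 = 0 := ha
    rw [e, map_zero] at hv
    exact Subtype.ext (w.av.nonpos_iff.1 hv)
  haveI : Nonempty (Σ v : W, Fin (n v)) := ⟨⟨⟨w, hw⟩, ⟨0, finrank_pos⟩⟩⟩
  let b := basisOfLinearIndependentOfCardEqFinrank hli (by
    rw [← sum_finrank_eq hC hn hw.transc]
    simp [n, W])
  let e := Fintype.equivFin (Σ v : W, Fin (n v))
  refine ⟨_, fun i => z (e.symm i).1 (e.symm i).2, fun i v hv => hzle _ _ ⟨v, hv⟩, fun x hx => ?_⟩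
  have h1 : ∑ p, (b.repr x p : K) * z p.1 p.2 = x := by
    conv_rhs => rw [← b.sum_repr x]
    exact Finset.sum_congr rfl fun p _ => by
      rw [coe_basisOfLinearIndependentOfCardEqFinrank]; rfl
  refine ⟨fun i => b.repr x (e.symm i), fun i => ⟨(b.repr x _).2, ?_⟩, ?_⟩
  · obtain ⟨v, hv⟩ := on2 (fun p => b.repr x p) (fun p => (b.repr x p).2) (e.symm i)
    rw [h1] at hv
    exact hv.trans (hx v.1 v.2)
  · exact h1.symm.trans (e.symm.sum_comp fun p => (b.repr x p : K) * z p.1 p.2).symm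

omit [IsAlgClosed C] in
theorem og_of_transc (h1 : w T ≤ 1) (h2 : Transcendental (kC C) (w.red T)) : w.OverG T := by
  intro P
  by_cases h0 : P = 0
  · rw [h0, map_zero, map_zero, gp_zero]
  obtain ⟨i, hi⟩ := exists_coeff_eq P
  have hc : P.coeff i ≠ 0 := fun e => h0 (gp_eq_zero.1 (by rw [← hi, e, norm_zero]))
  have h4 : gp (Polynomial.C (P.coeff i)⁻¹ * P) = 1 := by
    rw [gp_mul, gp_C, ← hi, norm_inv, inv_mul_cancel₀ (norm_ne_zero_iff.2 hc)]
  have key : w (aeval T (Polynomial.C (P.coeff i)⁻¹ * P)) = 1 := by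
    refine le_antisymm (NV.aeval_le h1 h4.le) (not_lt.1 fun hlt => ?_)
    have h3 := NV.red_of_lt hlt
    rw [NV.red_aeval h1 h4.le] at h3
    exact ((pred_eq_zero h4.le).1 (transcendental_iff.1 h2 _ h3)).ne h4
  rw [map_mul, map_mul, aeval_C, w.ext', norm_inv,
    inv_mul_eq_one₀ (norm_ne_zero_iff.2 hc)] at key
  rw [← key, hi]

section res

variable {κ : Type} [Field κ] [Algebra (kC C) κ]

omit [IsAlgClosed C] in
theorem ratio1 {t y : κ} (hy : y ∈ (kC C)⟮t⟯) : ∃ a d : (OC C)[X],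
    eval₂RingHom (ik C κ) t d ≠ 0 ∧
      y * eval₂RingHom (ik C κ) t d = eval₂RingHom (ik C κ) t a := by
  obtain ⟨r, s, rfl⟩ := (mem_adjoin_simple_iff _ _).1 hy
  have h : ∀ r : (kC C)[X], ∃ a, eval₂RingHom (ik C κ) t a = aeval t r := fun r => by
    obtain ⟨a, rfl⟩ := Polynomial.map_surjective _ IsLocalRing.residue_surjective r
    exact ⟨a, by rw [aeval_def, eval₂_map]; rfl⟩
  by_cases hs : aeval t s = 0
  · exact ⟨0, 1, by simp, by simp [hs]⟩
  obtain ⟨a, ha⟩ := h r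
  obtain ⟨d, hd⟩ := h s
  exact ⟨a, d, by rwa [hd], by rw [ha, hd, div_mul_cancel₀ _ hs]⟩

omit [IsAlgClosed C] in
theorem ratio2 {t s : κ} (h : (kC C)⟮t⟯⟮s⟯ = ⊤) (y : κ) : ∃ H₁ H₂ : (OC C)[X][X],
    e2 (ik C κ) t s H₂ ≠ 0 ∧ y * e2 (ik C κ) t s H₂ = e2 (ik C κ) t s H₁ := by
  let S : Subalgebra (kC C) κ :=
    { (e2 (ik C κ) t s).range with
      algebraMap_mem' := fun a => by
        obtain ⟨b, rfl⟩ := IsLocalRing.residue_surjective a
        exact ⟨Polynomial.C (Polynomial.C b), e2_CC _ _ _ _⟩ }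
  have h1 : Algebra.adjoin (kC C) {t, s} ≤ S := Algebra.adjoin_le (by
    rintro _ (rfl | rfl)
    · exact ⟨Polynomial.C X, e2_CX _ _ _⟩
    · exact ⟨X, e2_X _ _ _⟩)
  have h2 : y ∈ (kC C)⟮t, s⟯ := by
    rw [← adjoin_simple_adjoin_simple, h]
    trivial
  obtain ⟨a, ha, b, hb, rfl⟩ := mem_adjoin_iff_div.1 h2
  obtain ⟨H₁, rfl⟩ := h1 ha
  obtain ⟨H₂, rfl⟩ := h1 hb
  by_cases h0 : e2 (ik C κ) t s H₂ = 0
  · exact ⟨0, 1, by simp, by simp [h0]⟩
  · exact ⟨H₁, H₂, h0, div_mul_cancel₀ _ h0⟩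

omit [IsAlgClosed C] in
theorem sep_eq (t s : κ) [Algebra.IsSeparable (kC C)⟮t⟯ κ] : ∃ g : (OC C)[X][X],
    e2 (ik C κ) t s g = 0 ∧ e2 (ik C κ) t s (derivative g) ≠ 0 := by
  have h1 : (minpoly (kC C)⟮t⟯ s).Separable := Algebra.IsSeparable.isSeparable _ s
  have h2 := minpoly.aeval (kC C)⟮t⟯ s
  have h3 := h1.aeval_derivative_ne_zero h2
  obtain ⟨d, g, hd, hg⟩ := clear_den (eval₂RingHom (ik C κ) t)
    ((minpoly (kC C)⟮t⟯ s).map (algebraMap _ κ)) fun i => by
      rw [coeff_map]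
      exact ratio1 ((minpoly (kC C)⟮t⟯ s).coeff i).2
  refine ⟨g, ?_, ?_⟩
  · rw [e2_eq, hg, eval_mul, eval_map_algebraMap, h2, zero_mul]
  · rw [e2_eq, ← derivative_map, hg, derivative_mul, derivative_C, mul_zero, add_zero, eval_mul,
      derivative_map, eval_map_algebraMap, eval_C]
    exact mul_ne_zero h3 hd

end res

omit [IsAlgClosed C] in
/-- the localisation of `O[T, θ]` at the centre of `w` -/
def Lam (w : NV C K) (T θ : K) : Subring K where
  carrier := {x | ∃ H₁ H₂, w (e2 (iK C K) T θ H₂) = 1 ∧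
    x * e2 (iK C K) T θ H₂ = e2 (iK C K) T θ H₁}
  mul_mem' := by
    rintro x y ⟨a, b, h1, h2⟩ ⟨c, d, h3, h4⟩
    exact ⟨a * c, b * d, by rw [map_mul, map_mul, h1, h3, one_mul], by
      rw [map_mul, map_mul, ← h2, ← h4]; ring⟩
  one_mem' := ⟨1, 1, by simp, by simp⟩
  add_mem' := by
    rintro x y ⟨a, b, h1, h2⟩ ⟨c, d, h3, h4⟩
    exact ⟨a * d + c * b, b * d, by rw [map_mul, map_mul, h1, h3, one_mul], by
      rw [map_add, map_mul, map_mul, map_mul, ← h2, ← h4]; ring⟩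
  zero_mem' := ⟨0, 1, by simp, by simp⟩
  neg_mem' := by
    rintro x ⟨a, b, h1, h2⟩
    exact ⟨-a, b, h1, by rw [map_neg, ← h2]; ring⟩

omit [IsAlgClosed C] in
theorem Lam_le (hT : w T ≤ 1) (hθ : w θ ≤ 1) {x : K} (h : x ∈ Lam w T θ) : w x ≤ 1 := by
  obtain ⟨a, b, h1, h2⟩ := h
  have := (red_e2 hT hθ a).1
  rwa [← h2, map_mul, h1, mul_one] at this

omit [IsAlgClosed C] in
theorem Lam_inv {x : K} (h : x ∈ Lam w T θ) (h1 : w x = 1) : x⁻¹ ∈ Lam w T θ := by
  obtain ⟨a, b, h2, h3⟩ := h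
  have h0 : x ≠ 0 := fun e => by simp [e] at h1
  exact ⟨b, a, by rw [← h3, map_mul, h1, h2, one_mul], by rw [← h3, inv_mul_cancel_left₀ h0]⟩

omit [IsAlgClosed C] in
theorem e2_mem (H : (OC C)[X][X]) : e2 (iK C K) T θ H ∈ Lam w T θ := ⟨H, 1, by simp, by simp⟩

theorem scale [FiniteDimensional C⟮T⟯ K] (hw : w.OverG T) (x : K) :
    ∃ (c : C) (y : K), ‖c‖ = w x ∧ w y = 1 ∧ x = algebraMap C K c * y := by
  obtain ⟨c, hc⟩ := exists_norm_eq hw x
  by_cases h0 : c = 0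
  · refine ⟨0, 1, h0 ▸ hc, by simp, ?_⟩
    rw [h0, norm_zero] at hc
    rw [w.av.eq_zero.1 hc.symm, map_zero, zero_mul]
  · exact ⟨c, x / algebraMap C K c, hc, by
      rw [map_div₀, w.ext', ← hc, div_self (norm_ne_zero_iff.2 h0)], by
      rw [mul_div_cancel₀ _ ((_root_.map_ne_zero _).2 h0)]⟩

/-- the valuation ring is the localisation (Nakayama) -/
theorem le_Lam (hC : Sph C) (hn : ∀ r : ℝ, 0 ≤ r → ∃ x : C, ‖x‖ = r) [FiniteDimensional C⟮T⟯ K]
    (hw : w.OverG T) (hθ : w θ = 1) (hv : ∀ v : NV C K, v.OverG T → v ≠ w → v θ < 1)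
    (hp : (kC C)⟮w.red T⟯⟮w.red θ⟯ = ⊤) {x : K} (hx : w x ≤ 1) : x ∈ Lam w T θ := by
  obtain ⟨n, z, hz, hb⟩ := exists_basis hC hn hw
  have hT := hw.apply_T.le
  let P : Submodule (Lam w T θ) K :=
    { carrier := {x | w x ≤ 1}
      add_mem' := NV.add_le
      zero_mem' := by simp
      smul_mem' := fun c x hx => NV.mul_le_one (Lam_le hT hθ.le c.2) hx }
  let I : Ideal (Lam w T θ) :=
    { carrier := {y | w y < 1}
      add_mem' := NV.add_lt
      zero_mem' := by simp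
      smul_mem' := fun c y hy => by
        change w ((c : K) * y) < 1
        rw [map_mul]
        exact mul_lt_one_of_nonneg_of_lt_one_right (Lam_le hT hθ.le c.2) (w.av.nonneg _) hy }
  let N := Submodule.span (Lam w T θ) (Set.range z)
  have h1 : ∀ x, w x ≤ 1 → x ∈ N := by
    intro x hx
    have h2 : ∀ v : {v : NV C K // v.OverG T}, ∀ᶠ m in Filter.atTop, v.1 (θ ^ m * x) ≤ 1 := by
      intro v
      by_cases e : v.1 = w
      · exact Filter.Eventually.of_forall fun m => e ▸ NV.mul_le_one (NV.pow_le_one' hθ.le m) hx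
      · have := (tendsto_pow_atTop_nhds_zero_of_lt_one (v.1.av.nonneg θ) (hv v.1 v.2 e)).mul_const
          (v.1 x)
        rw [zero_mul] at this
        filter_upwards [this.eventually_le_const zero_lt_one] with m hm
        rwa [map_mul, map_pow]
    obtain ⟨m, hm⟩ := (Filter.eventually_all.2 h2).exists
    obtain ⟨a, ha, e⟩ := hb _ fun v hv => hm ⟨v, hv⟩
    have θ0 : θ ≠ 0 := fun e => by simp [e] at hθ
    have h3 : θ⁻¹ ∈ Lam w T θ := Lam_inv (by simpa [e2_X] using e2_mem (w := w) X) hθ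
    have h4 : x = (⟨θ⁻¹ ^ m, pow_mem h3 m⟩ : Lam w T θ) • (θ ^ m * x) := by
      change x = θ⁻¹ ^ m * _
      rw [inv_pow, inv_mul_cancel_left₀ (pow_ne_zero m θ0)]
    rw [h4, e]
    refine N.smul_mem _ (N.sum_mem fun i _ => ?_)
    obtain ⟨p, d, h5, h6⟩ := frac hw (ha i).1 (ha i).2
    exact N.smul_mem (⟨a i, Polynomial.C p, Polynomial.C d, by rwa [e2_C], by
      rwa [e2_C, e2_C]⟩ : Lam w T θ) (Submodule.subset_span ⟨i, rfl⟩)
  obtain ⟨r, hr, hr'⟩ := Submodule.exists_sub_one_mem_and_smul_le_of_fg_of_le_sup (I := I)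
    (N := 1) (N' := N) (P := P) (Submodule.fg_span (Set.finite_range z))
    (Submodule.span_le.2 (by rintro _ ⟨i, rfl⟩; exact hz i w hw)) (by
      intro x (hx : w x ≤ 1)
      obtain ⟨a, b, h2, h3⟩ := ratio2 hp (w.red x)
      obtain ⟨a1, a2⟩ := red_e2 hT hθ.le a
      obtain ⟨b1, b2⟩ := red_e2 hT hθ.le b
      have b3 : w (e2 (iK C K) T θ b) = 1 :=
        b1.eq_or_lt.resolve_right fun e => h2 (b2 ▸ NV.red_of_lt e)
      have b4 : w (e2 (iK C K) T θ b)⁻¹ = 1 := by rw [map_inv₀, b3, inv_one]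
      have h4 : e2 (iK C K) T θ a * (e2 (iK C K) T θ b)⁻¹ ∈ Lam w T θ :=
        mul_mem (e2_mem a) (Lam_inv (e2_mem b) b3)
      have h5 := Lam_le hT hθ.le h4
      have h6 : w (x - e2 (iK C K) T θ a * (e2 (iK C K) T θ b)⁻¹) < 1 := by
        rw [← NV.red_eq_zero (NV.sub_le hx h5), NV.red_sub hx h5, NV.red_mul a1 b4.le,
          NV.red_inv b3, a2, b2, ← h3, mul_inv_cancel_right₀ h2, sub_self]
      obtain ⟨c, y, h7, h8, h9⟩ := scale hw (x - e2 (iK C K) T θ a * (e2 (iK C K) T θ b)⁻¹)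
      rw [← h7] at h6
      have h10 : algebraMap C K c ∈ Lam w T θ := by
        simpa [e2_CC, iK] using e2_mem (w := w) (T := T) (θ := θ)
          (Polynomial.C (Polynomial.C ⟨c, h6.le⟩))
      rw [eq_add_of_sub_eq' h9]
      refine add_mem (Submodule.mem_sup_left (Submodule.mem_one.2 ⟨⟨_, h4⟩, rfl⟩))
        (Submodule.mem_sup_right ?_)
      exact Submodule.smul_mem_smul (r := (⟨_, h10⟩ : Lam w T θ))
        (show w (algebraMap C K c) < 1 by rwa [w.ext']) (h1 y h8.le))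
  obtain ⟨y, hy⟩ := Submodule.mem_one.1 (hr' (Submodule.smul_mem_pointwise_smul x r P hx))
  have r1 : w r = 1 := by
    refine (Lam_le hT hθ.le r.2).eq_or_lt.resolve_right fun e => ?_
    have h2 : w ((r : K) - 1) < 1 := hr
    simpa using NV.sub_lt e h2
  have r0 : (r : K) ≠ 0 := fun e => by simp [e] at r1
  have : x = (r : K)⁻¹ * y := by
    rw [show (y : K) = r * x from hy, inv_mul_cancel_left₀ r0]
  rw [this]
  exact mul_mem (Lam_inv r.2 r1) y.2

/-- **the plane model** -/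
theorem model (hC : Sph C) (hn : ∀ r : ℝ, 0 ≤ r → ∃ x : C, ‖x‖ = r) [CFF C K] (hw : w.OverG T)
    [Algebra.IsSeparable (kC C)⟮w.red T⟯ (kap w)] :
    ∃ (θ : K) (P : (OC C)[X][X]), w θ = 1 ∧ P.Monic ∧ (∀ H, e2 (iK C K) T θ H = 0 ↔ P ∣ H) ∧
      w (e2 (iK C K) T θ (derivative P)) = 1 ∧ ∀ x, w x ≤ 1 → x ∈ Lam w T θ := by
  haveI := (finite_of_notMem (x := T) fun a e => hw.transc (e ▸ isAlgebraic_algebraMap a)).2
  haveI := hw.finite
  have hT := hw.apply_T.le
  obtain ⟨s, s0, hs⟩ : ∃ s : kap w, s ≠ 0 ∧ (kC C)⟮w.red T⟯⟮s⟯ = ⊤ := by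
    obtain ⟨s, hs⟩ := Field.exists_primitive_element (kC C)⟮w.red T⟯ (kap w)
    by_cases h : s = 0
    · exact ⟨1, one_ne_zero, by rw [← hs, h, adjoin_one, adjoin_zero]⟩
    · exact ⟨s, h, hs⟩
  obtain ⟨x, hx, rfl⟩ := NV.red_surj s
  obtain ⟨u, hu, hu'⟩ := exists_approx (fun v : {v : NV C K // v.OverG T} => v.1.av)
    (fun v => v.1.na) (fun v => v.1.ext') (fun _ _ h => Subtype.ext (NV.ext h)) ⟨w, hw⟩ x
    zero_lt_one
  have u1 : w u ≤ 1 := by
    rw [← sub_add_cancel u x]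
    exact NV.add_le hu.le hx
  have u2 : w.red u = w.red x := by
    rw [← sub_eq_zero, ← NV.red_sub u1 hx]
    exact NV.red_of_lt hu
  have u3 : ∀ v : NV C K, v.OverG T → v ≠ w → v u < 1 := fun v hv e =>
    hu' ⟨v, hv⟩ fun e' => e (congrArg Subtype.val e')
  have u4 : ∀ v : NV C K, v.OverG T → v u ≤ 1 := fun v hv => by
    by_cases e : v = w
    · exact e ▸ u1
    · exact (u3 v hv e).le
  obtain ⟨n, z, hz, hb⟩ := exists_basis hC hn hw
  choose a ha ha' using fun i => hb (u * z i) fun v hv => NV.mul_le_one (u4 v hv) (hz i v hv)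
  obtain ⟨d, hd, hd'⟩ := com_den (eval₂RingHom (iK C K) T)
    (fun d => w (eval₂RingHom (iK C K) T d) = 1) (by simp)
    (fun a b ha hb => by rw [map_mul, map_mul, ha, hb, one_mul]) Finset.univ
    (fun p : Fin n × Fin n => a p.1 p.2) fun p _ => frac hw (ha _ _).1 (ha _ _).2
  letI : Algebra (OC C)[X] K := (eval₂RingHom (iK C K) T).toAlgebra
  haveI : Module.IsTorsionFree (OC C)[X] K := Module.isTorsionFree_iff_algebraMap_injective.2
    ((injective_iff_map_eq_zero _).2 fun p hp => by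
      have h1 : aeval T (p.map (OC C).subtype) = 0 := (e1_eq T p).symm.trans hp
      exact (Polynomial.map_eq_zero_iff (OC C).subtype_injective).1
        (transcendental_iff.1 hw.transc _ h1))
  obtain ⟨θ, hθ⟩ : ∃ θ, θ = eval₂RingHom (iK C K) T d * u := ⟨_, rfl⟩
  have hi : IsIntegral (OC C)[X] θ := by
    refine isIntegral_of_smul_mem_submodule (Submodule.span (OC C)[X] (Set.range z)) (fun e => ?_)
      (Submodule.fg_span (Set.finite_range z)) θ fun y hy => ?_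
    · obtain ⟨b, -, h⟩ := hb 1 fun v _ => by simp
      rw [Finset.sum_eq_zero fun i _ => by
        rw [Submodule.span_eq_bot.1 e (z i) ⟨i, rfl⟩, mul_zero]] at h
      exact one_ne_zero h
    · induction hy using Submodule.span_induction with
      | mem y hy =>
        obtain ⟨i, rfl⟩ := hy
        rw [smul_eq_mul, hθ, mul_assoc, ha', Finset.mul_sum]
        refine Submodule.sum_mem _ fun j _ => ?_
        obtain ⟨p, hp⟩ := hd' (i, j) (Finset.mem_univ _)
        rw [← mul_assoc, mul_comm _ (a i j), hp]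
        exact Submodule.smul_mem _ p (Submodule.subset_span ⟨j, rfl⟩)
      | zero => simp
      | add y y' _ _ h h' => rw [smul_add]; exact add_mem h h'
      | smul c y _ h => rw [smul_comm]; exact Submodule.smul_mem _ c h
  have d1 := (red_e1 hT d).2
  have d0 := NV.red_ne_zero hd
  have θ2 : w.red θ = w.red (eval₂RingHom (iK C K) T d) * w.red x := by
    rw [hθ, NV.red_mul hd.le u1, u2]
  have θ1 : w θ = 1 := by
    refine (hθ ▸ NV.mul_le_one hd.le u1 : w θ ≤ 1).eq_or_lt.resolve_right fun e => ?_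
    exact mul_ne_zero d0 s0 (θ2 ▸ NV.red_of_lt e)
  have hL : ∀ x, w x ≤ 1 → x ∈ Lam w T θ := fun y hy => le_Lam hC hn hw θ1 (fun v hv e => by
    rw [hθ, map_mul, e1_eq, hv, ← hw, ← e1_eq, hd, one_mul]; exact u3 v hv e) (by
      rw [eq_top_iff, ← hs, adjoin_simple_le_iff, ← inv_mul_cancel_left₀ d0 (w.red x), ← θ2, d1]
      exact mul_mem (inv_mem (IntermediateField.algebraMap_mem (kC C)⟮w.red T⟯⟮w.red θ⟯
        ⟨_, e1_mem _ d⟩)) (mem_adjoin_simple_self _ _)) hy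
  have hP : ∀ H, e2 (iK C K) T θ H = 0 ↔ minpoly (OC C)[X] θ ∣ H :=
    minpoly.isIntegrallyClosed_dvd_iff hi
  refine ⟨θ, minpoly (OC C)[X] θ, θ1, minpoly.monic hi, hP, ?_, hL⟩
  obtain ⟨g, g1, g2⟩ := sep_eq (C := C) (w.red T) (w.red θ)
  have R := red_e2 hT θ1.le
  obtain ⟨c, y, h1, h2, h3⟩ := scale hw (e2 (iK C K) T θ g)
  rw [← (R g).2, NV.red_eq_zero (R g).1, ← h1] at g1
  obtain ⟨H₁, H₂, h4, h5⟩ := hL y h2.le
  obtain ⟨S, hS⟩ := (hP (H₂ * g - Polynomial.C (Polynomial.C ⟨c, g1.le⟩) * H₁)).1 (by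
    rw [map_sub, map_mul, map_mul, h3, e2_CC, ← h5]
    change _ - algebraMap C K c * _ = 0
    ring)
  have h6 := congrArg (fun H => e2 (ik C (kap w)) (w.red T) (w.red θ) (derivative H)) hS
  have h7 : ik C (kap w) ⟨c, g1.le⟩ = 0 := by
    rw [ik, RingHom.comp_apply, ← cred_of, (cred_eq_zero g1.le).2 g1, map_zero]
  have h8 : e2 (ik C (kap w)) (w.red T) (w.red θ) g = 0 := by
    rw [← (R g).2, NV.red_eq_zero (R g).1, ← h1]; exact g1
  have h9 : e2 (ik C (kap w)) (w.red T) (w.red θ) (minpoly (OC C)[X] θ) = 0 := by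
    rw [← (R _).2, (hP _).2 dvd_rfl, NV.red_zero]
  simp only [derivative_sub, derivative_mul, derivative_C, map_sub, map_add, map_mul, e2_CC, h7,
    h8, h9, zero_mul, mul_zero, zero_add, add_zero, sub_zero, map_zero] at h6
  refine (R _).1.eq_or_lt.resolve_right fun e => ?_
  rw [← (R (derivative (minpoly _ _))).2, NV.red_of_lt e, zero_mul, ← (R H₂).2] at h6
  exact mul_ne_zero (NV.red_ne_zero h4) g2 h6

end Vale.Agent.P022K.FI.Ge
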