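import Vale.Agent.P022K.FI.Gen1
import Vale.Agent.P022K.FI.Fac
import Vale.Agent.P022K.FI.Mg

/-!
# P022K FI, row GEN, part 2: smooth points of plane curves, discs from factorisations
-/

set_option linter.all false

noncomputable section

namespace Vale.Agent.P022K.FI.Ge

open Polynomial IntermediateField Module P025H373 P025H746 P025H492 Vale.Agent.P019P
open scoped PowerSeries LaurentSeries

section curve

variable {k F : Type} [Field k] [Field F] [Algebra k F] [CFF k F]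

theorem mem_of_ord {P : Plk k F} {x : F} (h : 0 ≤ ord P x) : x ∈ P.1 :=
  (mem_iff_ord P x).2 (Or.inr h)

theorem mem_iff_ord' (P : Plk k F) (x : F) : x ∈ P.1 ↔ 0 ≤ ord P x :=
  ⟨ord_nonneg_of_mem P, mem_of_ord⟩

theorem vl_ne_zero {P : Plk k F} {x : F} (h0 : x ≠ 0) (h : ord P x = 0) : vl P x ≠ 0 := fun e => by
  have := sub_vl_mem h.ge
  rw [e, map_zero, sub_zero, mem_Mge, or_iff_right h0] at this
  omega

theorem fin_ord (x : F) : {P : Plk k F | ord P x ≠ 0}.Finite :=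
  (Vale.Agent.P019P.dv k x).support.finite_toSet.subset fun P hP => by
    simpa [dv_apply] using hP

/-- a function with a simple value is separating -/
theorem sep_of_ord {x : F} {P : Plk k F} {c : k} (h : ord P (x - algebraMap k F c) = 1) :
    Algebra.IsSeparable k⟮x⟯ F := by
  have nc : ∀ a, x ≠ algebraMap k F a := fun a e => by
    rw [e, ← map_sub, ord_const] at h
    exact zero_ne_one h
  obtain ⟨tr, fd⟩ := finite_of_notMem nc
  let E := separableClosure k⟮x⟯ F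
  let y : E := algebraMap k⟮x⟯ E (AdjoinSimple.gen k x)
  haveI : IsScalarTower k E F := IsScalarTower.of_algebraMap_eq fun _ => rfl
  haveI : CFF k E := cff_down (L := F) (x := y)
    ((transcendental_algebraMap_iff (algebraMap E F).injective).1 tr)
  have h1 : ram E P = 1 := by
    have := ord_algebraMap P (y - algebraMap k E c)
    rw [map_sub, ← IsScalarTower.algebraMap_apply] at this
    have e : (ram E P : ℤ) = 1 := Int.eq_one_of_mul_eq_one_right (by omega) (this.symm.trans h)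
    exact_mod_cast e
  obtain ⟨q, hq⟩ := ExpChar.exists E
  have h2 : ∀ (Q : Plk k F) (z : F) (n : ℕ), z ∈ Q.1 ↔ z ^ q ^ n ∈ Q.1 := fun Q z n => by
    rw [mem_iff_ord', mem_iff_ord', ord_pow, mul_nonneg_iff_of_pos_left]
    exact_mod_cast expChar_pow_pos E q n
  have h3 : (over_finite (L := F) (down E P)).toFinset = {P} := by
    refine Finset.eq_singleton_iff_unique_mem.2 ⟨by simp, fun Q hQ => ?_⟩
    have e : down E Q = down E P := by simpa using hQ
    refine Subtype.ext (SetLike.ext fun z => ?_)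
    obtain ⟨n, a, ha⟩ := IsPurelyInseparable.pow_mem E q z
    rw [h2 Q z n, h2 P z n, ← ha, ← mem_down, ← mem_down, e]
  have h4 := sum_ram (L := F) (down E P)
  rw [h3, Finset.sum_singleton, h1] at h4
  exact (separableClosure.eq_top_iff _ _).1 (finrank_eq_one_iff_eq_top.1 h4.symm)

end curve

section hensel

variable {R A : Type} [CommRing R] [CommRing A] (φ : R →+* A)

/-- evaluation at a branch -/
def eb (t₀ : A) (Θ : A⟦X⟧) : R[X][X] →+* A⟦X⟧ :=
  e2 ((PowerSeries.C (R := A)).comp φ) (PowerSeries.X + PowerSeries.C t₀) Θ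

theorem cc_e2 (τ Θ : A⟦X⟧) (H : R[X][X]) :
    PowerSeries.constantCoeff (e2 ((PowerSeries.C (R := A)).comp φ) τ Θ H) =
      e2 φ (PowerSeries.constantCoeff τ) (PowerSeries.constantCoeff Θ) H := by
  rw [e2_map]
  congr 2

theorem cc_eb (t₀ : A) (Θ : A⟦X⟧) (H : R[X][X]) :
    PowerSeries.constantCoeff (eb φ t₀ Θ H) = e2 φ t₀ (PowerSeries.constantCoeff Θ) H := by
  rw [eb, cc_e2]
  simp

theorem map_eb {B : Type} [CommRing B] (g : A →+* B) (t₀ : A) (Θ : A⟦X⟧) (H : R[X][X]) :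
    PowerSeries.map g (eb φ t₀ Θ H) = eb (g.comp φ) (g t₀) (PowerSeries.map g Θ) H := by
  rw [eb, eb, e2_map, map_add, PowerSeries.map_X, PowerSeries.map_C]
  congr 2
  exact RingHom.ext fun a => PowerSeries.map_C _ _

theorem hensel_ps {G : R[X][X]} (hG : G.Monic) {t₀ y₀ : A} (h0 : e2 φ t₀ y₀ G = 0)
    (h1 : IsUnit (e2 φ t₀ y₀ (derivative G))) :
    ∃ Θ : A⟦X⟧, PowerSeries.constantCoeff Θ = y₀ ∧ eb φ t₀ Θ G = 0 := by
  obtain ⟨Θ, a1, a2⟩ := HenselianRing.is_henselian (I := Ideal.span {(PowerSeries.X : A⟦X⟧)})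
    (G.map (eval₂RingHom ((PowerSeries.C (R := A)).comp φ) (PowerSeries.X + PowerSeries.C t₀)))
    (hG.map _) (PowerSeries.C y₀) (by
      rw [Ideal.mem_span_singleton, PowerSeries.X_dvd_iff, ← e2_eq, cc_e2]
      simpa using h0) (by
      refine IsUnit.map _ (PowerSeries.isUnit_iff_constantCoeff.2 ?_)
      rw [derivative_map, ← e2_eq, cc_e2]
      simpa using h1)
  rw [Ideal.mem_span_singleton, PowerSeries.X_dvd_iff, map_sub, sub_eq_zero] at a2
  exact ⟨Θ, by simpa using a2, (e2_eq _ _ _ _).trans a1⟩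

theorem root_unique [IsLocalRing A] {G : R[X][X]} {t a b : A} (ha : e2 φ t a G = 0)
    (hb : e2 φ t b G = 0) (h : ¬IsUnit (a - b)) (h' : IsUnit (e2 φ t a (derivative G))) :
    a = b := by
  rw [e2_eq] at ha hb
  rw [e2_eq, ← derivative_map] at h'
  exact IsLocalRing.eq_of_eval_eq_zero_of_not_isUnit_sub ha hb h h'

end hensel

section smooth

variable {R k F : Type} [CommRing R] [Field k] [Field F] [Algebra k F] [CFF k F] (φ : R →+* k)
  {t y : F} {z : Plk k F}

theorem exp_e2 (E : F →ₐ[k] k⸨X⸩) {τ Θ : k⟦X⟧} (h1 : E t = am k τ) (h2 : E y = am k Θ)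
    (H : R[X][X]) : E (e2 ((algebraMap k F).comp φ) t y H) =
      am k (e2 ((PowerSeries.C (R := k)).comp φ) τ Θ H) := by
  rw [e2_map (am k), ← h1, ← h2]
  refine (e2_map (E : F →+* k⸨X⸩) _ _ _ H).trans ?_
  congr 2
  exact RingHom.ext fun a => E.commutes (φ a)

theorem vl_e2 (ht : t ∈ z.1) (hy : y ∈ z.1) (H : R[X][X]) :
    e2 ((algebraMap k F).comp φ) t y H ∈ z.1 ∧
      vl z (e2 ((algebraMap k F).comp φ) t y H) = e2 φ (vl z t) (vl z y) H := by
  obtain ⟨u, -, hu⟩ := exists_unif z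
  obtain ⟨E, -, hE, -⟩ := An4.exists_exp z hu
  obtain ⟨τ, h1⟩ := (hE t).1 ht
  obtain ⟨Θ, h2⟩ := (hE y).1 hy
  have h3 := exp_e2 φ E h1 h2 H
  exact ⟨(hE _).2 ⟨_, h3⟩, by rw [hE.vl_eq h3, cc_e2, hE.vl_eq h1, hE.vl_eq h2]⟩

/-- the order at a place over a smooth point is read on the branch -/
theorem exp_at {G : R[X][X]} (nc : ∀ a, t ≠ algebraMap k F a)
    (hG : e2 ((algebraMap k F).comp φ) t y G = 0) (ht : t ∈ z.1) (hy : y ∈ z.1)
    (h1 : e2 φ (vl z t) (vl z y) (derivative G) ≠ 0) {Θ : k⟦X⟧}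
    (h2 : PowerSeries.constantCoeff Θ = vl z y) (h3 : eb φ (vl z t) Θ G = 0) :
    ∃ e : ℤ, 0 < e ∧ (∀ H, e2 ((algebraMap k F).comp φ) t y H = 0 ↔ eb φ (vl z t) Θ H = 0) ∧
      ∀ H₁ H₂, ord z (e2 ((algebraMap k F).comp φ) t y H₁ / e2 ((algebraMap k F).comp φ) t y H₂) =
        e * (am k (eb φ (vl z t) Θ H₁) / am k (eb φ (vl z t) Θ H₂)).order := by
  obtain ⟨u, -, hu⟩ := exists_unif z
  obtain ⟨E, -, hE, hE'⟩ := An4.exists_exp z hu
  obtain ⟨τ, a1⟩ := (hE t).1 ht
  obtain ⟨Θ', a2⟩ := (hE y).1 hy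
  have b1 := hE.vl_eq a1
  have b2 := hE.vl_eq a2
  obtain ⟨ψ, hψ⟩ : ∃ ψ, ψ = τ - PowerSeries.C (vl z t) := ⟨_, rfl⟩
  have c0 : PowerSeries.constantCoeff ψ = 0 := by simp [hψ, b1]
  have c1 : ψ ≠ 0 := fun e => nc (vl z t) (E.injective (by
    change E t = E _
    rw [a1, sub_eq_zero.1 (hψ.symm.trans e)]
    exact (E.commutes _).symm))
  have hs := PowerSeries.HasSubst.of_constantCoeff_zero' c0
  have d1 : ∀ H, (eb φ (vl z t) Θ H).subst ψ =
      e2 ((PowerSeries.C (R := k)).comp φ) τ (Θ.subst ψ) H := fun H => by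
    rw [← PowerSeries.coe_substAlgHom hs, eb]
    refine (e2_map (PowerSeries.substAlgHom hs : k⟦X⟧ →ₐ[k] k⟦X⟧).toRingHom _ _ _ H).trans ?_
    congr 2
    · exact RingHom.ext fun a => (PowerSeries.substAlgHom hs).commutes (φ a)
    · change PowerSeries.substAlgHom hs _ = _
      rw [map_add, PowerSeries.substAlgHom_X]
      exact (congrArg _ ((PowerSeries.substAlgHom hs).commutes _)).trans
        (eq_sub_iff_add_eq.1 hψ)
  have d2 : Θ' = Θ.subst ψ := by
    refine root_unique ((PowerSeries.C (R := k)).comp φ) (G := G) (t := τ) (am_inj ?_) ?_ ?_ ?_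
    · rw [← exp_e2 φ E a1 a2, hG, map_zero, map_zero]
    · rw [← d1, h3, ← PowerSeries.coe_substAlgHom hs, map_zero]
    · rw [PowerSeries.isUnit_iff_constantCoeff, map_sub, An4.constantCoeff_subst' c0, h2, b2,
        sub_self]
      exact not_isUnit_zero
    · rw [PowerSeries.isUnit_iff_constantCoeff, cc_e2, ← b1, ← b2]
      exact h1.isUnit
  have d3 : ∀ H, E (e2 ((algebraMap k F).comp φ) t y H) = sub ψ (am k (eb φ (vl z t) Θ H)) :=
    fun H => by rw [exp_e2 φ E a1 a2, sub_am c0 c1, d1, d2]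
  refine ⟨(am k ψ).order, order_am_pos c1 c0, fun H => ?_, fun H₁ H₂ => ?_⟩
  · rw [← map_eq_zero_iff E E.injective, d3, map_eq_zero, map_eq_zero_iff _ am_inj]
  · rw [← hE', map_div₀, d3, d3, ← map_div₀, order_sub c0 c1]

/-- a smooth point of a plane model determines the place -/
theorem plc_unique {G : R[X][X]} (hm : G.Monic) (nc : ∀ a, t ≠ algebraMap k F a)
    (hG : e2 ((algebraMap k F).comp φ) t y G = 0)
    (gen : ∀ x, ∃ H₁ H₂, x = e2 ((algebraMap k F).comp φ) t y H₁ /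
      e2 ((algebraMap k F).comp φ) t y H₂) {z' : Plk k F} (ht : t ∈ z.1) (hy : y ∈ z.1)
    (ht' : t ∈ z'.1) (hy' : y ∈ z'.1) (e1 : vl z t = vl z' t) (e2' : vl z y = vl z' y)
    (h1 : e2 φ (vl z t) (vl z y) (derivative G) ≠ 0) : z = z' := by
  obtain ⟨Θ, a1, a2⟩ := hensel_ps φ hm (t₀ := vl z t) (y₀ := vl z y) (by
    rw [← (vl_e2 φ ht hy G).2, hG]
    simpa using vl_const z 0) h1.isUnit
  obtain ⟨e, b1, -, b2⟩ := exp_at φ nc hG ht hy h1 a1 a2
  obtain ⟨e', c1, -, c2⟩ := exp_at φ nc hG ht' hy' (e1 ▸ e2' ▸ h1) (e2' ▸ a1) (e1 ▸ a2)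
  refine Subtype.ext (SetLike.ext fun x => ?_)
  obtain ⟨H₁, H₂, rfl⟩ := gen x
  rw [mem_iff_ord', mem_iff_ord', b2, c2, mul_nonneg_iff_of_pos_left b1,
    mul_nonneg_iff_of_pos_left c1, e1]

end smooth

section disc

variable {C K : Type} [NontriviallyNormedField C] [IsUltrametricDist C]

theorem cred_eq_iff {x y : C} (hx : ‖x‖ ≤ 1) (hy : ‖y‖ ≤ 1) : cred x = cred y ↔ ‖x - y‖ < 1 := by
  have h : ‖x - y‖ ≤ 1 := (OC C).sub_mem hx hy
  rw [cred_of hx, cred_of hy, ← sub_eq_zero, ← map_sub, ← cred_eq_zero h, cred_of h]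
  rfl

theorem res_eq (x : OC C) : IsLocalRing.residue (OC C) x = cred (x : C) := (cred_of x.2).symm

theorem norm_multiset_prod_lt {s : Multiset C} (h : ‖s.prod‖ < 1) : ∃ x ∈ s, ‖x‖ < 1 := by
  induction s using Multiset.induction_on with
  | empty => simp at h
  | cons a s ih =>
    by_cases ha : ‖a‖ < 1
    · exact ⟨a, Multiset.mem_cons_self _ _, ha⟩
    · rw [Multiset.prod_cons, norm_mul] at h
      obtain ⟨x, h1, h2⟩ := ih ((le_mul_of_one_le_left (norm_nonneg _) (not_lt.1 ha)).trans_lt h)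
      exact ⟨x, Multiset.mem_cons_of_mem h1, h2⟩

variable [IsAlgClosed C]

/-- roots of the reduction lift -/
theorem root_lift {p : (OC C)[X]} (hp : p.Monic) {a : kC C}
    (h : p.eval₂ (IsLocalRing.residue (OC C)) a = 0) :
    ∃ r : OC C, p.eval r = 0 ∧ IsLocalRing.residue (OC C) r = a := by
  obtain ⟨b, rfl⟩ := IsLocalRing.residue_surjective a
  rw [eval₂_hom, res_eq, cred_eq_zero (p.eval b).2] at h
  have h1 := (IsAlgClosed.splits (p.map (OC C).subtype)).eval_eq_prod_roots_of_monic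
    (hp.map _) (b : C)
  have h2 : ((p.eval b : OC C) : C) = (p.map (OC C).subtype).eval (b : C) :=
    (eval_map_apply (OC C).subtype b).symm
  rw [h2, h1] at h
  obtain ⟨_, h3, h4⟩ := norm_multiset_prod_lt h
  obtain ⟨r, hr, rfl⟩ := Multiset.mem_map.1 h3
  have h5 : ‖r‖ ≤ 1 := by
    have := (OC C).sub_mem b.2 (show (b : C) - r ∈ OC C from h4.le)
    rwa [sub_sub_cancel] at this
  refine ⟨⟨r, h5⟩, (OC C).subtype_injective ?_, ?_⟩
  · rw [← eval_map_apply, map_zero]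
    exact (mem_roots (hp.map _).ne_zero).1 hr
  · rw [res_eq, res_eq]
    exact ((cred_eq_iff b.2 h5).2 h4).symm

variable [CompleteSpace C] [Field K] [Algebra C K] [CFF C K] {ε : K →ₐ[C] C⸨X⸩}
  {j : C → Plk C K}

/-- values of a function which is holomorphic on the disc -/
theorem _root_.Vale.Agent.P022K.FI.Dsc.vl_eq (h : Dsc ε j) {y : K} {g : C⟦X⟧} (hg : Ig g)
    (e : ε y = am C g) {a : C} (ha : ‖a‖ < 1) : y ∈ (j a).1 ∧ vl (j a) y = ev a g := by
  have h1 : y - algebraMap C K (ev a g) ∈ Mge (j a) 1 := by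
    by_cases h0 : y - algebraMap C K (ev a g) = 0
    · exact Or.inl h0
    obtain ⟨c, D, a1, a2⟩ := h.fac _ h0
    rw [map_sub, e, ε.commutes, ← am_C, ← map_sub] at a1
    have h2 := ig_C (hg.norm_ev_le ha)
    have := (a1.pos_iff (hg.sub h2) ha).2 (by rw [hg.ev_sub h2 ha, ev_C]; simp)
    exact Or.inr (by rw [a2 a ha]; omega)
  exact ⟨mem_of_ord (ord_nonneg_of_sub h1), P025H492.vl_eq h1⟩

/-- a disc from factorisations and a coordinate -/
theorem dsc_of_fac (h : ∀ y, y ≠ 0 → ∃ c D, Fac (ε y) c D) {s : K} {s₀ : C} (h0 : ‖s₀‖ ≤ 1)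
    (hs : ε s = am C (PowerSeries.X + PowerSeries.C s₀)) : ∃ j, Dsc ε j := by
  haveI := nonempty_Plk C K
  have h1 : ∀ a : C, ‖a‖ < 1 → ∃ P : Plk C K, ∀ y c D, Fac (ε y) c D → ord P y = D a := by
    intro a ha
    obtain ⟨r, a1, a2, a3, -⟩ := exists_r ha ha
    have hj : ∀ y, ε y ∈ MM C r := fun y => by
      by_cases e : y = 0
      · rw [e, map_zero]; exact zero_mem _
      · obtain ⟨c, D, b⟩ := h y e
        exact b.mem a1 a2
    obtain ⟨P, hP⟩ := exists_ptD a1 a3 hj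
    refine ⟨P, fun y c D b => ?_⟩
    rw [hP.ord_eq a1 a3 hj (s := s - algebraMap C K (s₀ + a)) ?_ y, b.od a1 a2 a3]
    rw [map_sub, hs, ε.commutes, ← am_C, ← map_sub, map_add, add_comm, add_sub_add_left_eq_sub,
      od_lin a1 a3, if_pos rfl]
  choose! j hj using h1
  refine ⟨j, fun y e => (h y e).imp fun c => Exists.imp fun D b => ⟨b, fun a ha => hj a ha y c D b⟩,
    fun a ha b hb e => ?_⟩
  have h2 : Fac (ε (s - algebraMap C K (s₀ + a))) 1 (Finsupp.single a 1) := by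
    rw [map_sub, hs, ε.commutes, ← am_C, ← map_sub, map_add, add_comm, add_sub_add_left_eq_sub]
    exact fac_lin ha
  have h3 := hj a ha _ _ _ h2
  rw [e, hj b hb _ _ _ h2, Finsupp.single_eq_same] at h3
  by_contra n
  rw [Finsupp.single_eq_of_ne' n] at h3
  exact zero_ne_one h3

end disc

end Vale.Agent.P022K.FI.Ge
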