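import Vale.Agent.P027M.G.Brid
import Vale.Agent.P027M.G.Sp

/-!
# P022K FI, row GOOD: a residue field of full genus gives good reduction

`C` is spherically complete with surjective norm.  For an absolute value `w` on a function field
`K` whose residue field is a function field, `gen (kap w) ≤ gen K` (`gen_red_le`), and equality
gives good reduction (`good_div`, `good_of_div`, `good`).
-/

set_option linter.unusedSectionVars false
set_option linter.style.haveILetI false

noncomputable section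

namespace Vale.Agent.P022K.FI

open Polynomial IntermediateField Module P025H373 P025H746 P025H458 Vale.Agent.P019P
open Vale.Agent.P027M

section cff

variable {k F : Type*} [Field k] [Field F] [Algebra k F] [CFF k F]

theorem mem_LL_of_pol {x : F} {D : Plk k F →₀ ℤ} (h : pol k x ≤ D) : x ∈ LL k D :=
  mem_LL.2 (Or.inr fun P => by
    have := h P
    rw [pol_apply] at this
    omega)

theorem pol_le_of_mem {x : F} {D : Plk k F →₀ ℤ} (h0 : 0 ≤ D) (h : x ∈ LL k D) : pol k x ≤ D := by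
  intro P
  have h1 : (0 : ℤ) ≤ D P := h0 P
  rw [pol_apply]
  rcases mem_LL.1 h with rfl | h
  · rw [ord_zero]; omega
  · have := h P
    omega

theorem pol_const (a : k) : pol k (algebraMap k F a) = 0 := by
  ext P
  rw [pol_apply, ord_const]
  rfl

/-- a generic linear combination has all the poles -/
theorem exists_pol_sup (f y : F) : ∃ c : k, pol k f ⊔ pol k y ≤ pol k (f + c • y) := by
  haveI : IsAlgClosed k := CFF.ac (k := k) (F := F)
  have h1 : ∀ P : Plk k F, {c : k | pol k (f + c • y) P < (pol k f ⊔ pol k y) P}.Subsingleton := by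
    intro P c hc c' hc'
    by_contra hne
    simp only [Set.mem_ofPred_eq, Finsupp.sup_apply, pol_apply] at hc hc'
    set m := max 0 (-ord P f) ⊔ max 0 (-ord P y) with hm
    have e1 : f + c • y ∈ Mge P (-m + 1) := Or.inr (by omega)
    have e2 : f + c' • y ∈ Mge P (-m + 1) := Or.inr (by omega)
    have e3 : y ∈ Mge P (-m + 1) := by
      have := (Mge P (-m + 1)).smul_mem (c - c')⁻¹ (sub_mem e1 e2)
      rwa [add_sub_add_left_eq_sub, ← sub_smul, inv_smul_smul₀ (sub_ne_zero.2 hne)] at this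
    have e4 : f ∈ Mge P (-m + 1) := by
      have := sub_mem e1 ((Mge P (-m + 1)).smul_mem c e3)
      rwa [add_sub_cancel_right] at this
    have e5 : ∀ z : F, z ∈ Mge P (-m + 1) → max 0 (-ord P z) < m := by
      rintro z (rfl | h)
      · rw [ord_zero]; omega
      · omega
    have := e5 _ e3
    have := e5 _ e4
    omega
  obtain ⟨c, hc⟩ := ((pol k f ⊔ pol k y).support.finite_toSet.biUnion
    fun P _ => (h1 P).finite).exists_notMem
  refine ⟨c, fun P => not_lt.1 fun h => hc (Set.mem_biUnion ?_ h)⟩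
  exact Finsupp.mem_support_iff.2 ((pol_nonneg _ P).trans_lt h).ne'

/-- a space of functions of bounded degree has a member with all the poles -/
theorem exists_top (V : Submodule k F) {n : ℤ} (h : ∀ y ∈ V, dg (pol k y) ≤ n) :
    ∃ f ∈ V, V ≤ LL k (pol k f) := by
  obtain ⟨_, ⟨f, hf, rfl⟩, hmax⟩ := Int.exists_greatest_of_bdd
    (P := fun m => ∃ f ∈ V, dg (pol k f) = m) ⟨n, by rintro _ ⟨y, hy, rfl⟩; exact h y hy⟩
    ⟨_, 0, V.zero_mem, rfl⟩
  refine ⟨f, hf, fun y hy => mem_LL_of_pol ?_⟩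
  obtain ⟨c, hc⟩ := exists_pol_sup (k := k) f y
  have h1 := (dg_mono hc).trans (hmax _ ⟨_, V.add_mem hf (V.smul_mem c hy), rfl⟩)
  rw [eq_of_le_of_dg_le le_sup_left h1]
  exact le_sup_right

theorem l_le {D : Plk k F →₀ ℤ} (h : 0 ≤ D) : (finrank k (LL k D) : ℤ) ≤ dg D + 1 := by
  have := l_sub_le h
  rw [l_zero, map_zero] at this
  omega

end cff

/-- extensions of degree prime to the characteristic are separable -/
theorem sep_of_finrank {k E F : Type*} [Field k] [Field E] [Field F] [Algebra k E] [Algebra E F]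
    [FiniteDimensional E F] (h : ((finrank E F : ℕ) : k) ≠ 0) : Algebra.IsSeparable E F := by
  refine ⟨fun x => ?_⟩
  have hi := Algebra.IsIntegral.isIntegral (R := E) x
  refine (separable_iff_derivative_ne_zero (minpoly.irreducible hi)).2 fun e => h ?_
  obtain ⟨d, hd⟩ := minpoly.degree_dvd hi
  have h1 := congrArg (coeff · ((minpoly E x).natDegree - 1)) e
  have h2 := minpoly.natDegree_pos hi
  simp only [coeff_derivative, coeff_zero] at h1
  rw [Nat.sub_add_cancel h2, coeff_natDegree, (minpoly.monic hi).leadingCoeff, one_mul,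
    ← Nat.cast_succ, Nat.succ_eq_add_one, Nat.sub_add_cancel h2] at h1
  apply (algebraMap k E).injective
  rw [map_natCast, hd, Nat.cast_mul, h1, zero_mul, map_zero]

variable {C K : Type} [NontriviallyNormedField C] [IsUltrametricDist C] [IsAlgClosed C]
  [Field K] [Algebra C K] [CFF C K] (w : NV C K) [CFF (kC C) (kap w)]

variable {w} in
/-- the degree does not go up in the reduction -/
theorem dg_red_le {x : K} (hx : w x ≤ 1) : dg (pol (kC C) (w.red x)) ≤ dg (pol C x) := by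
  by_cases h : ∃ a, w.red x = algebraMap (kC C) (kap w) a
  · obtain ⟨a, ha⟩ := h
    rw [ha, pol_const, map_zero]
    exact (map_zero dg).ge.trans (dg_mono (pol_nonneg x))
  · push Not at h
    have h1 := G.overG_of_transc hx (finite_of_notMem h).1
    have h2 : ∀ a, x ≠ algebraMap C K a := fun a e => h1.transc (e ▸ isAlgebraic_algebraMap a)
    haveI := (finite_of_notMem h2).2
    have := sum_finrank_le (fun _ : Unit => w) (fun _ _ _ => rfl) fun _ => h1
    rw [dg_pol h, dg_pol h2]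
    simpa using this

/-- the reduction of a Riemann-Roch space -/
theorem exists_red (hC : Sph C) (hn : ∀ r : ℝ, 0 ≤ r → ∃ x : C, ‖x‖ = r) {D : Plk C K →₀ ℤ}
    (hD : 0 ≤ D) : ∃ T ∈ LL C D, w T ≤ 1 ∧ Gs.redS w (LL C D) ≤ LL (kC C) (pol (kC C) (w.red T)) ∧
      finrank C (LL C D) ≤ finrank (kC C) (Gs.redS w (LL C D)) := by
  obtain ⟨_, ⟨T, h1, h2, rfl⟩, h3⟩ := exists_top (Gs.redS w (LL C D)) (n := dg D) (by
    rintro _ ⟨x, h1, h2, rfl⟩
    exact (dg_red_le h2).trans (dg_mono (pol_le_of_mem hD h1)))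
  haveI := Submodule.finiteDimensional_of_le h3
  refine ⟨T, h1, h2, h3, ?_⟩
  simpa using P025H992.finrank_le_sum hC hn (fun _ : Unit => w) (LL C D)
    (fun _ => Gs.redS w (LL C D)) fun x hx h _ => ⟨x, hx, h (), rfl⟩

theorem red_large (hC : Sph C) (hn : ∀ r : ℝ, 0 ≤ r → ∃ x : C, ‖x‖ = r) :
    ∃ n₀ : ℕ, ∀ D : Plk C K →₀ ℤ, 0 ≤ D → (n₀ : ℤ) ≤ dg D → ∃ T ∈ LL C D, w.OverG T ∧
      Gs.redS w (LL C D) ≤ LL (kC C) (pol (kC C) (w.red T)) ∧
      dg D + 1 - gen C K ≤ finrank (kC C) (Gs.redS w (LL C D)) ∧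
      (finrank (kC C) (LL (kC C) (pol (kC C) (w.red T))) : ℤ) =
        dg (pol (kC C) (w.red T)) + 1 - gen (kC C) (kap w) := by
  refine ⟨(dg (can C K)).toNat + (dg (can (kC C) (kap w))).toNat + gen C K + 1, fun D hD h => ?_⟩
  obtain ⟨T, h1, h2, h3, h4⟩ := exists_red w hC hn hD
  have h5 := RR_large (D := D) (by omega)
  have h6 := Submodule.finrank_mono h3
  have h7 := l_le (pol_nonneg (k := kC C) (w.red T))
  refine ⟨T, h1, G.overG_of_transc h2 (finite_of_notMem fun a e => ?_).1, h3, by omega,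
    RR_large (by omega)⟩
  rw [e, pol_const, map_zero] at h7
  rw [e, pol_const] at h6
  omega

/-- **the genus does not go up in the reduction** -/
theorem gen_red_le (hC : Sph C) (hn : ∀ r : ℝ, 0 ≤ r → ∃ x : C, ‖x‖ = r) :
    gen (kC C) (kap w) ≤ gen C K := by
  obtain ⟨n, h⟩ := red_large w hC hn
  obtain ⟨P⟩ := nonempty_Plk C K
  have h0 : 0 ≤ Finsupp.single P (n : ℤ) := Finsupp.single_nonneg.2 (Int.natCast_nonneg n)
  obtain ⟨T, h1, h2, h3, h4, h5⟩ := h _ h0 (dg_sgl P _).ge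
  have h6 := Submodule.finrank_mono h3
  have h7 := (dg_red_le h2.apply_T.le).trans (dg_mono (pol_le_of_mem h0 h1))
  omega

/-- **Riemann-Roch spaces of large degree reduce onto Riemann-Roch spaces** -/
theorem good_div (hC : Sph C) (hn : ∀ r : ℝ, 0 ≤ r → ∃ x : C, ‖x‖ = r)
    (h : gen C K ≤ gen (kC C) (kap w)) : ∃ n₀ : ℕ, ∀ D : Plk C K →₀ ℤ, 0 ≤ D → (n₀ : ℤ) ≤ dg D →
      ∃ T, pol C T = D ∧ w.OverG T ∧ dg (pol (kC C) (w.red T)) = dg D ∧
        finrank (kC C)⟮w.red T⟯ (kap w) = finrank C⟮T⟯ K ∧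
        Gs.redS w (LL C D) = LL (kC C) (pol (kC C) (w.red T)) := by
  obtain ⟨n, H⟩ := red_large w hC hn
  refine ⟨n, fun D hD hn => ?_⟩
  obtain ⟨T, h1, h2, h3, h4, h5⟩ := H D hD hn
  have h6 := Submodule.finrank_mono h3
  have h7 := dg_red_le h2.apply_T.le
  have h8 := dg_mono (pol_le_of_mem hD h1)
  have h9 := dg_pol (x := T) fun a e => h2.transc (e ▸ isAlgebraic_algebraMap a)
  have h10 := dg_pol h2.red_ne
  exact ⟨T, eq_of_le_of_dg_le (pol_le_of_mem hD h1) (by omega), h2, by omega, by omega,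
    Submodule.eq_of_le_of_finrank_le h3 (by omega)⟩

/-- **good reduction, with any divisor of poles of large degree prime to the characteristic** -/
theorem good_of_div (hC : Sph C) (hn : ∀ r : ℝ, 0 ≤ r → ∃ x : C, ‖x‖ = r)
    (h : gen C K ≤ gen (kC C) (kap w)) : ∃ n₀ : ℕ, ∀ D : Plk C K →₀ ℤ, 0 ≤ D → (n₀ : ℤ) ≤ dg D →
      ((dg D : ℤ) : kC C) ≠ 0 → ∃ T, pol C T = D ∧ G.Good w T := by
  obtain ⟨n, H⟩ := good_div w hC hn h
  refine ⟨n, fun D hD hn h0 => ?_⟩
  obtain ⟨T, h1, h2, h3, h4, -⟩ := H D hD hn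
  haveI := (finite_of_notMem h2.red_ne).2
  refine ⟨T, h1, h2, h4, sep_of_finrank (k := kC C) ?_, h⟩
  rwa [← h3, dg_pol h2.red_ne, Int.cast_natCast] at h0

/-- **good reduction** -/
theorem good (hC : Sph C) (hn : ∀ r : ℝ, 0 ≤ r → ∃ x : C, ‖x‖ = r)
    (h : gen C K ≤ gen (kC C) (kap w)) : ∃ T, G.Good w T := by
  obtain ⟨n, H⟩ := good_of_div w hC hn h
  obtain ⟨P⟩ := nonempty_Plk C K
  obtain ⟨m, hm, h0⟩ : ∃ m : ℕ, n ≤ m ∧ (m : kC C) ≠ 0 := by
    by_cases h0 : (n : kC C) = 0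
    · exact ⟨n + 1, n.le_succ, by rw [Nat.cast_succ, h0, zero_add]; exact one_ne_zero⟩
    · exact ⟨n, le_rfl, h0⟩
  obtain ⟨T, -, hT⟩ := H (Finsupp.single P (m : ℤ)) (Finsupp.single_nonneg.2 (Int.natCast_nonneg m))
    (by rw [dg_sgl]; exact_mod_cast hm) (by rwa [dg_sgl, Int.cast_natCast])
  exact ⟨T, hT⟩

end Vale.Agent.P022K.FI
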