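import Vale.Agent.P022K.FI.Pt
import Vale.Agent.P022K.FI.Defs
import Vale.Agent.P022K.FI.Fld
import Vale.Agent.P027M.G.Key

/-!
# P022K, block FI: the complex numbers with a `p`-adic norm, reduction data of a tower
-/

set_option autoImplicit false
set_option linter.unusedSectionVars false

open UpperHalfPlane
open scoped MatrixGroups

noncomputable section

namespace Vale.Agent.P022K.FI.Hk

open Vale.Agent.P022K.Sh Vale.Agent.P022.H218.L3 Vale.Agent.P019P P025H816 P025H746 P027M.K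
  Vale.Agent.P027M

section Cx

variable {p : ℕ} [Fact p.Prime]

/-- the complex numbers with the norm of `ι` -/
def Cx (_ : ℂ ≃+* CS p) : Type := ℂ

variable (ι : ℂ ≃+* CS p)

instance : NontriviallyNormedField (Cx ι) where
  toField := (inferInstance : Field ℂ)
  norm x := ‖ι x‖
  toMetricSpace := MetricSpace.induced (fun x : ℂ => ι x) ι.injective inferInstance
  dist_eq := fun x y : ℂ => show dist (ι x) (ι y) = ‖ι (-x + y)‖ by
    rw [map_add, map_neg, dist_eq_norm_neg_add]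
  norm_mul := fun x y : ℂ => show ‖ι (x * y)‖ = ‖ι x‖ * ‖ι y‖ by rw [map_mul, norm_mul]
  non_trivial := by
    obtain ⟨x, hx⟩ := NontriviallyNormedField.non_trivial (α := CS p)
    exact ⟨ι.symm x, by rwa [ι.apply_symm_apply]⟩

namespace Cx

/-- the identity -/
def of : ℂ ≃+* Cx ι := RingEquiv.refl ℂ

/-- the isometry -/
def iso : Cx ι ≃+* CS p := ι

theorem norm_iso (x : Cx ι) : ‖iso ι x‖ = ‖x‖ := rfl

theorem norm_of (x : ℂ) : ‖of ι x‖ = ‖ι x‖ := rfl

theorem norm_symm (x : CS p) : ‖(iso ι).symm x‖ = ‖x‖ := by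
  rw [← norm_iso, RingEquiv.apply_symm_apply]

theorem isometry : Isometry (iso ι) := fun _ _ => rfl

instance : IsUltrametricDist (Cx ι) :=
  ⟨fun x y z => IsUltrametricDist.dist_triangle_max (iso ι x) (iso ι y) (iso ι z)⟩

instance : CompleteSpace (Cx ι) :=
  (IsometryEquiv.mk (iso ι).toEquiv (isometry ι)).completeSpace

instance : IsAlgClosed (Cx ι) := (inferInstance : IsAlgClosed ℂ)

instance : CharZero (Cx ι) := (inferInstance : CharZero ℂ)

theorem sph : P025H458.Sph (Cx ι) := fun S hS => by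
  obtain ⟨x, hx⟩ := CS.sph p ((fun a : Cx ι × ℝ => (iso ι a.1, a.2)) '' S) (by
    rintro _ ⟨a, ha, rfl⟩ _ ⟨b, hb, rfl⟩ h
    rw [← map_sub]
    exact hS a ha b hb h)
  refine ⟨(iso ι).symm x, fun a ha => ?_⟩
  rw [← norm_iso, map_sub, RingEquiv.apply_symm_apply]
  exact hx _ ⟨a, ha, rfl⟩

theorem exists_norm_eq (r : ℝ) (hr : 0 ≤ r) : ∃ x : Cx ι, ‖x‖ = r := by
  obtain ⟨x, hx⟩ := CS.exists_norm_eq p r hr
  exact ⟨(iso ι).symm x, (norm_symm ι x).trans hx⟩

theorem norm_p : ‖(p : Cx ι)‖ = (p : ℝ)⁻¹ := by rw [← norm_iso, map_natCast, CS.norm_p]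

theorem norm_p_lt : ‖(p : Cx ι)‖ < 1 := by
  rw [← norm_iso, map_natCast]
  exact CS.norm_p_lt p

instance : CharP (kC (Cx ι)) p := charP_kC p (norm_p_lt ι)

theorem tor (z : Cx ι) : Tor z := fun h => by
  obtain ⟨n, h1, h2⟩ := CS.tor p (iso ι z) h
  exact ⟨n, h1, by rwa [← norm_iso, map_sub, map_pow, map_one]⟩

theorem res_tor (a : kC (Cx ι)) : a ≠ 0 → ∃ n > 0, a ^ n = 1 := tr_kC (tor ι) a

theorem gf : GF (Cx ι) := ⟨sph ι, exists_norm_eq ι, res_tor ι, ⟨(of ι).symm⟩⟩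

instance : Algebra (Cx ι) Mer := (inferInstance : Algebra ℂ Mer)

instance (E : IntermediateField ℂ Mer) : Algebra (Cx ι) E := (inferInstance : Algebra ℂ E)

instance (E : IntermediateField ℂ Mer) [h : CFF ℂ E] : CFF (Cx ι) E := h

theorem gen_eq (E : IntermediateField ℂ Mer) [CFF ℂ E] : gen (Cx ι) E = gen ℂ E := rfl

theorem coe_alg (E : IntermediateField ℂ Mer) (c : ℂ) :
    ((algebraMap (Cx ι) E (of ι c) : E) : Mer) = algebraMap ℂ Mer c := rfl

end Cx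

end Cx

variable {G0 G : Type} [Group G0] [Group G] (T : Tw G0 G)

/-- the field of one component of the full tower -/
def LW : IntermediateField ℂ Mer := ⨆ U : T.Lev, T.KF (T.Gam U 1)

/-- the function field of the component of `x` in level `U` -/
abbrev KX (U : Subgroup G) (x : G) : IntermediateField ℂ Mer := T.KF (T.Gam U x)

variable {T} in
theorem KX_le (hT : T.Ok) {U : Subgroup G} (hU : U ∈ T.Lev) (x : G) : KX T U x ≤ LW T := by
  refine le_trans (le_of_eq ?_) (le_iSup (fun U : T.Lev => T.KF (T.Gam U 1)) ⟨_, hT.conj U hU x⟩)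
  refine congrArg T.KF (Subgroup.ext fun γ => ?_)
  simp only [Tw.mem_Gam, mem_cj, inv_one, one_mul, mul_one]

variable {T} in
theorem RU_mem {U : Subgroup G} {φ : G → Mer} (h : φ ∈ T.RU U) (x : G) : φ x ∈ KX T U x :=
  T.mem_KF.2 fun γ hγ => by
    rw [← h.1, ← h.2 x _ (T.mem_Gam.1 hγ)]
    congr 1
    group

variable {O K : Type} [CommRing O] [IsDomain O] [IsDiscreteValuationRing O] [Field K] [Algebra O K]

variable {T} (w : T.Lc O K) {p : ℕ} [Fact p.Prime]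

variable (p) in
/-- the embeddings at the place `w` -/
structure Emb where
  ι : ℂ ≃+* CS p
  e : K →+* ℂ
  int : ∀ c, ‖ι (e c)‖ ≤ 1 ↔ ig O c
  cmp : Cmp w e

section

variable {ι : ℂ ≃+* CS p}

/-- `P` is the place of the point `τ` -/
def AtP {E : IntermediateField ℂ Mer} [CFF ℂ E] (τ : ℍ) (P : Plk (Cx ι) E) : Prop :=
  ∀ (f : E) (c : ℂ), Val P f (Cx.of ι c) ↔ MVal τ f c

/-- good reduction -/
def Gv {E : IntermediateField ℂ Mer} [CFF ℂ E] (η : NV (Cx ι) E) : Prop := ∃ S, P027M.G.Good η S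

/-- `η` is the restriction of `v` -/
def Res {E E' : IntermediateField ℂ Mer} (v : NV (Cx ι) E') (η : NV (Cx ι) E) : Prop :=
  ∀ (f : E) (g : E'), (f : Mer) = g → η f = v g

/-- `R` is the reduction of the point `τ` -/
def Rd {E : IntermediateField ℂ Mer} [CFF ℂ E] (η : NV (Cx ι) E) [CFF (kC (Cx ι)) (kap η)]
    (τ : ℍ) (R : Plk (kC (Cx ι)) (kap η)) : Prop :=
  ∃ s P, P027M.Gs.IsSp η s ∧ AtP τ P ∧ s P = R

end

variable {w} (D : Emb w p) (U : Subgroup G) [∀ x, CFF ℂ (KX T U x)]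

/-- the valuation `v` of the full tower at the ordinary point `(τ, x)` -/
structure Loc (v : NV (Cx D.ι) (LW T)) (τ : ℍ) (x : G) : Prop where
  good : ∃ η : NV (Cx D.ι) (KX T U x), Gv η ∧ Res v η
  ine : ∀ U' ∈ T.Lev, ∀ φ ∈ T.RU U', ∀ (b : O) (f g : LW T), (f : Mer) = φ x →
    (g : Mer) = φ (x * w.ι (un (algebraMap O K b))) → v f ≤ 1 → v (g - f) < 1
  pw1 : ∀ f : LW T, (f : Mer) ∈ KX T U (x * w.ι (tt w)) → v f ≤ 1 →
    ∃ g : LW T, (g : Mer) ∈ KX T U x ∧ v (f - g ^ qq O) < 1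
  pw2 : ∀ g : LW T, (g : Mer) ∈ KX T U x → v g ≤ 1 →
    ∃ f : LW T, (f : Mer) ∈ KX T U (x * w.ι (tt w)) ∧ v (f - g ^ qq O) < 1
  cmp : ∀ (η : NV (Cx D.ι) (KX T U x)) (η' : NV (Cx D.ι) (KX T U (x * w.ι (tt w))))
    [CFF (kC (Cx D.ι)) (kap η)] [CFF (kC (Cx D.ι)) (kap η')], Gv η → Gv η' → Res v η → Res v η' →
    ∀ R R', Rd η τ R → Rd η' τ R' → ∀ (g : KX T U x) (f : KX T U (x * w.ι (tt w))) (h : LW T),
      η g ≤ 1 → η' f ≤ 1 → (h : Mer) = f - g → v h < 1 → (η'.red f ∈ R'.1 ↔ η.red g ∈ R.1)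

/-- **the reduction data of level `U`** -/
structure RD : Prop where
  loc : ∀ τ x₀, Ord w D.e τ x₀ → ∃ v, ∀ x, Ord w D.e τ x → Loc D U v τ x
  inj : ∀ (x : G) (η : NV (Cx D.ι) (KX T U x)) [CFF (kC (Cx D.ι)) (kap η)], Gv η →
    ∀ (y y' : OP w D.e U) τ τ' R, y.1 = pm T U τ x → y'.1 = pm T U τ' x → Rd η τ R → Rd η τ' R →
      y = y'
  inf : ∀ x, {y : OP w D.e U | PU.cp T y.1 = cm T U x}.Infinite

end Vale.Agent.P022K.FI.Hk
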