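import Vale.Agent.P022K.FI.Hk1
import Vale.Agent.P022K.F0.Galh

/-!
# P022K, block FI: the Frobenius correspondence on the reduced curves
-/

set_option autoImplicit false
set_option linter.unusedSectionVars false
set_option linter.style.haveILetI false

open UpperHalfPlane
open scoped MatrixGroups

noncomputable section

namespace Vale.Agent.P022K.FI.Hk

open Vale.Agent.P022K.Sh Vale.Agent.P022.H218.L3 Vale.Agent.P019P P025H816 P025H746 P027M.K
  Vale.Agent.P027M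

variable {G0 G : Type} [Group G0] [Group G] {T : Tw G0 G} {U : Subgroup G}
  {O K : Type} [CommRing O] [IsDomain O] [IsDiscreteValuationRing O] [Field K] [Algebra O K]
  {w : T.Lc O K} {p : ℕ} [Fact p.Prime]

/-! ## the local group -/

variable (w) in
/-- the forward step -/
abbrev st : G := w.ι (tt w)

theorem tr_none : w.tr none = tt w * gK K (sO (O := O)) := by
  ext i j
  fin_cases i <;> fin_cases j <;>
    simp [Tw.Lc.tr, pO, sO, tt, d2_val, Sh.dg_val, Matrix.mul_apply, Fin.sum_univ_two]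

theorem tr_some (b : IsLocalRing.ResidueField O) :
    w.tr (some b) = un (algebraMap O K b.out) * (tt w)⁻¹ * d2 w.ϖ w.ϖ := by
  rw [tt, d2_inv, mul_assoc, d2_mul]
  ext i j
  fin_cases i <;> fin_cases j <;>
    simp [Tw.Lc.tr, pO, nO, d2_val, un_val, Sh.dg_val, Matrix.mul_apply, Fin.sum_univ_two]

theorem det_un (c : K) : (un c).det = 1 := by
  ext
  simp [un_val, Matrix.det_fin_two]

theorem ord_back {e : K →+* ℂ} {τ : ℍ} {x : G} (o : Ord w e τ x) : Ord w e τ (x * (st w)⁻¹) :=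
  o.right (by rw [map_inv, w.πι, tt, d2_inv])

theorem pow_mem_val {M : Type} [Field M] (A : ValuationSubring M) {N : ℕ} (hN : N ≠ 0) (x : M) :
    x ^ N ∈ A ↔ x ∈ A := by
  rw [← A.valuation_le_one_iff, ← A.valuation_le_one_iff, map_pow, pow_le_one_iff hN]

theorem qq_ne (w : T.Lc O K) : qq O ≠ 0 :=
  haveI := w.fin
  Nat.card_pos.ne'

theorem Emb.qq_eq (D : Emb w p) : ∃ f, qq O = p ^ f := by
  haveI := w.fin
  haveI := Fintype.ofFinite (IsLocalRing.ResidueField O)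
  have h1 : (p : O) ∈ IsLocalRing.maximalIdeal O := by
    rintro ⟨u, hu⟩
    have h2 := (D.int _).2 ⟨(u⁻¹ : Oˣ), rfl⟩
    have h3 := congrArg (fun a => ‖D.ι (D.e (algebraMap O K a))‖) u.mul_inv
    simp only [map_mul, norm_mul, map_one, norm_one, hu, map_natCast] at h3
    exact (mul_lt_one_of_nonneg_of_lt_one_left (norm_nonneg _) (CS.norm_p_lt p) h2).ne h3
  haveI : CharP (IsLocalRing.ResidueField O) p := (CharP.charP_iff_prime_eq_zero Fact.out).2 (by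
    rw [← map_natCast (IsLocalRing.residue O)]
    exact (IsLocalRing.residue_eq_zero_iff _).2 h1)
  obtain ⟨n, -, h2⟩ := FiniteField.card (IsLocalRing.ResidueField O) p
  exact ⟨n, by rw [qq, Nat.card_eq_fintype_card, h2]⟩

theorem Emb.dvd (D : Emb w p) : p ∣ qq O := by
  obtain ⟨f, hf⟩ := D.qq_eq
  haveI := w.fin
  have : 1 < qq O := Finite.one_lt_card
  exact hf ▸ dvd_pow_self p (by rintro rfl; rw [pow_zero] at hf; omega)

instance {ι : ℂ ≃+* CS p} {L : Type} [Field L] [Algebra (Cx ι) L] (v : NV (Cx ι) L) :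
    CharP (kap v) p := charP_of_injective_algebraMap (algebraMap (kC (Cx ι)) (kap v)).injective p

section chr

variable (D : Emb w p) (M : Type) [Field M] [CharP M p]

include D p

theorem Emb.cast_qq : (qq O : M) = 0 := (CharP.cast_eq_zero_iff M p _).2 D.dvd

theorem Emb.ex_frob : ∃ F : M →+* M, ∀ z, F z = z ^ qq O := by
  obtain ⟨f, hf⟩ := D.qq_eq
  exact ⟨iterateFrobenius M p f, fun z => by rw [hf, iterateFrobenius_def]⟩

theorem Emb.pow_inj {a b : M} (e : a ^ qq O = b ^ qq O) : a = b := by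
  obtain ⟨F, hF⟩ := D.ex_frob M
  exact F.injective (by rw [hF, hF, e])

theorem Emb.cast_ne {n : ℕ} (hn : n.Coprime (qq O)) : (n : M) ≠ 0 :=
  fun e => (Fact.out : p.Prime).one_lt.ne'
    (Nat.eq_one_of_dvd_coprimes hn ((CharP.cast_eq_zero_iff M p _).1 e) D.dvd)

end chr

theorem cor_To (hU : U ∈ T.Lev) (mx : w.At (KK O K) U) : Cor U (w.To U) U := by
  haveI := w.fin
  haveI := Fintype.ofFinite (IsLocalRing.ResidueField O)
  refine ⟨?_, (mx.rep_To hU).right, (mx.rep_To hU).fin⟩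
  rintro u hu _ ⟨a, ha, b, hb, rfl⟩
  exact ⟨u * a, mul_mem hu ha, b, hb, by simp only [mul_assoc]⟩

theorem rel_sa (sa : w.SA) (hU : U ∈ T.Lev) (x : G) {g : GL (Fin 2) K} (hg : g.det = 1) :
    T.Rel U x (x * w.ι g) := sa U hU x g hg

theorem rel_mul (sa : w.SA) (hU : U ∈ T.Lev) (mx : w.At (KK O K) U) {x y : G} (r : T.Rel U x y)
    (g : GL (Fin 2) K) : T.Rel U (x * w.ι g) (y * w.ι g) := by
  obtain ⟨γ, u, hu, rfl⟩ := r
  obtain ⟨k, hk, z, hz, h1, rfl⟩ := mx.split hU hu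
  refine (rel_sa sa hU _ (g := g⁻¹ * k * g * k⁻¹) (by simp [mul_comm])).trans
    ⟨γ, w.ι k * z, hu, ?_⟩
  simp only [map_mul, map_inv, mul_assoc, inv_mul_cancel_left, mul_inv_cancel_left,
    (w.com g z h1).eq]

variable [∀ x, CFF ℂ (KX T U x)] {D : Emb w p}

namespace Ctx

variable (h : Ctx D U)

include h

theorem at_none {B : Type} {f : G → B} (hf : Inv U f) (x : G) :
    f (x * w.ι (w.tr none)) = f (x * st w) := by
  rw [tr_none, map_mul, ← mul_assoc, hf _ _ (h.mx.1 _ ⟨_, rfl⟩)]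

theorem at_some {B : Type} {f : G → B} (hf : Inv U f) (x : G) (b : IsLocalRing.ResidueField O) :
    f (x * w.ι (w.tr (some b))) = f (x * w.ι (un (algebraMap O K b.out)) * (st w)⁻¹) := by
  rw [tr_some, map_mul, ← mul_assoc,
    hf _ _ ((h.mx.iff h.lev).2 (Subgroup.mem_sup_right (mem_Zl.2 ⟨_, rfl⟩))), map_mul, map_inv,
    mul_assoc]

/-- the trace of the correspondence -/
def hkR (ψ : T.RU U) : T.RU U := ⟨hk (w.To U) U ψ.1, fun γ x => by
  simp only [hk_eq (cor_To h.lev h.mx), map_sum, mul_assoc, ψ.2.1], hk_inv (cor_To h.lev h.mx) ψ.2.2⟩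

/-- the norm of the correspondence -/
def hpR (ψ : T.RU U) : T.RU U := ⟨hp (w.To U) U ψ.1, fun γ x => by
  simp only [hp_eq (cor_To h.lev h.mx), Finset.prod_apply, rt, map_prod, mul_assoc, ψ.2.1],
  hp_inv (cor_To h.lev h.mx) ψ.2.2⟩

/-- the inclusion in the field of the full tower -/
def inc (x : G) : KX T U x →+* LW T := IntermediateField.inclusion (KX_le h.ok h.lev x)

/-- the value at `x` -/
def evL (x : G) : T.RU U →+* LW T := (h.inc x).comp (T.evK U x)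

/-- the reduction in the full tower -/
def rv (v : NV (Cx D.ι) (LW T)) (x : G) (φ : T.RU U) : kap v := v.red (h.evL x φ)

end Ctx

/-- `v` is adapted to all ordinary points over `τ` -/
def Vl (D : Emb w p) (U : Subgroup G) [∀ x, CFF ℂ (KX T U x)] (v : NV (Cx D.ι) (LW T)) (τ : ℍ) :
    Prop := ∀ x, Ord w D.e τ x → Loc D U v τ x

namespace Ctx

variable (h : Ctx D U) {v : NV (Cx D.ι) (LW T)} {τ : ℍ} {x : G}

theorem res' (l : Loc D U v τ x) : Res v (h.nm x) := by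
  obtain ⟨η, g, r⟩ := l.good
  exact h.nm_eq g ▸ r

theorem res (l : Loc D U v τ x) (f : KX T U x) : v (h.inc x f) = h.nm x f :=
  (h.res' l f _ rfl).symm

theorem v_evL (l : Loc D U v τ x) (φ : T.RU U) : v (h.evL x φ) = h.nv x φ := h.res l _

/-- the embedding of the reduced function field -/
def emb (l : Loc D U v τ x) : kap (h.nm x) →+* kap v := I.rm (h.inc x) (h.res l)

theorem emb_red' (l : Loc D U v τ x) (f : KX T U x) :
    h.emb l ((h.nm x).red f) = v.red (h.inc x f) := I.rm_red _ _ _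

theorem emb_red (l : Loc D U v τ x) (φ : T.RU U) : h.emb l (h.red x φ) = h.rv v x φ :=
  I.rm_red _ _ _

theorem emb_const (l : Loc D U v τ x) (a : kC (Cx D.ι)) :
    h.emb l (algebraMap _ _ a) = algebraMap _ _ a := by
  obtain ⟨c, hc, rfl⟩ := cred_surj a
  exact I.rm_const (s := RingEquiv.refl _) _ _ (fun _ => rfl) (fun _ => rfl) hc

variable (l : Vl D U v τ) (o : Ord w D.e τ x)

include l o

theorem terms {ψ : T.RU U} (hψ : ∀ y, h.nv y ψ ≤ 1) :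
    (∀ i, v (h.evL (x * w.ι (w.tr i)) ψ) ≤ 1) ∧ h.rv v (x * w.ι (w.tr none)) ψ = h.rv v (x * st w) ψ ∧
      ∀ b, h.rv v (x * w.ι (w.tr (some b))) ψ = h.rv v (x * (st w)⁻¹) ψ := by
  have e : h.evL (x * w.ι (w.tr none)) ψ = h.evL (x * st w) ψ := Subtype.ext (h.at_none ψ.2.2 x)
  have h1 : v (h.evL (x * (st w)⁻¹) ψ) ≤ 1 := (h.v_evL (l _ (ord_back o)) ψ).trans_le (hψ _)
  have h2 : ∀ b, v (h.evL (x * w.ι (w.tr (some b))) ψ - h.evL (x * (st w)⁻¹) ψ) < 1 := fun b =>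
    (l x o).ine _ (h.ok.conj U h.lev (st w)⁻¹) _ (Tw.RU_rt ψ.2 (st w)⁻¹) b.out _ _ rfl
      (h.at_some ψ.2.2 x b) h1
  have h3 : ∀ b, v (h.evL (x * w.ι (w.tr (some b))) ψ) ≤ 1 := fun b => by
    have := NV.add_le (h2 b).le h1
    rwa [sub_add_cancel] at this
  refine ⟨?_, by rw [rv, e, rv], fun b => (I.red_eq_iff (h3 b) h1).2 (h2 b)⟩
  rintro (_ | b)
  · rw [e]
    exact (h.v_evL (l _ o.step) ψ).trans_le (hψ _)
  · exact h3 b

theorem rv_hk {ψ : T.RU U} (hψ : ∀ y, h.nv y ψ ≤ 1) :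
    h.rv v x (h.hkR ψ) = h.rv v (x * st w) ψ := by
  haveI := w.fin
  haveI := Fintype.ofFinite (IsLocalRing.ResidueField O)
  obtain ⟨h1, h2, h3⟩ := h.terms l o hψ
  have e : h.evL x (h.hkR ψ) = ∑ i, h.evL (x * w.ι (w.tr i)) ψ := Subtype.ext (by
    rw [AddSubmonoidClass.coe_finsetSum]
    exact (h.mx.rep_To h.lev).hk ψ.2.2 x)
  rw [rv, e, NV.red_sum fun i _ => h1 i, Fintype.sum_option]
  change h.rv v _ ψ + ∑ b, h.rv v (x * w.ι (w.tr (some b))) ψ = _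
  simp only [h2, h3, Finset.sum_const, Finset.card_univ, nsmul_eq_mul]
  rw [← Nat.card_eq_fintype_card, ← qq, D.cast_qq, zero_mul, add_zero]

theorem rv_hp {ψ : T.RU U} (hψ : ∀ y, h.nv y ψ ≤ 1) : h.nv x (h.hpR ψ) ≤ 1 ∧
    h.rv v x (h.hpR ψ) = h.rv v (x * st w) ψ * h.rv v (x * (st w)⁻¹) ψ ^ qq O := by
  haveI := w.fin
  haveI := Fintype.ofFinite (IsLocalRing.ResidueField O)
  obtain ⟨h1, h2, h3⟩ := h.terms l o hψ
  have e : h.evL x (h.hpR ψ) = ∏ i, h.evL (x * w.ι (w.tr i)) ψ := Subtype.ext (by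
    rw [SubmonoidClass.coe_finsetProd]
    exact (h.mx.rep_To h.lev).hp ψ.2.2 x)
  obtain ⟨h4, h5⟩ := Gs.red_prod Finset.univ fun i _ => h1 i
  refine ⟨by rwa [← h.v_evL (l x o), e], ?_⟩
  rw [rv, e, h5, Fintype.prod_option]
  change h.rv v _ ψ * ∏ b, h.rv v (x * w.ι (w.tr (some b))) ψ = _
  simp only [h2, h3, Finset.prod_const, Finset.card_univ]
  rw [← Nat.card_eq_fintype_card, ← qq]

theorem ex_frob : ∃ β : kap (h.nm x) ≃+* kap (h.nm (x * st w)),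
    ∀ z, h.emb (l _ o.step) (β z) = h.emb (l x o) z ^ qq O := by
  obtain ⟨F, hF⟩ := D.ex_frob (kap v)
  refine (ex_equiv (F.comp (h.emb (l x o))) (h.emb (l _ o.step)) (fun a => ?_) fun b => ?_).imp
    fun β hβ z => (hβ z).trans (hF _)
  · obtain ⟨g, h1, rfl⟩ := NV.red_surj a
    rw [← h.res (l x o)] at h1
    obtain ⟨f, h2, h3⟩ := (l x o).pw2 (h.inc x g) g.2 h1
    have h4 := NV.pow_le_one' h1 (qq O)
    have h5 : v f ≤ 1 := by
      have := NV.add_le h3.le h4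
      rwa [sub_add_cancel] at this
    refine ⟨(h.nm _).red ⟨f, h2⟩, ?_⟩
    rw [RingHom.comp_apply, hF, emb_red', emb_red', ← NV.red_pow h1]
    exact (I.red_eq_iff h5 h4).2 h3
  · obtain ⟨f, h1, rfl⟩ := NV.red_surj b
    rw [← h.res (l _ o.step)] at h1
    obtain ⟨g, h2, h3⟩ := (l x o).pw1 (h.inc _ f) f.2 h1
    have h4 := I.le_one_of_sub h1 h3
    have h5 : v g ≤ 1 := by rwa [map_pow, pow_le_one_iff_of_nonneg (v.av.nonneg _) (qq_ne w)] at h4
    refine ⟨(h.nm x).red ⟨g, h2⟩, ?_⟩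
    rw [RingHom.comp_apply, hF, emb_red', emb_red']
    exact (NV.red_pow h5 _).symm.trans ((I.red_eq_iff h1 h4).2 h3).symm

variable {β : kap (h.nm x) ≃+* kap (h.nm (x * st w))}
  (hβ : ∀ z, h.emb (l _ o.step) (β z) = h.emb (l x o) z ^ qq O)

include hβ

theorem frob_sl : Sl (kC (Cx D.ι)) (qq O) β := fun a =>
  (h.emb (l _ o.step)).injective (by rw [hβ, emb_const, emb_const, map_pow])

theorem frob_hk {ψ : T.RU U} (hψ : ∀ y, h.nv y ψ ≤ 1) :
    β.symm (h.red (x * st w) ψ) ^ qq O = h.red x (h.hkR ψ) :=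
  (h.emb (l x o)).injective (by
    rw [map_pow, ← hβ, β.apply_symm_apply, emb_red, emb_red, h.rv_hk l o hψ])

theorem frob_pl {R : Plk (kC (Cx D.ι)) (kap (h.nm x))}
    {R' : Plk (kC (Cx D.ι)) (kap (h.nm (x * st w)))} (r : Rd (h.nm x) τ R)
    (r' : Rd (h.nm (x * st w)) τ R') : Pl β R R' := fun z => by
  obtain ⟨g, h1, rfl⟩ := NV.red_surj z
  obtain ⟨f, h2, h3⟩ := NV.red_surj (β ((h.nm x).red g))
  have h4 := NV.pow_le_one' h1 (qq O)
  have h5 : v (h.inc _ f - h.inc x (g ^ qq O)) < 1 := by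
    rw [← I.red_eq_iff ((h.res (l _ o.step) f).trans_le h2) ((h.res (l x o) _).trans_le h4),
      ← h.emb_red' (l _ o.step), ← h.emb_red' (l x o), h3, hβ, NV.red_pow h1, map_pow]
  have h6 := (l x o).cmp _ _ (h.gv x) (h.gv _) (h.res' (l x o)) (h.res' (l _ o.step)) R R' r r'
    (g ^ qq O) f _ h4 h2 rfl h5
  rw [← h3, h6, NV.red_pow h1]
  exact pow_mem_val R.1 (qq_ne w) _

theorem frob_cpt : h.Cpt (fw w D.e U) x (x * st w) β := fun y hy => by
  induction y using OP.ind with | _ τ₁ x₁ o₁ => ?_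
  have r : T.Rel U x x₁ := cm_eq.1 hy.symm
  have r' := rel_mul h.sa h.lev h.mx r (tt w)
  rw [fw_om h.ok D.cmp]
  refine ⟨(cm_eq.2 r').symm, fun R R' s s' z => ?_⟩
  obtain ⟨v₁, l₁⟩ := h.rd.loc τ₁ x₁ o₁
  obtain ⟨β₁, h1⟩ := h.ex_frob l₁ o₁
  obtain ⟨a, -, a1, a2⟩ := h.tra r
  obtain ⟨b, -, b1, b2⟩ := h.tra r'
  obtain ⟨R₁, r₁⟩ := h.ex_rd x₁ τ₁
  obtain ⟨R₂, r₂⟩ := h.ex_rd (x₁ * st w) τ₁
  have e : β₁ (a z) = b (β z) := by
    obtain ⟨ψ, h2, h3⟩ := h.red_surj _ (β z)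
    have h4 : z ^ qq O = h.red x (h.hkR ψ) := by
      rw [← h.frob_hk l o hβ h2, h3, β.symm_apply_apply]
    have h5 : b (β z) = h.red (x₁ * st w) ψ := h3 ▸ (b1 ψ).2
    have h6 : a (h.red x (h.hkR ψ)) = h.red x₁ (h.hkR ψ) := (a1 _).2
    rw [← β₁.eq_symm_apply, h5]
    refine D.pow_inj _ ?_
    rw [← map_pow, h4, h6, h.frob_hk l₁ o₁ h1 h2]
  have e1 : Pl a R R₁ := (a2 (om w D.e U o₁) hy).2 R R₁ s ⟨τ₁, rfl, r₁⟩
  have e2 : Pl b R' R₂ := (b2 (om w D.e U o₁.step) (cm_eq.2 r').symm).2 R' R₂ s' ⟨τ₁, rfl, r₂⟩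
  exact (e2 _).symm.trans ((e ▸ h.frob_pl l₁ o₁ h1 r₁ r₂ (a z)).trans (e1 z))

end Ctx

theorem Ctx.ind_fw (h : Ctx D U) : h.Ind (qq O) (fw w D.e U) := fun x => by
  obtain ⟨τ, x₀, o, r⟩ := h.ex_ord x
  obtain ⟨v, l⟩ := h.rd.loc τ x₀ o
  obtain ⟨β, hβ⟩ := h.ex_frob l o
  obtain ⟨a, a0, -, a2⟩ := h.tra r
  exact ⟨_, _, one_mul (qq O) ▸ a0.trans (h.frob_sl l o hβ), a2.comp (h.frob_cpt l o hβ)⟩

/-! ## semilinear automorphisms and translations -/

section th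

variable {σ : ℂ ≃+* ℂ} {θ : (G → Mer) → G → Mer}

/-- the automorphism in level `U` -/
def thU (s : T.Sl σ θ) (hU : U ∈ T.Lev) : T.RU U ≃+* T.RU U :=
  RingEquiv.ofBijective (s.em.hom hU) ⟨fun φ ψ e => Subtype.ext
    ((s.bij U hU).injOn φ.2 ψ.2 (congrArg Subtype.val e)), fun ψ => by
      obtain ⟨φ, h1, h2⟩ := (s.bij U hU).surjOn ψ.2
      exact ⟨⟨φ, h1⟩, Subtype.ext h2⟩⟩

theorem thU_val (s : T.Sl σ θ) (hU : U ∈ T.Lev) (φ : T.RU U) : (thU s hU φ).1 = θ φ.1 := rfl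

theorem sm_thU (s : T.Sl σ θ) (hU : U ∈ T.Lev) : Sm σ (thU s hU) := fun c => Subtype.ext (s.cst c)

theorem cj_inv {g : G} (hg : cj g U = U) : cj g⁻¹ U = U := Subgroup.ext fun y => by
  rw [mem_cj, inv_inv, ← hg, mem_cj, hg]
  simp [mul_assoc]

/-- the translation by an element which normalises `U` -/
def rtU {g : G} (hg : cj g U = U) : T.RU U ≃+* T.RU U where
  toFun φ := ⟨rt g⁻¹ φ.1, Tw.RU_mono (cj_inv hg).ge (Tw.RU_rt φ.2 g⁻¹)⟩
  invFun φ := ⟨rt g φ.1, Tw.RU_mono hg.ge (Tw.RU_rt φ.2 g)⟩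
  left_inv φ := Subtype.ext (funext fun x => congrArg φ.1 (mul_inv_cancel_right x g))
  right_inv φ := Subtype.ext (funext fun x => congrArg φ.1 (inv_mul_cancel_right x g))
  map_mul' _ _ := rfl
  map_add' _ _ := rfl

theorem ov_rt {g : G} (hg : cj g U = U) {ρ : OP w D.e U → OP w D.e U} (r : IsRt w D.e U g ρ) :
    Ov (rtU hg) (RingEquiv.refl ℂ) ρ := fun τ x o => ⟨τ, x * g, r τ x o, fun φ c v => by
  rwa [show (rtU hg φ).1 (x * g) = φ.1 x from congrArg φ.1 (mul_inv_cancel_right x g)]⟩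

namespace Ctx

variable (h : Ctx D U) (s : T.Sl σ θ) {th : OP w D.e U → OP w D.e U}

theorem ov_th (t : IsTh w D.e σ θ U th) : Ov (thU s h.lev) σ th := fun τ x o => by
  obtain ⟨τ', x', pt⟩ := s.is.ex_pt h.ok h.ok h.cf h.cf τ x
  exact ⟨τ', x', t τ x o τ' x' pt, fun φ => pt U h.lev φ.1 φ.2⟩

include h s in
theorem rigb {d : ℕ} (hσ : Isom D.ι σ (qq O ^ d)) (t : IsTh w D.e σ θ U th) :
    ∃ B : ℕ, ∀ (n : ℕ) (g : G), w.π g = 1 → cj g U = U → ∀ ρ, IsRt w D.e U g ρ →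
    ∀ (c : Cp T U) (S : Finset (OP w D.e U)), B < S.card →
    (∀ y ∈ S, PU.cp T y.1 = c ∧ th^[n] y = (fw w D.e U)^[d * n] (ρ y)) →
    ∀ y : OP w D.e U, PU.cp T y.1 = c → th^[n] y = (fw w D.e U)^[d * n] (ρ y) := by
  obtain ⟨B, hB⟩ := h.ex_bound
  refine ⟨B, fun n g _ hg ρ r => hB _ _ ((fw w D.e U)^[d * n] ∘ ρ)
    ((h.ind_ov (sm_thU s h.lev) hσ (h.ov_th s t)).iter n) ?_⟩
  have := (h.ind_ov (fun _ => rfl) isom_refl (ov_rt hg r)).comp (h.ind_fw.iter (d * n))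
  rwa [one_mul, pow_mul] at this

/-- `Θ` acts trivially on the reduction -/
def Ine (Θ : T.RU U ≃+* T.RU U) : Prop := ∀ x, Ker Θ x x ∧ h.Fn Θ x x (RingEquiv.refl _)

/-- `Θ` acts as the Frobenius map on the reduction -/
def Fro (Θ : T.RU U ≃+* T.RU U) : Prop := (∀ x, Ker Θ x (x * st w)) ∧
  (∀ x φ, h.nv (x * st w) (Θ φ) = h.nv x φ) ∧ ∀ v τ x, Vl D U v τ → Ord w D.e τ x →
    ∀ φ, h.rv v (x * st w) (Θ φ) = h.rv v x φ ^ qq O

theorem ine (hσ : Isom D.ι σ 1) (t : IsTh w D.e σ θ U th) (e : ∀ y, th y = y) :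
    h.Ine (thU s h.lev) := fun x => by
  obtain rfl : th = id := funext e
  obtain ⟨τ, x₀, o, r⟩ := h.ex_ord x
  have k : Ker (thU s h.lev) x x :=
    (((h.ov_th s t).pv (om w D.e U o) rfl rfl).ker.left r.symm).right r.symm
  obtain ⟨β, h1, h2, h3⟩ := h.iso_ov (sm_thU s h.lev) hσ (h.ov_th s t) k
  exact ⟨k, h.rigid_all h1 (fun a => by rw [pow_one]; rfl) h3 (h.cpt_refl x) ▸ h2⟩

theorem fro (hσ : Isom D.ι σ (qq O)) (t : IsTh w D.e σ θ U th) (e : ∀ y, th y = fw w D.e U y) :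
    h.Fro (thU s h.lev) := by
  obtain rfl : th = fw w D.e U := funext e
  have k : ∀ x, Ker (thU s h.lev) x (x * st w) := fun x => by
    obtain ⟨τ, x₀, o, r⟩ := h.ex_ord x
    exact (((h.ov_th s t).pv (om w D.e U o) rfl (congrArg Subtype.val
      (fw_om h.ok D.cmp U o))).ker.left r.symm).right (rel_mul h.sa h.lev h.mx r.symm _)
  refine ⟨k, fun x φ => ?_, fun v τ x l o φ => ?_⟩
  · obtain ⟨β, -, h2, -⟩ := h.iso (sm_thU s h.lev) hσ (k x)
    exact (h2 φ).1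
  · obtain ⟨β, h1, h2, h3⟩ := h.iso_ov (sm_thU s h.lev) hσ (h.ov_th s t) (k x)
    obtain ⟨β', hβ⟩ := h.ex_frob l o
    rw [← h.emb_red (l _ o.step), ← h.emb_red (l x o), ← hβ, ← (h2 φ).2,
      h.rigid_all h1 (h.frob_sl l o hβ) h3 (h.frob_cpt l o hβ)]

end Ctx

end th

end Vale.Agent.P022K.FI.Hk
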