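import Vale.Agent.P022K.Cheb.Main

/-!
# P022K, block FI: an element of a number field which is an `r`-th power modulo almost all primes,
`r` prime, is an `r`-th power
-/

set_option autoImplicit false

open NumberField IsDedekindDomain Polynomial IntermediateField

namespace Vale.Agent.P022K.FI

open Vale.Agent.P022 Vale.Agent.P022.H916 Vale.Agent.P022.H853 Vale.Agent.P022K.Cheb

variable {K : Type} [Field K] [NumberField K]

theorem exists_move (j : K →+* Qb) {r : ℕ} (hr : r.Prime) {x : K} (hx : ∀ y : K, y ^ r ≠ x)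
    {ζ y : Qb} (hζ : IsPrimitiveRoot ζ r) (hy : y ^ r = j x) :
    ∃ g ∈ GK j, g ζ = ζ ∧ g y ≠ y := by
  let _ : Algebra K Qb := j.toAlgebra
  have h1 : Algebra.IsAlgebraic ℚ Qb := AlgebraicClosure.isAlgebraic ℚ
  have h0 : IsScalarTower ℚ K Qb := IsScalarTower.of_algebraMap_eq fun q => by
    show algebraMap ℚ Qb q = j (algebraMap ℚ K q)
    simp
  have h2 : Algebra.IsAlgebraic K Qb := Algebra.IsAlgebraic.tower_top (K := ℚ) K
  have h3 : IsAlgClosure K Qb := ⟨inferInstance, h2⟩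
  have h4 : IsGalois K Qb := IsAlgClosure.isGalois K Qb
  have hζi : IsIntegral K ζ := (h2.isAlgebraic ζ).isIntegral
  have hyi : IsIntegral K y := (h2.isAlgebraic y).isIntegral
  have hmy : minpoly K y = X ^ r - C x :=
    (minpoly.eq_of_irreducible_of_monic (X_pow_sub_C_irreducible_of_prime hr hx)
      (by simp [hy, RingHom.algebraMap_toAlgebra]) (monic_X_pow_sub_C x hr.ne_zero)).symm
  have hdy : Module.finrank K K⟮y⟯ = r := by
    rw [adjoin.finrank hyi, hmy, natDegree_X_pow_sub_C]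
  have hdζ : Module.finrank K K⟮ζ⟯ < r := by
    rw [adjoin.finrank hζi]
    have a1 : aeval ζ (∑ i ∈ Finset.range r, (X : K[X]) ^ i) = 0 := by
      simp only [map_sum, map_pow, aeval_X]
      exact hζ.geom_sum_eq_zero hr.one_lt
    have a2 : (∑ i ∈ Finset.range r, (X : K[X]) ^ i).Monic := monic_geom_sum_X hr.ne_zero
    have a3 := natDegree_le_of_dvd (minpoly.dvd K ζ a1) a2.ne_zero
    have a4 : (∑ i ∈ Finset.range r, (X : K[X]) ^ i).natDegree ≤ r - 1 :=
      natDegree_sum_le_of_forall_le _ _ fun i hi => by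
        rw [natDegree_X_pow]
        have := Finset.mem_range.1 hi
        omega
    have := hr.pos
    omega
  have hn : y ∉ K⟮ζ⟯ := by
    intro h
    have : FiniteDimensional K K⟮ζ⟯ := adjoin.finiteDimensional hζi
    have := IntermediateField.finrank_le_of_le_right (adjoin_simple_le_iff.2 h)
    omega
  rw [← InfiniteGalois.fixedField_fixingSubgroup K⟮ζ⟯, IntermediateField.mem_fixedField_iff] at hn
  push Not at hn
  obtain ⟨σ, hσ, hne⟩ := hn
  refine ⟨σ.restrictScalars ℚ, fun z => σ.commutes z, ?_, hne⟩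
  exact (IntermediateField.mem_fixingSubgroup_iff _ _).1 hσ ζ (mem_adjoin_simple_self K ζ)

/-- the form with prime ideals of the ring of all algebraic integers -/
theorem lgp_core (j : K →+* Qb) {r : ℕ} (hr : r.Prime) (x : 𝓞 K) (S : Finset ℕ)
    (h : ∀ ℓ : ℕ, ℓ.Prime → ℓ ∉ S → ∀ P : Ideal (𝓞 Qb), P.IsPrime → (ℓ : 𝓞 Qb) ∈ P →
      x ∉ below j P ∧ ∃ z : 𝓞 K, z ^ r - x ∈ below j P) : ∃ y : K, y ^ r = x := by
  classical
  by_contra hx
  push Not at hx
  have : NeZero r := ⟨hr.ne_zero⟩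
  have hζ := zt_prim r
  obtain ⟨y, hy⟩ := IsAlgClosed.exists_pow_nat_eq (j x) hr.pos
  obtain ⟨g, hg, hgζ, hgy⟩ := exists_move j hr hx hζ hy
  have h1 : Algebra.IsAlgebraic ℚ Qb := AlgebraicClosure.isAlgebraic ℚ
  have hst : ∀ a : Qb, IsOpen {φ : GQ | φ a = g a} := by
    intro a
    have a1 := (stabilizer_isOpen_of_isIntegral (K := ℚ) a).preimage (continuous_const_mul g⁻¹)
    convert a1 using 1
    ext φ
    simp only [Set.mem_ofPred_eq, Set.mem_preimage, SetLike.mem_coe, MulAction.mem_stabilizer_iff,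
      mul_smul, inv_smul_eq_iff]
    rfl
  obtain ⟨ℓ, φ, l1, l2, ⟨P, hP, hl, hφ⟩, φ1, φ2, φ3⟩ := exists_fr
    ((isOpen_GK j).inter ((hst (zt r)).inter (hst y))) (g := g) ⟨hg, rfl, rfl⟩ (insert r S)
  rw [Finset.mem_insert, not_or] at l2
  obtain ⟨hxP, z, hz⟩ := h ℓ l1 l2.2 P hP hl
  have φ2' : φ (zt r) = zt r := φ2.trans hgζ
  have φ3' : φ y ≠ y := fun e => hgy (φ3.symm.trans e)
  let J := RingOfIntegers.mapRingHom j
  have hyi : IsIntegral ℤ y := IsIntegral.of_pow hr.pos (by rw [hy]; exact (J x).2)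
  let Y : 𝓞 Qb := ⟨y, hyi⟩
  have hY : Y ^ r = J x := Subtype.ext hy
  have hζ' := hζ.toInteger_isPrimitiveRoot
  have hpres : ∀ a ∈ P, φ • a ∈ P := fun a ha => by
    have := P.add_mem (hφ a) (P.pow_mem_of_mem ha ℓ l1.pos)
    rwa [sub_add_cancel] at this
  have hz' : J z ^ r - Y ^ r ∈ P := by
    have : J (z ^ r - x) ∈ P := hz
    rwa [map_sub, map_pow, ← hY] at this
  rw [hζ'.pow_sub_pow_eq_prod_sub_mul _ _ hr.pos] at hz'
  obtain ⟨η, hη, hw⟩ := (Ideal.IsPrime.prod_mem_iff (hp := hP)).1 hz'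
  have hη1 : η ^ r = 1 := (mem_nthRootsFinset hr.pos _).1 hη
  obtain ⟨i, -, rfl⟩ := hζ'.eq_pow_of_pow_eq_one hη1
  have f1 : φ • J z = J z := Subtype.ext (φ1 z)
  have f2 : φ • hζ.toInteger = hζ.toInteger := Subtype.ext φ2'
  have f3 : φ • J x = J x := Subtype.ext (φ1 x)
  have hw2 := hpres _ hw
  rw [smul_sub, smul_mul', smul_pow', f1, f2] at hw2
  have hw3 : hζ.toInteger ^ i * (φ • Y - Y) ∈ P := by
    have := P.sub_mem hw hw2
    convert this using 1
    ring
  have hu : hζ.toInteger ^ i ∉ P := fun hm => hP.ne_top (by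
    have := P.pow_mem_of_mem hm r hr.pos
    rw [hη1] at this
    exact (Ideal.eq_top_iff_one P).2 this)
  have hw4 : φ • Y - Y ∈ P := (hP.mem_or_mem hw3).resolve_left hu
  -- `∑ (φ Y)^i Y^(r-1-i) = 0` is `r Y^(r-1)` modulo `P`
  have g1 : (φ • Y) ^ r = Y ^ r := by rw [← smul_pow', hY, f3]
  have g2 := Commute.geom_sum₂_mul (Commute.all (φ • Y) Y) r
  rw [g1, sub_self] at g2
  have g3 : φ • Y - Y ≠ 0 := fun e => φ3' (congrArg Subtype.val (sub_eq_zero.1 e))
  have g4 := (mul_eq_zero.1 g2).resolve_right g3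
  have g5 : Ideal.Quotient.mk P (φ • Y) = Ideal.Quotient.mk P Y := Ideal.Quotient.eq.2 hw4
  have g6 : Ideal.Quotient.mk P ((r : 𝓞 Qb) * Y ^ (r - 1)) = 0 := by
    have := congrArg (Ideal.Quotient.mk P) g4
    simp only [map_sum, map_mul, map_pow, g5, map_zero] at this
    rw [geom_sum₂_self] at this
    simpa using this
  rcases hP.mem_or_mem (Ideal.Quotient.eq_zero_iff_mem.1 g6) with g7 | g7
  · have c : IsCoprime (ℓ : 𝓞 Qb) (r : 𝓞 Qb) :=
      Nat.Coprime.cast ((Nat.coprime_primes l1 hr).2 l2.1)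
    obtain ⟨a, b, hab⟩ := c
    exact hP.ne_top ((Ideal.eq_top_iff_one P).2
      (hab ▸ P.add_mem (P.mul_mem_left a hl) (P.mul_mem_left b g7)))
  · have g8 := P.pow_mem_of_mem (hP.mem_of_pow_mem _ g7) r hr.pos
    rw [hY] at g8
    exact hxP g8

/-- **an algebraic integer which is an `r`-th power modulo almost all primes is an `r`-th power** -/
theorem lgp_int {r : ℕ} (hr : r.Prime) (x : 𝓞 K) {S : Set (HeightOneSpectrum (𝓞 K))}
    (hS : S.Finite) (h : ∀ v, v ∉ S → ∃ z : 𝓞 K, z ^ r - x ∈ v.asIdeal) :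
    ∃ y : K, y ^ r = x := by
  classical
  by_cases hx : x = 0
  · exact ⟨0, by simp [hx, hr.ne_zero]⟩
  have h1 : Algebra.IsAlgebraic ℚ Qb := AlgebraicClosure.isAlgebraic ℚ
  let j : K →+* Qb := (IsAlgClosed.lift (R := ℚ) (S := K) (M := Qb)).toRingHom
  have hfin : (S ∪ {v | x ∈ v.asIdeal}).Finite := hS.union (by
    have := Ideal.finite_factors (I := Ideal.span {x}) (by simpa using hx)
    simpa only [Ideal.dvd_span_singleton] using this)
  refine lgp_core j hr x (hfin.toFinset.biUnion fun v => (Ideal.absNorm v.asIdeal).primeFactors)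
    fun ℓ l1 l2 P hP hl => ?_
  have hl' : (ℓ : 𝓞 K) ∈ below j P := by
    show RingOfIntegers.mapRingHom j ℓ ∈ P
    rwa [map_natCast]
  let v : HeightOneSpectrum (𝓞 K) := ⟨below j P, Ideal.comap_isPrime _ P, fun e => by
    rw [e, Ideal.mem_bot] at hl'
    exact l1.ne_zero (by exact_mod_cast hl')⟩
  have hv : v ∉ S ∪ {v | x ∈ v.asIdeal} := by
    intro hv
    refine l2 (Finset.mem_biUnion.2 ⟨v, hfin.mem_toFinset.2 hv, Nat.mem_primeFactors.2
      ⟨l1, ?_, fun e => v.ne_bot (Ideal.absNorm_eq_zero_iff.1 e)⟩⟩)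
    by_contra hd
    have c : IsCoprime (ℓ : 𝓞 K) (Ideal.absNorm v.asIdeal : 𝓞 K) :=
      Nat.Coprime.cast ((Nat.Prime.coprime_iff_not_dvd l1).2 hd)
    obtain ⟨a, b, hab⟩ := c
    exact v.isPrime.ne_top ((Ideal.eq_top_iff_one _).2 (hab ▸ v.asIdeal.add_mem
      (v.asIdeal.mul_mem_left a hl') (v.asIdeal.mul_mem_left b (Ideal.absNorm_mem _))))
  rw [Set.mem_union, not_or] at hv
  exact ⟨hv.2, h v hv.1⟩

/-- local integers are congruent to global integers -/
theorem exists_int_approx (v : HeightOneSpectrum (𝓞 K)) {z : v.adicCompletion K}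
    (hz : Valued.v z ≤ 1) :
    ∃ a : 𝓞 K, Valued.v (z - algebraMap (𝓞 K) (v.adicCompletion K) a) < 1 := by
  have h1 : {y : v.adicCompletion K | Valued.v (y - z) < 1} ∈ nhds z := by
    rw [Valued.mem_nhds]
    refine ⟨1, fun y hy => ?_⟩
    exact (Valuation.restrict_lt_one_iff _).1 hy
  obtain ⟨k, hk⟩ := (v.denseRange_algebraMap K).mem_nhds h1
  have hk' : Valued.v (algebraMap K (v.adicCompletion K) k - z) < 1 := hk
  have ek : ∀ k : K, Valued.v (algebraMap K (v.adicCompletion K) k) = v.valuation K k :=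
    fun k => v.valuedAdicCompletion_eq_valuation' k
  have h2 : v.valuation K k ≤ 1 := by
    rw [← ek, ← sub_add_cancel (algebraMap K (v.adicCompletion K) k) z]
    exact Valuation.map_add_le _ hk'.le hz
  obtain ⟨a, ha⟩ := v.exists_valuation_sub_lt_of_integer h2 1
  refine ⟨a, ?_⟩
  have e : z - algebraMap (𝓞 K) (v.adicCompletion K) a =
      -(algebraMap K (v.adicCompletion K) k - z) +
        -algebraMap K (v.adicCompletion K) (algebraMap (𝓞 K) K a - k) := by
    rw [map_sub, ← IsScalarTower.algebraMap_apply]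
    ring
  rw [e]
  refine Valuation.map_add_lt _ (by rwa [Valuation.map_neg]) ?_
  rw [Valuation.map_neg, ek]
  exact ha

/-- **an element which is an `r`-th power in almost all completions is an `r`-th power** -/
theorem lgp {r : ℕ} (hr : r.Prime) (x : K) {S : Set (HeightOneSpectrum (𝓞 K))} (hS : S.Finite)
    (h : ∀ v, v ∉ S → ∃ z : v.adicCompletion K, z ^ r = algebraMap K (v.adicCompletion K) x) :
    ∃ y : K, y ^ r = x := by
  obtain ⟨a, n, hn, rfl⟩ := IsFractionRing.div_surjective (A := 𝓞 K) x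
  have hn0 : (algebraMap (𝓞 K) K n) ≠ 0 :=
    (map_ne_zero_iff _ (IsFractionRing.injective (𝓞 K) K)).2 (nonZeroDivisors.ne_zero hn)
  obtain ⟨m, rfl⟩ : ∃ m, r = m + 1 := ⟨r - 1, by have := hr.pos; omega⟩
  have e : algebraMap (𝓞 K) K (a * n ^ m) =
      algebraMap (𝓞 K) K a / algebraMap (𝓞 K) K n * algebraMap (𝓞 K) K n ^ (m + 1) := by
    rw [map_mul, map_pow]
    field_simp
    ring
  obtain ⟨y, hy⟩ := lgp_int hr (a * n ^ m) hS fun v hv => by
    obtain ⟨z, hz⟩ := h v hv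
    have h1 : (z * algebraMap (𝓞 K) (v.adicCompletion K) n) ^ (m + 1) =
        algebraMap (𝓞 K) (v.adicCompletion K) (a * n ^ m) := by
      rw [mul_pow, hz, IsScalarTower.algebraMap_apply (𝓞 K) K _ (a * n ^ m), e, map_mul, map_pow,
        ← IsScalarTower.algebraMap_apply]
    have ei : ∀ b : 𝓞 K, Valued.v (algebraMap (𝓞 K) (v.adicCompletion K) b) =
        v.valuation K (algebraMap (𝓞 K) K b) := fun b => v.valuedAdicCompletion_eq_valuation b
    obtain ⟨w, hw⟩ : ∃ w, w = z * algebraMap (𝓞 K) (v.adicCompletion K) n := ⟨_, rfl⟩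
    rw [← hw] at h1
    have h2 : Valued.v w ≤ 1 := by
      refine (pow_le_one_iff (Nat.succ_ne_zero m)).1 ?_
      rw [← map_pow, h1, ei]
      exact v.valuation_le_one _
    obtain ⟨b, hb⟩ := exists_int_approx v h2
    refine ⟨b, (v.valuation_lt_one_iff_mem (K := K) _).1 ?_⟩
    rw [← ei, map_sub, map_pow, ← h1, ← Valuation.map_neg, neg_sub,
      ← Commute.geom_sum₂_mul (Commute.all _ _), map_mul]
    refine mul_lt_one_of_nonneg_of_lt_one_right ?_ zero_le hb
    refine Valuation.map_sum_le _ fun i _ => ?_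
    rw [map_mul, map_pow, map_pow]
    exact mul_le_one' (pow_le_one' h2 _) (pow_le_one' (by rw [ei]; exact v.valuation_le_one _) _)
  refine ⟨y / algebraMap (𝓞 K) K n, ?_⟩
  have hy' : y ^ (m + 1) = algebraMap (𝓞 K) K (a * n ^ m) := hy
  rw [div_pow, hy', e]
  field_simp

end Vale.Agent.P022K.FI
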