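import Mathlib.RingTheory.MvPowerSeries.Expand
import Mathlib.RingTheory.PowerSeries.Derivative
import Mathlib.Algebra.Polynomial.Identities
import Mathlib.RingTheory.DiscreteValuationRing.Basic
import Mathlib.FieldTheory.Finite.Basic
import Mathlib.RingTheory.LocalRing.ResidueField.Basic

/-!
# P022K / FI / Lt1 : the lemma of Lubin and Tate (formal part)
-/

set_option linter.unusedSectionVars false

noncomputable section

namespace Vale.Agent.P022K.FI.Lt

open MvPowerSeries

variable {σ τ R : Type} [CommRing R]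

/-- order at least `m` -/
def Od (m : ℕ) (h : MvPowerSeries σ R) : Prop := ∀ d : σ →₀ ℕ, d.degree < m → coeff d h = 0

theorem od_iff {m : ℕ} {h : MvPowerSeries σ R} : Od m h ↔ (m : ℕ∞) ≤ h.order :=
  ⟨nat_le_order, fun H _ hd => coeff_of_lt_order (lt_of_lt_of_le (by exact_mod_cast hd) H)⟩

theorem od_one {h : MvPowerSeries σ R} : Od 1 h ↔ constantCoeff h = 0 :=
  od_iff.trans one_le_order_iff_constCoeff_eq_zero

theorem od_zero (m : ℕ) : Od m (0 : MvPowerSeries σ R) := fun _ _ => map_zero _

theorem od_bot (h : MvPowerSeries σ R) : Od 0 h := fun _ hd => absurd hd (Nat.not_lt_zero _)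

namespace Od

variable {m n : ℕ} {g h : MvPowerSeries σ R}

theorem mono (H : Od m h) (e : n ≤ m) : Od n h := fun d hd => H d (hd.trans_le e)

theorem add (H : Od m g) (H' : Od m h) : Od m (g + h) := fun d hd => by
  rw [map_add, H d hd, H' d hd, add_zero]

theorem sub (H : Od m g) (H' : Od m h) : Od m (g - h) := fun d hd => by
  rw [map_sub, H d hd, H' d hd, sub_zero]

theorem mul (H : Od m g) (H' : Od n h) : Od (m + n) (g * h) :=
  od_iff.2 (le_trans (by push_cast; exact add_le_add (od_iff.1 H) (od_iff.1 H')) le_order_mul)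

theorem mul_left (g : MvPowerSeries σ R) (H : Od m h) : Od m (g * h) := by
  simpa using (od_bot g).mul H

theorem sum {ι : Type} (s : Finset ι) {h : ι → MvPowerSeries σ R} (H : ∀ i, Od m (h i)) :
    Od m (∑ i ∈ s, h i) := fun d hd => by
  rw [map_sum]
  exact Finset.sum_eq_zero fun i _ => H i d hd

theorem hasSubst [Finite σ] {a : σ → MvPowerSeries τ R} (ha : ∀ i, Od 1 (a i)) : HasSubst a :=
  hasSubst_of_constantCoeff_zero fun i => od_one.1 (ha i)

theorem subst [Finite σ] {a : σ → MvPowerSeries τ R} (ha : ∀ i, Od 1 (a i)) (H : Od m h) :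
    Od m (subst a h) := by
  refine od_iff.2 (le_trans ?_ (le_order_subst (hasSubst ha) h))
  have h1 : (1 : ℕ∞) ≤ ⨅ i, (a i).order := le_iInf fun i => od_iff.1 (ha i)
  calc (m : ℕ∞) = 1 * m := (one_mul _).symm
    _ ≤ _ := mul_le_mul' h1 (od_iff.1 H)

end Od

/-- `U` is triangular with diagonal `w` -/
def Tri (U : MvPowerSeries σ R → MvPowerSeries σ R) (w : ℕ → R) (m0 : ℕ) : Prop :=
  ∀ m, m0 ≤ m → ∀ x h, Od m0 x → Od m h → ∀ d : σ →₀ ℕ, d.degree ≤ m →
    coeff d (U (x + h)) = coeff d (U x) + w m * coeff d h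

section tri

variable {U : MvPowerSeries σ R → MvPowerSeries σ R} {w : ℕ → R} {m0 : ℕ}

theorem Tri.uniq (hU : Tri U w m0) (hw : ∀ m, m0 ≤ m → ∀ r, w m * r = 0 → r = 0)
    {x y : MvPowerSeries σ R} (hx : Od m0 x) (hy : Od m0 y) (e : U x = U y) : x = y := by
  have key : ∀ n, Od (m0 + n) (y - x) := fun n => by
    induction n with
    | zero => exact hy.sub hx
    | succ n ih =>
      intro d hd
      have h := hU (m0 + n) (by omega) x _ hx ih d (by omega)
      rw [add_sub_cancel, e, left_eq_add] at h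
      exact hw _ (by omega) _ h
  ext d
  have h := key (d.degree + 1) d (by omega)
  rw [map_sub, sub_eq_zero] at h
  exact h.symm

theorem Tri.ex (hU : Tri U w m0) (hD : ∀ m, m0 ≤ m → ∀ x, Od m0 x → ∀ d, w m ∣ coeff d (U x))
    (h0 : Od m0 (U 0)) : ∃ x, Od m0 x ∧ U x = 0 := by
  have step : ∀ n (x : {x // Od m0 x ∧ Od (m0 + n) (U x)}),
      ∃ y : {x // Od m0 x ∧ Od (m0 + (n + 1)) (U x)}, Od (m0 + n) (y.1 - x.1) := by
    rintro n ⟨x, h1, h2⟩
    choose c hc using hD (m0 + n) (by omega) x h1
    let h : MvPowerSeries σ R := fun d => if d.degree = m0 + n then -c d else 0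
    have hh : Od (m0 + n) h := fun d hd => if_neg hd.ne
    refine ⟨⟨x + h, h1.add (hh.mono (by omega)), fun d hd => ?_⟩, by rwa [add_sub_cancel_left]⟩
    rw [hU _ (by omega) x h h1 hh d (by omega)]
    by_cases e : d.degree = m0 + n
    · rw [show coeff d h = -c d from if_pos e, hc, mul_neg, add_neg_cancel]
    · rw [h2 d (by omega), hh d (by omega), mul_zero, add_zero]
  choose nx hn using step
  let s : ∀ n, {x // Od m0 x ∧ Od (m0 + n) (U x)} := fun n => Nat.rec ⟨0, od_zero _, h0⟩ nx n
  have hs : ∀ n k, Od (m0 + n) ((s (n + k)).1 - (s n).1) := fun n k => by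
    induction k with
    | zero => rw [add_zero, sub_self]; exact od_zero _
    | succ k ih =>
      rw [← sub_add_sub_cancel _ (s (n + k)).1]
      exact ((hn (n + k) (s (n + k))).mono (by omega)).add ih
  let x : MvPowerSeries σ R := fun d => coeff d (s (d.degree + 1)).1
  have hx : ∀ n, Od (m0 + n) (x - (s n).1) := fun n d hd => by
    have h1 := hs n (d.degree + 1) d hd
    have h2 := hs (d.degree + 1) n d (by omega)
    rw [map_sub, sub_eq_zero] at h1 h2 ⊢
    rw [← h1, add_comm n, h2]
    rfl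
  have hx0 : Od m0 x := by simpa [s] using hx 0
  refine ⟨x, hx0, MvPowerSeries.ext fun d => ?_⟩
  have h := hU _ (by omega) _ _ (s (d.degree + 1)).2.1 (hx (d.degree + 1)) d (by omega)
  rw [add_sub_cancel, hx (d.degree + 1) d (by omega), (s (d.degree + 1)).2.2 d (by omega),
    mul_zero, add_zero] at h
  exact h

end tri

/-- substitution of `f (X i)` for `X i` -/
def ph (f : Polynomial R) (h : MvPowerSeries σ R) : MvPowerSeries σ R :=
  subst (fun i => (Polynomial.aeval (X i) f : MvPowerSeries σ R)) h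

theorem cc_aeval (x : MvPowerSeries σ R) (hx : Od 1 x) (f : Polynomial R) :
    constantCoeff (Polynomial.aeval x f) = f.coeff 0 := by
  have h := Polynomial.hom_eval₂ f (algebraMap R (MvPowerSeries σ R)) constantCoeff x
  rw [Polynomial.aeval_def, h, od_one.1 hx, Polynomial.eval₂_at_zero]
  rfl

theorem od_X (i : σ) : Od 1 (X i : MvPowerSeries σ R) := od_one.2 (constantCoeff_X i)

theorem od_aeval {f : Polynomial R} (h0 : f.coeff 0 = 0) {x : MvPowerSeries σ R} (hx : Od 1 x) :
    Od 1 (Polynomial.aeval x f) := od_one.2 ((cc_aeval x hx f).trans h0)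

theorem coeff_aeval_add (f : Polynomial R) {m : ℕ} (hm : 1 ≤ m) {x h : MvPowerSeries σ R}
    (hx : Od 1 x) (hh : Od m h) {d : σ →₀ ℕ} (hd : d.degree ≤ m) :
    coeff d (Polynomial.aeval (x + h) f) =
      coeff d (Polynomial.aeval x f) + f.coeff 1 * coeff d h := by
  obtain ⟨k, hk⟩ := Polynomial.binomExpansion (f.map (algebraMap R (MvPowerSeries σ R))) x h
  simp only [Polynomial.derivative_map, Polynomial.eval_map_algebraMap] at hk
  have h1 : Od 1 (Polynomial.aeval x (Polynomial.derivative f) - C (f.coeff 1)) := od_one.2 (by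
    rw [map_sub, cc_aeval x hx, Polynomial.coeff_derivative, constantCoeff_C]
    simp)
  have h2 := h1.mul hh d (by omega)
  have h3 := (hh.mul hh).mul_left k d (by omega)
  rw [sub_mul, map_sub, sub_eq_zero, coeff_C_mul] at h2
  rw [hk, map_add, map_add, h2, sq, h3, add_zero]

theorem coeff_ph [Finite σ] {f : Polynomial R} (h0 : f.coeff 0 = 0) {m : ℕ}
    {h : MvPowerSeries σ R} (hh : Od m h) {d : σ →₀ ℕ} (hd : d.degree ≤ m) :
    coeff d (ph f h) = f.coeff 1 ^ m * coeff d h := by
  classical
  obtain ⟨g, rfl⟩ := Polynomial.X_dvd_iff.2 h0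
  have e : ∀ e : σ →₀ ℕ,
      (e.prod fun s n => (Polynomial.aeval (X s) (Polynomial.X * g) : MvPowerSeries σ R) ^ n) =
        monomial e 1 * e.prod fun s n => Polynomial.aeval (X s) g ^ n := fun e => by
    simp only [map_mul, Polynomial.aeval_X, mul_pow, Finsupp.prod_mul, monomial_one_eq]
  rw [ph, coeff_subst (Od.hasSubst fun i => od_aeval h0 (od_X i)), finsum_eq_single _ d]
  · rw [e, coeff_monomial_mul, if_pos le_rfl, tsub_self, one_mul, coeff_zero_eq_constantCoeff_apply,
      map_finsuppProd]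
    simp only [map_pow, cc_aeval _ (od_X _), Polynomial.coeff_X_mul]
    rcases hd.lt_or_eq with h1 | h1
    · rw [hh d h1, zero_smul, mul_zero]
    · rw [Finsupp.prod, Finset.prod_pow_eq_pow_sum, ← Finsupp.degree_apply, h1, smul_eq_mul,
        mul_comm]
  · intro d' hd'
    rw [e, coeff_monomial_mul]
    split_ifs with h1
    · obtain ⟨c, rfl⟩ := le_iff_exists_add.1 h1
      have h2 : c.degree ≠ 0 := fun h2 => hd' (by
        rw [(Finsupp.degree_eq_zero_iff c).1 h2, add_zero])
      rw [map_add] at hd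
      rw [hh d' (by omega), zero_smul]
    · exact smul_zero _

theorem aeval_X_eq (f : Polynomial R) :
    Polynomial.aeval (X () : MvPowerSeries Unit R) f = (f : PowerSeries R) :=
  Polynomial.eval₂_C_X_eq_coe

theorem ph_eq (f : Polynomial R) (x : PowerSeries R) : ph f x = x.subst (f : PowerSeries R) := by
  rw [← aeval_X_eq]
  rfl

theorem cc_subst {a : PowerSeries R} (ha : PowerSeries.constantCoeff a = 0) (x : PowerSeries R) :
    PowerSeries.constantCoeff (x.subst a : PowerSeries R) = PowerSeries.constantCoeff x := by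
  have h := PowerSeries.constantCoeff_subst_eq_zero ha
    (x - PowerSeries.C (PowerSeries.constantCoeff x)) (by simp)
  rw [PowerSeries.subst_sub (PowerSeries.HasSubst.of_constantCoeff_zero' ha), PowerSeries.subst_C,
    map_sub, constantCoeff_C, sub_eq_zero] at h
  exact h

/-- the linear form with coefficients `c` -/
def lin [Fintype σ] (c : σ → R) : MvPowerSeries σ R := ∑ i, C (c i) * X i

theorem od_lin [Fintype σ] (c : σ → R) : Od 1 (lin c) := Od.sum _ fun i => (od_X i).mul_left _

/-- the hypotheses of the lemma of Lubin and Tate -/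
structure LT (ϖ : R) (f g : Polynomial R) : Prop where
  c0 : f.coeff 0 = 0
  c1 : f.coeff 1 = ϖ
  reg : ∀ r, ϖ * r = 0 → r = 0
  un : ∀ m, IsUnit (ϖ ^ (m + 1) - 1)
  frob : ∀ (σ : Type) [Finite σ] (Ψ : MvPowerSeries σ R) (d : σ →₀ ℕ),
    ϖ ∣ coeff d (ph f Ψ - Polynomial.aeval Ψ f)
  der : Polynomial.derivative f = Polynomial.C ϖ * g

namespace LT

variable {ϖ : R} {f g : Polynomial R} (H : LT ϖ f g)
include H

theorem hs [Finite σ] : HasSubst fun i => (Polynomial.aeval (X i) f : MvPowerSeries σ R) :=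
  Od.hasSubst fun i => od_aeval H.c0 (od_X i)

theorem tri [Finite σ] {l : MvPowerSeries σ R} (hl : Od 1 l) :
    Tri (fun x => ph f (l + x) - Polynomial.aeval (l + x) f) (fun m => ϖ ^ m - ϖ) 1 := by
  intro m hm x h hx hh d hd
  beta_reduce
  rw [← add_assoc, map_sub, map_sub, coeff_aeval_add f hm (hl.add hx) hh hd, ph, subst_add H.hs,
    map_add, ← ph, ← ph, coeff_ph H.c0 hh hd, H.c1]
  ring

theorem tri2 [Finite σ] {l : MvPowerSeries σ R} (hl : Od 1 l) :
    Tri (fun x => ph f (l + x) - Polynomial.aeval (l + x) f) (fun m => ϖ ^ m - ϖ) 2 :=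
  fun m hm x h hx => H.tri hl m (by omega) x h (hx.mono (by omega))

theorem fac {m : ℕ} (hm : 2 ≤ m) : ∃ u : Rˣ, ϖ ^ m - ϖ = ϖ * u := by
  obtain ⟨k, rfl⟩ := Nat.exists_eq_add_of_le' hm
  exact ⟨(H.un k).unit, by rw [IsUnit.unit_spec]; ring⟩

theorem uniq [Finite σ] {x y : MvPowerSeries σ R} (hx : Od 1 x) (h : Od 2 (y - x))
    (ex : ph f x = Polynomial.aeval x f) (ey : ph f y = Polynomial.aeval y f) : x = y := by
  have h1 := (H.tri2 hx).uniq (fun m hm r hr => by
    obtain ⟨u, hu⟩ := H.fac hm
    rw [hu, mul_assoc] at hr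
    exact (Units.mul_right_eq_zero u).1 (H.reg _ hr)) (od_zero 2) h (by
      simp only [add_zero, add_sub_cancel, ex, ey, sub_self])
  exact (sub_eq_zero.1 h1.symm).symm

theorem ex [Fintype σ] (c : σ → R) :
    ∃ x, Od 2 (x - lin c) ∧ ph f x = Polynomial.aeval x f := by
  obtain ⟨x, h1, h2⟩ := (H.tri2 (od_lin c)).ex (fun m hm x _ d => by
    obtain ⟨u, hu⟩ := H.fac hm
    rw [hu]
    exact (Units.mul_right_dvd).2 (H.frob σ _ d)) fun d hd => by
      have h := H.tri (od_zero 1) 1 le_rfl 0 _ (od_zero 1) (od_lin c) d (by omega)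
      simp only [zero_add, pow_one, sub_self, zero_mul, add_zero] at h
      rw [add_zero, h, ph, ← substAlgHom_apply H.hs, map_zero, zero_sub, Polynomial.aeval_def,
        Polynomial.eval₂_at_zero, H.c0, map_zero, neg_zero, map_zero]
  exact ⟨lin c + x, by rwa [add_sub_cancel_left], sub_eq_zero.1 h2⟩

/-- the series of Lubin and Tate with linear part `c` -/
def ser [Fintype σ] (c : σ → R) : MvPowerSeries σ R := (H.ex c).choose

theorem ser_lin [Fintype σ] (c : σ → R) : Od 2 (H.ser c - lin c) := (H.ex c).choose_spec.1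

theorem ser_ph [Fintype σ] (c : σ → R) : ph f (H.ser c) = Polynomial.aeval (H.ser c) f :=
  (H.ex c).choose_spec.2

theorem od_ser [Fintype σ] (c : σ → R) : Od 1 (H.ser c) := by
  simpa using ((H.ser_lin c).mono one_le_two).add (od_lin c)

theorem eq_ser [Fintype σ] {c : σ → R} {x : MvPowerSeries σ R} (h : Od 2 (x - lin c))
    (e : ph f x = Polynomial.aeval x f) : H.ser c = x :=
  H.uniq (H.od_ser c) (by simpa using h.sub (H.ser_lin c)) (H.ser_ph c) e

theorem ser_single [Fintype σ] [DecidableEq σ] (j : σ) : H.ser (Pi.single j 1) = X j :=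
  H.eq_ser (by
    rw [lin, Finset.sum_eq_single j (fun i _ hi => by simp [Pi.single_eq_of_ne hi]) (by simp)]
    simpa using od_zero 2) (subst_X H.hs j)

theorem ser_subst [Fintype σ] [Fintype τ] (c : σ → R) (d : σ → τ → R) :
    subst (fun i => H.ser (d i)) (H.ser c) = H.ser fun j => ∑ i, c i * d i j := by
  have ha := Od.hasSubst fun i => H.od_ser (d i)
  refine (H.eq_ser ?_ ?_).symm
  · have h1 := (H.ser_lin c).subst fun i => H.od_ser (d i)
    have h2 := Od.sum Finset.univ fun i => (H.ser_lin (d i)).mul_left (C (c i))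
    convert h1.add h2 using 1
    rw [subst_sub ha, lin, lin, ← substAlgHom_apply ha (∑ i, _), map_sum]
    simp only [map_mul, subst_X ha, mul_sub, Finset.sum_sub_distrib, lin, map_sum,
      Finset.sum_mul, Finset.mul_sum, substAlgHom_apply, subst_C, mul_assoc]
    rw [Finset.sum_comm]
    ring
  · rw [ph, subst_comp_subst_apply ha H.hs, ← substAlgHom_apply ha, Polynomial.aeval_algHom_apply,
      ← H.ser_ph, ph, substAlgHom_apply, subst_comp_subst_apply H.hs ha]
    congr 1
    funext i
    rw [← ph, H.ser_ph, ← substAlgHom_apply ha, ← Polynomial.aeval_algHom_apply, substAlgHom_X]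

theorem ser_pi : H.ser (fun _ : Unit => ϖ) = (f : PowerSeries R) := by
  have e := (aeval_X_eq f).symm
  refine H.eq_ser (fun d hd => ?_) ?_
  · have h := coeff_aeval_add f le_rfl (od_zero 1) (od_X ()) (d := d) (by omega)
    rw [zero_add, Polynomial.aeval_def 0, Polynomial.eval₂_at_zero, H.c0, map_zero, map_zero,
      zero_add, H.c1] at h
    rw [e, map_sub, h, lin, Fintype.sum_unique, coeff_C_mul, sub_self]
  · rw [e, ph, ← substAlgHom_apply H.hs, ← Polynomial.aeval_algHom_apply, substAlgHom_X]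

theorem g0 : g.coeff 0 = 1 := by
  have h := congrArg (fun x => x.coeff 0) H.der
  simp only [Polynomial.coeff_derivative, Polynomial.coeff_C_mul, zero_add, H.c1, Nat.cast_zero,
    mul_one] at h
  exact (sub_eq_zero.1 (H.reg _ (by rw [mul_sub, ← h, mul_one, sub_self]))).symm

theorem triw (l : MvPowerSeries Unit R) (m0 : ℕ) :
    Tri (fun x => Polynomial.aeval (X ()) g * ph f (l + x) - (l + x)) (fun m => ϖ ^ m - 1) m0 := by
  intro m _ x h _ hh d hd
  have h1 : Od 1 (Polynomial.aeval (X () : MvPowerSeries Unit R) g - 1) := od_one.2 (by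
    rw [map_sub, cc_aeval _ (od_X _), H.g0, map_one, sub_self])
  have h2 := h1.mul (hh.subst fun i => od_aeval H.c0 (od_X i)) d (by omega)
  rw [sub_mul, map_sub, sub_eq_zero, one_mul, ← ph, coeff_ph H.c0 hh hd, H.c1] at h2
  beta_reduce
  rw [← add_assoc, ph, subst_add H.hs, ← ph, ← ph, mul_add]
  simp only [map_sub, map_add, h2]
  ring

theorem uniqw {x y : MvPowerSeries Unit R} (h : constantCoeff x = constantCoeff y)
    (ex : Polynomial.aeval (X ()) g * ph f x = x) (ey : Polynomial.aeval (X ()) g * ph f y = y) :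
    x = y := by
  have h1 := (H.triw x 1).uniq (fun m hm r hr => by
    obtain ⟨k, rfl⟩ := Nat.exists_eq_add_of_le' hm
    exact ((H.un k).mul_right_eq_zero).1 hr) (od_zero 1) (y := y - x)
      (od_one.2 (by rw [map_sub, h, sub_self])) (by
      simp only [add_zero, add_sub_cancel, ex, ey, sub_self])
  exact (sub_eq_zero.1 h1.symm).symm

theorem exw : ∃ x : MvPowerSeries Unit R, constantCoeff x = 1 ∧
    Polynomial.aeval (X ()) g * ph f x = x := by
  obtain ⟨x, h1, h2⟩ := (H.triw 1 1).ex (fun m hm x _ d => by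
    obtain ⟨k, rfl⟩ := Nat.exists_eq_add_of_le' hm
    exact (H.un k).dvd) (od_one.2 (by
      rw [add_zero, ph, ← substAlgHom_apply H.hs, map_one, mul_one, map_sub, cc_aeval _ (od_X _),
        H.g0, map_one, sub_self]))
  exact ⟨1 + x, by rw [map_add, od_one.1 h1, map_one, add_zero], sub_eq_zero.1 h2⟩

/-- the invariant differential -/
def om : PowerSeries R := H.exw.choose

theorem om_zero : PowerSeries.constantCoeff H.om = 1 := H.exw.choose_spec.1

/-- multiplication by `a` -/
def br (a : R) : PowerSeries R := H.ser fun _ : Unit => a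

theorem br_pi : H.br ϖ = f := H.ser_pi

theorem br_zero (a : R) : PowerSeries.constantCoeff (H.br a) = 0 := od_one.1 (H.od_ser _)

theorem hs_br (a : R) : PowerSeries.HasSubst (H.br a) :=
  PowerSeries.HasSubst.of_constantCoeff_zero' (H.br_zero a)

theorem br_one : H.br 1 = PowerSeries.X := H.ser_single ()

theorem br_mul (a b : R) : H.br (a * b) = (H.br a).subst (H.br b) := by
  have h := H.ser_subst (fun _ : Unit => a) fun _ (_ : Unit) => b
  simp only [Fintype.sum_unique] at h
  exact h.symm

theorem coeff_br (a : R) : PowerSeries.coeff 1 (H.br a) = a := by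
  have h := H.ser_lin (fun _ : Unit => a) (Finsupp.single () 1) (by simp)
  rw [map_sub, sub_eq_zero, lin, Fintype.sum_unique, coeff_C_mul, coeff_index_single_self_X,
    mul_one] at h
  exact h

theorem hs_f : PowerSeries.HasSubst (f : PowerSeries R) := H.br_pi ▸ H.hs_br ϖ

theorem om_eq : (g : PowerSeries R) * H.om.subst (f : PowerSeries R) = H.om := by
  rw [← aeval_X_eq g, ← ph_eq]
  exact H.exw.choose_spec.2

theorem der_f : PowerSeries.derivative R (f : PowerSeries R) = PowerSeries.C ϖ * g := by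
  rw [PowerSeries.derivative_coe, H.der, Polynomial.coe_mul, Polynomial.coe_C]

theorem reg_C {x y : PowerSeries R} (h : PowerSeries.C ϖ * x = PowerSeries.C ϖ * y) : x = y := by
  ext n
  have h1 := congrArg (PowerSeries.coeff n) h
  rw [PowerSeries.coeff_C_mul, PowerSeries.coeff_C_mul, ← sub_eq_zero, ← mul_sub] at h1
  exact sub_eq_zero.1 (H.reg _ h1)

theorem om_br (a : R) :
    H.om.subst (H.br a) * PowerSeries.derivative R (H.br a) = PowerSeries.C a * H.om := by
  refine H.uniqw ?_ ?_ ?_
  · change PowerSeries.constantCoeff _ = PowerSeries.constantCoeff _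
    rw [map_mul, map_mul, cc_subst (H.br_zero a), H.om_zero, ← PowerSeries.coeff_zero_eq_constantCoeff_apply,
      PowerSeries.coeff_derivative, zero_add, H.coeff_br]
    simp
  · have e : (H.br a).subst (f : PowerSeries R) = (f : PowerSeries R).subst (H.br a) := by
      rw [← H.br_pi, ← H.br_mul, ← H.br_mul, mul_comm]
    have e1 := congrArg (PowerSeries.derivative R) e
    rw [PowerSeries.derivative_subst H.hs_f, PowerSeries.derivative_subst (H.hs_br a), H.der_f,
      PowerSeries.subst_mul (H.hs_br a), PowerSeries.subst_C] at e1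
    have e2 := congrArg (PowerSeries.subst (H.br a)) H.om_eq
    rw [PowerSeries.subst_mul (H.hs_br a), PowerSeries.subst_comp_subst_apply H.hs_f (H.hs_br a),
      ← e] at e2
    rw [aeval_X_eq, ph_eq, PowerSeries.subst_mul H.hs_f,
      PowerSeries.subst_comp_subst_apply (H.hs_br a) H.hs_f, ← e2]
    apply H.reg_C
    change _ = MvPowerSeries.C ϖ * _
    linear_combination (H.om.subst ((H.br a).subst (f : PowerSeries R) : PowerSeries R)) * e1
  · rw [aeval_X_eq, ph_eq, PowerSeries.subst_mul H.hs_f, PowerSeries.subst_C, mul_left_comm, H.om_eq]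
    rfl

end LT

/-- the polynomials of Lubin and Tate -/
structure IsLT (ϖ : R) (q : ℕ) (f : Polynomial R) : Prop where
  c0 : f.coeff 0 = 0
  c1 : f.coeff 1 = ϖ
  mon : f.Monic
  deg : f.natDegree = q
  red : ∃ h, f = Polynomial.X ^ q + Polynomial.C ϖ * h

theorem IsLT.lt [IsDomain R] [IsDiscreteValuationRing R] [Finite (IsLocalRing.ResidueField R)]
    {ϖ : R} (hϖ : Irreducible ϖ) {f : Polynomial R}
    (H : IsLT ϖ (Nat.card (IsLocalRing.ResidueField R)) f) : ∃ g, LT ϖ f g := by
  have hm : ∀ x, IsLocalRing.residue R x = 0 ↔ ϖ ∣ x := fun x => by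
    rw [IsLocalRing.residue_eq_zero_iff, hϖ.maximalIdeal_eq, Ideal.mem_span_singleton]
  have := Fintype.ofFinite (IsLocalRing.ResidueField R)
  obtain ⟨p, hc, n, hp, hn⟩ := FiniteField.card' (IsLocalRing.ResidueField R)
  obtain ⟨h, e⟩ := H.red
  rw [Nat.card_eq_fintype_card] at e
  obtain ⟨c, hc'⟩ := (hm (Fintype.card (IsLocalRing.ResidueField R) : R)).1 (by
    rw [map_natCast, FiniteField.cast_card_eq_zero])
  have h0 := (hm ϖ).2 dvd_rfl
  refine ⟨Polynomial.C c * Polynomial.X ^ (Fintype.card (IsLocalRing.ResidueField R) - 1) +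
    Polynomial.derivative h, H.c0, H.c1, fun r hr => (mul_eq_zero.1 hr).resolve_left hϖ.ne_zero,
    fun m => ?_, fun σ _ Ψ d => ?_, ?_⟩
  · by_contra h1
    have h2 := (IsLocalRing.residue_eq_zero_iff _).2 ((IsLocalRing.mem_maximalIdeal _).2 h1)
    rw [map_sub, map_pow, h0, zero_pow (Nat.succ_ne_zero m), map_one, zero_sub, neg_eq_zero] at h2
    exact one_ne_zero h2
  · have : ExpChar (IsLocalRing.ResidueField R) p := ExpChar.prime hp
    have e1 : ∀ x : MvPowerSeries σ R, map (IsLocalRing.residue R) (Polynomial.aeval x f) =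
        map (IsLocalRing.residue R) x ^ p ^ (n : ℕ) := fun x => by
      rw [e, map_add, map_mul, map_pow, Polynomial.aeval_X, Polynomial.aeval_C, map_add, map_mul,
        map_pow, hn, ← c_eq_algebraMap, map_C, h0, map_zero, zero_mul, add_zero]
    have e2 : iterateFrobenius (IsLocalRing.ResidueField R) p n = RingHom.id _ :=
      RingHom.ext fun x => by rw [iterateFrobenius_def, ← hn, FiniteField.pow_card]; rfl
    rw [← hm, ← coeff_map, map_sub, e1, ph,
      map_subst (Od.hasSubst fun i => od_aeval H.c0 (od_X i)),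
      ← map_iterateFrobenius_expand p hp.ne_zero, e2, map_id]
    simp only [e1, map_X, expand, substAlgHom_apply, RingHom.id_apply, sub_self, map_zero]
  · conv_lhs => rw [e]
    rw [map_add, Polynomial.derivative_X_pow, Polynomial.derivative_C_mul, hc', map_mul]
    ring

end Vale.Agent.P022K.FI.Lt
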