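import Vale.Agent.P022K.FI.Lt1
import Mathlib.RingTheory.PowerSeries.Evaluation
import Mathlib.Algebra.Module.MinimalAxioms
import Mathlib.Algebra.Group.MinimalAxioms

/-!
# P022K / FI / Lt2 : the module of points of a formal module of Lubin and Tate
-/

set_option linter.unusedSectionVars false
set_option linter.style.haveILetI false

noncomputable section

namespace Vale.Agent.P022K.FI.Lt

open MvPowerSeries
open scoped MvPowerSeries.WithPiTopology

variable {σ τ R S T : Type} [CommRing R]
  [CommRing S] [UniformSpace S] [IsUniformAddGroup S] [IsTopologicalRing S] [IsLinearTopology S S]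
  [T2Space S] [CompleteSpace S] [Algebra R S]
  [CommRing T] [UniformSpace T] [IsUniformAddGroup T] [IsTopologicalRing T] [IsLinearTopology T T]
  [T2Space T] [CompleteSpace T] [Algebra R T]

/-- evaluation of a series with coefficients in a discrete ring -/
def evm {x : σ → S} (hx : HasEval x) : MvPowerSeries σ R →ₐ[R] S :=
  letI : UniformSpace R := ⊥
  haveI : ContinuousSMul R S := DiscreteTopology.instContinuousSMul R S
  aeval hx

theorem evm_X {x : σ → S} (hx : HasEval x) (i : σ) : evm (R := R) hx (X i) = x i := by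
  letI : UniformSpace R := ⊥
  haveI : ContinuousSMul R S := DiscreteTopology.instContinuousSMul R S
  rw [evm, coe_aeval, eval₂_X]

theorem map_evm {x : σ → S} (hx : HasEval x) {ε : S →ₐ[R] T} (hε : Continuous ε)
    (h : MvPowerSeries σ R) : ε (evm hx h) = evm (hx.map hε) h := by
  letI : UniformSpace R := ⊥
  haveI : ContinuousSMul R S := DiscreteTopology.instContinuousSMul R S
  haveI : ContinuousSMul R T := DiscreteTopology.instContinuousSMul R T
  exact DFunLike.congr_fun (comp_aeval hx hε) h

theorem nil_evm {x : σ → S} (hx : HasEval x) {h : MvPowerSeries σ R} (h0 : Od 1 h) :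
    IsTopologicallyNilpotent (evm hx h) := by
  letI : UniformSpace R := ⊥
  haveI : ContinuousSMul R S := DiscreteTopology.instContinuousSMul R S
  exact IsTopologicallyNilpotent.map (φ := (aeval hx : MvPowerSeries σ R →ₐ[R] S))
    (continuous_aeval hx)
    (WithPiTopology.isTopologicallyNilpotent_of_constantCoeff_zero (od_one.1 h0))

theorem evm_subst {a : σ → MvPowerSeries τ R} (ha : HasSubst a) {x : τ → S} (hx : HasEval x)
    (hy : HasEval fun i => evm hx (a i)) (h : MvPowerSeries σ R) :
    evm hx (subst a h) = evm hy h := by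
  letI : UniformSpace R := ⊥
  haveI : ContinuousSMul R S := DiscreteTopology.instContinuousSMul R S
  exact comp_subst_apply ha (continuous_aeval hx) h

theorem hasSum_evm {x : S} (hx : HasEval fun _ : Unit => x) (h : PowerSeries R) :
    HasSum (fun n => PowerSeries.coeff n h • x ^ n) (evm hx h) := by
  letI : UniformSpace R := ⊥
  haveI : ContinuousSMul R S := DiscreteTopology.instContinuousSMul R S
  exact PowerSeries.hasSum_aeval (PowerSeries.hasEval_iff.2 hx) h

theorem hasEval_of [Finite σ] {x : σ → S} (h : ∀ i, IsTopologicallyNilpotent (x i)) : HasEval x :=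
  ⟨h, by rw [Filter.cofinite_eq_bot]; exact Filter.tendsto_bot⟩

namespace LT

variable {ϖ : R} {f g : Polynomial R} (H : LT ϖ f g)

variable (S) in
/-- the points with values in `S` -/
@[ext] structure Pt (H : LT ϖ f g) : Type where
  /-- the coordinate -/
  x : S
  nil : IsTopologicallyNilpotent x

variable {H}

theorem hv [Finite σ] (v : σ → H.Pt S) : HasEval fun i => (v i).x := hasEval_of fun i => (v i).nil

/-- the linear combination of points -/
def pr [Fintype σ] (v : σ → H.Pt S) (c : σ → R) : H.Pt S :=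
  ⟨evm (hv v) (H.ser c), nil_evm _ (H.od_ser c)⟩

theorem pr_pr [Fintype σ] [Fintype τ] (v : τ → H.Pt S) (c : σ → R) (d : σ → τ → R) :
    pr (fun i => pr v (d i)) c = pr v fun j => ∑ i, c i * d i j :=
  Pt.ext (by
    change evm _ _ = evm _ _
    rw [← H.ser_subst, evm_subst (Od.hasSubst fun i => H.od_ser (d i))]
    rfl)

theorem pr_single [Fintype σ] [DecidableEq σ] (v : σ → H.Pt S) (j : σ) :
    pr v (Pi.single j 1) = v j :=
  Pt.ext (by
    change evm _ _ = _
    rw [H.ser_single, evm_X])

instance : Zero (H.Pt S) := ⟨⟨0, IsTopologicallyNilpotent.zero⟩⟩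
instance : Add (H.Pt S) := ⟨fun x y => pr ![x, y] fun _ => 1⟩
instance : SMul R (H.Pt S) := ⟨fun a x => pr (fun _ : Unit => x) fun _ => a⟩
instance : Neg (H.Pt S) := ⟨fun x => (-1 : R) • x⟩

theorem zero_x : (0 : H.Pt S).x = 0 := rfl

theorem pr_zero [Fintype σ] (v : σ → H.Pt S) : pr v 0 = 0 :=
  Pt.ext (by
    change evm _ _ = 0
    rw [H.eq_ser (c := 0) (x := 0) (by simpa [lin] using od_zero 2) (by
      rw [ph, ← substAlgHom_apply H.hs, map_zero, Polynomial.aeval_def, Polynomial.eval₂_at_zero,
        H.c0, map_zero]), map_zero])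

theorem pr_add [Fintype σ] (v : σ → H.Pt S) (c d : σ → R) : pr v (c + d) = pr v c + pr v d := by
  have h := pr_pr v (fun _ : Fin 2 => 1) ![c, d]
  simp only [one_mul, Fin.sum_univ_two, Matrix.cons_val_zero, Matrix.cons_val_one] at h
  refine h.symm.trans (congrArg (pr · _) (funext fun i => ?_))
  fin_cases i <;> rfl

theorem pr_smul [Fintype σ] (v : σ → H.Pt S) (a : R) (c : σ → R) : pr v (a • c) = a • pr v c := by
  have h := pr_pr v (fun _ : Unit => a) fun _ => c
  simp only [Fintype.sum_unique] at h
  exact h.symm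

theorem three (x y z : H.Pt S) :
    ∃ (v : Fin 3 → H.Pt S) (a b c : Fin 3 → R), x = pr v a ∧ y = pr v b ∧ z = pr v c :=
  ⟨![x, y, z], _, _, _, (pr_single ![x, y, z] 0).symm, (pr_single ![x, y, z] 1).symm,
    (pr_single ![x, y, z] 2).symm⟩

instance : AddCommGroup (H.Pt S) :=
  { AddGroup.ofLeftAxioms
      (fun x y z => by
        obtain ⟨v, a, b, c, rfl, rfl, rfl⟩ := three x y z
        simp only [← pr_add, add_assoc])
      (fun x => by
        obtain ⟨v, a, b, c, rfl, -, -⟩ := three x x x
        rw [← pr_zero v, ← pr_add, zero_add])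
      (fun x => by
        obtain ⟨v, a, b, c, rfl, -, -⟩ := three x x x
        change (-1 : R) • pr v a + _ = _
        rw [← pr_smul, ← pr_add, neg_one_smul, neg_add_cancel, pr_zero]) with
    add_comm := fun x y => by
      obtain ⟨v, a, b, c, rfl, rfl, -⟩ := three x y x
      change pr v a + pr v b = pr v b + pr v a
      rw [← pr_add, ← pr_add, add_comm] }

instance : Module R (H.Pt S) :=
  Module.ofMinimalAxioms
    (fun r x y => by
      obtain ⟨v, a, b, c, rfl, rfl, -⟩ := three x y x
      simp only [← pr_add, ← pr_smul, smul_add])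
    (fun r s x => by
      obtain ⟨v, a, b, c, rfl, -, -⟩ := three x x x
      simp only [← pr_add, ← pr_smul, add_smul])
    (fun r s x => by
      obtain ⟨v, a, b, c, rfl, -, -⟩ := three x x x
      simp only [← pr_smul, mul_smul])
    (fun x => by
      obtain ⟨v, a, b, c, rfl, -, -⟩ := three x x x
      rw [← pr_smul, one_smul])

theorem smul_x (a : R) (x : H.Pt S) : (a • x).x = evm (hv fun _ : Unit => x) (H.br a) := rfl

theorem pi_x (x : H.Pt S) : (ϖ • x).x = Polynomial.aeval x.x f := by
  rw [smul_x, H.br_pi, ← aeval_X_eq, ← Polynomial.aeval_algHom_apply, evm_X]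

theorem pow_x (n : ℕ) (x : H.Pt S) : (ϖ ^ n • x).x = Polynomial.aeval x.x (f.comp^[n] Polynomial.X) := by
  induction n with
  | zero => simp
  | succ n ih => rw [pow_succ', mul_smul, pi_x, ih, Function.iterate_succ_apply', Polynomial.aeval_comp]

/-- the map induced by a continuous homomorphism -/
def mp0 (ε : S →ₐ[R] T) (hε : Continuous ε) (x : H.Pt S) : H.Pt T := ⟨ε x.x, x.nil.map hε⟩

theorem mp0_pr [Fintype σ] (ε : S →ₐ[R] T) (hε : Continuous ε) (v : σ → H.Pt S) (c : σ → R) :
    mp0 ε hε (pr v c) = pr (fun i => mp0 ε hε (v i)) c := Pt.ext (map_evm (hv v) hε _)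

/-- the map induced by a continuous homomorphism -/
def mp (ε : S →ₐ[R] T) (hε : Continuous ε) : H.Pt S →ₗ[R] H.Pt T where
  toFun := mp0 ε hε
  map_add' x y := (mp0_pr ε hε ![x, y] _).trans (congrArg (pr · fun _ => 1) (funext fun i => by
      fin_cases i <;> rfl))
  map_smul' _ _ := mp0_pr ε hε _ _

theorem mp_x (ε : S →ₐ[R] T) (hε : Continuous ε) (x : H.Pt S) : (mp ε hε x).x = ε x.x := rfl

end LT

end Vale.Agent.P022K.FI.Lt
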