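import Vale.Agent.P022K.FI.Lt2
import Vale.Agent.P022K.FI.Lt3
import Mathlib.LinearAlgebra.Lagrange

/-!
# P022K / FI / Lt4 : torsion points, translations, interpolation of characters
-/

set_option linter.all false

noncomputable section

open PowerSeries Filter Topology

namespace Vale.Agent.P022K.FI.Lt

variable {O C : Type} [CommRing O] [NontriviallyNormedField C] [IsUltrametricDist C]

variable (C) in
/-- the closed unit ball -/
def Ub : Subring C where
  carrier := {x | ‖x‖ ≤ 1}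
  mul_mem' ha hb := by
    rw [Set.mem_setOf_eq, norm_mul]; exact mul_le_one₀ ha (norm_nonneg _) hb
  one_mem' := norm_one.le
  add_mem' ha hb := (IsUltrametricDist.norm_add_le_max _ _).trans (max_le ha hb)
  zero_mem' := by simp
  neg_mem' ha := by simpa using ha

instance [CompleteSpace C] : CompleteSpace (Ub C) :=
  (isClosed_le continuous_norm continuous_const).completeSpace_coe

instance : IsUniformAddGroup (Ub C) := (Ub C).toAddSubgroup.isUniformAddGroup

/-- open balls -/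
def bl (ε : {ε : ℝ // 0 < ε}) : Ideal (Ub C) where
  carrier := Metric.ball 0 ε
  add_mem' {a b} ha hb := by
    rw [mem_ball_zero_iff] at *
    exact (IsUltrametricDist.norm_add_le_max (a : C) b).trans_lt (max_lt ha hb)
  zero_mem' := Metric.mem_ball_self ε.2
  smul_mem' c x hx := by
    rw [mem_ball_zero_iff] at *
    exact (norm_mul (c : C) x).trans_lt
      ((mul_le_of_le_one_left (norm_nonneg _) c.2).trans_lt hx)

instance : IsLinearTopology (Ub C) (Ub C) :=
  IsLinearTopology.mk_of_hasBasis (Ub C) (p := fun _ => True) (s := bl)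
    (Metric.nhds_basis_ball.to_hasBasis (fun ε h => ⟨⟨ε, h⟩, trivial, le_rfl⟩)
      fun ε _ => ⟨ε.1, ε.2, le_rfl⟩)

theorem nil_iff (x : Ub C) : IsTopologicallyNilpotent x ↔ ‖(x : C)‖ < 1 := by
  rw [IsTopologicallyNilpotent, tendsto_subtype_rng]
  simpa using tendsto_pow_atTop_nhds_zero_iff_norm_lt_one (x := (x : C))

variable [Algebra O C] [hF : Fact (∀ o : O, ‖algebraMap O C o‖ ≤ 1)]

instance : Algebra O (Ub C) := ((algebraMap O C).codRestrict (Ub C) hF.out).toAlgebra

variable (C) in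
/-- extension of the coefficients -/
def mS : O⟦X⟧ →+* C⟦X⟧ := PowerSeries.map (algebraMap O C)

theorem io_mS (h : O⟦X⟧) : Io (mS C h) := fun n => by rw [mS, coeff_map]; exact hF.out _

omit hF in
theorem cc_mS (h : O⟦X⟧) : constantCoeff (mS C h) = algebraMap O C (constantCoeff h) := by
  rw [← coeff_zero_eq_constantCoeff_apply, mS, coeff_map, coeff_zero_eq_constantCoeff_apply]

omit hF in
theorem mS_coe (P : Polynomial O) : mS C (P : O⟦X⟧) = (P.map (algebraMap O C) : Polynomial C) :=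
  Polynomial.polynomial_map_coe.symm

omit hF in
theorem ev_mS (a : C) (P : Polynomial O) : ev a (mS C (P : O⟦X⟧)) = Polynomial.aeval a P := by
  rw [mS_coe, ev_poly, Polynomial.aeval_map_algebraMap]

omit hF in
theorem d_mS (h : O⟦X⟧) : d⁄dX C (mS C h) = mS C (d⁄dX O h) := by
  ext n; simp [mS, coeff_derivative]

variable [CompleteSpace C] {ϖ : O} {q : ℕ} {f g : Polynomial O}

namespace LT

variable (C) in
/-- the module of points in the open unit disc -/
def Mc (H : LT ϖ f g) : Type := H.Pt (Ub C)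

variable {H : LT ϖ f g}

instance : AddCommGroup (H.Mc C) := inferInstanceAs (AddCommGroup (H.Pt (Ub C)))
instance : Module O (H.Mc C) := inferInstanceAs (Module O (H.Pt (Ub C)))

/-- the coordinate of a point -/
def vl (x : H.Mc C) : C := (Pt.x (S := Ub C) x : Ub C)

theorem vl_lt (x : H.Mc C) : ‖vl x‖ < 1 := (nil_iff _).1 (Pt.nil x)

theorem vl_inj : Function.Injective (vl : H.Mc C → C) := fun _ _ e => Pt.ext (Subtype.ext e)

variable (H) in
/-- the point with a given coordinate -/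
def pt (a : C) (ha : ‖a‖ < 1) : H.Mc C := ⟨⟨a, ha.le⟩, (nil_iff _).2 ha⟩

theorem vl_pt (a : C) (ha : ‖a‖ < 1) : vl (H.pt a ha) = a := rfl

theorem vl_zero : vl (0 : H.Mc C) = 0 := rfl

theorem vl_smul (a : O) (x : H.Mc C) : vl (a • x) = ev (vl x) (mS C (H.br a)) := by
  have h := (hasSum_evm (hv fun _ : Unit => x) (H.br a)).map (Ub C).subtype continuous_subtype_val
  refine h.tsum_eq.symm.trans (tsum_congr fun n => ?_)
  simp [mS, Algebra.smul_def]
  rfl

theorem vl_pow (n : ℕ) (x : H.Mc C) :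
    vl (ϖ ^ n • x) = Polynomial.aeval (vl x) (f.comp^[n] Polynomial.X) := by
  let ε : Ub C →ₐ[O] C := { (Ub C).subtype with commutes' := fun _ => rfl }
  exact (congrArg ε (pow_x n x)).trans (Polynomial.aeval_algHom_apply ε _ _).symm

theorem hasSum_add (x y : H.Mc C) (i : ℕ) :
    HasSum (fun d : Fin 2 →₀ ℕ => algebraMap O C (MvPowerSeries.coeff d (H.ser (fun _ => 1) ^ i)) *
      vl y ^ d 1 * vl x ^ d 0) (vl (x + y) ^ i) := by
  letI : UniformSpace O := ⊥
  haveI : ContinuousSMul O (Ub C) := DiscreteTopology.instContinuousSMul O _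
  have h := (MvPowerSeries.hasSum_aeval (hv ![x, y]) (H.ser (fun _ => 1) ^ i)).map (Ub C).subtype
    continuous_subtype_val
  rw [map_pow, map_pow] at h
  convert h using 2 with d
  · rw [Function.comp_apply, Finsupp.prod_fintype _ _ (by simp), Fin.prod_univ_two, Algebra.smul_def,
      map_mul, map_mul, mul_right_comm, mul_assoc]
    rfl
  · rfl

/-- translation by a point -/
def tr (a : H.Mc C) : C⟦X⟧ :=
  PowerSeries.mk fun i => ∑' d : (fun d : Fin 2 →₀ ℕ => d 0) ⁻¹' {i},
    algebraMap O C (MvPowerSeries.coeff d.1 (H.ser fun _ => 1)) * vl a ^ d.1 1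

theorem ev_tr (a b : H.Mc C) : ev (vl b) (tr a) = vl (b + a) := by
  have h := (hasSum_add b a 1).tsum_fiberwise fun d => d 0
  simp only [pow_one] at h
  refine Eq.trans (tsum_congr fun i => ?_) h.tsum_eq
  rw [tr, coeff_mk, smul_eq_mul, ← tsum_mul_right]
  exact tsum_congr fun d => by rw [show d.1 0 = i from d.2]

theorem cc_tr (a : H.Mc C) : constantCoeff (tr a) = vl a := by
  have h := ev_tr a 0
  rwa [vl_zero, ev_zero_left, zero_add] at h

theorem sm_tr (a : H.Mc C) : Sm (tr a) :=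
  ⟨fun n => by
    rw [tr, coeff_mk]
    refine IsUltrametricDist.norm_tsum_le_of_forall_le_of_nonneg zero_le_one fun d => ?_
    rw [norm_mul, norm_pow]
    exact mul_le_one₀ (hF.out _) (by positivity) (pow_le_one₀ (norm_nonneg _) (vl_lt a).le),
   by rw [cc_tr]; exact vl_lt a⟩

theorem sm_br (a : O) : Sm (mS C (H.br a)) := ⟨io_mS _, by rw [cc_mS, H.br_zero]; simp⟩

end LT

variable (C) in
/-- the analytic setting -/
structure Su (ϖ : O) (q : ℕ) (f g : Polynomial O) : Prop where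
  lt : LT ϖ f g
  is : IsLT ϖ q f
  q2 : 2 ≤ q
  lt1 : ‖algebraMap O C ϖ‖ < 1
  ne0 : algebraMap O C ϖ ≠ 0

/-- the iterates -/
def un (f : Polynomial O) (n : ℕ) : Polynomial O := f.comp^[n] Polynomial.X

omit hF in
theorem un_succ (n : ℕ) : un f (n + 1) = f.comp (un f n) := Function.iterate_succ_apply' _ _ _

namespace Su

open LT

variable [IsDomain O] (S : Su C ϖ q f g)
include S

theorem un_mon (n : ℕ) : (un f n).Monic ∧ (un f n).natDegree = q ^ n := by
  induction n with
  | zero => exact ⟨Polynomial.monic_X, Polynomial.natDegree_X⟩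
  | succ n ih =>
    have := S.q2
    rw [un_succ, Polynomial.natDegree_comp, ih.2, S.is.deg, pow_succ']
    exact ⟨S.is.mon.comp ih.1 (by rw [ih.2]; positivity), rfl⟩

theorem big {x : C} (hx : 1 ≤ ‖x‖) : 1 ≤ ‖Polynomial.aeval x f‖ := by
  obtain ⟨h, e⟩ := S.is.red
  have h1 : ‖∑ i ∈ Finset.range q, algebraMap O C (f.coeff i) * x ^ i‖ < ‖x ^ q‖ := by
    rw [norm_pow]
    refine norm_sum_lt _ _ (by positivity) fun i hi => ?_
    have hi' := Finset.mem_range.1 hi
    rw [e, Polynomial.coeff_add, Polynomial.coeff_X_pow, if_neg hi'.ne, zero_add,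
      Polynomial.coeff_C_mul, map_mul, norm_mul, norm_mul, norm_pow]
    calc _ ≤ ‖algebraMap O C ϖ‖ * 1 * ‖x‖ ^ q := by gcongr; exact hF.out _
      _ < 1 * 1 * ‖x‖ ^ q := by gcongr; exact S.lt1
      _ = _ := by ring
  have h2 : Polynomial.aeval x f =
      x ^ q + ∑ i ∈ Finset.range q, algebraMap O C (f.coeff i) * x ^ i := by
    conv_lhs => rw [S.is.mon.as_sum, S.is.deg]
    simp
  rw [h2, IsUltrametricDist.norm_add_eq_max_of_norm_ne_norm h1.ne', norm_pow]
  exact le_max_of_le_left (one_le_pow₀ hx)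

theorem big_un (n : ℕ) {x : C} (hx : 1 ≤ ‖x‖) : 1 ≤ ‖Polynomial.aeval x (un f n)‖ := by
  induction n with
  | zero => simpa [un] using hx
  | succ n ih => rw [un_succ, Polynomial.aeval_comp]; exact S.big ih

theorem der_ne (n : ℕ) (x : S.lt.Mc C) :
    Polynomial.aeval (vl x) (Polynomial.derivative (un f n)) ≠ 0 := by
  induction n with
  | zero => simp [un]
  | succ n ih =>
    rw [un_succ, Polynomial.derivative_comp, map_mul, Polynomial.aeval_comp, S.lt.der, map_mul,
      Polynomial.aeval_C, un, ← vl_pow]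
    refine mul_ne_zero ih (mul_ne_zero S.ne0 fun e => ?_)
    have h := (io_mS (C := C) (g : O⟦X⟧)).norm_ev_sub (vl_lt (ϖ ^ n • x))
    rw [ev_mS, e, cc_mS, Polynomial.constantCoeff_coe, S.lt.g0] at h
    exact absurd (h.trans_lt (vl_lt _)) (by simp)

theorem gn_un {ρ : ℝ} (h0 : 0 < ρ) (h1 : ρ < 1) :
    Tendsto (fun n => gn ρ (mS C (un f n : O⟦X⟧))) atTop (𝓝 0) := by
  obtain ⟨h, e⟩ := S.is.red
  obtain ⟨k, hk⟩ := Nat.exists_eq_add_of_le' S.q2
  have c0 : h.coeff 0 = 0 := S.lt.reg _ (by simpa [e, hk] using S.lt.c0)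
  obtain ⟨h', rfl⟩ := Polynomial.X_dvd_iff.2 c0
  have hθ : max ρ ‖algebraMap O C ϖ‖ < 1 := max_lt h1 S.lt1
  have u0 : ∀ n, (un f n).coeff 0 = 0 := fun n => by
    induction n with
    | zero => simp [un]
    | succ n ih => rw [un_succ, Polynomial.coeff_zero_eq_eval_zero, Polynomial.eval_comp,
        ← Polynomial.coeff_zero_eq_eval_zero, ih, ← Polynomial.coeff_zero_eq_eval_zero, S.lt.c0]
  have cv : ∀ P : Polynomial O, Cv ρ (mS C (P : O⟦X⟧)) := fun P => (io_mS _).ou ρ h0 h1
  have key : ∀ n, gn ρ (mS C (un f n : O⟦X⟧)) ≤ max ρ ‖algebraMap O C ϖ‖ ^ n := fun n => by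
    induction n with
    | zero => simpa using (io_mS _).gn_le h0 h1
    | succ n ih =>
      have e2 : un f (n + 1) = un f n * (un f n * un f n ^ k + Polynomial.C ϖ * h'.comp (un f n)) := by
        rw [un_succ]
        generalize un f n = u
        rw [e, hk]
        simp
        ring
      rw [e2, Polynomial.coe_mul, map_mul, gn_mul h0 (cv _) (cv _), pow_succ]
      refine mul_le_mul ih ?_ (gn_nonneg h0 _) (by positivity)
      rw [Polynomial.coe_add, map_add]
      refine (gn_add_le h0 (cv _) (cv _)).trans (max_le_max ?_ ?_)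
      · exact (io_mS _).gn_le' h0 h1 (by simp [cc_mS, u0, h0.le])
      · rw [Polynomial.coe_mul, map_mul, gn_mul h0 (cv _) (cv _), Polynomial.coe_C, mS, map_C, gn_C h0]
        exact mul_le_of_le_one_right (norm_nonneg _) ((io_mS _).gn_le h0 h1)
  exact squeeze_zero (fun n => gn_nonneg h0 _) key
    (tendsto_pow_atTop_nhds_zero_of_lt_one (by positivity) hθ)

theorem mem_roots (n : ℕ) (a : C) : a ∈ ((un f n).map (algebraMap O C)).roots ↔
    ∃ x : S.lt.Mc C, ϖ ^ n • x = 0 ∧ vl x = a := by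
  rw [Polynomial.mem_roots ((S.un_mon n).1.map _).ne_zero, Polynomial.IsRoot,
    Polynomial.eval_map_algebraMap]
  refine ⟨fun h => ?_, ?_⟩
  · have ha : ‖a‖ < 1 := not_le.1 fun e => by
      have := S.big_un n e
      rw [h, norm_zero] at this
      exact absurd this (by norm_num)
    exact ⟨S.lt.pt a ha, vl_inj (by rw [vl_pow]; exact h), rfl⟩
  · rintro ⟨x, h, rfl⟩
    rw [un, ← vl_pow, h, vl_zero]

theorem nodup (n : ℕ) : ((un f n).map (algebraMap O C)).roots.Nodup := by
  classical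
  refine Multiset.nodup_iff_count_le_one.2 fun a => not_lt.1 fun h => ?_
  obtain ⟨x, -, rfl⟩ := (S.mem_roots n a).1 (Multiset.count_pos.1 (by omega))
  rw [Polynomial.count_roots, Polynomial.one_lt_rootMultiplicity_iff_isRoot
    ((S.un_mon n).1.map _).ne_zero, Polynomial.derivative_map] at h
  exact S.der_ne n x (by rw [← Polynomial.eval_map_algebraMap]; exact h.2)

theorem fin (n : ℕ) : {x : S.lt.Mc C | ϖ ^ n • x = 0}.Finite := by
  classical
  refine Set.Finite.of_finite_image (f := vl) ?_ vl_inj.injOn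
  exact ((un f n).map (algebraMap O C)).roots.toFinset.finite_toSet.subset fun a ha => by
    simpa using (S.mem_roots n a).2 ha

/-- the points killed by the `n`-th power of the uniformiser -/
def A (n : ℕ) : Finset (S.lt.Mc C) := (S.fin n).toFinset

theorem mem_A {n : ℕ} {x : S.lt.Mc C} : x ∈ S.A n ↔ ϖ ^ n • x = 0 := by simp [A]

theorem A_val (n : ℕ) : (S.A n).val.map vl = ((un f n).map (algebraMap O C)).roots :=
  (Multiset.Nodup.ext ((S.A n).nodup.map vl_inj) (S.nodup n)).2 fun a => by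
    simp [S.mem_roots, S.mem_A]

/-- torsion points -/
def Tor (x : S.lt.Mc C) : Prop := ∃ n, ϖ ^ n • x = 0

theorem A_mono {n m : ℕ} (h : n ≤ m) {x : S.lt.Mc C} (hx : ϖ ^ n • x = 0) : ϖ ^ m • x = 0 := by
  obtain ⟨k, rfl⟩ := Nat.exists_eq_add_of_le' h
  rw [pow_add, mul_smul, hx, smul_zero]

variable {S} in
theorem Tor.add {x y : S.lt.Mc C} (hx : S.Tor x) (hy : S.Tor y) : S.Tor (x + y) := by
  obtain ⟨n, hn⟩ := hx
  obtain ⟨m, hm⟩ := hy
  exact ⟨n + m, by rw [smul_add, S.A_mono (by omega) hn, S.A_mono (by omega) hm, add_zero]⟩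

variable {S} in
theorem Tor.smul {x : S.lt.Mc C} (hx : S.Tor x) (a : O) : S.Tor (a • x) :=
  hx.imp fun n hn => by rw [smul_comm, hn, smul_zero]

theorem tor_zero : S.Tor 0 := ⟨0, smul_zero _⟩

variable [IsAlgClosed C]

theorem card_A (n : ℕ) : (S.A n).card = q ^ n := by
  rw [← (S.un_mon n).2, ← (S.un_mon n).1.natDegree_map (algebraMap O C),
    ← IsAlgClosed.card_roots_eq_natDegree, ← A_val, Multiset.card_map, Finset.card_def]

theorem pi_surj (y : S.lt.Mc C) : ∃ x, ϖ • x = y := by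
  have h2 := S.q2
  have hd : (f.map (algebraMap O C) - Polynomial.C (vl y)).degree ≠ 0 := by
    rw [Polynomial.degree_sub_C, Polynomial.degree_eq_natDegree (S.is.mon.map _).ne_zero,
      S.is.mon.natDegree_map, S.is.deg]
    · exact_mod_cast (by omega : q ≠ 0)
    · rw [Polynomial.degree_eq_natDegree (S.is.mon.map _).ne_zero, S.is.mon.natDegree_map, S.is.deg]
      exact_mod_cast (by omega : 0 < q)
  obtain ⟨a, ha⟩ := IsAlgClosed.exists_root _ hd
  rw [Polynomial.IsRoot, Polynomial.eval_sub, Polynomial.eval_C, sub_eq_zero,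
    Polynomial.eval_map_algebraMap] at ha
  have h1 : ‖a‖ < 1 := not_le.1 fun e => absurd (ha ▸ S.big e) (not_le.2 (vl_lt y))
  refine ⟨S.lt.pt a h1, vl_inj ?_⟩
  have := vl_pow 1 (S.lt.pt a h1)
  rw [pow_one] at this
  rw [this, ← ha]
  simp [vl_pt]

/-- an integral series vanishing on the points of level `n` is small -/
theorem gn_le_un {y : C⟦X⟧} (hy : Io y) (n : ℕ) (h : ∀ x ∈ S.A n, ev (vl x) y = 0) {ρ : ℝ}
    (h0 : 0 < ρ) (h1 : ρ < 1) : gn ρ y ≤ gn ρ (mS C (un f n : O⟦X⟧)) := by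
  obtain ⟨w, hw, e⟩ := hy.div_prod ⟨_, S.nodup n⟩ fun a ha => by
    obtain ⟨x, hx, rfl⟩ := (S.mem_roots n a).1 ha
    exact ⟨vl_lt x, h x (S.mem_A.2 hx)⟩
  rw [← coe_prod, Polynomial.prod_multiset_X_sub_C_of_monic_of_roots_card_eq ((S.un_mon n).1.map _)
    IsAlgClosed.card_roots_eq_natDegree, ← mS_coe] at e
  rw [e, gn_mul h0 (hw.ou ρ h0 h1) ((io_mS _).ou ρ h0 h1)]
  exact mul_le_of_le_one_left (gn_nonneg h0 _) (hw.gn_le h0 h1)

/-- the identity theorem for integral series -/
theorem ext {y y' : C⟦X⟧} (hy : Io y) (hy' : Io y')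
    (h : ∀ x, S.Tor x → ev (vl x) y = ev (vl x) y') : y = y' := by
  refine sub_eq_zero.1 ((gn_eq_zero one_half_pos ((hy.sub hy').ou _ one_half_pos one_half_lt_one)).1
    (le_antisymm ?_ (gn_nonneg one_half_pos _)))
  refine ge_of_tendsto' (S.gn_un one_half_pos one_half_lt_one) fun n =>
    S.gn_le_un (hy.sub hy') n (fun x hx => ?_) one_half_pos one_half_lt_one
  rw [hy.ou.ev_sub hy'.ou (vl_lt x), h x ⟨n, S.mem_A.1 hx⟩, sub_self]

theorem conv (n : ℕ) (c d φ : S.lt.Mc C → C) :
    ∑ z ∈ S.A n, (∑ a ∈ S.A n, c a * d (z - a)) * φ z =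
      ∑ a ∈ S.A n, ∑ b ∈ S.A n, c a * d b * φ (a + b) := by
  simp only [Finset.sum_mul]
  rw [Finset.sum_comm]
  refine Finset.sum_congr rfl fun a ha => Finset.sum_nbij' (fun z => z - a) (fun b => a + b)
    (fun z hz => ?_) (fun b hb => ?_) (fun z _ => by simp) (fun b _ => by simp) fun z _ => by simp
  · rw [S.mem_A] at *; rw [smul_sub, ha, hz, sub_self]
  · rw [S.mem_A] at *; rw [smul_add, ha, hb, add_zero]

/-- characters are interpolated by integral polynomials -/
theorem interp [DecidableEq (S.lt.Mc C)] (n : ℕ) (χ : S.lt.Mc C → C)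
    (hχ : ∀ a ∈ S.A n, ∀ b ∈ S.A n, χ (a + b) = χ a * χ b) :
    Io ((Lagrange.interpolate (S.A n) vl χ : Polynomial C) : C⟦X⟧) := by
  let L : (S.lt.Mc C → C) → Prop := fun c => ∀ i, ‖∑ a ∈ S.A n, c a * vl a ^ i‖ ≤ 1
  let ch : (S.lt.Mc C → C) → C := fun c => ∑ a ∈ S.A n, c a * χ a
  have h1 : ∀ c d, L c → L d → ∃ e, L e ∧ ch e = ch c * ch d := fun c d hc hd => by
    refine ⟨fun z => ∑ a ∈ S.A n, c a * d (z - a), fun i => ?_, ?_⟩
    · rw [S.conv n c d fun z => vl z ^ i]
      have h := hasSum_sum (s := S.A n) fun a _ => hasSum_sum (s := S.A n) fun b _ =>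
        (hasSum_add a b i).mul_left (c a * d b)
      rw [← h.tsum_eq]
      refine IsUltrametricDist.norm_tsum_le_of_forall_le_of_nonneg zero_le_one fun k => ?_
      have e : ∀ t : C, ∑ a ∈ S.A n, ∑ b ∈ S.A n, c a * d b * (t * vl b ^ k 1 * vl a ^ k 0) =
          t * ((∑ a ∈ S.A n, c a * vl a ^ k 0) * ∑ b ∈ S.A n, d b * vl b ^ k 1) := fun t => by
        rw [Finset.sum_mul_sum, Finset.mul_sum]
        refine Finset.sum_congr rfl fun a _ => ?_
        rw [Finset.mul_sum]
        exact Finset.sum_congr rfl fun b _ => by ring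
      rw [e, norm_mul, norm_mul]
      exact mul_le_one₀ (hF.out _) (by positivity) (mul_le_one₀ (hc _) (norm_nonneg _) (hd _))
    · refine (S.conv n c d χ).trans ?_
      rw [Finset.sum_mul_sum]
      exact Finset.sum_congr rfl fun a ha => Finset.sum_congr rfl fun b hb => by
        rw [hχ a ha b hb]; ring
  set P := Lagrange.interpolate (S.A n) vl χ with hP
  have h2 : ∀ c, L c → ‖ch c‖ ≤ ∑ i ∈ Finset.range (P.natDegree + 1), ‖P.coeff i‖ := fun c hc => by
    have e : ch c = ∑ i ∈ Finset.range (P.natDegree + 1),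
        P.coeff i * ∑ a ∈ S.A n, c a * vl a ^ i := by
      simp only [Finset.mul_sum]
      rw [Finset.sum_comm]
      refine Finset.sum_congr rfl fun a ha => ?_
      rw [← Lagrange.eval_interpolate_at_node χ vl_inj.injOn ha, ← hP, Polynomial.eval_eq_sum_range,
        Finset.mul_sum]
      exact Finset.sum_congr rfl fun i _ => by ring
    rw [e]
    refine norm_sum_le_of_le _ fun i _ => ?_
    rw [norm_mul]
    exact mul_le_of_le_one_right (norm_nonneg _) (hc i)
  have h3 : ∀ c, L c → ‖ch c‖ ≤ 1 := fun c hc => by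
    have h4 : ∀ m : ℕ, ∃ e, L e ∧ ch e = ch c ^ (m + 1) := fun m => by
      induction m with
      | zero => exact ⟨c, hc, by simp⟩
      | succ m ih =>
        obtain ⟨e, e1, e2⟩ := ih
        obtain ⟨e', e3, e4⟩ := h1 e c e1 hc
        exact ⟨e', e3, by rw [e4, e2, ← pow_succ]⟩
    by_contra h
    obtain ⟨m, hm⟩ := pow_unbounded_of_one_lt
      (∑ i ∈ Finset.range (P.natDegree + 1), ‖P.coeff i‖) (not_le.1 h)
    obtain ⟨e, e1, e2⟩ := h4 m
    have h5 := h2 e e1
    rw [e2, norm_pow] at h5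
    exact absurd (hm.trans_le (pow_le_pow_right₀ (not_le.1 h).le m.le_succ)) (not_lt.2 h5)
  have h6 : ∀ (r : S.lt.Mc C → C) i, (Lagrange.interpolate (S.A n) vl r).coeff i =
      ∑ a ∈ S.A n, (Lagrange.basis (S.A n) vl a).coeff i * r a := fun r i => by
    rw [Lagrange.interpolate_apply, Polynomial.finsetSum_coeff]
    exact Finset.sum_congr rfl fun a _ => by rw [Polynomial.coeff_C_mul, mul_comm]
  intro i
  rw [Polynomial.coeff_coe, hP, h6]
  refine h3 (fun a => (Lagrange.basis (S.A n) vl a).coeff i) fun j => ?_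
  have hm := (S.un_mon n).1
  rw [← h6, ← Lagrange.eq_interpolate_of_eval_eq (f := (Polynomial.X ^ j %ₘ un f n).map (algebraMap O C))
    _ vl_inj.injOn, Polynomial.coeff_map]
  · exact hF.out _
  · rw [S.card_A, ← (S.un_mon n).2, ← Polynomial.degree_eq_natDegree hm.ne_zero]
    exact Polynomial.degree_map_le.trans_lt (Polynomial.degree_modByMonic_lt _ hm)
  · intro a ha
    rw [Polynomial.eval_map_algebraMap, Polynomial.modByMonic_eq_sub_mul_div, map_sub, map_mul, un,
      ← vl_pow, S.mem_A.1 ha, vl_zero]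
    simp

/-- every character of the torsion points is an integral series -/
theorem exists_y (χ : S.lt.Mc C → C) (hχ : ∀ a b, S.Tor a → S.Tor b → χ (a + b) = χ a * χ b) :
    ∃ y : C⟦X⟧, Io y ∧ ∀ a, S.Tor a → ev (vl a) y = χ a := by
  classical
  let P : ℕ → C⟦X⟧ := fun n => (Lagrange.interpolate (S.A n) vl χ : Polynomial C)
  have hP : ∀ n, Io (P n) := fun n => S.interp n χ fun a ha b hb =>
    hχ a b ⟨n, S.mem_A.1 ha⟩ ⟨n, S.mem_A.1 hb⟩
  have hv : ∀ n m, n ≤ m → ∀ a, ϖ ^ n • a = 0 → ev (vl a) (P m) = χ a := fun n m h a ha => by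
    rw [ev_poly, Polynomial.coe_aeval_eq_eval]
    exact Lagrange.eval_interpolate_at_node χ vl_inj.injOn (S.mem_A.2 (S.A_mono h ha))
  obtain ⟨y, hy, h⟩ := exists_lim P hP (fun ρ n => gn ρ (mS C (un f n : O⟦X⟧)))
    (fun ρ h0 h1 => S.gn_un h0 h1) fun ρ h0 h1 n m hm =>
      S.gn_le_un ((hP m).sub (hP n)) n (fun x hx => by
        rw [(hP m).ou.ev_sub (hP n).ou (vl_lt x), hv n m hm x (S.mem_A.1 hx),
          hv n n le_rfl x (S.mem_A.1 hx), sub_self]) h0 h1
  refine ⟨y, hy, fun a ⟨n, hn⟩ => tendsto_nhds_unique (h _ (vl_lt a)) ?_⟩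
  exact tendsto_const_nhds.congr' (eventually_atTop.2 ⟨n, fun m hm => (hv n m hm a hn).symm⟩)

end Su

end Vale.Agent.P022K.FI.Lt
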