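import Vale.Agent.P022K.FI.Lt4
import Mathlib.Algebra.Category.Grp.Injective
import Mathlib.GroupTheory.FiniteAbelian.Duality
import Mathlib.RingTheory.RootsOfUnity.AlgebraicallyClosed

/-!
# P022K / FI / Lt5 : the logarithm, periods of characters, the torsion points as `E / O`
-/

set_option linter.all false

noncomputable section

open PowerSeries Filter Topology

namespace Vale.Agent.P022K.FI.Lt

variable {O C : Type} [CommRing O] [NontriviallyNormedField C] [IsUltrametricDist C]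
  [Algebra O C] [hF : Fact (∀ o : O, ‖algebraMap O C o‖ ≤ 1)] [CompleteSpace C]
  {ϖ : O} {q : ℕ} {f g : Polynomial O}

namespace LT

variable {H : LT ϖ f g}

theorem ext_pt [IsAlgClosed C] {y y' : C⟦X⟧} (hy : Ou y) (hy' : Ou y')
    (h : ∀ b : H.Mc C, ev (vl b) y = ev (vl b) y') : y = y' :=
  hy.ext hy' fun a ha => h (H.pt a ha)

theorem tr_zero [IsAlgClosed C] : tr (0 : H.Mc C) = X :=
  ext_pt (H := H) (sm_tr _).ou sm_X.ou fun b => by rw [ev_tr, add_zero, ev_X]

theorem tr_add [IsAlgClosed C] (a a' : H.Mc C) : tr (a + a') = cmp (tr a') (tr a) :=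
  ext_pt (H := H) (sm_tr _).ou ((sm_tr _).cmp (sm_tr _)).ou fun b => by
    rw [(sm_tr _).ev_cmp (sm_tr _).ou (vl_lt b), ev_tr, ev_tr, ev_tr, add_assoc, add_comm a]

theorem tr_br [IsAlgClosed C] (a : H.Mc C) (c : O) :
    cmp (tr a) (mS C (H.br c)) = cmp (mS C (H.br c)) (tr (c • a)) :=
  ext_pt (H := H) ((sm_tr _).cmp (sm_br c)).ou ((sm_br c).cmp (sm_tr _)).ou fun b => by
    rw [(sm_tr _).ev_cmp (sm_br c).ou (vl_lt b), (sm_br c).ev_cmp (sm_tr _).ou (vl_lt b), ev_tr,
      ← vl_smul, ← vl_smul, ev_tr, smul_add]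

theorem tr_red [IsAlgClosed C] (a : H.Mc C) (i : ℕ) : ‖coeff i (tr a - X)‖ ≤ ‖vl a‖ := by
  obtain ⟨b, b0, b1⟩ := NormedField.exists_norm_lt_one C
  have h : ∀ a : H.Mc C, Summable fun d : (fun d : Fin 2 →₀ ℕ => d 0) ⁻¹' {i} =>
      algebraMap O C (MvPowerSeries.coeff d.1 (H.ser fun _ => 1)) * vl a ^ d.1 1 := fun a => by
    refine (((hasSum_add (H.pt b b1) a 1).summable.subtype
      ((fun d : Fin 2 →₀ ℕ => d 0) ⁻¹' {i})).mul_right (b ^ i)⁻¹).congr fun d => ?_
    rw [Function.comp_apply, pow_one, show d.1 0 = i from d.2, vl_pt,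
      mul_inv_cancel_right₀ (pow_ne_zero _ (norm_pos_iff.1 b0))]
  rw [← tr_zero (H := H), map_sub, tr, tr, coeff_mk, coeff_mk, ← (h a).tsum_sub (h 0)]
  refine IsUltrametricDist.norm_tsum_le_of_forall_le_of_nonneg (norm_nonneg _) fun d => ?_
  rw [← mul_sub, norm_mul, vl_zero]
  refine (mul_le_of_le_one_left (norm_nonneg _) (hF.out _)).trans ?_
  rcases d.1 1 with _ | k
  · simp
  · rw [zero_pow k.succ_ne_zero, sub_zero, pow_succ, norm_mul, norm_pow]
    exact mul_le_of_le_one_left (norm_nonneg _) (pow_le_one₀ (norm_nonneg _) (vl_lt a).le)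

variable [CharZero C]

variable (C H) in
/-- the logarithm -/
def lg : C⟦X⟧ := itg (mS C H.om)

theorem cc_lg : constantCoeff (H.lg C) = 0 := cc_itg _

theorem d_lg : d⁄dX C (H.lg C) = mS C H.om := d_itg _

theorem ou_lg : Ou (H.lg C) := (io_mS _).ou_itg

theorem cc_om : constantCoeff (mS C H.om) = 1 := by rw [cc_mS, H.om_zero, map_one]

theorem cc_br (a : O) : constantCoeff (mS C (H.br a)) = 0 := by rw [cc_mS, H.br_zero, map_zero]

theorem lg_br (a : O) : (H.lg C).subst (mS C (H.br a)) = algebraMap O C a • H.lg C := by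
  refine derivative.ext ?_ ?_
  · have h := congrArg (mS C) (H.om_br a)
    rw [map_mul, map_mul, ← d_mS] at h
    rw [derivative_subst (FI.hs (cc_br a)), Derivation.map_smul, d_lg, smul_eq_C_mul]
    refine Eq.trans ?_ (h.trans (by rw [mS, map_C]))
    exact congrArg (· * _) (map_subst (H.hs_br a) _).symm
  · rw [FI.cc_subst (cc_br a), cc_lg, smul_eq_C_mul, map_mul, cc_lg, mul_zero]

theorem lg_tr [IsAlgClosed C] {a : H.Mc C} {c : O} (hc : algebraMap O C c ≠ 0) (h : c • a = 0) :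
    cmp (tr a) (H.lg C) = H.lg C := by
  have h1 := (sm_tr a).cmp_assoc (sm_br (H := H) c) (ou_lg (H := H))
  rw [tr_br, h, tr_zero, cmp_X, cmp_eq_subst (cc_br c), lg_br, (sm_tr a).cmp_smul ou_lg] at h1
  exact smul_right_injective _ hc h1

end LT

namespace Su

open LT

variable [IsDomain O] [IsAlgClosed C] (S : Su C ϖ q f g)
include S

theorem eig {y : C⟦X⟧} (hy : Io y) {χ : S.lt.Mc C → C}
    (hχ : ∀ a b, S.Tor a → S.Tor b → χ (a + b) = χ a * χ b)
    (h : ∀ a, S.Tor a → ev (vl a) y = χ a) {a : S.lt.Mc C} (ha : S.Tor a) :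
    cmp (tr a) y = χ a • y :=
  S.ext ((sm_tr a).io_cmp hy) (hy.smul (h a ha ▸ hy.norm_ev (vl_lt a))) fun b hb => by
    rw [(sm_tr a).ev_cmp hy.ou (vl_lt b), ev_tr, hy.ou.ev_smul _ (vl_lt b), h _ (hb.add ha), h b hb,
      hχ b a hb ha, mul_comm]

variable [CharZero C]

theorem lg_tr {a : S.lt.Mc C} (ha : S.Tor a) : cmp (tr a) (S.lt.lg C) = S.lt.lg C := by
  obtain ⟨n, hn⟩ := ha
  exact LT.lg_tr (by rw [map_pow]; exact pow_ne_zero _ S.ne0) hn

/-- the period of a character -/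
theorem four (χ : S.lt.Mc C → C) (hχ : ∀ a b, S.Tor a → S.Tor b → χ (a + b) = χ a * χ b)
    (h0 : χ 0 = 1) : ∃ c : C, Io (ex (c • S.lt.lg C)) ∧
      ∀ a, S.Tor a → ev (vl a) (ex (c • S.lt.lg C)) = χ a := by
  obtain ⟨y, hy, h⟩ := S.exists_y χ hχ
  have hc : ‖constantCoeff (d⁄dX C y)‖ ≤ 1 := by simpa using hy.deriv 0
  have hz : constantCoeff (constantCoeff (d⁄dX C y) • S.lt.lg C) = 0 := by
    rw [smul_eq_C_mul, map_mul, cc_lg, mul_zero]
  have e : d⁄dX C y = constantCoeff (d⁄dX C y) • mS C S.lt.om * y := by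
    refine S.ext hy.deriv (((io_mS _).smul hc).mul hy) fun a ha => ?_
    have h1 := congrArg (fun z => constantCoeff (d⁄dX C z)) (S.eig hy hχ h ha)
    have h2 := congrArg (fun z => constantCoeff (d⁄dX C z)) (S.lg_tr ha)
    simp only [Derivation.map_smul] at h1
    simp only [(sm_tr a).deriv_cmp hy.ou, (sm_tr a).deriv_cmp ou_lg, map_mul, constantCoeff_cmp,
      cc_tr, d_lg, cc_om, smul_eq_C_mul, constantCoeff_C] at h1 h2
    rw [((io_mS _).smul hc).ou.ev_mul hy.ou (vl_lt a), (io_mS _).ou.ev_smul _ (vl_lt a), h a ha]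
    refine mul_right_cancel₀ (right_ne_zero_of_mul_eq_one h2) ?_
    linear_combination h1 - constantCoeff (d⁄dX C y) * χ a * h2
  have e2 : y = ex (constantCoeff (d⁄dX C y) • S.lt.lg C) :=
    ode_uniq e (by rw [d_ex hz, Derivation.map_smul, d_lg]) (by
      have := h 0 S.tor_zero
      rw [vl_zero, ev_zero_left, h0] at this
      rw [cc_ex hz]; exact this)
  exact ⟨_, e2 ▸ hy, e2 ▸ h⟩

omit [CharZero C] in
theorem exists_seq : ∃ x : ℕ → S.lt.Mc C, x 0 = 0 ∧ x 1 ≠ 0 ∧ ∀ n, ϖ • x (n + 1) = x n := by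
  obtain ⟨a, ha, h0⟩ := Finset.exists_mem_ne (s := S.A 1)
    (by rw [S.card_A, pow_one]; exact S.q2) 0
  rw [S.mem_A, pow_one] at ha
  choose r hr using S.pi_surj
  refine ⟨fun n => Nat.casesOn n 0 fun m => r^[m] a, rfl, h0, fun n => ?_⟩
  cases n with
  | zero => exact ha
  | succ n => exact (congrArg _ (Function.iterate_succ_apply' r n a)).trans (hr _)

end Su

section tors

variable {O E M : Type} [CommRing O] [IsDomain O] [IsDiscreteValuationRing O] [Field E]
  [Algebra O E] [IsFractionRing O E] [AddCommGroup M] [Module O M] {ϖ : O}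

theorem exists_den (hϖ : Irreducible ϖ) (z : E) :
    ∃ (n : ℕ) (a : O), z * algebraMap O E ϖ ^ n = algebraMap O E a := by
  obtain ⟨a, b, hb, rfl⟩ := IsFractionRing.div_surjective (A := O) z
  obtain ⟨n, u, rfl⟩ := IsDiscreteValuationRing.eq_unit_mul_pow_irreducible
    (nonZeroDivisors.ne_zero hb) hϖ
  have h1 : algebraMap O E ϖ ≠ 0 := by simpa using hϖ.ne_zero
  have h2 : algebraMap O E u ≠ 0 := by simp
  refine ⟨n, a * ↑u⁻¹, ?_⟩
  rw [map_mul, map_mul, map_pow, map_units_inv]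
  field_simp

theorem exists_e (hϖ : Irreducible ϖ) (x : ℕ → M) (x0 : x 0 = 0) (x1 : x 1 ≠ 0)
    (hx : ∀ n, ϖ • x (n + 1) = x n) (h1 : ∀ y : M, ϖ • y = 0 → ∃ a : O, y = a • x 1) :
    ∃ e : E →ₗ[O] M, (∀ z, e z = 0 ↔ z ∈ (algebraMap O E).range) ∧
      ∀ y, (∃ n, ϖ ^ n • y = 0) ↔ ∃ z, e z = y := by
  have p0 : algebraMap O E ϖ ≠ 0 := by simpa using hϖ.ne_zero
  have hp : ∀ n k, ϖ ^ k • x (n + k) = x n := fun n k => by
    induction k with
    | zero => simp
    | succ k ih => rw [pow_succ, mul_smul, ← add_assoc, hx, ih]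
  choose n a ha using exists_den (E := E) hϖ
  have wd : ∀ (z : E) m (b : O), z * algebraMap O E ϖ ^ m = algebraMap O E b →
      a z • x (n z) = b • x m := fun z m b hb => by
    have : a z * ϖ ^ m = b * ϖ ^ n z := IsFractionRing.injective O E (by
      rw [map_mul, map_mul, map_pow, map_pow, ← ha, ← hb]; ring)
    rw [← hp (n z) m, ← hp m (n z), smul_smul, smul_smul, this, add_comm]
  let e : E →ₗ[O] M :=
    { toFun := fun z => a z • x (n z)
      map_add' := fun z w => by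
        rw [wd z (n z + n w) (a z * ϖ ^ n w) (by rw [map_mul, map_pow, ← ha]; ring),
          wd w (n z + n w) (a w * ϖ ^ n z) (by rw [map_mul, map_pow, ← ha]; ring), ← add_smul]
        exact wd _ _ _ (by rw [map_add, map_mul, map_mul, map_pow, map_pow, ← ha, ← ha]; ring)
      map_smul' := fun c z => by
        rw [RingHom.id_apply, smul_smul]
        exact wd _ _ _ (by rw [map_mul, ← ha, Algebra.smul_def]; ring) }
  have k1 : ∀ m (z : E) (b : O), z * algebraMap O E ϖ ^ m = algebraMap O E b → b • x m = 0 →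
      z ∈ (algebraMap O E).range := fun m => by
    induction m with
    | zero => exact fun z b h _ => ⟨b, by simpa using h.symm⟩
    | succ m ih =>
      intro z b h h0
      by_cases hb : IsUnit b
      · refine absurd ?_ x1
        rw [← hp 1 m, add_comm, (hb.smul_eq_zero).1 h0, smul_zero]
      · obtain ⟨b', rfl⟩ : ϖ ∣ b := by
          rw [← Ideal.mem_span_singleton, ← hϖ.maximalIdeal_eq]; exact hb
        refine ih z b' (mul_left_cancel₀ p0 ?_) (by rw [← hx, smul_smul, mul_comm, h0])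
        rw [← map_mul, ← h]; ring
  have k2 : ∀ z, ϖ • e (z / algebraMap O E ϖ) = e z := fun z => by
    rw [← map_smul, Algebra.smul_def, mul_div_cancel₀ _ p0]
  refine ⟨e, fun z => ⟨k1 _ z _ (ha z), ?_⟩, fun y => ⟨?_, ?_⟩⟩
  · rintro ⟨b, rfl⟩
    exact (wd _ 0 b (by simp)).trans (by rw [x0, smul_zero])
  · rintro ⟨m, hm⟩
    induction m generalizing y with
    | zero => exact ⟨0, by simpa using hm.symm⟩
    | succ m ih =>
      obtain ⟨z, hz⟩ := ih (ϖ • y) (by rw [smul_smul, ← pow_succ, hm])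
      obtain ⟨b, hb⟩ := h1 (y - e (z / algebraMap O E ϖ)) (by rw [smul_sub, k2, hz, sub_self])
      refine ⟨z / algebraMap O E ϖ + algebraMap O E b / algebraMap O E ϖ, ?_⟩
      rw [map_add, show e (algebraMap O E b / algebraMap O E ϖ) = b • x 1 from
        wd _ 1 b (by rw [pow_one, div_mul_cancel₀ _ p0]), ← hb, add_sub_cancel]
  · rintro ⟨z, rfl⟩
    refine ⟨n z, ?_⟩
    change ϖ ^ n z • a z • x (n z) = 0
    have := hp 0 (n z)
    rw [zero_add] at this
    rw [smul_comm, this, x0, smul_zero]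

/-- primitive characters of `E / O` -/
theorem exists_psi (C : Type) [Field C] [IsAlgClosed C] [CharZero C]
    [Finite (IsLocalRing.ResidueField O)] (hϖ : Irreducible ϖ) :
    ∃ ψ : AddChar E C, (∀ x ∈ (algebraMap O E).range, ψ x = 1) ∧
      ∀ x, (∀ b ∈ (algebraMap O E).range, ψ (b * x) = 1) → x ∈ (algebraMap O E).range := by
  have p0 : algebraMap O E ϖ ≠ 0 := by simpa using hϖ.ne_zero
  let N := (algebraMap O E).range.toAddSubgroup
  let t : E ⧸ N := QuotientAddGroup.mk (algebraMap O E ϖ)⁻¹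
  have t0 : t ≠ 0 := fun h => by
    obtain ⟨b, hb⟩ := (QuotientAddGroup.eq_zero_iff _).1 h
    refine hϖ.not_isUnit (IsUnit.of_mul_eq_one b (IsFractionRing.injective O E ?_))
    rw [map_mul, hb, mul_inv_cancel₀ p0, map_one]
  have tf : IsOfFinAddOrder t := by
    refine isOfFinAddOrder_iff_nsmul_eq_zero.2 ⟨Nat.card (IsLocalRing.ResidueField O),
      Nat.card_pos, ?_⟩
    obtain ⟨b, hb⟩ : ϖ ∣ (Nat.card (IsLocalRing.ResidueField O) : O) := by
      rw [← Ideal.mem_span_singleton, ← hϖ.maximalIdeal_eq, ← IsLocalRing.residue_eq_zero_iff,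
        map_natCast, ← nsmul_one]
      exact card_nsmul_eq_zero'
    rw [← QuotientAddGroup.mk_nsmul, QuotientAddGroup.eq_zero_iff]
    refine ⟨b, ?_⟩
    rw [nsmul_eq_mul, ← map_natCast (algebraMap O E), hb, map_mul]
    field_simp
  haveI : Finite (Multiplicative (AddSubgroup.zmultiples t)) := tf.finite_zmultiples
  obtain ⟨φ, hφ⟩ := CommGroup.exists_apply_ne_one_of_hasEnoughRootsOfUnity
    (Multiplicative (AddSubgroup.zmultiples t)) C
    (a := Multiplicative.ofAdd ⟨t, AddSubgroup.mem_zmultiples t⟩) fun h =>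
      t0 (congrArg Subtype.val (ofAdd_eq_one.1 h))
  haveI : DivisibleBy (Additive Cˣ) ℕ := divisibleByOfSMulRightSurj _ _ fun {n} hn a => by
    obtain ⟨z, hz⟩ := IsAlgClosed.exists_pow_nat_eq ((a.toMul : Cˣ) : C) (Nat.pos_of_ne_zero hn)
    have z0 : z ≠ 0 := fun h => a.toMul.ne_zero (by rw [← hz, h, zero_pow hn])
    exact ⟨Additive.ofMul (Units.mk0 z z0), Additive.toMul.injective (Units.ext (by simpa using hz))⟩
  haveI : DivisibleBy (Additive Cˣ) ℤ := AddGroup.divisibleByIntOfDivisibleByNat _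
  obtain ⟨Φ, hΦ⟩ := (Module.Baer.of_divisible (Additive Cˣ)).extension_property_addMonoidHom
    (AddSubgroup.zmultiples t).subtype Subtype.val_injective (MonoidHom.toAdditiveRight φ)
  let ψ : AddChar E C :=
    { toFun := fun x => ((Φ (QuotientAddGroup.mk x)).toMul : Cˣ)
      map_zero_eq_one' := by simp
      map_add_eq_mul' := fun a b => by simp }
  refine ⟨ψ, fun x hx => ?_, fun x hx => ?_⟩
  · change (((Φ (QuotientAddGroup.mk x)).toMul : Cˣ) : C) = 1
    rw [(QuotientAddGroup.eq_zero_iff (N := N) x).2 hx]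
    simp
  · by_contra h
    obtain ⟨n, a, ha⟩ := exists_den hϖ x
    obtain ⟨b, hb⟩ : ∃ b ∈ (algebraMap O E).range, b * x = (algebraMap O E ϖ)⁻¹ := by
      have x0 : x ≠ 0 := fun e => h (e ▸ zero_mem _)
      obtain ⟨c, hc⟩ := (ValuationRing.isInteger_or_isInteger O x).resolve_left h
      have hu : ¬ IsUnit c := fun hu => h ⟨↑hu.unit⁻¹, by
        rw [map_units_inv, IsUnit.unit_spec, hc, inv_inv]⟩
      obtain ⟨d, rfl⟩ : ϖ ∣ c := by
        rw [← Ideal.mem_span_singleton, ← hϖ.maximalIdeal_eq]; exact hu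
      refine ⟨_, ⟨d, rfl⟩, ?_⟩
      rw [map_mul] at hc
      field_simp at hc ⊢
      linear_combination hc
    have h2 := hx b hb.1
    rw [hb.2] at h2
    exact hφ (Units.ext (Eq.trans (congrArg (fun s : Additive Cˣ => ((s.toMul : Cˣ) : C))
      (DFunLike.congr_fun hΦ ⟨t, AddSubgroup.mem_zmultiples t⟩).symm) h2))

end tors

end Vale.Agent.P022K.FI.Lt
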