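import Vale.Agent.P022K.FI.Oc3

/-!
# P022K, block FI: NOAUT, preparations (local computations, the centraliser, levels)
-/

set_option autoImplicit false
set_option linter.unusedSectionVars false

open UpperHalfPlane WithZero
open scoped MatrixGroups

noncomputable section

namespace Vale.Agent.P022K.FI.Na

open Vale.Agent.P022K.Sh Vale.Agent.P022K.FI.Lv Vale.Agent.P022K.FI.Oc

variable {G0 G : Type} [Group G0] [Group G] {T : Tw G0 G}
variable {O K : Type} [CommRing O] [IsDomain O] [IsDiscreteValuationRing O] [Field K] [Algebra O K]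

section loc

variable (w : T.Lc O K)

theorem geom {y : K} (h : vl w (y - 1) < 1) (p : ℕ) :
    vl w (∑ k ∈ Finset.range p, y ^ k - p) < 1 := by
  have h1 : vl w y = 1 := by simpa using (vl w).map_one_add_of_lt h
  have e : ∑ k ∈ Finset.range p, y ^ k - p = ∑ k ∈ Finset.range p, (y ^ k - 1) := by simp
  rw [e]
  refine (vl w).map_sum_lt one_ne_zero fun k _ => ?_
  rw [← geom_sum_mul, map_mul]
  refine (mul_le_of_le_one_left' ((vl w).map_sum_le fun i _ => ?_)).trans_lt h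
  rw [map_pow, h1, one_pow]

theorem pow_small {y : K} (h : vl w (y - 1) < 1) {p : ℕ} (hp : vl w p < 1) (i : ℕ) :
    vl w (y ^ p ^ i - 1) ≤ vl w w.ϖ ^ (i + 1) := by
  induction i with
  | zero => simpa using (lt_iff w one_pos).1 h
  | succ i ih =>
    have h1 := geom w (ih.trans_lt (pow_lt_one₀ zero_le (pi_lt w) i.succ_ne_zero)) p
    have h2 := (vl w).map_add_lt h1 hp
    rw [sub_add_cancel, lt_iff w one_pos, one_mul] at h2
    rw [pow_succ p, pow_mul, ← geom_sum_mul, map_mul, pow_succ' _ (i + 1)]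
    exact mul_le_mul' h2 ih

theorem pow_unit {y : K} (h : vl w (y - 1) < 1) {p : ℕ} (hp : vl w p = 1) (i : ℕ) :
    vl w (y ^ p ^ i - 1) = vl w (y - 1) := by
  induction i with
  | zero => simp
  | succ i ih =>
    have h1 := geom w (ih ▸ h) p
    rw [pow_succ p, pow_mul, ← geom_sum_mul, map_mul, (vl w).map_eq_of_sub_lt (hp ▸ h1), hp,
      one_mul, ih]

theorem up_inv (c : K) : (up c)⁻¹ = up (-c) := Units.ext rfl

theorem up_conj (a d : Kˣ) (t : K) :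
    (d2 a d)⁻¹ * (up t)⁻¹ * d2 a d * up t = up (-(t * (d / a - 1))) := by
  have := a.ne_zero
  have := d.ne_zero
  rw [d2_inv, up_inv]
  ext i j
  simp only [ent]
  fin_cases i <;> fin_cases j <;> simp [d2_val, up]
  field_simp
  ring

theorem tri0 {a d : Kˣ} {s t : K} (h : (up s)⁻¹ * (d2 a d)⁻¹ * up t ∈ KK O K ⊔ Zl K)
    (hst : vl w s < vl w t ∨ vl w t < vl w s) : vl w s ≤ 1 ∧ vl w t ≤ 1 := by
  obtain ⟨c, h1, h2⟩ := (mem_KZ w).1 h
  have hc := Lv.pos w c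
  have e : ∀ i j, ((up s)⁻¹ * (d2 a d)⁻¹ * up t : GL (Fin 2) K) i j =
      !![((a⁻¹ : Kˣ) : K), (a⁻¹ : Kˣ) * t - (d⁻¹ : Kˣ) * s; 0, (d⁻¹ : Kˣ)] i j := fun i j => by
    rw [d2_inv, up_inv]
    simp only [ent]
    fin_cases i <;> fin_cases j <;> simp [d2_val, up]
    ring
  have ha : vl w (a⁻¹ : Kˣ) ≤ vl w c := (congrArg (vl w) (e 0 0)).ge.trans (h1 0 0)
  have hd : vl w (d⁻¹ : Kˣ) ≤ vl w c := (congrArg (vl w) (e 1 1)).ge.trans (h1 1 1)
  have hb : vl w ((a⁻¹ : Kˣ) * t - (d⁻¹ : Kˣ) * s) ≤ vl w c :=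
    (congrArg (vl w) (e 0 1)).ge.trans (h1 0 1)
  simp only [map_mul, map_inv, det_up, inv_one, one_mul, mul_one] at h2
  rw [← map_inv, d2_inv, det_d2, Units.val_mul, map_mul, sq] at h2
  have e1 := hd.eq_of_not_lt fun h => (mul_lt ha h hc).ne h2
  rw [mul_comm] at h2
  have e2 := ha.eq_of_not_lt fun h => (mul_lt hd h hc).ne h2
  have k : ∀ {y : K}, vl w c * vl w y ≤ vl w c → vl w y ≤ 1 := fun h =>
    le_of_mul_le_mul_left (h.trans_eq (mul_one _).symm) hc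
  rcases hst with h | h
  · rw [(vl w).map_sub_eq_of_lt_left (by
      rw [map_mul, map_mul, e1, e2]; exact mul_lt_mul_of_pos_left h hc), map_mul, e2] at hb
    exact ⟨h.le.trans (k hb), k hb⟩
  · rw [(vl w).map_sub_eq_of_lt_right (by
      rw [map_mul, map_mul, e1, e2]; exact mul_lt_mul_of_pos_left h hc), map_mul, e1] at hb
    exact ⟨k hb, h.le.trans (k hb)⟩

theorem trim {m : ℕ} {a d a' d' : Kˣ}
    (h : (up (1 : K))⁻¹ * (d2 a d)⁻¹ * (d2 a' d')⁻¹ * up 1 * d2 a d ∈ Km O K (m + 1) ⊔ Zl K) :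
    vl w ((d : K) / a - 1) ≤ vl w w.ϖ ^ (m + 1) := by
  obtain ⟨c, h1⟩ := km_ent w h
  have hc := Lv.pos w c
  have := a.ne_zero
  have := d.ne_zero
  have := a'.ne_zero
  have := d'.ne_zero
  have e : ∀ i j, ((up (1 : K))⁻¹ * (d2 a d)⁻¹ * (d2 a' d')⁻¹ * up 1 * d2 a d : GL (Fin 2) K) i j =
      !![(a' : K)⁻¹, (d : K) / a * (a' : K)⁻¹ - (d' : K)⁻¹; 0, (d' : K)⁻¹] i j := fun i j => by
    rw [d2_inv, d2_inv, up_inv]
    simp only [ent]
    fin_cases i <;> fin_cases j <;> simp [d2_val, up] <;> field_simp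
    ring
  simp only [e] at h1
  have ha : vl w ((a' : K)⁻¹ - c) ≤ vl w w.ϖ ^ (m + 1) * vl w c := by simpa using h1 0 0
  have hd : vl w ((d' : K)⁻¹ - c) ≤ vl w w.ϖ ^ (m + 1) * vl w c := by simpa using h1 1 1
  have hb : vl w ((d : K) / a * (a' : K)⁻¹ - (d' : K)⁻¹) ≤ vl w w.ϖ ^ (m + 1) * vl w c := by
    simpa using h1 0 1
  have e1 : vl w (a' : K)⁻¹ = vl w c := (vl w).map_eq_of_sub_lt (ha.trans_lt
    (mul_lt_of_lt_one_left hc (pow_lt_one₀ zero_le (pi_lt w) m.succ_ne_zero)))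
  have := (vl w).map_sub_le ((vl w).map_add_le hb hd) ha
  rw [show (d : K) / a * (a' : K)⁻¹ - (d' : K)⁻¹ + ((d' : K)⁻¹ - c) - ((a' : K)⁻¹ - c) =
    ((d : K) / a - 1) * (a' : K)⁻¹ by ring, map_mul, e1] at this
  exact le_of_mul_le_mul_right this hc

theorem km_d2 {a d : Kˣ} (h : d2 a d ∈ Km O K 1 ⊔ Zl K) : vl w ((d : K) / a - 1) < 1 := by
  obtain ⟨c, h1⟩ := km_ent w h
  have hc := mul_lt_of_lt_one_left (Lv.pos w c) (pi_lt w)
  have ha : vl w ((a : K) - c) < vl w c := lt_of_le_of_lt (by simpa [d2_val] using h1 0 0) hc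
  have hd : vl w ((d : K) - c) < vl w c := lt_of_le_of_lt (by simpa [d2_val] using h1 1 1) hc
  have := (vl w).map_sub_lt hd ha
  rwa [sub_sub_sub_cancel_right, ← (vl w).map_eq_of_sub_lt ha, ← div_lt_one₀ (Lv.pos w a),
    ← map_div₀, sub_div, div_self a.ne_zero] at this

theorem conj_iota (c : G) (k : GL (Fin 2) K) :
    c⁻¹ * w.ι k * c = w.ι ((w.π c)⁻¹ * k * w.π c) := by
  conv_lhs => rw [← aw_mul w c]
  rw [mul_inv_rev, mul_assoc, mul_assoc, ← mul_assoc (w.ι k), (aw_com w k c).eq, map_mul, map_mul,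
    map_inv]
  group

end loc

/-! ## levels -/

/-- a power of `v` lies in every level -/
def Pv (T : Tw G0 G) (v : G) : Prop := ∀ V ∈ T.Lev, ∃ k, 0 < k ∧ v ^ k ∈ V

theorem pv_of (hT : T.Ok) {U : Subgroup G} (hU : U ∈ T.Lev) {v : G} {r : ℕ} (hr : 0 < r)
    (h : v ^ r ∈ U) : Pv T v := fun V hV => by
  obtain ⟨n, h0, -, hn⟩ := Subgroup.exists_pow_mem_of_relIndex_ne_zero (hT.fi V hV U hU) h
  exact ⟨r * n, mul_pos hr h0, pow_mul v r n ▸ hn.1⟩

theorem cj_pow {U : Subgroup G} {v : G} (h : cj v U = U) (n : ℕ) : cj (v ^ n) U = U := by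
  induction n with
  | zero => ext y; simp [mem_cj]
  | succ n ih =>
    ext y
    rw [mem_cj, pow_succ, mul_inv_rev, show v⁻¹ * (v ^ n)⁻¹ * y * (v ^ n * v) =
      v⁻¹ * ((v ^ n)⁻¹ * y * v ^ n) * v by group, ← mem_cj, h, ← mem_cj, ih]

theorem ex_norm (hT : T.Ok) {v : G} (hv : Pv T v) {V : Subgroup G} (hV : V ∈ T.Lev) :
    ∃ V' ∈ T.Lev, V' ≤ V ∧ cj v V' = V' := by
  obtain ⟨k, k0, hk⟩ := hv V hV
  have h1 : ∀ n : ℕ, ∃ W ∈ T.Lev, ∀ y, y ∈ W ↔ ∀ i ≤ n, y ∈ cj (v ^ i) V := fun n => by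
    induction n with
    | zero => exact ⟨V, hV, fun y => by simp [mem_cj]⟩
    | succ n ih =>
      obtain ⟨W, hW, h⟩ := ih
      exact ⟨_, hT.inf _ hW _ (hT.conj _ hV (v ^ (n + 1))), fun y => by
        rw [Subgroup.mem_inf, h]
        exact ⟨fun H i hi => (Nat.le_succ_iff.1 hi).elim (H.1 i) fun e => e ▸ H.2,
          fun H => ⟨fun i hi => H i (Nat.le_succ_of_le hi), H _ le_rfl⟩⟩⟩
  have h2 : ∀ i y, y ∈ cj (v ^ (i + k)) V ↔ y ∈ cj (v ^ i) V := fun i y => by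
    rw [mem_cj, mem_cj, pow_add, mul_inv_rev, ← mul_assoc, mul_mem_cancel_right hk, mul_assoc,
      mul_assoc, mul_mem_cancel_left (inv_mem hk), mul_assoc]
  obtain ⟨W, hW, h⟩ := h1 k
  have h3 : ∀ y, y ∈ W ↔ ∀ i, y ∈ cj (v ^ i) V := fun y => (h y).trans ⟨fun H i => by
    induction i using Nat.strong_induction_on with | _ i ih => ?_
    by_cases hi : i ≤ k
    · exact H i hi
    · obtain ⟨j, rfl⟩ : ∃ j, i = j + k := ⟨i - k, by omega⟩
      exact (h2 j y).2 (ih j (by omega)), fun H i _ => H i⟩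
  have h4 : ∀ i y, v⁻¹ * y * v ∈ cj (v ^ i) V ↔ y ∈ cj (v ^ (i + 1)) V := fun i y => by
    rw [mem_cj, mem_cj, pow_succ', mul_inv_rev]
    simp only [mul_assoc]
  refine ⟨W, hW, fun y hy => by simpa [mem_cj] using (h3 y).1 hy 0, Subgroup.ext fun y => ?_⟩
  rw [mem_cj, h3, h3]
  refine ⟨fun H i => (h2 i y).1 ?_, fun H i => (h4 i y).2 (H _)⟩
  obtain ⟨j, hj⟩ : ∃ j, i + k = j + 1 := ⟨i + k - 1, by omega⟩
  exact hj ▸ (h4 j y).1 (H j)

variable {w : T.Lc O K} {U : Subgroup G}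

/-- small levels that are maximal at `w` and normalised by `v` -/
theorem ex_good (hT : T.Ok) (hU : U ∈ T.Lev) (h : w.At (KK O K) U) {v : G} (hv : Pv T v)
    (h1 : w.π v = 1) {V : Subgroup G} (hV : V ∈ T.Lev) : ∃ U' ∈ T.Lev, U' ≤ U ∧
      w.At (KK O K) U' ∧ cj v U' = U' ∧ ∀ u ∈ U', aw w u ∈ V := by
  obtain ⟨V', h2, h3, h4⟩ := ex_norm hT hv (hT.inf _ hU _ hV)
  refine ⟨_, set_KK h2, fun u hu => (At_mem h hU).2 ⟨(h3 ((mem_set h2).1 hu).1).1,
    ((mem_set h2).1 hu).2⟩, At_set h2, Subgroup.ext fun y => ?_,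
    fun u hu => (h3 ((mem_set h2).1 hu).1).2⟩
  rw [mem_cj, mem_set h2, mem_set h2]
  simp only [map_mul, map_inv, aw_of w h1, h1, inv_one, one_mul, mul_one]
  rw [← mem_cj, h4]

/-! ## the centraliser -/

theorem lc_Z (hT : T.Ok) (x : G) {γ : G0} (h : γ ∈ T.Z0) : lc T x γ ∈ T.Z := by
  have hz := (hT.z0 _).1 h
  rwa [lc, Subgroup.mem_center_iff.1 (hT.zc hz) x⁻¹, inv_mul_cancel_right]

theorem lc_pow (x : G) (γ : G0) (n : ℕ) : lc T x (γ ^ n) = lc T x γ ^ n := by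
  induction n with
  | zero => simp [lc_one]
  | succ n ih => rw [pow_succ, lc_mul, ih, pow_succ]

theorem Z_normal (hT : T.Ok) : T.Z.Normal :=
  ⟨fun z hz g => by rwa [Subgroup.mem_center_iff.1 (hT.zc hz) g, mul_inv_cancel_right]⟩

variable {e : K →+* ℂ} {τ : ℍ} {x s s' : G}

theorem fix_pow {γ : G0} (h : T.r γ • τ = τ) (n : ℕ) : T.r (γ ^ n) • τ = τ := by
  induction n with
  | zero => simp
  | succ n ih => rw [pow_succ, map_mul, mul_smul, h, ih]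

theorem fix_inv {γ : G0} (h : T.r γ • τ = τ) : T.r γ⁻¹ • τ = τ :=
  map_inv T.r γ ▸ inv_smul_eq_iff.2 h.symm

theorem cent_diag {K' : Type} [Field K'] (φ : G →* GL (Fin 2) K') (hφ : ∀ z ∈ T.Z, φ z ∈ Zl K')
    {γ : G0} {a d : K'ˣ} (h1 : T.r γ • τ = τ) (h2 : φ (lc T x γ) = d2 a d)
    (h3 : (d : K') ^ 2 ≠ (a : K') ^ 2) (hs : Cent T τ x s) : ∃ a' d', φ s = d2 a' d' := by
  refine diag_of_comm h3 ?_
  have := hφ _ (inv_mem (hs γ h1))
  simpa only [mul_inv_rev, inv_inv, map_mul, map_inv, h2, mul_assoc] using this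

theorem diag_w (hx : Ord w e τ x) (hs : Cent T τ x s) : ∃ a d, w.π s = d2 a d := by
  obtain ⟨γ, a, d, h1, h2, h3, -⟩ := hx
  exact cent_diag w.π w.cen' h1 h2 (fun h => sm_sq_ne w h3 (by
    rw [div_pow, h, div_self (pow_ne_zero _ a.ne_zero)])) hs

theorem cent_lc (hT : T.Ok) {γ : G0} (h : T.r γ • τ = τ) : Cent T τ x (lc T x γ) := fun δ h' => by
  simpa only [lc_mul, lc_inv] using lc_Z hT x (comm_Z0 T h h')

variable [T.Z.Normal]

variable (T) in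
/-- the class modulo the centre -/
abbrev Qz : G →* G ⧸ T.Z := QuotientGroup.mk' T.Z

theorem cz_iff {a b : G} : a * b * a⁻¹ * b⁻¹ ∈ T.Z ↔ Commute (Qz T a) (Qz T b) := by
  rw [← commutatorElement_eq_one_iff_commute, ← map_commutatorElement, ← MonoidHom.mem_ker,
    QuotientGroup.ker_mk', commutatorElement_def]

theorem qz_eq {a b : G} : Qz T a = Qz T b ↔ a⁻¹ * b ∈ T.Z := QuotientGroup.eq

theorem cent_mul (h : Cent T τ x s) (h' : Cent T τ x s') : Cent T τ x (s * s') := fun γ hγ =>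
  cz_iff.2 (map_mul (Qz T) s s' ▸ (cz_iff.1 (h γ hγ)).mul_left (cz_iff.1 (h' γ hγ)))

theorem cent_pow (h : Cent T τ x s) (n : ℕ) : Cent T τ x (s ^ n) := fun γ hγ =>
  cz_iff.2 (map_pow (Qz T) s n ▸ (cz_iff.1 (h γ hγ)).pow_left n)

theorem cent_iota (hT : T.Ok) (hc : Cmp w e) (hx : Ord w e τ x) (a d : Kˣ) :
    Cent T τ x (w.ι (d2 a d)) := fun γ hγ => by
  obtain ⟨a', d', h, -⟩ := hx.all hT hc hγ
  exact cz_iff.2 ((comm_iota w (h ▸ d2_comm _ _ _ _)).symm.map _)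

theorem cent_aw (hT : T.Ok) (hc : Cmp w e) (hx : Ord w e τ x) (h : Cent T τ x s) :
    Cent T τ x (aw w s) := by
  obtain ⟨a, d, h1⟩ := diag_w hx h
  rw [aw_eq, h1, ← map_inv, d2_inv]
  exact cent_mul h (cent_iota hT hc hx _ _)

theorem lc_mul_pow (h : Cent T τ x s) {β : G0} (hβ : T.r β • τ = τ) (n : ℕ) :
    ∃ z ∈ T.Z, (lc T x β * s) ^ n = lc T x (β ^ n) * s ^ n * z := by
  refine ⟨_, qz_eq.1 ?_, (mul_inv_cancel_left _ _).symm⟩
  rw [map_pow, map_mul, map_mul, lc_pow, map_pow, map_pow, (cz_iff.1 (h β hβ)).symm.mul_pow]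

end Vale.Agent.P022K.FI.Na
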