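import Vale.Agent.P022K.FI.Na1

/-!
# P022K, block FI: row NOAUT
-/

set_option autoImplicit false
set_option linter.unusedSectionVars false

open UpperHalfPlane WithZero
open scoped MatrixGroups

noncomputable section

namespace Vale.Agent.P022K.FI.Na

open Vale.Agent.P022K.Sh Vale.Agent.P022K.FI.Lv Vale.Agent.P022K.FI.Oc

variable {G0 G : Type} [Group G0] [Group G] {T : Tw G0 G}
variable {O K : Type} [CommRing O] [IsDomain O] [IsDiscreteValuationRing O] [Field K] [Algebra O K]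
variable {w : T.Lc O K} {e : K →+* ℂ} {τ : ℍ} {x s s' v : G} {U : Subgroup G} (P : SP w τ x)

/-! ## split places -/

/-- the component at `P` in the frame of the torus -/
def pi : G →* GL (Fin 2) P.K' := (MulAut.conj P.g⁻¹).toMonoidHom.comp P.L.π

/-- the factor at `P` in the frame of the torus -/
def io : GL (Fin 2) P.K' →* G := P.L.ι.comp (MulAut.conj P.g).toMonoidHom

theorem pi_eq (c : G) : pi P c = P.g⁻¹ * P.L.π c * P.g := by simp [pi]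

theorem io_eq (n : GL (Fin 2) P.K') : io P n = P.L.ι (P.g * n * P.g⁻¹) := rfl

theorem pi_io (n : GL (Fin 2) P.K') : pi P (io P n) = n := by
  rw [pi_eq, io_eq, P.L.πι]
  group

theorem w_io (n : GL (Fin 2) P.K') : w.π (io P n) = 1 := P.ne.1 _

theorem pi_aw (c : G) : pi P (aw w c) = pi P c := by
  simp [pi_eq, aw_eq, P.ne.2]

theorem pi_Z {z : G} (h : z ∈ T.Z) : pi P z ∈ Zl P.K' := by
  rw [pi_eq]
  exact Subgroup.Normal.conj_mem' inferInstance _ (P.L.cen' z h) _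

theorem conj_io (c : G) (n : GL (Fin 2) P.K') :
    c⁻¹ * io P n * c = io P ((pi P c)⁻¹ * n * pi P c) := by
  rw [io_eq, conj_iota, io_eq, pi_eq]
  congr 1
  group

theorem cm_io (hU : U ∈ T.Lev) (y : G) (c : P.K') : cm T U (y * io P (up c)) = cm T U y := by
  refine (cm_eq.2 (P.sa U hU y _ ?_)).symm
  simp [det_up]

theorem ex_lev (hT : T.Ok) (m : ℕ) :
    ∃ V ∈ T.Lev, ∀ c ∈ V, pi P c ∈ Km P.O' P.K' m ⊔ Zl P.K' := by
  obtain ⟨U, hU, -⟩ := hT.neat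
  refine ⟨_, hT.conj _ (P.L.lev U hU m) (P.L.ι P.g), fun c hc => ?_⟩
  simpa only [map_mul, map_inv, P.L.πι, pi_eq] using ((mem_set hU).1 (mem_cj.1 hc)).2

theorem ex_op (hT : T.Ok) (hU : U ∈ T.Lev) : ∃ m, ∀ n ∈ Km P.O' P.K' m, io P n ∈ U := by
  obtain ⟨m, h⟩ := P.L.op _ (hT.conj _ hU (P.L.ι P.g)⁻¹)
  exact ⟨m, fun n hn => by simpa only [io_eq, map_mul, map_inv, inv_inv] using mem_cj.1 (h hn)⟩

theorem diag_P (hs : Cent T τ x s) : ∃ a d, pi P s = d2 a d := by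
  obtain ⟨γ, a, d, h1, h2, h3⟩ := P.reg
  exact cent_diag (pi P) (fun z => pi_Z P) h1 ((pi_eq P _).trans h2) h3 hs

theorem rho_eq {c : G} {a d : P.K'ˣ} (h : pi P c = d2 a d) : P.rho c = d / a := by
  rw [SP.rho, ← pi_eq, h]
  rfl

theorem rho_aw (c : G) : P.rho (aw w c) = P.rho c := by
  rw [SP.rho, SP.rho, ← pi_eq, ← pi_eq, pi_aw]

theorem rho_mul (h : Cent T τ x s) (h' : Cent T τ x s') : P.rho (s * s') = P.rho s * P.rho s' := by
  obtain ⟨a, d, h1⟩ := diag_P P h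
  obtain ⟨a', d', h2⟩ := diag_P P h'
  rw [rho_eq P h1, rho_eq P h2, rho_eq P (by rw [map_mul, h1, h2, d2_mul]), Units.val_mul,
    Units.val_mul, div_mul_div_comm]

theorem rho_pow (h : Cent T τ x s) (n : ℕ) : P.rho (s ^ n) = P.rho s ^ n := by
  obtain ⟨a, d, h1⟩ := diag_P P h
  rw [rho_eq P h1, rho_eq P (by rw [map_pow, h1, d2_pow]), Units.val_pow_eq_pow_val,
    Units.val_pow_eq_pow_val, div_pow]

theorem rho_Zl {c : G} (h : pi P c ∈ Zl P.K') : P.rho c = 1 := by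
  obtain ⟨a, ha⟩ := mem_Zl.1 h
  rw [rho_eq P ha, div_self a.ne_zero]

theorem pts_inj (hT : T.Ok) (hP : ∀ u ∈ U, pi P u ∈ KK P.O' P.K' ⊔ Zl P.K') {i j : ℕ}
    (h : pm T U τ (x * io P (up (P.L.ϖ ^ (i + 1))⁻¹)) =
      pm T U τ (x * io P (up (P.L.ϖ ^ (j + 1))⁻¹))) : i = j := by
  obtain ⟨δ, u, hu, h1, h2⟩ := pm_eq.1 h
  obtain ⟨a, d, h3⟩ := diag_P P (cent_lc hT h1.symm)
  have h4 := hP u hu
  rw [show u = (io P (up (P.L.ϖ ^ (i + 1))⁻¹))⁻¹ * (lc T x δ)⁻¹ * io P (up (P.L.ϖ ^ (j + 1))⁻¹) by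
    rw [eq_inv_mul_iff_mul_eq.2 h2, lc]; group] at h4
  simp only [map_mul, map_inv, pi_io, h3] at h4
  have hv : ∀ k : ℕ, vl P.L ((P.L.ϖ : P.K') ^ (k + 1))⁻¹ = exp ((k + 1 : ℕ) : ℤ) := fun k => by
    rw [map_inv₀, map_pow, pi_pow, exp_neg, inv_inv]
  by_contra hij
  have := (tri0 P.L h4 (by rw [hv, hv, exp_lt_exp, exp_lt_exp]; omega)).1
  rw [hv, ← exp_zero, exp_le_exp] at this
  omega

variable [T.Z.Normal]

/-- rigidity applied to the points of a horocycle at `P` -/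
theorem core (hT : T.Ok) (hR : Rg w τ x v) (h1 : w.π v = 1) (hC : Cent T τ x v) (hU : U ∈ T.Lev)
    (hn : T.Neat U) (h : w.At (KK O K) U) (hv : cj v U = U)
    (hP : ∀ u ∈ U, pi P u ∈ KK P.O' P.K' ⊔ Zl P.K') : ∃ M, ∀ n,
      vl P.L (P.rho (v ^ n) - 1) ≤ vl P.L P.L.ϖ ^ M → ∀ y, w.π y = 1 →
      cm T U (x * y) = cm T U x → pm T U τ (x * v ^ n * y) = pm T U τ (x * y * v ^ n) := by
  classical
  obtain ⟨B, hB⟩ := hR U hU hn h
  obtain ⟨m, hm⟩ := ex_op P hT hU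
  refine ⟨m + (B + 1), fun n hs => hB n _ (by rw [map_pow, h1, one_pow]) (cj_pow hv n) _
    ((Finset.range (B + 1)).image fun j => pm T U τ (x * io P (up (P.L.ϖ ^ (j + 1))⁻¹))) ?_ ?_⟩
  · rw [Finset.card_image_of_injective _ fun i j => pts_inj P hT hP, Finset.card_range]
    exact B.lt_succ_self
  · intro y hy
    obtain ⟨j, hj, rfl⟩ := Finset.mem_image.1 hy
    obtain ⟨a, d, h3⟩ := diag_P P (cent_pow hC n)
    refine ⟨_, w_io P _, cm_io P hU x _, rfl, (pm_eq.2 ⟨1, _, hm _ (up_mem P.L (c :=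
      -(((P.L.ϖ : P.K') ^ (j + 1))⁻¹ * (d / a - 1))) ?_), by simp, ?_⟩).symm⟩
    · rw [Valuation.map_neg, map_mul, map_inv₀, map_pow, ← rho_eq P h3,
        inv_mul_le_iff₀ (pow_pos (Lv.pos P.L _) _), ← pow_add]
      exact hs.trans (pow_le_pow_right_of_le_one' (pi_lt P.L).le (by
        have := Finset.mem_range.1 hj
        omega))
    · rw [← up_conj, ← h3, map_mul, ← conj_io, map_inv, map_one]
      group

theorem kl0 (hT : T.Ok) (hR : Rg w τ x v) (h1 : w.π v = 1) (hC : Cent T τ x v) (hv : Pv T v)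
    (hU : U ∈ T.Lev) (hn : T.Neat U) (h : w.At (KK O K) U) (P' : SP w τ x) {p : ℕ}
    (hp : vl P.L p < 1) (hp' : vl P'.L p = 1) (h2 : vl P.L (P.rho v - 1) < 1)
    (h3 : vl P'.L (P'.rho v - 1) < 1) : P'.rho v = 1 := by
  refine sub_eq_zero.1 (eq_zero P'.L fun m => ?_)
  obtain ⟨V, hV, k1⟩ := ex_lev P hT 0
  obtain ⟨V', hV', k2⟩ := ex_lev P' hT (m + 1)
  obtain ⟨U', g1, g2, g3, g4, g5⟩ := ex_good hT hU h hv h1 (hT.inf _ hV _ hV')
  obtain ⟨M, hM⟩ := core P hT hR h1 hC g1 (neat_le hn g2) g3 g4 fun u hu =>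
    sup_le_sup_right (Km_le 0) _ (pi_aw P u ▸ k1 _ (g5 u hu).1)
  obtain ⟨δ, u, hu, r1, r2⟩ := pm_eq.1 (hM (p ^ M) (by
    rw [rho_pow P hC]
    exact (pow_small P.L h2 hp M).trans (pow_le_pow_right_of_le_one' (pi_lt P.L).le M.le_succ))
    _ (w_io P' _) (cm_io P' g1 x 1))
  obtain ⟨a, d, r3⟩ := diag_P P' (cent_pow hC (p ^ M))
  obtain ⟨a', d', r4⟩ := diag_P P' (cent_lc hT r1.symm)
  have r5 := pi_aw P' u ▸ k2 _ (g5 u hu).2
  rw [show u = (io P' (up 1))⁻¹ * (v ^ p ^ M)⁻¹ * (lc T x δ)⁻¹ * io P' (up 1) * v ^ p ^ M by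
    rw [eq_inv_mul_iff_mul_eq.2 r2.symm, lc]; group] at r5
  simp only [map_mul, map_inv, pi_io, r3, r4] at r5
  have r6 := trim P'.L r5
  rw [← rho_eq P' r3, rho_pow P' hC, pow_unit P'.L h3 hp'] at r6
  exact r6.trans (pow_le_pow_right_of_le_one' (pi_lt P'.L).le m.le_succ)

theorem kl (hT : T.Ok) (hZ : CEN T) (hR : Rg w τ x v) (h1 : w.π v = 1) (hC : Cent T τ x v)
    (hv : Pv T v) (hU : U ∈ T.Lev) (hn : T.Neat U) (h : w.At (KK O K) U) (h2 : P.rho v = 1) :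
    v ∈ T.Z := by
  obtain ⟨U1, f1, f2, f3, f4, -⟩ := ex_good hT hU h hv h1 hU
  refine hZ U1 f1 x v fun γ hγ => cz_iff.2 ?_
  have hγ : lc T x γ ∈ U1 := T.mem_Gam.1 hγ
  rw [← aw_mul w (lc T x γ), map_mul]
  refine Commute.mul_right ?_ ((w.com _ v h1).symm.map _)
  obtain ⟨y1, y2⟩ := (At_mem f3 f1).1 hγ
  have y3 := Lv.pi_aw w (lc T x γ)
  suffices H : (v * aw w (lc T x γ))⁻¹ * (aw w (lc T x γ) * v) ∈ T.Z by
    simpa only [map_mul, Commute, SemiconjBy] using qz_eq.2 H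
  refine Subgroup.mem_sInf.2 fun V hV => ?_
  obtain ⟨V', hV', k1⟩ := ex_lev P hT 0
  obtain ⟨U', g1, g2, g3, g4, g5⟩ := ex_good hT f1 f3 hv h1 (hT.inf _ hV _ hV')
  obtain ⟨M, hM⟩ := core P hT hR h1 hC g1 (neat_le (neat_le hn f2) g2) g3 g4 fun u hu =>
    sup_le_sup_right (Km_le 0) _ (pi_aw P u ▸ k1 _ (g5 u hu).2)
  obtain ⟨δ, u, hu, r1, r2⟩ := pm_eq.1 (hM 1 (by simp [h2]) _ y3 (cm_eq.2
    ⟨γ, _, inv_mem ((g3.iff g1).2 y2), by rw [aw_eq, lc]; group⟩).symm)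
  generalize aw w (lc T x γ) = y at *
  rw [pow_one] at r2
  have r3 : lc T x δ = y * (v * (y * u)⁻¹ * v⁻¹) := by
    rw [lc, show T.j δ = x * y * v * u⁻¹ * (x * v * y)⁻¹ by rw [r2]; group]
    group
  have r4 : lc T x δ ∈ T.Z := lc_Z hT x (neat_le hn f2 x δ (T.mem_Gam.2
    (show lc T x δ ∈ U1 from r3 ▸ mul_mem y1 (by
      have := inv_mem (mul_mem y1 (g2 hu))
      rw [← f4, mem_cj]
      simpa [mul_assoc] using this))) τ r1.symm)
  have r5 : (v * y)⁻¹ * (y * v) = lc T x δ * u := by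
    rw [← mul_right_inj (v * y), mul_inv_cancel_left, ← mul_assoc,
      Subgroup.mem_center_iff.1 (hT.zc r4) (v * y), r3]
    group
  have := (g5 _ (mul_mem ((sInf_le g1 : T.Z ≤ U') r4) hu)).1
  rwa [← r5, aw_of w (by simp [h1, y3])] at this

/-! ## normalisation -/

theorem rg_pow (hR : Rg w τ x s) (m : ℕ) : Rg w τ x (s ^ m) := fun U hU hn h => by
  obtain ⟨B, hB⟩ := hR U hU hn h
  exact ⟨B, fun n => by simpa only [← pow_mul] using hB (m * n)⟩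

theorem rg_nm (hT : T.Ok) (hR : Rg w τ x s) (hC : Cent T τ x s) {β : G0} (hβ : T.r β • τ = τ)
    (hk : w.π (lc T x β * s) ∈ KK O K ⊔ Zl K) : Rg w τ x (aw w (lc T x β * s)) :=
  fun U hU hn h => by
  obtain ⟨B, hB⟩ := hR U hU hn h
  have key : ∀ n y, w.π y = 1 →
      pm T U τ (x * aw w (lc T x β * s) ^ n * y) = pm T U τ (x * s ^ n * y) := fun n y hy => by
    obtain ⟨z, hz, e⟩ := lc_mul_pow hC hβ n
    refine (pm_eq.2 ⟨β ^ n, _, mul_mem ((sInf_le hU : T.Z ≤ U) hz)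
      (inv_mem ((h.iff hU).2 (pow_mem hk n))), (fix_pow hβ n).symm, ?_⟩).symm
    rw [← map_pow, aw_eq, map_pow, e, mul_assoc, mul_assoc, (w.com _ y hy).inv_left.eq, mul_assoc,
      ← mul_assoc z, ← Subgroup.mem_center_iff.1 (hT.zc hz) y, lc]
    group
  refine ⟨B, fun n g h1 h2 c S h3 h4 y h5 h6 => (key n y h5).trans (hB n g h1 h2 c S h3
    (fun y hy => ?_) y h5 h6)⟩
  obtain ⟨y', k1, k2, k3, k4⟩ := h4 y hy
  exact ⟨y', k1, k2, k3, (key n y' k1).symm.trans k4⟩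

theorem tv_nm (hT : T.Ok) {β : G0} (hβ : T.r β • τ = τ) (hk : w.π (lc T x β * s) ∈ KK O K ⊔ Zl K)
    (h : Tv w τ x (aw w (lc T x β * s))) : Tv w τ x s := by
  obtain ⟨γ, κ, h1, z, h2, h3, h4⟩ := h
  refine ⟨β⁻¹ * γ, _, mul_mem h1 hk, z, h2, by rw [map_mul, mul_smul, h3, fix_inv hβ], ?_⟩
  rw [lc_mul, lc_inv, map_mul w.ι, mul_assoc, mul_assoc, eq_inv_mul_iff_mul_eq, mul_assoc,
    Subgroup.mem_center_iff.1 (hT.zc h2), ← mul_assoc, ← mul_assoc, ← h4, aw_mul]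

theorem kz_root (hx : Ord w e τ x) (hC : Cent T τ x s) {r : ℕ} (hr : 0 < r)
    (h : w.π (s ^ r) ∈ KK O K ⊔ Zl K) : w.π s ∈ KK O K ⊔ Zl K := by
  obtain ⟨a, d, h1⟩ := diag_w hx hC
  rw [map_pow, h1, d2_pow, d2_mem w, Units.val_pow_eq_pow_val, Units.val_pow_eq_pow_val, map_pow,
    map_pow] at h
  exact h1 ▸ (d2_mem w).2 ((pow_left_inj₀ zero_le zero_le hr.ne').1 h)

theorem tv_prime (hT : T.Ok) (hZ : CEN T) (hc : Cmp w e) (hx : Ord w e τ x) (hA : Ari w τ x)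
    (hU : U ∈ T.Lev) (hn : T.Neat U) (h : w.At (KK O K) U) (hC : Cent T τ x s) (hR : Rg w τ x s)
    {r : ℕ} (hr : r.Prime) (hs : Tv w τ x (s ^ r)) : Tv w τ x s := by
  obtain ⟨γ, κ, h1, z, h2, h3, h4⟩ := hs
  obtain ⟨β, b1, b2⟩ := hA.pow r hr γ h3 fun P => ⟨P.rho s, by
    rw [← rho_pow P hC, h4, SP.rho, SP.rho, ← pi_eq, ← pi_eq, ← pi_aw, map_mul (aw w),
      map_mul (aw w), aw_iota, mul_one, map_mul, pi_aw]
    obtain ⟨c, hc⟩ := mem_Zl.1 (pi_Z P (aw_Z w h2))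
    rw [hc, mul_d2, mul_d2, mul_div_mul_right _ _ c.ne_zero]⟩
  have b1' := fix_inv b1
  have c1 := cent_mul (cent_lc hT b1') hC
  obtain ⟨z1, a1, a2⟩ := lc_mul_pow hC b1' r
  have a3 : lc T x (β⁻¹ ^ r) * lc T x γ ∈ T.Z := by
    rw [← lc_mul, inv_pow]
    exact lc_Z hT x (Subgroup.Normal.mem_comm inferInstance b2)
  rw [h4, ← mul_assoc, ← mul_assoc] at a2
  have k1 : w.π (lc T x β⁻¹ * s) ∈ KK O K ⊔ Zl K := kz_root hx c1 hr.pos (by
    rw [a2, map_mul, map_mul, map_mul, w.πι]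
    exact mul_mem (mul_mem (mul_mem (Subgroup.mem_sup_right (w.cen' _ a3)) h1)
      (Subgroup.mem_sup_right (w.cen' _ h2))) (Subgroup.mem_sup_right (w.cen' _ a1)))
  refine tv_nm hT b1' k1 ?_
  have hR := rg_nm hT hR hC b1' k1
  have hC := cent_aw hT hc hx c1
  have v1 : aw w (lc T x β⁻¹ * s) ^ r ∈ T.Z := by
    rw [← map_pow, a2, map_mul, map_mul, map_mul, aw_iota, mul_one]
    exact mul_mem (mul_mem (aw_Z w a3) (aw_Z w h2)) (aw_Z w a1)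
  generalize aw w (lc T x β⁻¹ * s) = v at *
  obtain ⟨P, hP⟩ := hA.tor r hr
  obtain ⟨δ, d1, d2, d3⟩ := hP (P.rho v) (by rw [← rho_pow P hC, rho_Zl P (pi_Z P v1)])
  have d1' := fix_inv d1
  have c2 := cent_mul (cent_lc hT d1') hC
  obtain ⟨z2, a4, a5⟩ := lc_mul_pow hC d1' r
  have v2 : (lc T x δ⁻¹ * v) ^ r ∈ T.Z := by
    rw [a5, inv_pow]
    exact mul_mem (mul_mem (lc_Z hT x (inv_mem d2)) v1) a4
  have k2 := kz_root hx c2 hr.pos (Subgroup.mem_sup_right (w.cen' _ v2))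
  refine tv_nm hT d1' k2 ⟨1, 1, one_mem _, _, kl P hT hZ (rg_nm hT hR hC d1' k2) (Lv.pi_aw w _)
    (cent_aw hT hc hx c2) (pv_of hT hU hr.pos ((sInf_le hU : T.Z ≤ U) ?_)) hU hn h ?_, by simp,
    by simp [lc_one]⟩
  · rw [← map_pow]
    exact aw_Z w v2
  · rw [rho_aw, rho_mul P (cent_lc hT d1') hC, ← d3, ← rho_mul P (cent_lc hT d1') (cent_lc hT d1),
      ← lc_mul, inv_mul_cancel, lc_one, rho_Zl P (by rw [map_one]; exact one_mem _)]

theorem tv_root (hT : T.Ok) (hZ : CEN T) (hc : Cmp w e) (hx : Ord w e τ x) (hA : Ari w τ x)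
    (hU : U ∈ T.Lev) (hn : T.Neat U) (h : w.At (KK O K) U) (N : ℕ) : 0 < N → ∀ s, Cent T τ x s →
    Rg w τ x s → Tv w τ x (s ^ N) → Tv w τ x s := by
  induction N using induction_on_primes with
  | zero => exact fun h => absurd h (lt_irrefl 0)
  | one => exact fun _ s _ _ h => pow_one s ▸ h
  | prime_mul p a hp ih =>
    exact fun h0 s hC hR hs => ih (Nat.pos_of_mul_pos_left h0) s hC hR (tv_prime hT hZ hc hx hA hU
      hn h (cent_pow hC a) (rg_pow hR a) hp (by rwa [← pow_mul, mul_comm]))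

theorem ex_pow (hF : FF T) (hx : Ord w e τ x) (hU : U ∈ T.Lev) (hn : T.Neat U)
    (h : w.At (KK O K) U) (hC : Cent T τ x s) :
    ∃ N δ, 0 < N ∧ T.r δ • τ = τ ∧ lc T x δ * s ^ N ∈ U := by
  obtain ⟨γ, a, d, h1, h2, h3, -⟩ := hx
  have hZ : T.Z ≤ U := sInf_le hU
  have hg : lc T x γ ∉ U := fun hg => by
    have := (d2_mem w).1 (h2 ▸ h.2 _ hg)
    rw [← lt_one w, map_div₀, this, div_self (Lv.pos w a).ne'] at h3
    exact h3.false
  obtain ⟨n, f, hf⟩ := fx_fin (S := dc U (lc T x γ) U) (fun n : ℕ => (τ, x * s ^ n, γ))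
    (fun n => ⟨h1, 1, one_mem _, _, hZ (qz_eq.1 (show Qz T (lc T x γ) =
      Qz T ((s ^ n)⁻¹ * lc T x γ * s ^ n) by
        rw [map_mul, map_mul, map_inv, mul_assoc, ← (cz_iff.1 (cent_pow hC n γ h1)).eq,
          inv_mul_cancel_left])), by
      show lc T (x * _) γ = _
      rw [lc_right]
      group⟩) (hF U hU hn _ hg)
  obtain ⟨i, k, hik, e1⟩ := Finite.exists_ne_map_eq_of_infinite f
  wlog hlt : i < k generalizing i k
  · exact this k i hik.symm e1.symm (by omega)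
  obtain ⟨δ, u, hu, k1, k2, -⟩ := hf i k e1
  obtain ⟨j, rfl⟩ := Nat.exists_eq_add_of_lt hlt
  have k1 : T.r δ • τ = τ := k1.symm
  have k3 : Qz T u = Qz T (lc T x δ⁻¹ * s ^ (j + 1)) := by
    have : u = (s ^ i)⁻¹ * lc T x δ⁻¹ * (s ^ i * s ^ (j + 1)) := by
      rw [← pow_add, ← add_assoc, eq_inv_mul_iff_mul_eq.2 k2.symm, lc_inv, lc]
      group
    rw [this, map_mul, map_mul, map_mul, map_inv, mul_assoc, ← mul_assoc (Qz T (lc T x δ⁻¹)),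
      ← (cz_iff.1 (cent_pow hC i _ (fix_inv k1))).eq, map_mul]
    group
  exact ⟨j + 1, δ⁻¹, j.succ_pos, fix_inv k1, by
    simpa using mul_mem hu (hZ (qz_eq.1 k3))⟩

end Vale.Agent.P022K.FI.Na

namespace Vale.Agent.P022K.FI

open Vale.Agent.P022K.Sh Na Lv

/-- **NOAUT** -/
theorem noaut : NOAUT := by
  intro G0 G _ _ T hT hF hZ O K _ _ _ _ _ w e hc τ x hx hA ⟨U, hU, hn, h⟩ s hC hR
  have := Z_normal hT
  obtain ⟨N, δ, N0, d1, d2⟩ := ex_pow hF hx hU hn h hC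
  refine tv_root hT hZ hc hx hA hU hn h N N0 s hC hR ?_
  obtain ⟨k1, k2⟩ := (At_mem h hU).1 d2
  refine tv_nm hT d1 k2 ?_
  have hR := rg_nm hT (rg_pow hR N) (cent_pow hC N) d1 k2
  have hC := cent_aw hT hc hx (cent_mul (cent_lc hT d1) (cent_pow hC N))
  have h1 := Lv.pi_aw w (lc T x δ * s ^ N)
  generalize aw w (lc T x δ * s ^ N) = v at *
  obtain ⟨P, P', p, -, p1, p2⟩ := hA.two
  obtain ⟨V, hV, v1⟩ := ex_lev P hT 1
  obtain ⟨V', hV', v2⟩ := ex_lev P' hT 1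
  obtain ⟨k, k0, hk⟩ := pv_of hT hU one_pos (by rwa [pow_one]) _ (hT.inf _ hV _ hV')
  refine tv_root hT hZ hc hx hA hU hn h k k0 v hC hR ?_
  have hR := rg_pow hR k
  have hC := cent_pow hC k
  have h2 : w.π (v ^ k) = 1 := by rw [map_pow, h1, one_pow]
  have h3 := pv_of hT hV one_pos (by rw [pow_one]; exact hk.1)
  obtain ⟨a, d, e1⟩ := diag_P P hC
  obtain ⟨a', d', e2⟩ := diag_P P' hC
  exact ⟨1, 1, one_mem _, _, kl P' hT hZ hR h2 hC h3 hU hn h (kl0 P hT hR h2 hC h3 hU hn h P'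
    (p := p) (by simpa using (alg_lt P.L).2 p1) (by simpa using (unit_iff P'.L).1 p2)
    (rho_eq P e1 ▸ km_d2 P.L (e1 ▸ v1 _ hk.1)) (rho_eq P' e2 ▸ km_d2 P'.L (e2 ▸ v2 _ hk.2))),
    by simp, by simp [lc_one]⟩

end Vale.Agent.P022K.FI
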