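import Vale.Agent.P022K.FI.Lv

/-!
# P022K, block FI: the double cosets of the operator `U` (local part)
-/

set_option autoImplicit false
set_option linter.unusedSectionVars false

open UpperHalfPlane WithZero
open scoped MatrixGroups

noncomputable section

namespace Vale.Agent.P022K.FI.Oc

open Vale.Agent.P022K.Sh Vale.Agent.P022K.FI.Lv

variable {G0 G : Type} [Group G0] [Group G] {T : Tw G0 G}
variable {O K : Type} [CommRing O] [IsDomain O] [IsDiscreteValuationRing O] [Field K] [Algebra O K]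
variable (w : T.Lc O K)

/-- the double coset of `t ^ m` for the Iwahori group, with the centre -/
structure Dl (m : ℕ) (g : GL (Fin 2) K) : Prop where
  b : vl w (g 0 1) ≤ vl w (g 0 0)
  c : vl w (g 1 0) < vl w (g 0 0)
  d : vl w (g 1 1) ≤ vl w (g 0 0)
  det : vl w g.det = vl w (g 0 0) ^ 2 * vl w w.ϖ ^ m

/-- the Iwahori group with the centre -/
def Iw : Subgroup (GL (Fin 2) K) := (KK O K ⊔ Zl K) ⊓ cj (tt w) (KK O K ⊔ Zl K)

theorem det_eq (g : GL (Fin 2) K) : (g.det : K) = g 0 0 * g 1 1 - g 0 1 * g 1 0 := by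
  rw [Matrix.GeneralLinearGroup.val_det_apply, Matrix.det_fin_two]

theorem ent (g h : GL (Fin 2) K) (i j : Fin 2) : (g * h) i j = g i 0 * h 0 j + g i 1 * h 1 j := by
  simp [Matrix.mul_apply, Fin.sum_univ_two]

variable {w} {m n : ℕ} {g h : GL (Fin 2) K}

theorem Dl.pos (h : Dl w m g) : 0 < vl w (g 0 0) := zero_le.trans_lt h.c

theorem Dl.mul (hg : Dl w m g) (hh : Dl w n h) : Dl w (m + n) (g * h) := by
  have e : vl w ((g * h) 0 0) = vl w (g 0 0) * vl w (h 0 0) := by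
    rw [ent, (vl w).map_add_eq_of_lt_left, map_mul]
    rw [map_mul, map_mul]
    exact mul_lt hg.b hh.c hg.pos
  refine ⟨?_, ?_, ?_, ?_⟩ <;> rw [e]
  · rw [ent]
    refine (vl w).map_add_le ?_ ?_ <;> rw [map_mul]
    exacts [mul_le_mul_right hh.b _, mul_le_mul' hg.b hh.d]
  · rw [ent]
    refine (vl w).map_add_lt ?_ ?_ <;> rw [map_mul]
    exacts [mul_lt_mul_of_pos_right hg.c hh.pos, mul_lt hg.d hh.c hg.pos]
  · rw [ent]
    refine (vl w).map_add_le ?_ ?_ <;> rw [map_mul]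
    exacts [mul_le_mul' hg.c.le hh.b, mul_le_mul' hg.d hh.d]
  · rw [map_mul, Units.val_mul, map_mul, hg.det, hh.det, pow_add, mul_pow, mul_mul_mul_comm]

theorem Dl.d_lt (h : Dl w m g) (hm : 0 < m) : vl w (g 1 1) < vl w (g 0 0) := by
  have e : g 0 0 * g 1 1 = g.det + g 0 1 * g 1 0 := by rw [det_eq, sub_add_cancel]
  refine lt_of_mul_lt_mul_left (a := vl w (g 0 0)) ?_ zero_le
  rw [← map_mul, e]
  refine (vl w).map_add_lt ?_ ?_
  · rw [h.det, sq]
    exact mul_lt_of_lt_one_right (mul_pos h.pos h.pos) (pow_lt_one₀ zero_le (pi_lt w) hm.ne')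
  · rw [map_mul]
    exact mul_lt h.b h.c h.pos

theorem dl_d2 {a d : Kˣ} : Dl w m (d2 a d) ↔ vl w d = vl w a * vl w w.ϖ ^ m := by
  have ha := Lv.pos w a
  constructor
  · intro h
    have := h.det
    rw [det_d2, Units.val_mul, map_mul, sq, mul_assoc] at this
    exact mul_left_cancel₀ ha.ne' this
  · intro h
    refine ⟨by simp [d2_val], by simpa [d2_val] using ha, ?_, ?_⟩
    · show vl w d ≤ vl w a
      rw [h]
      exact mul_le_of_le_one_right' (pow_le_one' (pi_lt w).le m)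
    · rw [det_d2, Units.val_mul, map_mul, h, sq, mul_assoc]
      rfl

theorem tt_conj (g : GL (Fin 2) K) : ((tt w)⁻¹ * g * tt w : GL (Fin 2) K) 0 0 = g 0 0 ∧
    ((tt w)⁻¹ * g * tt w : GL (Fin 2) K) 0 1 = g 0 1 * w.ϖ ∧
    ((tt w)⁻¹ * g * tt w : GL (Fin 2) K) 1 0 * w.ϖ = g 1 0 ∧
    ((tt w)⁻¹ * g * tt w : GL (Fin 2) K) 1 1 = g 1 1 := by
  have := w.ϖ.ne_zero
  rw [tt, d2_inv]
  simp only [ent]
  refine ⟨?_, ?_, ?_, ?_⟩ <;> simp [d2_val] <;> field_simp

theorem dl_zero : Dl w 0 g ↔ g ∈ Iw w := by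
  obtain ⟨e0, e1, e2, e3⟩ := tt_conj (w := w) g
  have ed : ((tt w)⁻¹ * g * tt w).det = g.det := by
    rw [map_mul, map_mul, mul_right_comm, ← map_mul, inv_mul_cancel, map_one, one_mul]
  have hp := Lv.pos w w.ϖ
  rw [Iw, Subgroup.mem_inf, mem_cj, mem_KZ w, mem_KZ w, ed]
  constructor
  · intro h
    have h0 : g 0 0 ≠ 0 := (vl w).pos_iff.1 h.pos
    have hd := h.det
    rw [pow_zero, mul_one] at hd
    refine ⟨⟨Units.mk0 _ h0, fun i j => ?_, hd⟩, Units.mk0 _ h0, fun i j => ?_, hd⟩ <;>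
      fin_cases i <;> fin_cases j
    exacts [le_rfl, h.b, h.c.le, h.d, (congrArg (vl w) e0).le,
      (congrArg (vl w) e1).le.trans ((map_mul _ _ _).le.trans
        ((mul_le_of_le_one_right' (pi_lt w).le).trans h.b)),
      le_of_mul_le_mul_right (((map_mul _ _ _).symm.trans (congrArg (vl w) e2)).le.trans
        ((lt_iff w h.pos).1 h.c)) hp,
      (congrArg (vl w) e3).le.trans h.d]
  · rintro ⟨⟨c, h1, h2⟩, c', h3, h4⟩
    have hc := Lv.pos w c
    have cc : vl w c' = vl w c := (pow_left_inj₀ zero_le zero_le two_ne_zero).1 (h4.symm.trans h2)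
    have h5 : vl w (g 1 0) < vl w c := by
      rw [lt_iff w hc, ← e2, map_mul, ← cc]
      exact mul_le_mul_left (h3 1 0) _
    have h6 : vl w (g 0 0) = vl w c := (h1 0 0).eq_of_not_lt fun h => by
      refine (h2.symm.trans (congrArg (vl w) (det_eq g))).not_gt ((vl w).map_sub_lt ?_ ?_) <;>
        rw [map_mul, sq]
      exacts [mul_comm (vl w (g 0 0)) _ ▸ mul_lt (h1 1 1) h hc, mul_lt (h1 0 1) h5 hc]
    exact ⟨h6 ▸ h1 0 1, h6 ▸ h5, h6 ▸ h1 1 1, by rw [h6, h2, pow_zero, mul_one]⟩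

theorem Dl.inv (h : Dl w 0 g) : Dl w 0 g⁻¹ := dl_zero.2 (inv_mem (dl_zero.1 h))

theorem dl_one : Dl w 0 1 := dl_zero.2 (one_mem _)

variable (w) in
/-- the representatives of the operator `U` -/
def ll (c : IsLocalRing.ResidueField O) : GL (Fin 2) K :=
  tt w * lw (-algebraMap O K (Quotient.out c))

theorem ll_inv (c : IsLocalRing.ResidueField O) (g : GL (Fin 2) K) (j : Fin 2) :
    ((ll w c)⁻¹ * g) 0 j = g 0 j ∧ ((ll w c)⁻¹ * g) 1 j =
      algebraMap O K (Quotient.out c) * g 0 j + g 1 j / w.ϖ := by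
  rw [ll, mul_inv_rev, tt, d2_inv]
  simp only [ent]
  constructor <;> simp [d2_val, lw, div_eq_inv_mul]

theorem det_ll (c : IsLocalRing.ResidueField O) : (ll w c).det = w.ϖ := by
  rw [ll, map_mul, det_lw, tt, det_d2, mul_one, one_mul]

theorem dl_ll (c : IsLocalRing.ResidueField O) : Dl w 1 (ll w c) := by
  have e : ∀ i j, ll w c i j = !![1, 0; -(w.ϖ * algebraMap O K (Quotient.out c)), w.ϖ] i j := by
    intro i j
    rw [ll, ent]
    fin_cases i <;> fin_cases j <;> simp [tt, d2_val, lw]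
  refine ⟨by simp [e], ?_, by simpa [e] using (pi_lt w).le, by simp [det_ll, e]⟩
  simpa [e] using (mul_le_of_le_one_right' (alg_le w (Quotient.out c))).trans_lt (pi_lt w)

theorem Dl.split (h : Dl w (m + 1) g) : ∃ c, Dl w m ((ll w c)⁻¹ * g) := by
  have hp := Lv.pos w w.ϖ
  have h0 : g 0 0 ≠ 0 := (vl w).pos_iff.1 h.pos
  have dv : ∀ {y : K}, vl w y < vl w (g 0 0) → vl w (y / w.ϖ) ≤ vl w (g 0 0) := fun hy => by
    rw [map_div₀, div_le_iff₀ hp]
    exact (lt_iff w h.pos).1 hy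
  obtain ⟨y, hy⟩ := (le_one w).1 (show vl w (-(g 1 0 / w.ϖ / g 0 0)) ≤ 1 by
    rw [Valuation.map_neg, map_div₀, div_le_one₀ h.pos]
    exact dv h.c)
  refine ⟨IsLocalRing.residue O y, ?_, ?_, ?_, ?_⟩ <;> rw [(ll_inv _ g 0).1]
  · rw [(ll_inv _ g 1).1]
    exact h.b
  · have := (alg_lt w).2 (Ideal.Quotient.eq.1 (Quotient.out_eq (IsLocalRing.residue O y)))
    rw [map_sub, hy] at this
    have := mul_lt_mul_of_pos_right this h.pos
    rw [← map_mul, one_mul] at this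
    rw [(ll_inv _ g 0).2]
    convert this using 2
    field_simp
    ring
  · rw [(ll_inv _ g 1).2]
    refine (vl w).map_add_le ?_ (dv (h.d_lt m.succ_pos))
    rw [map_mul]
    exact (mul_le_of_le_one_left' (alg_le w _)).trans h.b
  · rw [map_mul, map_inv, det_ll, Units.val_mul, map_mul, h.det, Units.val_inv_eq_inv_val,
      map_inv₀, pow_succ (vl w w.ϖ)]
    field_simp

theorem ll_inj {c c' : IsLocalRing.ResidueField O} (h : Dl w m ((ll w c)⁻¹ * g))
    (h' : Dl w n ((ll w c')⁻¹ * g)) : c = c' := by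
  have h1 := h.c
  have h2 := h'.c
  have hp := h.pos
  rw [(ll_inv _ g 0).1] at h1 h2 hp
  rw [(ll_inv _ g 0).2] at h1 h2
  have := (vl w).map_sub_lt h1 h2
  rw [add_sub_add_right_eq_sub, ← sub_mul, map_mul, ← map_sub] at this
  have := (alg_lt w).1 (lt_of_mul_lt_mul_right (this.trans_eq (one_mul _).symm) zero_le)
  exact (Quotient.out_eq c).symm.trans ((Ideal.Quotient.eq.2 this).trans (Quotient.out_eq c'))

variable (w) in
theorem hensel {s d : K} (hs : vl w s < 1) (hd : vl w d < 1) :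
    ∃ a : K, vl w a = 1 ∧ a ^ 2 - (1 + s) * a + d = 0 := by
  replace hs := (lt_one w).1 hs
  replace hd := (lt_one w).1 hd
  obtain ⟨s, hs, rfl⟩ := hs
  obtain ⟨d, hd, rfl⟩ := hd
  have := w.cpl
  obtain ⟨a, h1, h2⟩ := HenselianRing.is_henselian (I := IsLocalRing.maximalIdeal O)
    (Polynomial.X ^ 2 - Polynomial.C (1 + s) * Polynomial.X + Polynomial.C d) (by monicity!) 1
    (by simpa using add_mem (neg_mem hs) hd) (by
      have : Ideal.Quotient.mk (IsLocalRing.maximalIdeal O) s = 0 :=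
        Ideal.Quotient.eq_zero_iff_mem.2 hs
      simp [this])
  refine ⟨algebraMap O K a, ?_, ?_⟩
  · have := (vl w).map_one_add_of_lt ((alg_lt w).2 h2)
    rwa [map_sub, map_one, add_sub_cancel] at this
  · simpa using congrArg (algebraMap O K) h1

/-- diagonalisation by an element of the Iwahori group -/
theorem Dl.diag (h : Dl w m g) (hm : 0 < m) :
    ∃ k a d, Dl w 0 k ∧ k⁻¹ * g * k = d2 a d := by
  have hp := h.pos
  have h0 : g 0 0 ≠ 0 := (vl w).pos_iff.1 hp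
  have h1 := h.d_lt hm
  have hdet : vl w (g.det / g 0 0 ^ 2) < 1 := by
    rw [map_div₀, map_pow, h.det, mul_div_cancel_left₀ _ (pow_pos hp 2).ne']
    exact pow_lt_one₀ zero_le (pi_lt w) hm.ne'
  obtain ⟨α, a1, a2⟩ := hensel w (s := g 1 1 / g 0 0) (by
    rwa [map_div₀, div_lt_one₀ hp]) hdet
  obtain ⟨a, ha⟩ : ∃ a, a = α * g 0 0 := ⟨_, rfl⟩
  have va : vl w a = vl w (g 0 0) := by rw [ha, map_mul, a1, one_mul]
  have a0 : a ≠ 0 := (vl w).pos_iff.1 (va ▸ hp)
  have ea : a ^ 2 - (g 0 0 + g 1 1) * a + g.det = 0 := by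
    rw [ha]
    field_simp at a2
    linear_combination a2
  obtain ⟨d, hd⟩ : ∃ d, d = g 0 0 + g 1 1 - a := ⟨_, rfl⟩
  have ed : a * d = g.det := by
    rw [hd]
    linear_combination -ea
  have d0 : d ≠ 0 := right_ne_zero_of_mul (ed ▸ g.det.ne_zero)
  have vd : vl w d < vl w (g 0 0) := by
    rw [map_div₀, div_lt_one₀ (by rw [map_pow]; exact pow_pos hp 2), ← ed, map_mul, va, map_pow,
      sq] at hdet
    exact lt_of_mul_lt_mul_left hdet zero_le
  have v1 : vl w (a - g 1 1) = vl w (g 0 0) := va ▸ (vl w).map_sub_eq_of_lt_left (va ▸ h1)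
  have v2 : vl w (g 0 0 - d) = vl w (g 0 0) := (vl w).map_sub_eq_of_lt_left vd
  have n1 : a - g 1 1 ≠ 0 := (vl w).pos_iff.1 (v1 ▸ hp)
  have n2 : g 0 0 - d ≠ 0 := (vl w).pos_iff.1 (v2 ▸ hp)
  have x1 : vl w (-g 0 1 / (g 0 0 - d)) ≤ 1 := by
    rw [map_div₀, Valuation.map_neg, v2, div_le_one₀ hp]
    exact h.b
  have y1 : vl w (g 1 0 / (a - g 1 1)) < 1 := by
    rw [map_div₀, v1, div_lt_one₀ hp]
    exact h.c
  have vk : vl w (1 - -g 0 1 / (g 0 0 - d) * (g 1 0 / (a - g 1 1))) = 1 :=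
    (vl w).map_one_sub_of_lt (by simpa only [map_mul, one_mul] using mul_lt x1 y1 one_pos)
  rw [det_eq] at ea ed
  refine ⟨Matrix.GeneralLinearGroup.mkOfDetNeZero
    !![1, -g 0 1 / (g 0 0 - d); g 1 0 / (a - g 1 1), 1] (by
      rw [Matrix.det_fin_two_of, one_mul]
      exact (vl w).pos_iff.1 (vk ▸ one_pos)), Units.mk0 a a0, Units.mk0 d d0,
    ⟨by simpa using x1, by simpa using y1, le_rfl, by simpa [det_eq] using vk⟩, ?_⟩
  rw [mul_assoc, inv_mul_eq_iff_eq_mul]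
  ext i j
  rw [ent, ent]
  fin_cases i <;> fin_cases j <;> simp [d2_val] <;> field_simp
  · linear_combination -ea
  · ring
  · ring
  · rw [hd] at *
    linear_combination ea

theorem ex_sl {c : Kˣ} (h : vl w g.det = vl w c ^ 2) :
    ∃ g1 k : GL (Fin 2) K, g1.det = 1 ∧ Dl w 0 k ∧ g = g1 * k := by
  refine ⟨g * (d2 c (g.det / c))⁻¹, d2 c (g.det / c), ?_, dl_d2.2 ?_, by group⟩
  · rw [map_mul, map_inv, det_d2, mul_div_cancel, mul_inv_cancel]
  · rw [Units.val_div_eq_div_val, map_div₀, h, pow_zero, mul_one, sq,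
      mul_div_cancel_right₀ _ (Lv.pos w c).ne']

theorem Dl.sl (h : Dl w (2 * m) g) : ∃ g1 k : GL (Fin 2) K, g1.det = 1 ∧ Dl w 0 k ∧ g = g1 * k :=
  ex_sl (c := Units.mk0 _ ((vl w).pos_iff.1 h.pos) * w.ϖ ^ m) (by
    rw [h.det, Units.val_mul, Units.val_pow_eq_pow_val, map_mul, map_pow, mul_pow, ← pow_mul,
      mul_comm m]
    rfl)

end Vale.Agent.P022K.FI.Oc
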