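import Vale.Agent.P022K.Ih.Ps
import Mathlib.Algebra.DirectSum.LinearMap
import Mathlib.LinearAlgebra.Eigenspace.Triangularizable

/-! P022K, curve side: traces of the cyclic Hecke operators (helper57). -/

set_option linter.all false

namespace Vale.Agent.P022K.FI

open Vale.Agent.P022K.Ih Module

variable {K V : Type*} [Field K] [CharZero K] [IsAlgClosed K] [AddCommGroup V] [Module K V]
  [FiniteDimensional K V]

/-- traces of powers are power sums of eigenvalues -/
theorem exists_eig (t : End K V) : ∃ a : Multiset K, a.card = finrank K V ∧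
    (∀ x ∈ a, t.HasEigenvalue x) ∧ ∀ n, LinearMap.trace K V (t ^ n) = ps a n := by
  classical
  have hds := DirectSum.isInternal_submodule_of_iSupIndep_of_iSup_eq_top
    t.independent_maxGenEigenspace t.iSup_maxGenEigenspace_eq_top
  have fin : {μ | t.maxGenEigenspace μ ≠ ⊥}.Finite :=
    WellFoundedGT.finite_ne_bot_of_iSupIndep t.independent_maxGenEigenspace
  suffices h : ∃ a : Multiset K, (∀ x ∈ a, t.HasEigenvalue x) ∧
      ∀ n, LinearMap.trace K V (t ^ n) = ps a n from h.imp fun a h => ⟨Nat.cast_injective (R := K)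
    (by simpa [ps] using (h.2 0).symm), h⟩
  refine ⟨∑ μ ∈ fin.toFinset, .replicate (finrank K (t.maxGenEigenspace μ)) μ, fun x hx => ?_,
    fun n => ?_⟩
  · obtain ⟨μ, m, k⟩ := Multiset.mem_sum.1 hx
    rw [Multiset.eq_of_mem_replicate k]
    have := fin.mem_toFinset.1 m
    rw [Set.mem_setOf_eq, End.maxGenEigenspace_eq] at this
    exact End.hasEigenvalue_of_hasGenEigenvalue this
  have m := fun n μ => t.mapsTo_maxGenEigenspace_of_comm ((Commute.refl t).pow_right n) μ
  rw [LinearMap.trace_eq_sum_trace_restrict' hds fin (m n), ps_bind]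
  refine Finset.sum_congr rfl fun μ _ => ?_
  rw [ps_replicate]
  induction n with
  | zero =>
    rw [pow_zero μ, mul_one, ← LinearMap.trace_id]
    rfl
  | succ n ih =>
    have m1 := t.mapsTo_maxGenEigenspace_of_comm (Commute.refl t) μ
    rw [show (t ^ (n + 1)).restrict (m (n + 1) μ) = (t ^ n).restrict (m n μ) ∘ₗ t.restrict m1 from
      LinearMap.ext fun x => Subtype.ext (LinearMap.congr_fun (pow_succ t n) x.1),
      LinearMap.trace_comp_eq_mul_of_commute_of_isNilpotent μ
        (LinearMap.restrict_commute ((Commute.refl t).pow_left n) _ _)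
        (t.isNilpotent_restrict_maxGenEigenspace_sub_algebraMap μ), ih]
    ring

/-- the sequence `α ^ n + β ^ n` where `α + β = t` and `α β = q` -/
def lu {R : Type*} [Ring R] (q : ℕ) (t : R) : ℕ → R
  | 0 => 2
  | 1 => t
  | n + 2 => t * lu q t (n + 1) - q * lu q t n

theorem lu_eq {R : Type*} [CommRing R] {q : ℕ} {a b : R} (h : a * b = q) (n : ℕ) :
    lu q (a + b) n = a ^ n + b ^ n := by
  induction n using Nat.twoStepInduction with
  | zero => simp [lu, one_add_one_eq_two]
  | one => simp [lu]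
  | more n h0 h1 =>
    rw [lu, h0, h1, ← h]
    ring

theorem trace_lu (q : ℕ) (t : End K V) : ∃ A : Multiset K, A.card = 2 * finrank K V ∧
    (∀ a ∈ A, ∃ b ∈ A, a * b = q ∧ t.HasEigenvalue (a + b)) ∧
    ∀ n, LinearMap.trace K V (lu q t n) = ps A n := by
  obtain ⟨a, a1, a2, a3⟩ := exists_eig t
  have r : ∀ x : K, ∃ y z, y + z = x ∧ y * z = q := fun x => by
    obtain ⟨s, hs⟩ := IsAlgClosed.exists_root (Polynomial.X ^ 2 - Polynomial.C x * Polynomial.X +
      Polynomial.C (q : K)) (by
        rw [show Polynomial.degree _ = (2 : ℕ) by compute_degree!]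
        simp)
    simp only [Polynomial.IsRoot.def, Polynomial.eval_add, Polynomial.eval_sub, Polynomial.eval_pow,
      Polynomial.eval_mul, Polynomial.eval_X, Polynomial.eval_C] at hs
    exact ⟨s, x - s, by ring, by linear_combination -hs⟩
  choose y z e1 e2 using r
  have k : ∀ n k, LinearMap.trace K V (t ^ k * lu q t n) =
      (a.map fun x => x ^ k * lu q x n).sum := fun n => by
    induction n using Nat.twoStepInduction with
    | zero =>
      intro k
      simp only [lu, mul_two, map_add, a3, Multiset.sum_map_add, ps]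
    | one =>
      intro k
      simp only [lu, ← pow_succ, a3, ps]
    | more n h0 h1 =>
      intro k
      rw [lu, mul_sub, ← mul_assoc, ← pow_succ, map_sub, h1, ← nsmul_eq_mul, mul_smul_comm,
        map_nsmul, h0, nsmul_eq_mul, ← Multiset.sum_map_mul_left, ← Multiset.sum_map_sub]
      exact congrArg _ (Multiset.map_congr rfl fun x _ => by rw [lu]; ring)
  refine ⟨a.map y + a.map z, by simp [a1, two_mul], fun b hb => ?_, fun n => ?_⟩
  · rcases Multiset.mem_add.1 hb with m | m <;> obtain ⟨x, hx, rfl⟩ := Multiset.mem_map.1 m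
    · exact ⟨z x, Multiset.mem_add.2 (.inr (Multiset.mem_map_of_mem _ hx)), e2 x,
        (e1 x).symm ▸ a2 x hx⟩
    · exact ⟨y x, Multiset.mem_add.2 (.inl (Multiset.mem_map_of_mem _ hx)), mul_comm (y x) _ ▸ e2 x,
        add_comm (y x) _ ▸ (e1 x).symm ▸ a2 x hx⟩
  · have := k n 0
    rw [pow_zero, one_mul] at this
    rw [this, ps_add, ps, ps, Multiset.map_map, Multiset.map_map, ← Multiset.sum_map_add]
    exact congrArg _ (Multiset.map_congr rfl fun x _ => by
      rw [pow_zero, one_mul, ← e1 x, lu_eq (e2 x), e1 x]; rfl)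

/-- the recursion of the cyclic Hecke operators `T n` (spheres of radius `n` in the tree) -/
structure Cyc {R : Type*} [Ring R] (q : ℕ) (T : ℕ → R) : Prop where
  two : T 1 * T 1 = T 2 + (q + 1)
  more : ∀ n, T 1 * T (n + 2) = T (n + 3) + q * T (n + 1)

theorem Cyc.lu {R : Type*} [Ring R] {q : ℕ} {T : ℕ → R} (h : Cyc q T) :
    T 2 + 1 = lu q (T 1) 2 + q ∧
      ∀ n, T (n + 3) - q * T (n + 1) = lu q (T 1) (n + 3) - lu q (T 1) (n + 1) := by
  have c : ∀ x : R, T 1 * (q * x) = q * (T 1 * x) := fun x => by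
    rw [← mul_assoc, ← mul_assoc, Nat.cast_comm]
  have e : ∀ n, T (n + 3) = T 1 * T (n + 2) - q * T (n + 1) := fun n =>
    eq_sub_of_add_eq (h.more n).symm
  have e2 : T 2 = T 1 * T 1 - (q + 1) := eq_sub_of_add_eq h.two.symm
  refine ⟨by rw [e2, FI.lu, FI.lu, FI.lu]; noncomm_ring, fun n => ?_⟩
  induction n using Nat.twoStepInduction with
  | zero =>
    simp only [zero_add, e 0, e2, FI.lu, mul_sub, mul_add, mul_one, ← Nat.cast_comm q (T 1),
      ← mul_assoc]
    noncomm_ring
  | one =>
    simp only [show 1 + 3 = 0 + 1 + 3 from rfl, e, zero_add, show 1 + 1 = 2 from rfl, e2, FI.lu,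
      show 0 + 1 + 2 = 0 + 3 from rfl, mul_sub, mul_add, mul_one, c,
      ← Nat.cast_comm q (T 1), mul_assoc]
    noncomm_ring
  | more n h0 h1 =>
    have a := congrArg (T 1 * ·) h1
    have b := congrArg ((q : R) * ·) h0
    simp only [mul_sub, c] at a b
    have e5 : T (n + 2 + 3) = T 1 * T (n + 1 + 3) - q * T (n + 3) := e (n + 2)
    have e3 : q * T (n + 2 + 1) = q * (T 1 * T (n + 1 + 1)) - q * (q * T (n + 1)) :=
      (congrArg _ (e n)).trans (mul_sub _ _ _)
    have l5 : FI.lu q (T 1) (n + 2 + 3) =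
      T 1 * FI.lu q (T 1) (n + 1 + 3) - q * FI.lu q (T 1) (n + 3) := rfl
    have l3 : FI.lu q (T 1) (n + 2 + 1) =
      T 1 * FI.lu q (T 1) (n + 1 + 1) - q * FI.lu q (T 1) (n + 1) := rfl
    linear_combination (norm := abel) a - b + e5 - e3 - l5 + l3

/-- **Ihara's formula.** `T n` acts on the differentials, `f n` is the number of components fixed by
`T n`, `F n` half the number of fixed points, `A n` half the number of those on the axis. -/
theorem ihara {q : ℕ} {T : ℕ → End K V} (hT : Cyc q T) {f F A : ℕ → K} {h : K}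
    (f2 : f 2 = h) (fp : ∀ n, f (n + 3) = f (n + 1))
    (lef : ∀ n, LinearMap.trace K V (T (n + 1)) = (q + 1) * q ^ n * f (n + 1) - F (n + 1))
    (F1 : F 1 = A 1) (F2 : F 2 = A 2) (Fn : ∀ n, F (n + 3) + A (n + 1) = q * F (n + 1) + A (n + 3)) :
    ∃ B : Multiset K, B.card = 2 * finrank K V ∧
      (∀ a ∈ B, ∃ b ∈ B, a * b = q ∧ (T 1).HasEigenvalue (a + b)) ∧ ∀ m, 0 < m →
      A m = (q ^ m + 1) * f m - ps B m - if Even m then (q - 1) * (finrank K V - h) else 0 := by
  obtain ⟨B, b1, b2, b3⟩ := trace_lu q (T 1)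
  refine ⟨B, b1, b2, fun m hm => ?_⟩
  obtain ⟨m, rfl⟩ := Nat.exists_eq_succ_of_ne_zero hm.ne'
  clear hm
  induction m using Nat.twoStepInduction with
  | zero =>
    have := lef 0
    rw [if_neg (by decide), ← b3]
    simp only [zero_add, Nat.succ_eq_add_one, lu] at this ⊢
    linear_combination this - F1
  | one =>
    have a := lef 1
    have b := congrArg (LinearMap.trace K V) hT.lu.1
    rw [map_add, map_add, b3, ← nsmul_one, map_nsmul, LinearMap.trace_one, nsmul_eq_mul] at b
    rw [if_pos (by decide)]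
    simp only [Nat.succ_eq_add_one, show 1 + 1 = 2 from rfl, f2] at a ⊢
    linear_combination a - b - F2
  | more n h0 _ =>
    have b := congrArg (LinearMap.trace K V) (hT.lu.2 n)
    rw [map_sub, map_sub, b3, b3, ← nsmul_eq_mul, map_nsmul, nsmul_eq_mul, lef, lef, fp] at b
    have c := Fn n
    simp only [Nat.succ_eq_add_one, show n + 2 + 1 = n + 3 from rfl, fp,
      show Even (n + 3) ↔ Even (n + 1) from by simp [Nat.even_add_one, parity_simps]] at h0 b ⊢
    linear_combination h0 - b - c

end Vale.Agent.P022K.FI
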