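import Vale.Agent.P022K.FI.Oc1
import Vale.Agent.P022K.FI.TreeA

/-!
# P022K, block FI: the operator `U` on forms of level `Γ₀(w)`, the old part
-/

set_option autoImplicit false
set_option linter.unusedSectionVars false

open UpperHalfPlane WithZero Module
open scoped MatrixGroups

noncomputable section

namespace Vale.Agent.P022K.FI.Oc

open Vale.Agent.P022K.Sh Vale.Agent.P022K.FI.Lv Vale.Agent.P022K.Ih Vale.Agent.P022.H218.L3

/-! ## linear algebra -/

section la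

variable {V V' : Type} [AddCommGroup V] [Module ℂ V] [FiniteDimensional ℂ V] [AddCommGroup V']
  [Module ℂ V'] [FiniteDimensional ℂ V']

theorem tr_split (A : End ℂ V) (B : End ℂ V') (J : V' →ₗ[ℂ] V) (hJ : Function.Injective J)
    (h : ∀ x, A (J x) = J (B x)) : ∃ C : End ℂ V, ∀ n, 0 < n →
      LinearMap.trace ℂ V (A ^ n) = LinearMap.trace ℂ V' (B ^ n) + LinearMap.trace ℂ V (C ^ n) := by
  obtain ⟨p, hp⟩ := J.exists_leftInverse_of_injective (LinearMap.ker_eq_bot.2 hJ)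
  have hp' : ∀ x, p (J x) = x := fun x => LinearMap.congr_fun hp x
  have hn : ∀ n x, (A ^ n) (J x) = J ((B ^ n) x) := fun n => by
    induction n with
    | zero => exact fun _ => rfl
    | succ n ih => exact fun x => by rw [pow_succ, pow_succ, End.mul_apply, End.mul_apply, h, ih]
  have k : ∀ n, ((1 - J ∘ₗ p) * A) ^ (n + 1) = (1 - J ∘ₗ p) * A ^ (n + 1) := fun n => by
    induction n with
    | zero => simp
    | succ n ih =>
      rw [pow_succ, ih, pow_succ A (n + 1)]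
      ext x
      simp [hn, hp']
  refine ⟨(1 - J ∘ₗ p) * A, fun n h0 => ?_⟩
  obtain ⟨n, rfl⟩ := Nat.exists_eq_succ_of_ne_zero h0.ne'
  have e : (p ∘ₗ A ^ (n + 1)) ∘ₗ J = B ^ (n + 1) := by
    ext x
    simp [hn, hp']
  rw [k, sub_mul, one_mul, map_sub, ← e, LinearMap.trace_comp_comm']
  exact (add_sub_cancel _ _).symm

theorem eig_ex (t : End ℂ V) : ∃ a : Multiset ℂ, a.card = finrank ℂ V ∧
    (∀ x, x ≠ 0 → (x ∈ a ↔ t.HasEigenvalue x)) ∧ (∀ x ∈ a, t.HasEigenvalue x) ∧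
    ∀ n, LinearMap.trace ℂ V (t ^ n) = ps a n := by
  classical
  obtain ⟨a, a1, a2, a3⟩ := exists_eig t
  refine ⟨a, a1, fun x x0 => ⟨a2 x, fun hx => ?_⟩, a2, a3⟩
  obtain ⟨v, hv⟩ := hx.exists_hasEigenvector
  obtain ⟨C, hC⟩ := tr_split t (x • (1 : End ℂ ℂ)) (LinearMap.toSpanSingleton ℂ V v)
    (LinearMap.ker_eq_bot.1 (LinearMap.ker_toSpanSingleton ℂ hv.2)) fun y => by
      simp [hv.apply_eq_smul, smul_smul, mul_comm]
  obtain ⟨b, -, -, b3⟩ := exists_eig C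
  have := count_eq_of_ps (A := a) (B := {x} + b) (fun n hn => by
    rw [← a3, hC n hn, b3, ps_add, smul_pow, one_pow, map_smul]
    simp [ps]) x0
  rw [← Multiset.count_pos, this]
  simp

theorem old_part (q : ℂ) (hq : q ≠ 0) (A : End ℂ V) (t : End ℂ V') (J : V' × V' →ₗ[ℂ] V)
    (h : ∀ x y, A (J (x, y)) = J (-y, q • x + t y))
    (h2 : ∀ x y, J (x, y) = 0 → (x, y) ≠ 0 → ∃ v, v ≠ 0 ∧ A (A v) = q ^ 2 • v) :
    ∃ W : Multiset ℂ, (∀ n, 0 < n → LinearMap.trace ℂ V (A ^ n) = ps W n) ∧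
      ((∃ a ∈ W, a ^ 2 = q ^ 2) ∨
        ∃ Al ≤ W, (∀ a ∈ Al, ∃ b ∈ W, a * b = q) ∧ Al.card = 2 * finrank ℂ V') := by
  by_cases hJ : Function.Injective J
  · let B : End ℂ (V' × V') := (-LinearMap.snd ℂ V' V').prod
      (q • LinearMap.fst ℂ V' V' + t ∘ₗ LinearMap.snd ℂ V' V')
    have hB : ∀ x y, B (x, y) = (-y, q • x + t y) := fun _ _ => rfl
    obtain ⟨C, hC⟩ := tr_split A B J hJ fun x => h x.1 x.2
    obtain ⟨Al, a1, a2, a3, a4⟩ := eig_ex B
    obtain ⟨W, -, -, b3⟩ := exists_eig C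
    refine ⟨Al + W, fun n hn => by rw [hC n hn, a4, b3, ps_add], .inr ⟨Al, Multiset.le_add_right _ _,
      fun a ha => ?_, by rw [a1, finrank_prod, two_mul]⟩⟩
    obtain ⟨⟨x, y⟩, hv⟩ := (a3 a ha).exists_hasEigenvector
    have e := hv.apply_eq_smul
    rw [hB, Prod.smul_mk, Prod.mk.injEq] at e
    obtain rfl : y = -(a • x) := neg_eq_iff_eq_neg.1 e.1
    have x0 : x ≠ 0 := fun h0 => hv.2 (by simp [h0])
    have a0 : a ≠ 0 := fun h0 => x0 (by simpa [h0, hq] using e.2)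
    have e2 : t x = (a + q / a) • x := by
      apply smul_right_injective V' a0
      have := e.2
      rw [map_neg, map_smul] at this
      show a • t x = a • (a + q / a) • x
      rw [smul_smul, mul_add, mul_div_cancel₀ _ a0]
      linear_combination (norm := module) -this
    refine ⟨q / a, Multiset.mem_add.2 (.inl ((a2 _ (div_ne_zero hq a0)).2
      (End.hasEigenvalue_of_hasEigenvector (x := (x, -((q / a) • x))) ⟨End.mem_eigenspace_iff.2 ?_,
        fun h0 => x0 (congrArg Prod.fst h0)⟩))), mul_div_cancel₀ _ a0⟩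
    rw [hB, Prod.smul_mk, neg_neg, map_neg, map_smul, e2]
    congr 1
    match_scalars
    field_simp
    ring
  · obtain ⟨W, -, a2, -, a4⟩ := eig_ex A
    rw [injective_iff_map_eq_zero] at hJ
    push Not at hJ
    obtain ⟨⟨x, y⟩, h0, h1⟩ := hJ
    obtain ⟨v, v0, hv⟩ := h2 x y h0 h1
    refine ⟨W, fun n _ => a4 n, .inl ?_⟩
    by_cases h3 : A v = q • v
    · exact ⟨q, (a2 q hq).2 (End.hasEigenvalue_of_hasEigenvector
        ⟨End.mem_eigenspace_iff.2 h3, v0⟩), rfl⟩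
    · refine ⟨-q, (a2 _ (neg_ne_zero.2 hq)).2 (End.hasEigenvalue_of_hasEigenvector
        (x := A v - q • v) ⟨End.mem_eigenspace_iff.2 ?_, sub_ne_zero.2 h3⟩), neg_sq q⟩
      rw [map_sub, map_smul, hv]
      module

end la

variable {G0 G : Type} [Group G0] [Group G] {T : Tw G0 G}
variable {O K : Type} [CommRing O] [IsDomain O] [IsDiscreteValuationRing O] [Field K] [Algebra O K]
variable {w : T.Lc O K} {U U' : Subgroup G}

/-- a correspondence on forms -/
def hO {S : Set G} (h : Cor U' S U) : T.Om U →ₗ[ℂ] T.Om U' where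
  toFun ω := ⟨hk S U ω.1, fun x => by
      rw [hk_eq h]
      exact sum_mem fun c _ => ω.2.1 _, hk_inv h ω.2.2.1, fun γ x τ => by
      simp only [hk_eq h, Finset.sum_apply, Finset.sum_mul, Finset.mul_sum, mul_assoc (T.j γ),
        ω.2.2.2]⟩
  map_add' z y := by
    ext x τ
    simp only [hk_eq h, Submodule.coe_add, Pi.add_apply, Finset.sum_add_distrib]
  map_smul' c z := by
    ext x τ
    simp only [hk_eq h, Submodule.coe_smul, Pi.smul_apply, Finset.smul_sum, RingHom.id_apply,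
      Finset.sum_apply]

/-- pull back along a right translation -/
def rO (g : G) (h : U' ≤ cj g U) : T.Om U →ₗ[ℂ] T.Om U' where
  toFun ω := ⟨rt g ω.1, fun _ => ω.2.1 _, fun x u hu => by
      have := ω.2.2.1 (x * g) _ (mem_cj.1 (h hu))
      rwa [show x * g * (g⁻¹ * u * g) = x * u * g by group] at this, fun γ x τ => by
      simp only [rt, mul_assoc (T.j γ), ω.2.2.2]⟩
  map_add' _ _ := rfl
  map_smul' _ _ := rfl

variable (w) in
/-- the double coset of `t ^ m` in level `Γ₀(w)` -/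
def Oe (U : Subgroup G) (m : ℕ) : Set G := {y | aw w y ∈ U ∧ Dl w m (w.π y)}

theorem mem_U0 (h : w.At (KK O K) U) (hU : U ∈ T.Lev) {u : G} : u ∈ U0 w U ↔ u ∈ Oe w U 0 := by
  rw [U0, Subgroup.mem_inf, mem_cj, At_mem h hU, At_mem (g := _ * _) h hU, Oe,
    Set.mem_ofPred_eq, dl_zero, Iw,
    Subgroup.mem_inf, mem_cj]
  simp only [map_mul, map_inv, aw_iota, w.πι, inv_one, one_mul, mul_one]
  tauto

theorem Oe_mul {m n : ℕ} {x y : G} (h : x ∈ Oe w U m) (h' : y ∈ Oe w U n) :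
    x * y ∈ Oe w U (m + n) :=
  ⟨by rw [map_mul]; exact mul_mem h.1 h'.1, by rw [map_mul]; exact h.2.mul h'.2⟩

theorem iota_Oe {m : ℕ} {k : GL (Fin 2) K} (h : Dl w m k) : w.ι k ∈ Oe w U m :=
  ⟨by rw [aw_iota]; exact one_mem _, by rwa [w.πι]⟩

theorem U0_lev (hT : T.Ok) (hU : U ∈ T.Lev) : U0 w U ∈ T.Lev := hT.inf _ hU _ (hT.conj _ hU _)

variable [Fintype (IsLocalRing.ResidueField O)]

variable (w) in
/-- the operator `U` on functions -/
def Uo {B : Type} [AddCommMonoid B] (f : G → B) : G → B := fun x => ∑ c, f (x * w.ι (ll w c))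

theorem rep (h : w.At (KK O K) U) (hU : U ∈ T.Lev) (m : ℕ) :
    ∃ (I : Type) (s : Finset I) (r : I → G), Rep (Oe w U m) (U0 w U) s r ∧ s.card = qq O ^ m ∧
      ∀ (B : Type) [AddCommMonoid B] (f : G → B) x, ∑ i ∈ s, f (x * r i) = (Uo w)^[m] f x := by
  have rt : ∀ m, ∀ y ∈ Oe w U m, ∀ u ∈ U0 w U, y * u ∈ Oe w U m := fun m y hy u hu =>
    Oe_mul (n := 0) hy ((mem_U0 h hU).1 hu)
  induction m with
  | zero =>
    exact ⟨Unit, {()}, fun _ => 1, ⟨rt 0, fun _ _ => (mem_U0 h hU).1 (one_mem _),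
      fun _ _ _ _ _ => rfl, fun y hy => ⟨(), by simp, by simpa using (mem_U0 h hU).2 hy⟩⟩, by simp,
      fun B _ f x => by simp⟩
  | succ m ih =>
    obtain ⟨I, s, r, h1, h2, h3⟩ := ih
    refine ⟨_, Finset.univ ×ˢ s, fun i => w.ι (ll w i.1) * r i.2, ⟨rt _, fun i hi => ?_, ?_,
      fun y hy => ?_⟩, ?_, fun B _ f x => ?_⟩
    · exact add_comm 1 m ▸ Oe_mul (iota_Oe (dl_ll i.1)) (h1.mem _ (Finset.mem_product.1 hi).2)
    · rintro ⟨c, i⟩ hi ⟨c', k⟩ hk e
      have hi := (Finset.mem_product.1 hi).2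
      have hk := (Finset.mem_product.1 hk).2
      have e1 := (rt _ _ (h1.mem _ hi) _ e).2
      have e2 := (h1.mem _ hk).2
      simp only [map_mul, map_inv, w.πι, mul_inv_rev, mul_assoc, mul_inv_cancel_left] at e1
      obtain rfl : c = c' := ll_inj e1 (by rwa [inv_mul_cancel_left])
      rw [h1.inj i hi k hk (by simpa [mul_assoc] using e)]
    · obtain ⟨c, hc⟩ := hy.2.split
      obtain ⟨i, hi, e⟩ := h1.sur ((w.ι (ll w c))⁻¹ * y) ⟨by
        simpa only [map_mul, map_inv, aw_iota, inv_one, one_mul] using hy.1, by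
        simpa only [map_mul, map_inv, w.πι] using hc⟩
      exact ⟨(c, i), Finset.mem_product.2 ⟨Finset.mem_univ _, hi⟩, by simpa [mul_assoc] using e⟩
    · rw [Finset.card_product, h2, Finset.card_univ, pow_succ', qq, Nat.card_eq_fintype_card]
    · rw [Finset.sum_product, Function.iterate_succ_apply', Uo]
      simp only [← h3, mul_assoc]

theorem cor (h : w.At (KK O K) U) (hU : U ∈ T.Lev) (m : ℕ) : Cor (U0 w U) (Oe w U m) (U0 w U) := by
  obtain ⟨_, _, _, h1, -⟩ := rep h hU m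
  exact ⟨fun u hu y hy => zero_add m ▸ Oe_mul ((mem_U0 h hU).1 hu) hy, h1.right, h1.fin⟩

theorem hk_Oe (h : w.At (KK O K) U) (hU : U ∈ T.Lev) (m : ℕ) {B : Type} [AddCommMonoid B]
    {f : G → B} (hf : Inv (U0 w U) f) : hk (Oe w U m) (U0 w U) f = (Uo w)^[m] f := by
  obtain ⟨_, _, _, h1, -, h3⟩ := rep h hU m
  exact funext fun x => (h1.hk hf x).trans (h3 B f x)

theorem pow_hO (h : w.At (KK O K) U) (hU : U ∈ T.Lev) (m : ℕ) (ω : T.Om (U0 w U)) :
    ((hO (cor h hU 1) ^ m : End ℂ _) ω).1 = (Uo w)^[m] ω.1 := by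
  induction m with
  | zero => rfl
  | succ m ih =>
    rw [pow_succ', End.mul_apply, Function.iterate_succ_apply', ← ih]
    exact hk_Oe h hU 1 (Subtype.prop (p := (· ∈ T.Om (U0 w U))) _).2.1

theorem lw_mem (b : O) : lw (-algebraMap O K b) ∈ KK O K :=
  ⟨sO * nO b * sO⁻¹, by
    ext i j
    fin_cases i <;> fin_cases j <;> simp [lw, sO, nO, Matrix.mul_apply, Fin.sum_univ_two]⟩

theorem Uo_inv (h : w.At (KK O K) U) {B : Type} [AddCommMonoid B] {f : G → B} (hf : Inv U f)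
    (x : G) : Uo w f x = qq O • f (x * w.ι (tt w)) := by
  simp only [Uo, ll, map_mul, ← mul_assoc, hf _ _ (h.1 _ (lw_mem _))]
  rw [Finset.sum_const, Finset.card_univ, qq, Nat.card_eq_fintype_card]

theorem Uo_rt (h : w.At (KK O K) U) (hU : U ∈ T.Lev) (c : Cor U (w.To U) U) {B : Type}
    [AddCommMonoid B] {f : G → B} (hf : Inv U f) (x : G) :
    hk (w.To U) U f (x * w.ι (tt w)) = f x + Uo w (rt (w.ι (tt w)) f) x := by
  have e1 : tt w * gK K (sO (O := O)) * w.tr none = d2 (-w.ϖ) (-w.ϖ) := by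
    ext i j
    simp only [Tw.Lc.tr, ent]
    fin_cases i <;> fin_cases j <;> simp [tt, d2_val, pO, sO, dg_val]
  have e2 : ∀ c, tt w * gK K (sO (O := O)) * w.tr (some c) = ll w c * tt w * gK K (sO (O := O)) :=
    fun c => by
    ext i j
    simp only [Tw.Lc.tr, ll, ent]
    fin_cases i <;> fin_cases j <;> simp [tt, lw, d2_val, pO, sO, nO, dg_val]
  rw [← hk_inv c hf _ _ (h.1 _ ⟨sO, rfl⟩), (h.rep_To hU).hk hf, Fintype.sum_option]
  simp only [mul_assoc x, ← map_mul w.ι, e1, e2]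
  rw [hf _ _ ((h.iff hU).2 (Subgroup.mem_sup_right (mem_Zl.2 ⟨_, rfl⟩)))]
  simp only [Uo, rt, map_mul, ← mul_assoc, hf _ _ (h.1 _ ⟨sO, rfl⟩)]

theorem Uo_both (h : w.At (KK O K) U) (hU : U ∈ T.Lev) {B : Type} [AddCommMonoid B] {f : G → B}
    (hf : Inv U f) (hf' : Inv (cj (w.ι (tt w)) U) f) (x : G) :
    Uo w (Uo w f) x = qq O • qq O • f x := by
  have e : ∀ c, ll w c * tt w = tt w * (lw (-algebraMap O K (Quotient.out c)) * gK K (sO (O := O))) *
      (tt w)⁻¹ * (gK K (sO (O := O))⁻¹ * d2 w.ϖ w.ϖ) := fun c => by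
    rw [ll, tt, d2_inv]
    ext i j
    simp only [ent]
    fin_cases i <;> fin_cases j <;> simp [lw, d2_val, sO]
  have k : ∀ c, Uo w f (x * w.ι (ll w c)) = qq O • f x := fun c => by
    rw [Uo_inv h hf, mul_assoc, ← map_mul, e, map_mul, ← mul_assoc, hf _ _ ((h.iff hU).2 (mul_mem
      (Subgroup.mem_sup_left ⟨_, rfl⟩) (Subgroup.mem_sup_right (mem_Zl.2 ⟨_, rfl⟩)))), hf']
    rw [mem_cj, ← map_inv, ← map_mul, ← map_mul, ← mul_assoc, inv_mul_cancel_left,
      inv_mul_cancel_right]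
    exact h.1 _ (mul_mem (lw_mem _) ⟨_, rfl⟩)
  rw [Uo]
  simp only [k]
  rw [Finset.sum_const, Finset.card_univ, qq, Nat.card_eq_fintype_card]

/-- the eigenvalues of `U` -/
theorem eig_U (hT : T.Ok) (h : w.At (KK O K) U) (hU : U ∈ T.Lev) [FiniteDimensional ℂ (T.Om U)]
    [FiniteDimensional ℂ (T.Om (U0 w U))] : ∃ W : Multiset ℂ,
      (∀ n, 0 < n → LinearMap.trace ℂ _ (hO (T := T) (cor h hU 1) ^ n : End ℂ _) = ps W n) ∧
      ((∃ a ∈ W, a ^ 2 = (qq O : ℂ) ^ 2) ∨ ∃ Al ≤ W, (∀ a ∈ Al, ∃ b ∈ W, a * b = qq O) ∧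
        Al.card = 2 * finrank ℂ (T.Om U)) := by
  have c : Cor U (w.To U) U := cor_dc (hT.fi _ (hT.conj _ hU _) _ hU)
  have hA : ∀ ω, (hO (T := T) (cor h hU 1) ω).1 = Uo w ω.1 := fun ω => hk_Oe h hU 1 ω.2.2.1
  have l1 : U0 w U ≤ cj 1 U := fun u hu => mem_cj.2 (by simpa using hu.1)
  have hJ : ∀ x y : T.Om U, (((rO 1 l1).coprod (rO (w.ι (tt w)) inf_le_right)) (x, y)).1 =
      x.1 + rt (w.ι (tt w)) y.1 := fun x y => funext fun z => by
    show x.1 (z * 1) + _ = _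
    rw [mul_one]
    rfl
  refine old_part _ (Nat.cast_ne_zero.2 Nat.card_pos.ne') _ (hO c)
    ((rO 1 l1).coprod (rO (w.ι (tt w)) inf_le_right)) (fun x y => ?_) fun x y h0 h1 => ?_
  · ext z τ
    have e1 := congrFun (Uo_inv h x.2.2.1 z) τ
    have e2 := congrFun (Uo_rt h hU c y.2.2.1 z) τ
    rw [hA, hJ, hJ]
    show _ = -y.1 z τ + ((qq O : ℂ) * x.1 (z * _) τ + hk (w.To U) U y.1 (z * _) τ)
    simp only [Uo, Pi.add_apply, Finset.sum_add_distrib, Pi.smul_apply, nsmul_eq_mul] at e1 e2 ⊢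
    rw [e1, e2]
    ring
  · have e := congrArg Subtype.val h0
    rw [hJ] at e
    have e' : ∀ z, x.1 z = -y.1 (z * w.ι (tt w)) := fun z => eq_neg_of_add_eq_zero_left
      (congrFun e z)
    have e1 : (rO 1 l1 x).1 = x.1 := funext fun z => congrArg x.1 (mul_one z)
    refine ⟨rO 1 l1 x, fun h2 => h1 ?_, ?_⟩
    · have x0 : x.1 = 0 := e1.symm.trans (congrArg Subtype.val h2)
      refine Prod.ext (Subtype.ext x0) (Subtype.ext (funext fun z => ?_))
      have := e' (z * (w.ι (tt w))⁻¹)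
      rw [x0, inv_mul_cancel_right] at this
      exact neg_eq_zero.1 this.symm
    · ext z τ
      rw [hA, hA, e1, Uo_both h hU x.2.2.1 (fun z u hu => by
        have := y.2.2.1 (z * w.ι (tt w)) _ (mem_cj.1 hu)
        rw [e', e', ← this]
        congr 2
        group), Submodule.coe_smul, e1]
      rw [Pi.smul_apply, Pi.smul_apply, Pi.smul_apply, Pi.smul_apply, nsmul_eq_mul, nsmul_eq_mul,
        smul_eq_mul, sq, mul_assoc]
      rfl

end Vale.Agent.P022K.FI.Oc
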