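import Vale.Agent.P022K.FI.St3
import Vale.Agent.P022K.F0.LefC

/-!
# P022K, block FI, row OMG: holomorphic forms and genera
-/

set_option autoImplicit false

open Module

noncomputable section

namespace Vale.Agent.P022K.FI

open Vale.Agent.P022K.Sh Vale.Agent.P019P Hk Sh.Lf

variable {G0 G : Type} [Group G0] [Group G] {T : Tw G0 G} {U : Subgroup G}

namespace Om

theorem fin_Cp (hT : T.Ok) (hU : U ∈ T.Lev) : Finite (Cp T U) := by
  obtain ⟨S, hS⟩ := hT.fin U hU
  refine Finite.of_surjective (fun s : S => cm T U s) fun c => ?_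
  obtain ⟨s, hs, h⟩ := hS c.out
  exact ⟨⟨s, hs⟩, (cm_eq.2 h).trans (DoubleCoset.out_eq' _ _ c)⟩

theorem cm_out (c : Cp T U) : cm T U c.out = c := DoubleCoset.out_eq' _ _ c

theorem inj_out : Function.Injective fun c : Cp T U => c.out := fun c c' h => by
  rw [← cm_out c, ← cm_out c']
  exact congrArg _ h

theorem reps [Fintype (Cp T U)] [DecidableEq G] (y : G) :
    ∃! x, x ∈ Finset.univ.image (fun c : Cp T U => c.out) ∧ Lf.Cm T U x y := by
  refine ⟨(cm T U y).out, ⟨Finset.mem_image_of_mem _ (Finset.mem_univ _),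
    cm_eq.1 (cm_out _)⟩, ?_⟩
  rintro x ⟨hx, h⟩
  obtain ⟨c, -, rfl⟩ := Finset.mem_image.1 hx
  rw [← cm_eq.2 h, cm_out]

theorem finrank_H0 {B : Type} [AddCommGroup B] [Module ℂ B] {ρ : Representation ℂ G0 B}
    {S : Finset G} (hS : ∀ y, ∃! x, x ∈ S ∧ Lf.Cm T U x y)
    [∀ x, FiniteDimensional ℂ (iv ρ (T.Gam U x))] :
    finrank ℂ (T.H0 ρ U) = ∑ x ∈ S, finrank ℂ (iv ρ (T.Gam U x)) := by
  obtain ⟨fd1, h⟩ := trace_blocks _ (pr T U ρ) (ex T U ρ) (sum_ex_pr hS)
  have h1 := h LinearMap.id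
  have h2 : ∀ x, pr T U ρ x ∘ₗ LinearMap.id ∘ₗ ex T U ρ x = LinearMap.id := fun x =>
    LinearMap.ext fun b => Subtype.ext (by
      have e := ex0_eq (T := T) (U := U) b 1 (one_mem U)
      rw [map_one, one_mul, mul_one, map_one] at e
      exact e)
  simp only [h2, LinearMap.trace_id] at h1
  exact_mod_cast h1

/-- the dimension of the space of forms is the sum of the genera of the components -/
theorem finrank_eq (hT : T.Ok) (hU : U ∈ T.Lev) (hn : T.Neat U) [∀ x, CFF ℂ (KX T U x)] :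
    finrank ℂ (T.Om U) = ∑ᶠ c : Cp T U, gen ℂ (KX T U c.out) := by
  classical
  have := fin_Cp hT hU
  have := Fintype.ofFinite (Cp T U)
  have fd : ∀ x, FiniteDimensional ℂ (iv (sl T) (T.Gam U x)) := fun x =>
    fin_iv T.cf (hT.fu U hU x) (hn x)
  have h3 : ∀ x, finrank ℂ (iv (sl T) (T.Gam U x)) = gen ℂ (KX T U x) := fun x => by
    obtain ⟨_, pt, h⟩ := T.cf _ (hT.fu U hU x)
    exact finrank_iv h (hn x)
  refine (omE T U).finrank_eq.trans ((finrank_H0 reps).trans ?_)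
  rw [Finset.sum_image fun _ _ _ _ e => inj_out e, finsum_eq_sum_of_fintype]
  exact Finset.sum_congr rfl fun c _ => h3 _

end Om

/-- **OMG** -/
theorem omg (hT : T.Ok) : OMG T := fun _ hU hn _ => (Om.finrank_eq hT hU hn).ge

end Vale.Agent.P022K.FI
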