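import Vale.Agent.P022K.FI.Pb

/-!
# P022K, block FI: self maps of the open disc (series part of the rows OVW and DSW)
-/

set_option autoImplicit false
set_option linter.all false

open PowerSeries Vale.Agent.P019P
open scoped LaurentSeries

noncomputable section

namespace Vale.Agent.P022K.FI

open Vale.Agent.P022K.Sh

namespace Ov

/-- induction along an attracting map -/
theorem shrink {α : Type} (N : α → ℝ) (s : α → α) (p : α → Prop) {κ r : ℝ} (hr : 0 < r)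
    (hκ : κ < 1) (hN : ∀ a, 0 ≤ N a) (h0 : ∀ a, N a ≤ r → p a)
    (hs : ∀ a, N a < 1 → (p (s a) → p a) ∧ N (s a) ≤ max κ (N a) * N a) (a : α) (ha : N a < 1) :
    p a := by
  have l1 : max κ (N a) < 1 := max_lt hκ ha
  have l0 : 0 ≤ max κ (N a) := (hN a).trans (le_max_right _ _)
  have key : ∀ (k : ℕ) b, N b ≤ N a → max κ (N a) ^ k * N b ≤ r → p b := by
    intro k
    induction k with
    | zero => exact fun b _ h => h0 b (by simpa using h)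
    | succ k ih =>
      intro b hb h
      obtain ⟨h1, h2⟩ := hs b (hb.trans_lt ha)
      have h3 : N (s b) ≤ max κ (N a) * N b :=
        h2.trans (mul_le_mul_of_nonneg_right (max_le_max le_rfl hb) (hN b))
      refine h1 (ih _ (h3.trans ((mul_le_of_le_one_left (hN b) l1.le).trans hb)) ?_)
      rw [pow_succ, mul_assoc] at h
      exact (mul_le_mul_of_nonneg_left h3 (pow_nonneg l0 k)).trans h
  obtain ⟨k, hk⟩ := exists_pow_lt_of_lt_one hr l1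
  exact key k a le_rfl ((mul_le_of_le_one_right (pow_nonneg l0 k) ha.le).trans hk.le)

section series

variable {C : Type} [NontriviallyNormedField C] [IsUltrametricDist C] {Φ u : C⟦X⟧} {ρ : ℝ}
  {a : C} {x y : C⸨X⸩}

/-- non constant self maps of the open unit disc -/
structure Sf (Φ : C⟦X⟧) : Prop where
  ig : Ig Φ
  lt : ‖constantCoeff Φ‖ < 1
  nc : ∀ c, Φ ≠ PowerSeries.C c

theorem cv_ig (h : Ig Φ) (h0 : 0 < ρ) (h1 : ρ < 1) : Cv ρ Φ :=
  Cv.of_bdd (M := 1) h0 h1 fun n => by simpa using h n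

theorem ig_deriv (h : Ig Φ) : Ig (d⁄dX C Φ) := fun n => by
  rw [coeff_derivative, norm_mul]
  exact mul_le_one₀ (h _) (norm_nonneg _) (by
    exact_mod_cast IsUltrametricDist.norm_natCast_le_one C (n + 1))

theorem Sf.mp (h : Sf Φ) (h0 : 0 < ρ) (hc : ‖constantCoeff Φ‖ ≤ ρ) (h1 : ρ < 1) : Mp ρ ρ Φ := by
  refine ⟨h0, h0, cv_ig h.ig h0 h1, gn_le fun n => ?_, h.nc⟩
  rcases n with _ | n
  · simpa using hc
  · rw [pow_succ, ← mul_assoc]
    exact mul_le_of_le_one_left h0.le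
      (mul_le_one₀ (h.ig _) (by positivity) (pow_le_one₀ h0.le h1.le))

theorem exists_rad2 {s t : ℝ} (hs : s < 1) (ht : t < 1) : ∃ ρ, 0 < ρ ∧ s ≤ ρ ∧ t ≤ ρ ∧ ρ < 1 :=
  ⟨max (1 / 2) (max s t), lt_max_of_lt_left (by norm_num),
    le_max_of_le_right (le_max_left _ _), le_max_of_le_right (le_max_right _ _),
    max_lt (by norm_num) (max_lt hs ht)⟩

theorem Sf.norm_lt (h : Sf Φ) (ha : ‖a‖ < 1) : ‖ev a Φ‖ < 1 := by
  obtain ⟨ρ, h0, h1, h2, h3⟩ := exists_rad2 ha h.lt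
  have H := h.mp h0 h2 h3
  exact ((norm_ev_le h0 h1 H.cv).trans H.le).trans_lt h3

theorem sf_of_sm (h : Sm (Φ - X)) : Sf Φ := by
  have h1 : ‖coeff 1 Φ‖ = 1 := by
    have := h 1
    rw [map_sub, coeff_one_X] at this
    rw [← sub_add_cancel (coeff 1 Φ) 1, IsUltrametricDist.norm_add_eq_max_of_norm_ne_norm
      (by rw [norm_one]; exact this.ne), norm_one, max_eq_right this.le]
  refine ⟨fun n => ?_, by simpa using h 0, fun c e => ?_⟩
  · by_cases e : n = 1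
    · rw [e, h1]
    · simpa [coeff_X, e] using (h n).le
  · simp [e, coeff_C] at h1

theorem sf_of_zero (h : Ig Φ) (h0 : constantCoeff Φ = 0) (h1 : Φ ≠ 0) : Sf Φ :=
  ⟨h, by simp [h0], fun c e => h1 (by
    rw [e, constantCoeff_C] at h0
    rw [e, h0, map_zero])⟩

theorem norm_ev_le' (h : Ig Φ) (h0 : constantCoeff Φ = 0) (ha : ‖a‖ < 1) :
    ‖ev a Φ‖ ≤ max ‖coeff 1 Φ‖ ‖a‖ * ‖a‖ := by
  refine IsUltrametricDist.norm_tsum_le_of_forall_le_of_nonneg (by positivity) fun n => ?_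
  rw [norm_smul, norm_pow]
  rcases n with _ | _ | n
  · simp only [coeff_zero_eq_constantCoeff, h0, norm_zero, zero_mul]
    positivity
  · rw [zero_add, pow_one]
    exact mul_le_mul_of_nonneg_right (le_max_left _ _) (norm_nonneg _)
  · rw [pow_succ, pow_succ, ← mul_assoc, ← mul_assoc]
    refine mul_le_mul_of_nonneg_right (le_max_of_le_right ?_) (norm_nonneg _)
    exact mul_le_of_le_one_left (norm_nonneg _)
      (mul_le_one₀ (h _) (by positivity) (pow_le_one₀ (norm_nonneg _) ha.le))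

theorem lin_of (h : Ig Φ) (h0 : constantCoeff Φ = 0) (h1 : ‖coeff 1 Φ‖ = 1) : An4.Lin 1 Φ :=
  ⟨one_pos, h0, norm_ne_zero_iff.1 (by rw [h1]; exact one_ne_zero), fun n => by
    simpa [h1] using h n⟩

variable [CompleteSpace C] [IsAlgClosed C]

theorem ev_un (h : Un u) (ha : ‖a‖ < 1) : ev a u ≠ 0 := by
  obtain ⟨h0, h1, h2⟩ := rad1 ha
  have u0 : u ≠ 0 := fun e => by simpa [e] using h.2
  refine (wd_eq_zero_iff h0 (cv_ig h.1 h0 h2) u0).1 (gn_wd_of (M := 1) (fun n => ?_)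
    (by simpa using h.2) fun n hn => ?_).2 a h1
  · exact mul_le_one₀ (h.1 n) (by positivity) (pow_le_one₀ h0.le h2.le)
  · exact (mul_le_of_le_one_left (by positivity) (h.1 n)).trans_lt (pow_lt_one₀ h0.le h2 hn.ne')

theorem Sf.ev_cmp {Ψ : C⟦X⟧} (h : Sf Φ) (h' : Ig Ψ) (ha : ‖a‖ < 1) :
    ev a (cmp Φ Ψ) = ev (ev a Φ) Ψ := by
  obtain ⟨ρ, h0, h1, h2, h3⟩ := exists_rad2 ha h.lt
  have H := h.mp h0 h2 h3
  exact FI.ev_cmp h0 h0 h1 H.cv H.le (cv_ig h' h0 h3)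

theorem od_one (h0 : 0 < ρ) (ha : ‖a‖ ≤ ρ) (h : Cv ρ Φ) (hd : ev a (d⁄dX C Φ) ≠ 0) :
    od ρ a (am C (Φ - PowerSeries.C (ev a Φ))) = 1 := by
  obtain ⟨q, hq, e⟩ := exists_factor h0 h ha
  have c1 := (cv_X ρ).sub (cv_C ρ a)
  have e1 : d⁄dX C Φ = q + (X - PowerSeries.C a) * d⁄dX C q := by
    conv_lhs => rw [e]
    simp [Derivation.leibniz]
  have e2 : ev a q ≠ 0 := by
    rwa [e1, ev_add ha hq (c1.mul (hq.deriv h0)), ev_mul h0 ha c1 (hq.deriv h0),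
      ev_sub ha (cv_X ρ) (cv_C ρ a), ev_X, ev_C, Algebra.algebraMap_self, RingHom.id_apply,
      sub_self, zero_mul, add_zero] at hd
  have q0 : q ≠ 0 := fun e => e2 (by simp [e, ev])
  rw [← sub_eq_iff_eq_add] at e
  rw [e, map_mul, od_mul h0 ha hq.mem c1.mem (am_ne q0) (am_ne (X_sub_C_ne a)),
    od_am_eq_zero h0 ha hq e2, od_lin h0 ha, if_pos rfl, zero_add]

/-- orders under composition -/
theorem Sf.o1_cmF (h : Sf Φ) (hx : M1 x) (hy : M1 y) (e : ∀ ρ : ℝ, 0 < ρ →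
    ‖constantCoeff Φ‖ ≤ ρ → ρ < 1 → y = cmF ρ Φ x) (ha : ‖a‖ < 1) :
    ∃ r : ℤ, 0 < r ∧ o1 a y = r * o1 (ev a Φ) x ∧ (ev a (d⁄dX C Φ) ≠ 0 → r = 1) := by
  obtain ⟨ρ, h0, h1, h2, h3⟩ := exists_rad2 ha h.lt
  have H := h.mp h0 h2 h3
  have h4 := (norm_ev_le h0 h1 H.cv).trans H.le
  refine ⟨_, od_am_pos h0 h1 (H.cv.sub (cv_C ρ (ev a Φ))) (sub_ne_zero.2 (h.nc _)) ?_, ?_,
    od_one h0 h1 H.cv⟩
  · rw [ev_sub h1 H.cv (cv_C ρ _), ev_C]
    simp
  · rw [hy.o1_eq h0 h1 h3, hx.o1_eq h0 h4 h3, e ρ h0 h2 h3, H.od_cmF h1 (hx ρ h0 h3)]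

theorem Sf.o1_sub (h : Sf Φ) (h0 : constantCoeff Φ = 0) (hx : M1 x) (hy : M1 y)
    (e : y = sub Φ x) (ha : ‖a‖ < 1) :
    ∃ r : ℤ, 0 < r ∧ o1 a y = r * o1 (ev a Φ) x ∧ (ev a (d⁄dX C Φ) ≠ 0 → r = 1) :=
  h.o1_cmF hx hy (fun ρ h1 _ h2 => by
    rw [e, cmF_eq_sub h0 (by simpa using h.nc 0) (hx ρ h1 h2)]) ha

/-- surjectivity on the open disc -/
theorem surj {q : ℕ} (h : Ig Φ) (h0 : constantCoeff Φ = 0) (hq : q ≠ 0) (h1 : ‖coeff q Φ‖ = 1)
    (ha : ‖a‖ < 1) : ∃ b : C, ‖b‖ < 1 ∧ ev b Φ = a := by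
  obtain ⟨a0, a1, a2⟩ := rad1 ha
  obtain ⟨ρ, r0, r1, r2⟩ : ∃ ρ : ℝ, 0 < ρ ∧ ρ < 1 ∧ ‖a‖ < ρ ^ q :=
    ⟨((1 + ‖a‖) / 2) ^ (q : ℝ)⁻¹, Real.rpow_pos_of_pos a0 _,
      Real.rpow_lt_one a0.le a2 (by positivity), by
        rw [Real.rpow_inv_natCast_pow a0.le hq]
        linarith⟩
  have c1 := cv_ig h r0 r1
  have c2 := c1.sub (cv_C ρ a)
  obtain ⟨b, hb, e⟩ := exists_zero r0 c2 fun e => by
    have h2 := le_gn c2 q
    rw [gn_eq_const r0 c2 e, map_sub, map_sub, coeff_C, if_neg hq, sub_zero, h1, one_mul, h0,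
      constantCoeff_C, zero_sub, norm_neg] at h2
    exact absurd r2 (not_lt.2 h2)
  rw [ev_sub hb c1 (cv_C ρ a), ev_C] at e
  exact ⟨b, hb.trans_lt r1, sub_eq_zero.1 e⟩

end series

section lt

variable {C O E : Type} [NontriviallyNormedField C] [IsUltrametricDist C] [CompleteSpace C]
  [IsAlgClosed C] [CharZero C] [CommRing O] [IsDomain O] [IsDiscreteValuationRing O] [Field E]
  [Algebra O E] [Algebra E C] {D : LTD C O E} {ϖ : Eˣ} (hD : D.Ok ϖ) {a : C}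
include hD

theorem br_deriv (o : O) : cmp (D.br o) (d⁄dX C D.lg) * d⁄dX C (D.br o) =
    algebraMap E C (algebraMap O E o) • d⁄dX C D.lg := by
  rw [cmp_eq_subst (hD.br0 o), ← derivative_subst (HasSubst.of_constantCoeff_zero' (hD.br0 o)),
    hD.br_lg, Derivation.map_smul]

theorem br_one (o : O) : coeff 1 (D.br o) = algebraMap E C (algebraMap O E o) := by
  have h1 : constantCoeff (d⁄dX C D.lg) = 1 := by
    rw [← coeff_zero_eq_constantCoeff_apply, coeff_derivative, zero_add, hD.lg1]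
    simp
  have := congrArg constantCoeff (br_deriv hD o)
  rw [map_mul, constantCoeff_cmp, hD.br0, ev_zero_left, constantCoeff_smul, h1,
    ← coeff_zero_eq_constantCoeff_apply, coeff_derivative] at this
  simpa using this

theorem sf_br {o : O} (ho : algebraMap O E o ≠ 0) : Sf (D.br o) :=
  sf_of_zero (hD.br_ig o) (hD.br0 o) fun e => (map_ne_zero (algebraMap E C)).2 ho (by
    rw [← br_one hD, e, map_zero])

theorem ev_deriv_br {o : O} (ho : algebraMap O E o ≠ 0) (ha : ‖a‖ < 1) :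
    ev a (d⁄dX C (D.br o)) ≠ 0 := by
  obtain ⟨h0, h1, h2⟩ := rad1 ha
  have H := (sf_br hD ho).mp h0 (by rw [hD.br0, norm_zero]; exact h0.le) h2
  have c1 := cv_ig hD.lg_un.1 h0 h2
  have := congrArg (ev a) (br_deriv hD o)
  rw [ev_mul h0 h1 (H.cv_cmp c1) (H.cv.deriv h0), ev_smul h1 c1] at this
  intro e
  rw [e, mul_zero] at this
  exact smul_ne_zero ((map_ne_zero (algebraMap E C)).2 ho) (ev_un hD.lg_un ha) this.symm

theorem sf_tr (x : E) : Sf (D.tr x) := sf_of_sm (hD.tr_red x)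

theorem ev_tr_neg (x : E) (ha : ‖a‖ < 1) : ev (ev a (D.tr (-x))) (D.tr x) = a := by
  rw [← (sf_tr hD _).ev_cmp (sf_tr hD x).ig ha, ← cmp4_eq, ← hD.tr_add, add_neg_cancel,
    hD.tr_int 0 (zero_mem _), ev_X]

theorem unit_ne (o : Oˣ) : algebraMap O E o ≠ 0 := (o.isUnit.map _).ne_zero

variable (hF : LF O C ϖ)
include hF

theorem exists_br : ∃ p : O, algebraMap O E p = ϖ ∧ D.f = D.br p :=
  hF.irr.imp fun p h => ⟨h.2, (hD.f_br p h.2).symm⟩

theorem f_zero : constantCoeff D.f = 0 := by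
  obtain ⟨p, -, e⟩ := exists_br hD hF
  rw [e, hD.br0]

theorem sf_f : Sf D.f := by
  obtain ⟨p, h, e⟩ := exists_br hD hF
  exact e ▸ sf_br hD (h ▸ ϖ.ne_zero)

theorem ev_deriv_f (ha : ‖a‖ < 1) : ev a (d⁄dX C D.f) ≠ 0 := by
  obtain ⟨p, h, e⟩ := exists_br hD hF
  exact e ▸ ev_deriv_br hD (h ▸ ϖ.ne_zero) ha

theorem norm_f (ha : ‖a‖ < 1) : ‖ev a D.f‖ ≤ max ‖algebraMap E C ϖ‖ ‖a‖ * ‖a‖ := by
  obtain ⟨p, h, e⟩ := exists_br hD hF
  rw [← h, ← br_one hD, ← e]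
  exact norm_ev_le' (sf_f hD hF).ig (f_zero hD hF) ha

theorem surj_f (ha : ‖a‖ < 1) : ∃ b : C, ‖b‖ < 1 ∧ ev b D.f = a := by
  have := hF.fin
  refine surj (q := qq O) (sf_f hD hF).ig (f_zero hD hF) Nat.card_pos.ne' ?_ ha
  have := hD.f_red (qq O)
  rw [map_sub, coeff_X_pow_self] at this
  rw [← sub_add_cancel (coeff _ D.f) 1, IsUltrametricDist.norm_add_eq_max_of_norm_ne_norm
    (by rw [norm_one]; exact this.ne), norm_one, max_eq_right this.le]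

theorem lin_br (o : Oˣ) : An4.Lin 1 (D.br o) ∧ ‖coeff 1 (D.br o)‖ = 1 := by
  have h1 : ‖coeff 1 (D.br o)‖ = 1 := by
    rw [br_one hD]
    refine le_antisymm ((hF.nrm _).2 ⟨o, rfl⟩) ?_
    have := (hF.nrm _).2 ⟨(o⁻¹ : Oˣ), rfl⟩
    rwa [map_units_inv, map_inv₀, norm_inv, inv_le_one₀ (norm_pos_iff.2
      ((map_ne_zero _).2 (unit_ne hD o)))] at this
  exact ⟨lin_of (hD.br_ig o) (hD.br0 o) h1, h1⟩

theorem norm_br (o : Oˣ) (ha : ‖a‖ < 1) : ‖ev a (D.br o)‖ ≤ ‖a‖ := by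
  have := norm_ev_le' (hD.br_ig o) (hD.br0 o) ha
  rwa [(lin_br hD hF o).2, max_eq_left ha.le, one_mul] at this

theorem br_inj (o : Oˣ) (ha : ‖a‖ < 1) {a' : C} (ha' : ‖a'‖ < 1)
    (e : ev a (D.br o) = ev a' (D.br o)) : a = a' := by
  obtain ⟨ρ, h0, h1, h2, h3⟩ := exists_rad2 ha ha'
  exact (lin_br hD hF o).1.inj h0 h3 h2 h1 e

end lt

end Ov

end Vale.Agent.P022K.FI
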