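import Vale.Agent.P022K.FI.St
import Vale.Agent.P022K.FI.Mg

/-!
# P022K, block FI: pre-basins (no finiteness of divisors) and their rows

`PB` is `Bas` with meromorphy on the open disc instead of the factorisation `fac`.
-/

set_option autoImplicit false
set_option linter.all false

open PowerSeries Vale.Agent.P019P P025H746 P025H492 Module
open scoped MatrixGroups LaurentSeries

noncomputable section

namespace Vale.Agent.P022K.FI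

open Vale.Agent.P022K.Sh

section series

variable {C : Type} [NontriviallyNormedField C] [IsUltrametricDist C]

/-- meromorphic on the open unit disc -/
def M1 (x : C⸨X⸩) : Prop := ∀ ρ : ℝ, 0 < ρ → ρ < 1 → x ∈ MM C ρ

/-- the order at a point of the open unit disc -/
def o1 (a : C) (x : C⸨X⸩) : ℤ := od ((1 + ‖a‖) / 2) a x

/-- the value at a point of the open unit disc -/
def v1 (a : C) (x : C⸨X⸩) : C := va ((1 + ‖a‖) / 2) a x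

omit [IsUltrametricDist C] in
theorem rad1 {a : C} (ha : ‖a‖ < 1) :
    0 < (1 + ‖a‖) / 2 ∧ ‖a‖ ≤ (1 + ‖a‖) / 2 ∧ (1 + ‖a‖) / 2 < 1 :=
  ⟨by positivity, by linarith, by linarith⟩

variable [CompleteSpace C] [IsAlgClosed C] {x : C⸨X⸩} {a : C} {ρ : ℝ}

theorem M1.o1_eq (hx : M1 x) (h0 : 0 < ρ) (ha : ‖a‖ ≤ ρ) (h1 : ρ < 1) : o1 a x = od ρ a x := by
  obtain ⟨a1, a2, a3⟩ := rad1 (ha.trans_lt h1)
  rcases le_total ρ ((1 + ‖a‖) / 2) with h | h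
  · exact (od_rad h0 ha h (hx _ a1 a3)).symm
  · exact od_rad a1 a2 h (hx _ h0 h1)

theorem M1.v1_eq (hx : M1 x) (h0 : 0 < ρ) (ha : ‖a‖ ≤ ρ) (h1 : ρ < 1) : v1 a x = va ρ a x := by
  obtain ⟨a1, a2, a3⟩ := rad1 (ha.trans_lt h1)
  rcases le_total ρ ((1 + ‖a‖) / 2) with h | h
  · exact (va_rad h0 ha h (hx _ a1 a3)).symm
  · exact va_rad a1 a2 h (hx _ h0 h1)

end series

section tower

variable {C L Γ O E : Type} [NontriviallyNormedField C] [IsUltrametricDist C] [CompleteSpace C]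
  [IsAlgClosed C] [CharZero C] [Field L] [Algebra C L] [Group Γ] [CommRing O] [IsDomain O]
  [IsDiscreteValuationRing O] [Field E] [Algebra O E] [Algebra E C]

namespace AT

variable (A : AT C L Γ O E)

/-- pre-basins -/
structure PB (D : LTD C O E) (x : Plk C L) (θ : L →ₐ[C] C⸨X⸩) (g : GL (Fin 2) E) (b : C)
    (ε : ℤ → L →ₐ[C] C⸨X⸩) : Prop where
  cm : A.CM x θ g
  hyp : A.Hyp x
  b0 : b ≠ 0
  sb : ∀ (n : ℤ) h, ε n h = sub ((b * algebraMap E C A.ϖ ^ n) • D.lg) (θ h)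
  mer : ∀ n, ∀ h ∈ A.Ln g n, M1 (ε n h)
  trn : ∀ (n : ℤ) (c : E), ∀ γ ∈ A.H, Fm g (A.π γ) (un c) → ∀ h ∈ A.Ln g n, ∀ ρ : ℝ, 0 < ρ →
    ‖constantCoeff (D.tr (c / (A.ϖ ^ n : Eˣ)))‖ ≤ ρ → ρ < 1 →
    ε n (A.act γ h) = cmF ρ (D.tr (c / (A.ϖ ^ n : Eˣ))) (ε n h)

/-- `y` lies over the point `a` of the disc of level `n` -/
def Ow (g : GL (Fin 2) E) (ε : ℤ → L →ₐ[C] C⸨X⸩) (n : ℤ) (a : C) (y : Plk C L) : Prop :=
  ‖a‖ < 1 ∧ ∀ h ∈ A.Ln g n, (h ∈ y.1 ↔ 0 ≤ o1 a (ε n h))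

/-- **PBX**: pre-basins exist -/
def PBX : Prop := ∀ D : LTD C O E, D.Ok A.ϖ → ∀ x θ g, A.CM x θ g → A.Hyp x →
  ∃ b ε, A.PB D x θ g b ε

/-- **CALW**: the coordinates of a pre-basin -/
def CALW : Prop := ∀ D : LTD C O E, D.Ok A.ϖ → ∀ x θ g b ε, A.PB D x θ g b ε →
  (∀ n h, ε (n + 1) h = sub D.f (ε n h)) ∧
  (∀ n h, (ε n h).order = (θ h).order) ∧ (∀ n, A.Ow g ε n 0 x) ∧
  ∀ t ∈ A.St x, ∀ (m : ℤ) (o : Oˣ) (μ : Eˣ), (μ : E) = A.ϖ ^ m * algebraMap O E o →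
    Fm g (A.π t) (dg μ) → ∀ n h, (h ∈ A.Ln g n ↔ A.act t h ∈ A.Ln g (n + m)) ∧
      ε n h = sub (D.br o) (ε (n + m) (A.act t h))

/-- **FRMW**: transport of pre-basins, change of the frame -/
def FRMW : Prop := ∀ D : LTD C O E, D.Ok A.ϖ → ∀ x θ g b ε, A.PB D x θ g b ε →
  (∀ γ, A.PB D (A.sm γ x) (θ.comp (A.act γ⁻¹ : L →ₐ[C] L)) (A.π γ * g) b
    fun n => (ε n).comp (A.act γ⁻¹ : L →ₐ[C] L)) ∧
  (∀ z ∈ Zl E, A.PB D x θ (g * z) b ε) ∧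
  (∀ m : ℤ, A.PB D x θ (g * dg (A.ϖ ^ m)) (b * algebraMap E C A.ϖ ^ m) fun n => ε (n + m)) ∧
  ∀ (o : Oˣ) (μ : Eˣ), (μ : E) = algebraMap O E o →
    ∃ ε', A.PB D x θ (g * dg μ) (b * algebraMap E C μ) ε' ∧
      ∀ n h, ε' n h = sub (D.br o) (ε n h)

/-- **OVW**: the points of a pre-basin -/
def OVW : Prop := ∀ D : LTD C O E, D.Ok A.ϖ → ∀ x θ g b ε, A.PB D x θ g b ε → ∀ n : ℤ,
  (∀ a, ‖a‖ < 1 → (∃ y, A.Ow g ε n a y) ∧ ∃ h ∈ A.Ln g n, o1 a (ε n h) = 1) ∧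
  (∀ a y, A.Ow g ε (n + 1) a y → A.Ow g ε n (An4.ev a D.f) y) ∧
  (∀ a y, A.Ow g ε n a y → ∃ a₁, An4.ev a₁ D.f = a ∧ A.Ow g ε (n + 1) a₁ y) ∧
  (∀ a a' y, A.Ow g ε n a y → A.Ow g ε n a' y → a = a') ∧
  (∀ γ ∈ A.H, ∀ c, Fm g (A.π γ) (un c) → ∀ a y, A.Ow g ε n a (A.sm γ⁻¹ y) ↔
    ∃ a', A.Ow g ε n a' y ∧ a = An4.ev a' (D.tr (c / (A.ϖ ^ n : Eˣ)))) ∧
  (∀ t ∈ A.St x, ∀ (m : ℤ) (o : Oˣ) (μ : Eˣ), (μ : E) = A.ϖ ^ m * algebraMap O E o →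
    Fm g (A.π t) (dg μ) → ∀ a y, A.Ow g ε n a y →
      A.Ow g ε (n + m) (An4.ev a (D.br o)) (A.sm t y)) ∧
  ∀ a y, A.Ow g ε n a y → ∀ h ∈ A.Ln g n, h ∈ y.1 →
    h = algebraMap C L (v1 a (ε n h)) ∨ (h - algebraMap C L (v1 a (ε n h)))⁻¹ ∉ y.1

/-- **SG1**: pre-basins with a common point have the same end -/
def SG1 : Prop := ∀ D : LTD C O E, D.Ok A.ϖ → ∀ x θ g b ε x' θ' g' b' ε', A.PB D x θ g b ε →
  A.PB D x' θ' g' b' ε' → ∀ n a n' a' y, A.Ow g ε n a y → A.Ow g' ε' n' a' y →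
    (g⁻¹ * g' : GL (Fin 2) E) 1 0 = 0

/-- **SG2**: pre-basins with a common point and the same frame have the same centre -/
def SG2 : Prop := ∀ D : LTD C O E, D.Ok A.ϖ → ∀ x θ g b ε x' θ' b' ε', A.PB D x θ g b ε →
  A.PB D x' θ' g b' ε' → ∀ n a n' a' y, A.Ow g ε n a y → A.Ow g ε' n' a' y → x' = x

/-- **SG**: pre-basins with a common point -/
def SG : Prop := ∀ D : LTD C O E, D.Ok A.ϖ → ∀ x θ g b ε x' θ' g' b' ε', A.PB D x θ g b ε →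
  A.PB D x' θ' g' b' ε' → ∀ n a n' a' y, A.Ow g ε n a y → A.Ow g' ε' n' a' y →
    ∃ γ ∈ A.H, ∃ c, Fm g (A.π γ) (un c) ∧ x' = A.sm γ x

/-- **DSW**: pre-basins embed in the curves -/
def DSW : Prop := ∀ D : LTD C O E, D.Ok A.ϖ → ∀ x θ g b ε, A.PB D x θ g b ε →
  ∀ n : ℤ, ∀ W ∈ A.Wl, ∀ V, Ll O V → Np O g (A.ϖ ^ n) V →
    ∀ [CFF C (A.K (A.U W V))], ∃ j : C → Plk C (A.K (A.U W V)), Set.InjOn j {a | ‖a‖ < 1} ∧
      (∀ a, ‖a‖ < 1 → ∀ h : A.K (A.U W V), h ≠ 0 → ord (j a) h = o1 a (ε n h)) ∧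
      ∀ a y, A.Ow g ε n a y → Ly y (j a)

variable {A} {D : LTD C O E} {x y : Plk C L} {θ : L →ₐ[C] C⸨X⸩} {g : GL (Fin 2) E} {b a : C}
  {ε : ℤ → L →ₐ[C] C⸨X⸩} {n : ℤ} {ρ : ℝ}

/-- `Ow` with an arbitrary radius -/
theorem PB.ow_iff (h : A.PB D x θ g b ε) (h0 : 0 < ρ) (ha : ‖a‖ ≤ ρ) (h1 : ρ < 1) :
    A.Ow g ε n a y ↔ ∀ s ∈ A.Ln g n, (s ∈ y.1 ↔ 0 ≤ od ρ a (ε n s)) := by
  rw [Ow, and_iff_right (ha.trans_lt h1)]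
  exact forall₂_congr fun s hs => by rw [(h.mer n s hs).o1_eq h0 ha h1]

end AT

end tower

end Vale.Agent.P022K.FI
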