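import Vale.Agent.P022K.FI.Na0
import Vale.Agent.P022K.F0.Apx

/-!
# P022K, block FI: the rows CJX and CENX for the tower of a quaternion algebra
-/

set_option autoImplicit false
set_option linter.unusedSectionVars false

open UpperHalfPlane NumberField
open scoped MatrixGroups

noncomputable section

namespace Vale.Agent.P022K.FI

open Vale.Agent.P022K.Sh Vale.Agent.P022K.F0

namespace Qx

/-! ## real matrices with a fixed point -/

theorem fix_eq {g : GP} {τ : ℍ} (h : g • τ = τ) :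
    ((g : GL (Fin 2) ℝ) 0 0 : ℂ) * τ + (g : GL (Fin 2) ℝ) 0 1 =
      ((g : GL (Fin 2) ℝ) 1 0 * τ + (g : GL (Fin 2) ℝ) 1 1) * τ := by
  have hg : 0 < (g : GL (Fin 2) ℝ).det.val := g.2
  have e := congrArg (fun z : ℍ => (z : ℂ)) h
  simp only [Subgroup.smul_def, coe_smul_of_det_pos hg] at e
  rw [div_eq_iff (denom_ne_zero _ τ)] at e
  simp only [num, denom] at e
  linear_combination e

theorem smul_eq_of {g : GP} {τ τ' : ℍ} (h : ((g : GL (Fin 2) ℝ) 0 0 : ℂ) * τ +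
    (g : GL (Fin 2) ℝ) 0 1 = τ' * ((g : GL (Fin 2) ℝ) 1 0 * τ + (g : GL (Fin 2) ℝ) 1 1)) :
    g • τ = τ' := by
  have hg : 0 < (g : GL (Fin 2) ℝ).det.val := g.2
  apply UpperHalfPlane.ext
  simp only [Subgroup.smul_def, coe_smul_of_det_pos hg]
  rw [div_eq_iff (denom_ne_zero _ τ)]
  exact h

/-- the trace is `(1 + μ) λ` -/
theorem tr_eq {g : GP} {τ : ℍ} (h : g • τ = τ) :
    (((g : GL (Fin 2) ℝ) : Matrix (Fin 2) (Fin 2) ℝ).trace : ℂ) =
      (1 + mu g τ) * denom (g : GL (Fin 2) ℝ) τ := by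
  have e := fix_eq h
  have hd := denom_ne_zero (g : GL (Fin 2) ℝ) τ
  rw [mu, Matrix.GeneralLinearGroup.val_det_apply, Matrix.det_fin_two, Matrix.trace_fin_two]
  field_simp
  simp only [denom]
  push_cast
  linear_combination ((g : GL (Fin 2) ℝ) 1 0 : ℂ) * e

theorem tr_sq {g : GP} {τ : ℍ} (h : g • τ = τ) :
    (((g : GL (Fin 2) ℝ) : Matrix (Fin 2) (Fin 2) ℝ).trace : ℂ) ^ 2 /
      (((g : GL (Fin 2) ℝ) : Matrix (Fin 2) (Fin 2) ℝ).det : ℂ) = mu g τ + (mu g τ)⁻¹ + 2 := by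
  have hd := denom_ne_zero (g : GL (Fin 2) ℝ) τ
  have hm := mu_ne g τ
  have e : (((g : GL (Fin 2) ℝ) : Matrix (Fin 2) (Fin 2) ℝ).det : ℂ) =
      mu g τ * denom (g : GL (Fin 2) ℝ) τ ^ 2 := by
    rw [mu, div_mul_cancel₀ _ (pow_ne_zero _ hd), Matrix.GeneralLinearGroup.val_det_apply]
  rw [tr_eq h, e]
  field_simp
  ring

theorem key (a b c d a' b' c' d' : ℝ) (τ τ' : ℍ) (h1 : a + d = 1) (h1' : a' + d' = 1)
    (hf : (a : ℂ) * τ + b = (c * τ + d) * τ) (hf' : (a' : ℂ) * τ' + b' = (c' * τ' + d') * τ')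
    (hw : (c : ℂ) * τ + d = c' * τ' + d') (hne : 2 * ((c : ℂ) * τ + d) ≠ 1) :
    0 < (a + a' - 1) * (d + d' - 1) - (b + b') * (c + c') ∧
      ((a + a' - 1 : ℝ) : ℂ) * τ + (b + b' : ℝ) = τ' * ((c + c' : ℝ) * τ + (d + d' - 1 : ℝ)) := by
  constructor
  · have hv := τ.im_pos
    have hv' := τ'.im_pos
    have r1 := congrArg Complex.re hf
    have i1 := congrArg Complex.im hf
    have r2 := congrArg Complex.re hf'
    have i2 := congrArg Complex.im hf'
    have i3 := congrArg Complex.im hw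
    simp at r1 i1 r2 i2 i3
    have e1 : a - d = 2 * c * τ.re := mul_right_cancel₀ hv.ne' (by linear_combination i1)
    have e2 : a' - d' = 2 * c' * τ'.re := mul_right_cancel₀ hv'.ne' (by linear_combination i2)
    have hc : c ≠ 0 := by
      rintro rfl
      apply hne
      have : d = 1 / 2 := by linarith
      rw [this]
      push_cast
      ring
    have h3 : 0 < c * c' := by
      have h4 : 0 < c * τ.im * (c' * τ'.im) := by
        rw [← i3]
        exact mul_self_pos.2 (mul_ne_zero hc hv.ne')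
      by_contra h5
      nlinarith [mul_pos hv hv']
    have ea : a = 1 / 2 + c * τ.re := by linarith
    have ed : d = 1 / 2 - c * τ.re := by linarith
    have ea' : a' = 1 / 2 + c' * τ'.re := by linarith
    have ed' : d' = 1 / 2 - c' * τ'.re := by linarith
    have eb : b = -(c * (τ.re ^ 2 + τ.im ^ 2)) := by linear_combination r1 - τ.re * e1
    have eb' : b' = -(c' * (τ'.re ^ 2 + τ'.im ^ 2)) := by linear_combination r2 - τ'.re * e2
    have e : (a + a' - 1) * (d + d' - 1) - (b + b') * (c + c') = (c * τ.im) ^ 2 +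
        (c' * τ'.im) ^ 2 + c * c' * ((τ.re - τ'.re) ^ 2 + τ.im ^ 2 + τ'.im ^ 2) := by
      rw [ea, ed, ea', ed', eb, eb']
      ring
    rw [e]
    positivity
  · have h2 : (a' : ℂ) + d' = 1 := by exact_mod_cast h1'
    push_cast
    linear_combination hf + hf' + ((τ : ℂ) - τ') * hw + ((τ : ℂ) - τ') * h2

/-- two elliptic matrices with the same multiplier -/
theorem real_cj {g g' : GP} {τ τ' : ℍ} (h : g • τ = τ) (h' : g' • τ' = τ')
    (hm : mu g τ = mu g' τ') (h2 : mu g τ ^ 2 ≠ 1) {T T' : ℝ}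
    (hT : T = ((g : GL (Fin 2) ℝ) : Matrix (Fin 2) (Fin 2) ℝ).trace)
    (hT' : T' = ((g' : GL (Fin 2) ℝ) : Matrix (Fin 2) (Fin 2) ℝ).trace)
    {A : Matrix (Fin 2) (Fin 2) ℝ} (hA : A = T⁻¹ • ((g : GL (Fin 2) ℝ) : Matrix (Fin 2) (Fin 2) ℝ) +
      T'⁻¹ • ((g' : GL (Fin 2) ℝ) : Matrix (Fin 2) (Fin 2) ℝ) - 1) :
    0 < A.det ∧ ∀ δ : GP, ((δ : GL (Fin 2) ℝ) : Matrix (Fin 2) (Fin 2) ℝ) = A → δ • τ = τ' := by
  have e := tr_eq h
  have e' := tr_eq h'
  rw [← hT] at e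
  rw [← hT', ← hm] at e'
  have hd := denom_ne_zero (g : GL (Fin 2) ℝ) τ
  have hd' := denom_ne_zero (g' : GL (Fin 2) ℝ) τ'
  have h3 : 1 + mu g τ ≠ 0 := fun e => h2 (by linear_combination (mu g τ - 1) * e)
  have h4 : (T : ℂ) ≠ 0 := e ▸ mul_ne_zero h3 hd
  have h4' : (T' : ℂ) ≠ 0 := e' ▸ mul_ne_zero h3 hd'
  have h5 : T ≠ 0 := by exact_mod_cast h4
  have h5' : T' ≠ 0 := by exact_mod_cast h4'
  have f := fix_eq h
  have f' := fix_eq h'
  rw [Matrix.trace_fin_two] at hT hT'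
  simp only [denom] at e e' hd hd'
  obtain ⟨k1, k2⟩ := key (T⁻¹ * (g : GL (Fin 2) ℝ) 0 0) (T⁻¹ * (g : GL (Fin 2) ℝ) 0 1)
    (T⁻¹ * (g : GL (Fin 2) ℝ) 1 0) (T⁻¹ * (g : GL (Fin 2) ℝ) 1 1)
    (T'⁻¹ * (g' : GL (Fin 2) ℝ) 0 0) (T'⁻¹ * (g' : GL (Fin 2) ℝ) 0 1)
    (T'⁻¹ * (g' : GL (Fin 2) ℝ) 1 0) (T'⁻¹ * (g' : GL (Fin 2) ℝ) 1 1) τ τ'
    (by rw [← mul_add, ← hT, inv_mul_cancel₀ h5]) (by rw [← mul_add, ← hT', inv_mul_cancel₀ h5'])
    (by push_cast; linear_combination (T : ℂ)⁻¹ * f)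
    (by push_cast; linear_combination (T' : ℂ)⁻¹ * f')
    (by
      push_cast
      apply mul_left_cancel₀ (mul_ne_zero (mul_ne_zero h4 h4') h3)
      linear_combination (-(T' : ℂ)) * e + (T : ℂ) * e' +
        (T' : ℂ) * (1 + mu g τ) * ((g : GL (Fin 2) ℝ) 1 0 * τ + (g : GL (Fin 2) ℝ) 1 1) *
          mul_inv_cancel₀ h4 -
        (T : ℂ) * (1 + mu g τ) * ((g' : GL (Fin 2) ℝ) 1 0 * τ' + (g' : GL (Fin 2) ℝ) 1 1) *
          mul_inv_cancel₀ h4')
    (by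
      push_cast
      intro k
      apply h2
      have k2 : mu g τ = 1 := by
        apply mul_right_cancel₀ hd
        field_simp at k
        linear_combination -e - k
      rw [k2, one_pow])
  refine ⟨?_, fun δ hδ => smul_eq_of ?_⟩
  · rw [hA, Matrix.det_fin_two]
    simpa using k1
  · rw [hδ, hA]
    simpa using k2

end Qx

variable {F : Type} [Field F] [NumberField F] (X : QD F)

namespace Qx

theorem coe_r (γ : X.G0) :
    ((X.tw.r γ : GL (Fin 2) ℝ) : Matrix (Fin 2) (Fin 2) ℝ) = X.s ((γ : X.Dˣ) : X.D) := rfl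

/-- an element of `G0` from a quaternion of positive norm -/
theorem exists_G0 {q : X.D} (h : 0 < X.t1 (Fuj.nrd q)) : ∃ γ : X.G0, ((γ : X.Dˣ) : X.D) = q := by
  have h0 : q ≠ 0 := by
    rintro rfl
    simp [Fuj.nrd] at h
  obtain ⟨u, rfl⟩ := X.isUnit_D h0
  exact ⟨⟨u, X.mem_G0.2 h⟩, rfl⟩

theorem s_smul (c : F) (q : X.D) : X.s (c • q) = X.t1 c • X.s q := by
  rw [Algebra.smul_def, map_mul, X.hs, Algebra.smul_def]

end Qx

open Qx

/-- **CJX** -/
theorem cjx : CJX X := by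
  intro γ γ' τ τ' h h' hm h2
  obtain ⟨k1, k2⟩ := real_cj h h' hm h2 (T := X.t1 (Fuj.trd ((γ : X.Dˣ) : X.D)))
    (T' := X.t1 (Fuj.trd ((γ' : X.Dˣ) : X.D))) (X.ovr.trace X.a_ne X.b_ne _).symm
    (X.ovr.trace X.a_ne X.b_ne _).symm
    (A := X.s ((Fuj.trd ((γ : X.Dˣ) : X.D))⁻¹ • ((γ : X.Dˣ) : X.D) +
      (Fuj.trd ((γ' : X.Dˣ) : X.D))⁻¹ • ((γ' : X.Dˣ) : X.D) - 1))
    (by rw [map_sub, map_add, s_smul, s_smul, map_one, map_inv₀, map_inv₀, coe_r, coe_r])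
  rw [X.ovr.det X.a_ne X.b_ne] at k1
  obtain ⟨δ, hδ⟩ := exists_G0 X k1
  exact ⟨δ, (k2 _ (by rw [coe_r, hδ])).symm⟩

namespace Qx

section comm

open scoped Quaternion

variable {R : Type} [CommRing R] {a b : R}

theorem comm_co (h2 : IsUnit (2 : R)) (ha : IsUnit a) (hb : IsUnit b) {g p : ℍ[R,a,b]}
    (h : g * p = p * g) : g.imI * p.imJ = g.imJ * p.imI ∧ g.imI * p.imK = g.imK * p.imI ∧
      g.imJ * p.imK = g.imK * p.imJ := by
  have h1 := congrArg QuaternionAlgebra.imI h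
  have h3 := congrArg QuaternionAlgebra.imJ h
  have h4 := congrArg QuaternionAlgebra.imK h
  simp at h1 h3 h4
  refine ⟨h2.mul_left_cancel ?_, (h2.mul ha).mul_left_cancel ?_, (h2.mul hb).mul_left_cancel ?_⟩
  · linear_combination h4
  · linear_combination h3
  · linear_combination -h1

/-- an element which commutes with two independent elements is a scalar -/
theorem scal_of_comm (h2 : IsUnit (2 : R)) (ha : IsUnit a) (hb : IsUnit b) {g p q : ℍ[R,a,b]}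
    (hp : g * p = p * g) (hq : g * q = q * g)
    (h : IsUnit (p.imJ * q.imK - p.imK * q.imJ) ∨ IsUnit (p.imI * q.imK - p.imK * q.imI)) :
    g = algebraMap R _ g.re := by
  obtain ⟨p1, p2, p3⟩ := comm_co h2 ha hb hp
  obtain ⟨q1, q2, q3⟩ := comm_co h2 ha hb hq
  rw [QuaternionAlgebra.algebraMap_eq]
  rcases h with h | h
  · have e2 : g.imJ = 0 := h.mul_right_eq_zero.1 (by linear_combination p.imJ * q3 - q.imJ * p3)
    have e3 : g.imK = 0 := h.mul_right_eq_zero.1 (by linear_combination p.imK * q3 - q.imK * p3)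
    have e1 : g.imI = 0 := h.mul_right_eq_zero.1 (by
      linear_combination q.imK * p1 - q.imJ * p2 + q.imK * p.imI * e2 - q.imJ * p.imI * e3)
    exact QuaternionAlgebra.ext rfl e1 e2 e3
  · have e1 : g.imI = 0 := h.mul_right_eq_zero.1 (by linear_combination p.imI * q2 - q.imI * p2)
    have e3 : g.imK = 0 := h.mul_right_eq_zero.1 (by linear_combination p.imK * q2 - q.imK * p2)
    have e2 : g.imJ = 0 := h.mul_right_eq_zero.1 (by
      linear_combination -q.imK * p1 - q.imI * p3 + q.imK * p.imJ * e1 - q.imI * p.imJ * e3)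
    exact QuaternionAlgebra.ext rfl e1 e2 e3

end comm

theorem trd_ne {m : ℕ} {u : X.Dˣ} (hu : u ∈ Fuj.Um X.O0 (3 * m)) : Fuj.trd (u : X.D) ≠ 0 := by
  obtain ⟨⟨z, hz, e⟩, -⟩ := hu
  intro h
  have h1 : IsIntegral ℤ (1 + (m : F) * Fuj.trd z) :=
    isIntegral_one.add ((isIntegral_natCast m).mul (Fuj.trd_mem_ord hz))
  have h2 : 3 * (1 + (m : F) * Fuj.trd z) = 1 := by
    rw [e, nat_mul_eq] at h
    simp [Fuj.trd] at h ⊢
    linear_combination 2 * h
  have h3 : 1 + (m : F) * Fuj.trd z = algebraMap ℚ F (1 / 3) := by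
    simp only [one_div, map_inv₀, map_ofNat]
    field_simp
    linear_combination h2
  rw [h3, isIntegral_algebraMap_iff (algebraMap ℚ F).injective] at h1
  obtain ⟨y, hy⟩ := IsIntegrallyClosed.isIntegral_iff.1 h1
  have h4 : (3 * y : ℤ) = 1 := by
    have : (3 * y : ℚ) = 1 := by
      rw [show (y : ℚ) = 1 / 3 from hy]
      norm_num
    exact_mod_cast this
  omega

/-- a non central element of norm one in every principal congruence subgroup -/
theorem exists_nc {m : ℕ} (hm : m ≠ 0) : ∃ u ∈ Fuj.Um X.O0 m, Fuj.nrd (u : X.D) = 1 ∧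
    ¬ ∃ c : F, (u : X.D) = algebraMap F _ c := by
  have := X.isTotallyReal
  obtain ⟨K, hK, h⟩ := Fuj.cocompact X.ovr X.a_ne X.b_ne X.a_mem X.b_mem X.div hm
  by_contra hcon
  push Not at hcon
  refine noncompact_univ ℍ (hK.of_isClosed_subset isClosed_univ fun z _ => ?_)
  obtain ⟨u, hu, h1, h2⟩ := h z
  rwa [(X.ovr.triv_iff X.a_ne X.b_ne u).2 (hcon u hu h1) z] at h2

end Qx

/-- **CENX** -/
theorem cenx : CENX X := by
  intro U hU x g hg
  have hl := X.apx.lat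
  have h2 : IsUnit (2 : AF F) := by simpa using isUnit_nat (F := F) two_pos
  obtain ⟨y, hy⟩ : ∃ y : X.G, y = x * g * x⁻¹ := ⟨_, rfl⟩
  have hc : ∀ γ ∈ X.tw.Gam U x, Fuj.trd ((γ : X.Dˣ) : X.D) ≠ 0 →
      (y : X.DA) * X.jD (γ : X.Dˣ) = X.jD (γ : X.Dˣ) * y := by
    intro γ hγ ht
    obtain ⟨c, hc⟩ := X.mem_Z.1 (hg γ hγ)
    have e1 : y * X.tw.j γ * y⁻¹ =
        x * (g * lc X.tw x γ * g⁻¹ * (lc X.tw x γ)⁻¹) * x⁻¹ * X.tw.j γ := by
      rw [hy, lc]
      group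
    have e2 := congrArg (fun z : X.G => (z : X.DA)) e1
    simp only [Units.val_mul] at e2 hc
    rw [hc, ← Algebra.commutes, mul_assoc _ (x : X.DA), Units.mul_inv, mul_one, X.coe_j,
      ← Algebra.smul_def] at e2
    have e3 := congrArg Fuj.trd e2
    rw [Fuj.trd_conj, Fuj.trd_smul, QD.jD, trd_map] at e3
    have e4 : c = 1 := (isUnit_alg ht).mul_right_cancel (by rw [one_mul]; exact e3.symm)
    rw [e4, one_smul] at e2
    rw [← e2, Units.inv_mul_cancel_right, e2]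
  have hi : (1 + Fuj.qi _ _ : X.D) ≠ 0 := fun e => by
    simpa [Fuj.qi] using congrArg QuaternionAlgebra.re e
  have hj : (1 + Fuj.qj _ _ : X.D) ≠ 0 := fun e => by
    simpa [Fuj.qj] using congrArg QuaternionAlgebra.re e
  obtain ⟨δ₁, e₁⟩ := X.isUnit_D hi
  obtain ⟨δ₂, e₂⟩ := X.isUnit_D hj
  have hk : ∀ δ : X.Dˣ, ∃ m : ℕ, m ≠ 0 ∧ ∀ m', m ∣ m' → ∀ u ∈ Fuj.Um X.O0 (3 * m'),
      Fuj.nrd (u : X.D) = 1 → (y : X.DA) * X.jD ((δ : X.D) * u * star (δ : X.D)) =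
        X.jD ((δ : X.D) * u * star (δ : X.D)) * y := by
    intro δ
    obtain ⟨m, m0, hm⟩ := QD.exists_Um_le hl hU ((Units.map X.jD.toMonoidHom δ)⁻¹ * x)
    refine ⟨m, m0, fun m' hm' u hu hn => ?_⟩
    have g1 : u ∈ X.G0 := X.mem_G0.2 (by rw [hn, map_one]; exact one_pos)
    have g2 : δ * u * δ⁻¹ ∈ X.G0 := X.mem_G0.2 (by
      rw [Units.val_mul, Units.val_mul, Fuj.nrd_conj, hn, map_one]; exact one_pos)
    have g3 := X.tw.mem_Gam.1 (hm ⟨u, g1⟩ (Fuj.Um_mono _ (hm'.mul_left 3) hu))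
    have g4 : (⟨δ * u * δ⁻¹, g2⟩ : X.G0) ∈ X.tw.Gam U x := by
      rw [Tw.mem_Gam]
      convert g3 using 1
      change x⁻¹ * Units.map X.jD.toMonoidHom (δ * u * δ⁻¹) * x =
        _ * Units.map X.jD.toMonoidHom u * _
      rw [map_mul, map_mul, map_inv]
      group
    have g5 := hc _ g4 (by
      change Fuj.trd ((δ * u * δ⁻¹ : X.Dˣ) : X.D) ≠ 0
      rw [Units.val_mul, Units.val_mul, Fuj.trd_conj]
      exact trd_ne X hu)
    dsimp only at g5
    have g6 : (δ : X.D) * u * star (δ : X.D) =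
        ((δ * u * δ⁻¹ : X.Dˣ) : X.D) * algebraMap F _ (Fuj.nrd (δ : X.D)) := by
      rw [← Fuj.mul_star_eq, Units.val_mul, Units.val_mul, ← mul_assoc, Units.inv_mul_cancel_right]
    rw [g6, map_mul, ← mul_assoc, g5, X.jD_algebraMap]
    generalize X.jD ((δ * u * δ⁻¹ : X.Dˣ) : X.D) = t
    rw [mul_assoc, ← Algebra.commutes, mul_assoc]
  obtain ⟨m₀, n₀, k₀⟩ := hk 1
  obtain ⟨m₁, n₁, k₁⟩ := hk δ₁
  obtain ⟨m₂, n₂, k₂⟩ := hk δ₂
  obtain ⟨u, hu, hn, hs⟩ := exists_nc X (m := 3 * (m₀ * m₁ * m₂)) (by positivity)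
  have c₀ := k₀ _ ⟨m₁ * m₂, by ring⟩ u hu hn
  have c₁ := k₁ _ ⟨m₀ * m₂, by ring⟩ u hu hn
  have c₂ := k₂ _ ⟨m₀ * m₁, by ring⟩ u hu hn
  rw [Units.val_one, star_one, one_mul, mul_one] at c₀
  rw [e₁] at c₁
  rw [e₂] at c₂
  have hsc : (y : X.DA) = algebraMap _ _ (y : X.DA).re := by
    by_cases h : (u : X.D).imJ = 0 ∧ (u : X.D).imK = 0
    · have h1 : (u : X.D).imI ≠ 0 := fun e => hs ⟨(u : X.D).re, by
        rw [QuaternionAlgebra.algebraMap_eq]
        exact QuaternionAlgebra.ext rfl e h.1 h.2⟩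
      refine scal_of_comm h2 (isUnit_int X.a0) (isUnit_int X.b0) c₀ c₂ (Or.inr ?_)
      have h3 := isUnit_alg (c := -2 * (u : X.D).imI ^ 2) (by simpa using h1)
      convert h3 using 1
      simp [QD.jD, Fuj.qj, h.1, h.2, map_ofNat]
      ring
    · have h1 := X.div ⟨0, 0, (u : X.D).imJ, (u : X.D).imK⟩ fun e => h
        ⟨congrArg QuaternionAlgebra.imJ e, congrArg QuaternionAlgebra.imK e⟩
      refine scal_of_comm h2 (isUnit_int X.a0) (isUnit_int X.b0) c₀ c₁ (Or.inl ?_)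
      have h3 := isUnit_alg (c := 2 * ((u : X.D).imJ ^ 2 -
          algebraMap (𝓞 F) F X.a * (u : X.D).imK ^ 2)) (mul_ne_zero two_ne_zero fun e => h1 (by
        simp only [Fuj.nrd]
        linear_combination (-algebraMap (𝓞 F) F X.b) * e))
      convert h3 using 1
      simp [QD.jD, Fuj.qi, map_ofNat, ← IsScalarTower.algebraMap_apply]
      ring
  refine X.mem_Z.2 ⟨(y : X.DA).re, ?_⟩
  have e : g = x⁻¹ * y * x := by rw [hy]; group
  rw [e, Units.val_mul, Units.val_mul]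
  conv_lhs => rw [hsc, ← Algebra.commutes, mul_assoc, Units.inv_mul, mul_one]

end Vale.Agent.P022K.FI
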