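import Vale.Agent.P022K.FI.St
import Vale.Agent.P022K.FI.Good

/-!
# P022K, block FI, RES 1: the boundary of the disc, values of factorised series
-/

set_option autoImplicit false
set_option linter.unusedSectionVars false
set_option linter.style.haveILetI false

open PowerSeries Vale.Agent.P019P P025H746 P025H492 Filter Topology Module
open scoped LaurentSeries

noncomputable section

namespace Vale.Agent.P022K.FI.Res

variable {C : Type} [NontriviallyNormedField C] [IsUltrametricDist C] [CompleteSpace C]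

/-! ## the boundary filter -/

variable (C) in
/-- points of the open disc which tend to the boundary -/
def bF : Filter C := comap norm (𝓝[<] (1 : ℝ))

theorem ev_bF {p : C → Prop} :
    (∀ᶠ a in bF C, p a) ↔ ∃ r < (1 : ℝ), ∀ a, r < ‖a‖ → ‖a‖ < 1 → p a := by
  rw [bF, eventually_comap, Filter.Eventually, mem_nhdsLT_iff_exists_Ioo_subset]
  constructor
  · rintro ⟨r, hr, h⟩
    exact ⟨r, hr, fun a h1 h2 => h ⟨h1, h2⟩ a rfl⟩
  · rintro ⟨r, hr, h⟩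
    exact ⟨r, hr, fun s hs a e => h a (e ▸ hs.1) (e ▸ hs.2)⟩

theorem bF_lt : ∀ᶠ a in bF C, ‖a‖ < 1 := ev_bF.2 ⟨0, one_pos, fun _ _ h => h⟩

theorem bF_gt {r : ℝ} (hr : r < 1) : ∀ᶠ a in bF C, r < ‖a‖ := ev_bF.2 ⟨r, hr, fun _ h _ => h⟩

theorem bF_norm : Tendsto norm (bF C) (𝓝 1) := tendsto_comap.mono_right nhdsWithin_le_nhds

theorem bF_ne (hn : ∀ r : ℝ, 0 ≤ r → ∃ x : C, ‖x‖ = r) : (bF C).NeBot := by
  refine ⟨fun h => ?_⟩
  have h1 : ∀ᶠ a in bF C, False := by rw [h]; exact eventually_bot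
  obtain ⟨r, hr, h2⟩ := ev_bF.1 h1
  obtain ⟨x, hx⟩ := hn ((max r 0 + 1) / 2) (by positivity)
  have := max_lt hr one_pos
  have := le_max_left r 0
  exact h2 x (by linarith) (by linarith)

theorem tend_bF {ι : Type} {l : Filter ι} {a : ι → C} (h1 : ∀ i, ‖a i‖ < 1)
    (h2 : Tendsto (fun i => ‖a i‖) l (𝓝 1)) : Tendsto a l (bF C) :=
  tendsto_comap_iff.2 (tendsto_nhdsWithin_iff.2 ⟨h2, Eventually.of_forall h1⟩)

theorem norm_sub_of_lt {a b : C} (h : ‖b‖ < ‖a‖) : ‖a - b‖ = ‖a‖ := by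
  rw [sub_eq_add_neg, IsUltrametricDist.norm_add_eq_max_of_norm_ne_norm (by rw [norm_neg]; exact h.ne'),
    norm_neg, max_eq_left h.le]

theorem norm_sub_le' {a b : C} {r : ℝ} (ha : ‖a‖ ≤ r) (hb : ‖b‖ ≤ r) : ‖a - b‖ ≤ r := by
  rw [sub_eq_add_neg]
  exact (IsUltrametricDist.norm_add_le_max _ _).trans (max_le ha (by rwa [norm_neg]))

theorem norm_sub_lt' {a b : C} {r : ℝ} (ha : ‖a‖ < r) (hb : ‖b‖ < r) : ‖a - b‖ < r := by
  rw [sub_eq_add_neg]
  exact (IsUltrametricDist.norm_add_le_max _ _).trans_lt (max_lt ha (by rwa [norm_neg]))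

/-- `∏ ‖a - b‖ ^ D b` -/
def nP (D : C →₀ ℤ) (a : C) : ℝ := D.prod fun b n => ‖a - b‖ ^ n

theorem prod_zpow {s : ℝ} (hs : s ≠ 0) (D : C →₀ ℤ) : (D.prod fun _ n => s ^ n) = s ^ dgD D := by
  classical
  rw [Finsupp.prod, dgD, Finsupp.sum]
  induction D.support using Finset.induction_on with
  | empty => simp
  | insert b t hb ih => rw [Finset.prod_insert hb, Finset.sum_insert hb, ih, zpow_add₀ hs]

theorem nP_ev {D : C →₀ ℤ} (hD : ∀ a ∈ D.support, ‖a‖ < 1) :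
    ∀ᶠ a in bF C, D a = 0 ∧ nP D a = ‖a‖ ^ dgD D := by
  have h1 : ∀ᶠ a in bF C, ∀ b ∈ D.support, ‖b‖ < ‖a‖ :=
    (eventually_all_finset _).2 fun b hb => bF_gt (hD b hb)
  filter_upwards [h1, bF_gt one_pos] with a ha h0
  refine ⟨by_contra fun h => lt_irrefl _ (ha a (Finsupp.mem_support_iff.2 h)), ?_⟩
  rw [← prod_zpow h0.ne']
  exact Finsupp.prod_congr fun b hb => by rw [norm_sub_of_lt (ha b hb)]

theorem tend_pow (c : ℝ) (n : ℤ) : Tendsto (fun a : C => c * ‖a‖ ^ n) (bF C) (𝓝 c) := by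
  have := (bF_norm (C := C)).zpow₀ n (Or.inl one_ne_zero) |>.const_mul c
  rwa [one_zpow, mul_one] at this

theorem dgD_neg (D : C →₀ ℤ) : dgD (-D) = -dgD D := by
  rw [dgD, dgD, Finsupp.sum, Finsupp.sum, Finsupp.support_neg, ← Finset.sum_neg_distrib]
  rfl

theorem dgD_add (D D' : C →₀ ℤ) : dgD (D + D') = dgD D + dgD D' :=
  Finsupp.sum_add_index' (fun _ => rfl) fun _ _ _ => rfl

theorem dgD_eq (D : C →₀ ℤ) : dgD D = dg D := (dg_apply D).symm

theorem dgD_pos {D : C →₀ ℤ} (h : 0 ≤ D) {a : C} (ha : 0 < D a) : 0 < dgD D :=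
  Finset.sum_pos' (fun b _ => h b) ⟨a, Finsupp.mem_support_iff.2 ha.ne', ha⟩

theorem exists_pos_of_dgD {D : C →₀ ℤ} (h : 0 < dgD D) : ∃ a, 0 < D a := by
  by_contra hc
  push Not at hc
  exact absurd (Finset.sum_nonpos fun b _ => hc b) (not_le.2 h)

/-! ## values of series -/

/-- numerator of a divisor -/
def pP (D : C →₀ ℤ) : Polynomial C :=
  D.prod fun a n => (Polynomial.X - Polynomial.C a) ^ n.toNat

theorem lin_ne (a : C) : ((X - PowerSeries.C a : C⟦X⟧) : C⸨X⸩) ≠ 0 := by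
  intro h
  have h1 : (X - PowerSeries.C a : C⟦X⟧) = 0 :=
    HahnSeries.ofPowerSeries_injective (h.trans (map_zero _).symm)
  have := congrArg (coeff 1) h1
  simp at this

theorem pP_coe (D : C →₀ ℤ) : (((pP D : Polynomial C) : C⟦X⟧) : C⸨X⸩) =
    ∏ a ∈ D.support, ((X - PowerSeries.C a : C⟦X⟧) : C⸨X⸩) ^ (D a).toNat := by
  rw [pP, Finsupp.prod, ← Polynomial.coeToPowerSeries.ringHom_apply, map_prod, map_prod]
  refine Finset.prod_congr rfl fun a _ => ?_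
  rw [map_pow, map_pow, map_sub, Polynomial.coeToPowerSeries.ringHom_apply,
    Polynomial.coeToPowerSeries.ringHom_apply, Polynomial.coe_X, Polynomial.coe_C]

theorem prod_mul_pP (D : C →₀ ℤ) :
    (D.prod fun a n => ((X - PowerSeries.C a : C⟦X⟧) : C⸨X⸩) ^ n) *
      (((pP (-D) : Polynomial C) : C⟦X⟧) : C⸨X⸩) = (((pP D : Polynomial C) : C⟦X⟧) : C⸨X⸩) := by
  rw [pP_coe, pP_coe, Finsupp.support_neg, Finsupp.prod, ← Finset.prod_mul_distrib]
  refine Finset.prod_congr rfl fun a _ => ?_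
  rw [← zpow_natCast, ← zpow_natCast, ← zpow_add₀ (lin_ne a), Finsupp.neg_apply]
  congr 1
  omega

theorem eval_pP (D : C →₀ ℤ) (a : C) :
    (pP D).eval a = ∏ b ∈ D.support, (a - b) ^ (D b).toNat := by
  rw [pP, Finsupp.prod, Polynomial.eval_prod]
  simp

theorem eval_pP_ne {D : C →₀ ℤ} {a : C} (h : D a ≤ 0) : (pP D).eval a ≠ 0 := by
  rw [eval_pP]
  refine Finset.prod_ne_zero_iff.2 fun b _ => ?_
  by_cases e : a = b
  · rw [← e, Int.toNat_eq_zero.2 h, pow_zero]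
    exact one_ne_zero
  · exact pow_ne_zero _ (sub_ne_zero.2 e)

theorem eval_pP_zero {D : C →₀ ℤ} {a : C} (h : 0 < D a) : (pP D).eval a = 0 := by
  rw [eval_pP]
  refine Finset.prod_eq_zero (Finsupp.mem_support_iff.2 h.ne') ?_
  rw [sub_self, zero_pow (by omega)]

theorem norm_pP {D : C →₀ ℤ} {a : C} (h : D a = 0) :
    ‖(pP D).eval a‖ = nP D a * ‖(pP (-D)).eval a‖ := by
  rw [eval_pP, eval_pP, norm_prod, norm_prod, nP, Finsupp.prod, Finsupp.support_neg,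
    ← Finset.prod_mul_distrib]
  refine Finset.prod_congr rfl fun b hb => ?_
  have h0 : ‖a - b‖ ≠ 0 := by
    rw [norm_ne_zero_iff, sub_ne_zero]
    rintro rfl
    exact Finsupp.mem_support_iff.1 hb h
  rw [norm_pow, norm_pow, ← zpow_natCast, ← zpow_natCast, ← zpow_add₀ h0, Finsupp.neg_apply]
  congr 1
  omega

theorem res_ig {u : C⟦X⟧} (hu : Ig u) {a : C} (ha : ‖a‖ < 1) : IsRestricted ‖a‖ u := by
  rw [isRestricted_iff']
  refine squeeze_zero (fun n => by positivity) (fun n => ?_)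
    (tendsto_pow_atTop_nhds_zero_of_lt_one (norm_nonneg a) ha)
  exact mul_le_of_le_one_left (by positivity) (hu n)

theorem norm_ev_un {u : C⟦X⟧} (hu : Un u) {a : C} (ha : ‖a‖ < 1) : ‖An4.ev a u‖ = 1 := by
  have h1 : An4.Bnd ‖a‖ ‖a‖ (u - PowerSeries.C (coeff 0 u)) := fun n => by
    rcases n with _ | n
    · simp
    · rw [map_sub, coeff_C, if_neg n.succ_ne_zero, sub_zero, pow_succ, ← mul_assoc]
      exact mul_le_of_le_one_left (norm_nonneg a)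
        (mul_le_one₀ (hu.1 _) (by positivity) (pow_le_one₀ (norm_nonneg a) ha.le))
  have h2 := h1.ev le_rfl
  have h3 : IsRestricted ‖a‖ (PowerSeries.C (coeff 0 u)) := by
    simpa using An4.res_poly ‖a‖ (Polynomial.C (coeff 0 u))
  rw [An4.ev_sub le_rfl (res_ig hu.1 ha) h3, An4.ev_C] at h2
  have h4 := norm_sub_of_lt (a := coeff 0 u) (b := coeff 0 u - An4.ev a u)
    (by rw [norm_sub_rev, hu.2]; exact h2.trans_lt ha)
  rwa [sub_sub_cancel, hu.2] at h4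

/-- `v` is the value of `x` at `a` -/
def Ev (x : C⸨X⸩) (a v : C) : Prop := ∃ P Q : C⟦X⟧, IsRestricted ‖a‖ P ∧ IsRestricted ‖a‖ Q ∧
  An4.ev a Q ≠ 0 ∧ x * (Q : C⸨X⸩) = (P : C⸨X⸩) ∧ An4.ev a P = v * An4.ev a Q

theorem Ev.unique {x : C⸨X⸩} {a v v' : C} (h : Ev x a v) (h' : Ev x a v') : v = v' := by
  obtain ⟨P, Q, h1, h2, h3, h4, h5⟩ := h
  obtain ⟨P', Q', h1', h2', h3', h4', h5'⟩ := h'
  have e : P * Q' = P' * Q := HahnSeries.ofPowerSeries_injective (Γ := ℤ) (by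
    rw [map_mul, map_mul, ← h4, ← h4']
    ring)
  have e' := congrArg (An4.ev a) e
  rw [An4.ev_mul le_rfl h1 h2', An4.ev_mul le_rfl h1' h2, h5, h5'] at e'
  refine mul_right_cancel₀ (mul_ne_zero h3 h3') ?_
  linear_combination e'

theorem alg_eq (c : C) : algebraMap C C⸨X⸩ c = ((PowerSeries.C c : C⟦X⟧) : C⸨X⸩) := by
  rw [HahnSeries.ofPowerSeries_C, LaurentSeries.algebraMap_apply]

theorem res_C (r : ℝ) (c : C) : IsRestricted r (PowerSeries.C c) := by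
  simpa using An4.res_poly r (Polynomial.C c)

theorem Ev.add_const {x : C⸨X⸩} {a v : C} (h : Ev x a v) (c : C) :
    Ev (x + algebraMap C C⸨X⸩ c) a (v + c) := by
  obtain ⟨P, Q, h1, h2, h3, h4, h5⟩ := h
  have h6 := isRestricted.mul _ (res_C ‖a‖ c) h2
  refine ⟨P + PowerSeries.C c * Q, Q, isRestricted.add _ h1 h6, h2, h3, ?_, ?_⟩
  · rw [map_add, map_mul, add_mul, h4, alg_eq]
  · rw [An4.ev_add le_rfl h1 h6, An4.ev_mul le_rfl (res_C _ c) h2, An4.ev_C, h5, add_mul]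

theorem ev_const (a c : C) : Ev (algebraMap C C⸨X⸩ c) a c := by
  have := Ev.add_const (x := 0) (a := a) (v := 0) ⟨0, 1, by simpa using res_C ‖a‖ (0 : C),
    isRestricted_one _, by simpa using (An4.ev_C a 1).trans_ne one_ne_zero, by simp,
    by simpa using An4.ev_C a 0⟩ c
  rwa [zero_add, zero_add] at this

theorem fac_ev {x : C⸨X⸩} {c : C} {D : C →₀ ℤ} (h : Fac x c D) {a : C} (ha : ‖a‖ < 1)
    (h0 : 0 ≤ D a) : ∃ v, Ev x a v ∧ (0 < D a → v = 0) ∧ (D a = 0 → ‖v‖ = ‖c‖ * nP D a) := by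
  obtain ⟨-, -, u, hu, e⟩ := h
  have hQ : (pP (-D)).eval a ≠ 0 := eval_pP_ne (by rw [Finsupp.neg_apply]; omega)
  have h1 := isRestricted.mul _ (res_C ‖a‖ c) (res_ig hu.1 ha)
  refine ⟨c * An4.ev a u * (pP D).eval a / (pP (-D)).eval a,
    ⟨PowerSeries.C c * u * (pP D : Polynomial C), (pP (-D) : Polynomial C),
      isRestricted.mul _ h1 (An4.res_poly _ _), An4.res_poly _ _, by rwa [An4.ev_poly], ?_, ?_⟩,
    fun h => by rw [eval_pP_zero h, mul_zero, zero_div], fun h => ?_⟩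
  · rw [e, mul_assoc, prod_mul_pP, map_mul, map_mul, alg_eq]
  · rw [An4.ev_mul le_rfl h1 (An4.res_poly _ _), An4.ev_mul le_rfl (res_C _ c) (res_ig hu.1 ha),
      An4.ev_C, An4.ev_poly, An4.ev_poly, div_mul_cancel₀ _ hQ]
  · rw [norm_div, norm_mul, norm_mul, norm_ev_un hu ha, norm_pP h, mul_one, mul_div_assoc,
      mul_div_cancel_right₀ _ (norm_ne_zero_iff.2 hQ)]

theorem fac_evt {x : C⸨X⸩} {c : C} {D : C →₀ ℤ} (h : Fac x c D) :
    ∀ᶠ a in bF C, ∃ v, Ev x a v ∧ ‖v‖ = ‖c‖ * ‖a‖ ^ dgD D := by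
  filter_upwards [nP_ev h.2.1, bF_lt] with a h1 h2
  obtain ⟨v, h3, -, h4⟩ := fac_ev h h2 h1.1.ge
  exact ⟨v, h3, by rw [h4 h1.1, h1.2]⟩

/-- monomial functions near the boundary -/
theorem mono_eq (hn : ∀ r : ℝ, 0 ≤ r → ∃ x : C, ‖x‖ = r) {c c' : ℝ} (hc : c ≠ 0) {n n' : ℤ}
    (h : ∀ᶠ a in bF C, c * ‖a‖ ^ n = c' * ‖a‖ ^ n') : c = c' ∧ n = n' := by
  haveI := bF_ne hn
  have e : c = c' := tendsto_nhds_unique ((tend_pow c n).congr' h) (tend_pow c' n')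
  subst e
  obtain ⟨a, h1, h2, h3⟩ := (h.and (bF_lt.and (bF_gt one_pos))).exists
  exact ⟨rfl, zpow_right_injective₀ h3 h2.ne (mul_left_cancel₀ hc h1)⟩

theorem fac_unique (hn : ∀ r : ℝ, 0 ≤ r → ∃ x : C, ‖x‖ = r) {x : C⸨X⸩} {c c' : C}
    {D D' : C →₀ ℤ} (h : Fac x c D) (h' : Fac x c' D') : ‖c‖ = ‖c'‖ ∧ dgD D = dgD D' := by
  refine mono_eq hn (norm_ne_zero_iff.2 h.1) ?_
  filter_upwards [fac_evt h, fac_evt h'] with a ⟨v, h1, h2⟩ ⟨v', h3, h4⟩
  rw [← h2, ← h4, h1.unique h3]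

theorem fac_ne {x : C⸨X⸩} {c : C} {D : C →₀ ℤ} (hn : ∀ r : ℝ, 0 ≤ r → ∃ x : C, ‖x‖ = r)
    (h : Fac x c D) : x ≠ 0 := by
  rintro rfl
  haveI := bF_ne hn
  obtain ⟨a, ⟨v, h1, h2⟩, h3⟩ := ((fac_evt h).and (bF_gt one_pos)).exists
  have h4 := ev_const a 0
  rw [map_zero] at h4
  rw [h1.unique h4, norm_zero] at h2
  exact mul_ne_zero (norm_ne_zero_iff.2 h.1) (zpow_ne_zero _ h3.ne') h2.symm

end Vale.Agent.P022K.FI.Res
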