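import Vale.Agent.P022K.FI.Res1

/-!
# P022K, block FI, RES 2: discs without series

`Dk η j`: the places `j a` form a disc with boundary norm `η`; `Bz η j z`: `z` is its branch.
Rows `BRA` and `BD`.
-/

set_option autoImplicit false
set_option linter.unusedSectionVars false
set_option linter.style.haveILetI false

open PowerSeries Vale.Agent.P019P P025H746 P025H492 Filter Topology Module
open scoped LaurentSeries

noncomputable section

namespace Vale.Agent.P022K.FI.Res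

/-! ## values at places -/

section vals

variable {k F : Type*} [Field k] [Field F] [Algebra k F] [CFF k F] {P : Plk k F} {x y : F}

theorem mem_ord : x ∈ P.1 ↔ 0 ≤ ord P x := by
  rw [mem_iff_ord]
  exact ⟨fun h => h.elim (fun e => by rw [e, ord_zero]) id, Or.inr⟩

theorem const_mem (P : Plk k F) (c : k) : algebraMap k F c ∈ P.1 := P.2.1 c

theorem vl_mem (h : x ∈ P.1) : x - algebraMap k F (vl P x) ∈ Mge P 1 := sub_vl_mem (mem_ord.1 h)

theorem vl_add (hx : x ∈ P.1) (hy : y ∈ P.1) : vl P (x + y) = vl P x + vl P y := by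
  refine vl_eq ?_
  convert add_mem (vl_mem hx) (vl_mem hy) using 1
  rw [map_add]
  ring

theorem vl_sub (hx : x ∈ P.1) (hy : y ∈ P.1) : vl P (x - y) = vl P x - vl P y := by
  refine vl_eq ?_
  convert sub_mem (vl_mem hx) (vl_mem hy) using 1
  rw [map_sub]
  ring

theorem vl_mul (hx : x ∈ P.1) (hy : y ∈ P.1) : vl P (x * y) = vl P x * vl P y := by
  refine vl_eq ?_
  have h1 := mul_mem_Mge (vl_mem hx) (show y ∈ Mge P 0 from Or.inr (mem_ord.1 hy))
  rw [add_zero] at h1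
  convert add_mem h1 ((Mge P 1).smul_mem (vl P x) (vl_mem hy)) using 1
  rw [map_mul, Algebra.smul_def]
  ring

theorem vl_zero (P : Plk k F) : vl P (0 : F) = 0 := by simpa using vl_const P 0

theorem vl_one (P : Plk k F) : vl P (1 : F) = 1 := by simpa using vl_const P 1

theorem vl_sub_const (hx : x ∈ P.1) (c : k) : vl P (x - algebraMap k F c) = vl P x - c := by
  rw [vl_sub hx (const_mem P c), vl_const]

theorem vl_of_pos (h : 0 < ord P x) : vl P x = 0 := vl_eq_of_pos (by simpa using h)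

theorem pos_of_vl (h0 : x ≠ 0) (hx : x ∈ P.1) (h : vl P x = 0) : 0 < ord P x := by
  have := vl_mem hx
  rw [h, map_zero, sub_zero] at this
  rcases this with e | e
  exacts [absurd e h0, e]

end vals

variable {C : Type} [NontriviallyNormedField C] [IsUltrametricDist C] [CompleteSpace C]
  [IsAlgClosed C] {K : Type} [Field K] [Algebra C K] [CFF C K]

/-! ## divisors on a disc -/

/-- `D` is the divisor of `h` on the disc -/
def Dv (j : C → Plk C K) (h : K) (D : C →₀ ℤ) : Prop :=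
  (∀ a ∈ D.support, ‖a‖ < 1) ∧ ∀ a, ‖a‖ < 1 → ord (j a) h = D a

variable {j j' : C → Plk C K} {h h' : K} {D D' : C →₀ ℤ} {η η' : NV C K}

theorem Dv.out (H : Dv j h D) {a : C} (ha : ¬ ‖a‖ < 1) : D a = 0 :=
  by_contra fun e => ha (H.1 a (Finsupp.mem_support_iff.2 e))

theorem dv_of (h1 : ∀ a, ¬ ‖a‖ < 1 → D a = 0) (h2 : ∀ a, ‖a‖ < 1 → ord (j a) h = D a) : Dv j h D :=
  ⟨fun a ha => by_contra fun e => Finsupp.mem_support_iff.1 ha (h1 a e), h2⟩

theorem Dv.unique (H : Dv j h D) (H' : Dv j h D') : D = D' := by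
  ext a
  by_cases ha : ‖a‖ < 1
  · rw [← H.2 a ha, H'.2 a ha]
  · rw [H.out ha, H'.out ha]

theorem Dv.mul (H : Dv j h D) (H' : Dv j h' D') (h0 : h ≠ 0) (h0' : h' ≠ 0) :
    Dv j (h * h') (D + D') :=
  dv_of (fun a ha => by rw [Finsupp.add_apply, H.out ha, H'.out ha, add_zero]) fun a ha => by
    rw [ord_mul _ h0 h0', H.2 a ha, H'.2 a ha, Finsupp.add_apply]

theorem Dv.zpow (H : Dv j h D) (n : ℤ) : Dv j (h ^ n) (n • D) :=
  dv_of (fun a ha => by rw [Finsupp.smul_apply, H.out ha, smul_zero]) fun a ha => by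
    rw [ord_zpow, H.2 a ha, Finsupp.smul_apply, smul_eq_mul]

theorem Dv.inv (H : Dv j h D) : Dv j h⁻¹ (-D) := by simpa using H.zpow (-1)

theorem Dv.smul (H : Dv j h D) (h0 : h ≠ 0) {c : C} (hc : c ≠ 0) :
    Dv j (algebraMap C K c * h) D :=
  ⟨H.1, fun a ha => by rw [ord_mul _ ((_root_.map_ne_zero _).2 hc) h0, ord_const, zero_add, H.2 a ha]⟩

theorem Dv.nonneg (H : Dv j h D) (hp : ∀ a, ‖a‖ < 1 → h ∈ (j a).1) : 0 ≤ D := fun a => by
  by_cases ha : ‖a‖ < 1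
  · exact (mem_ord.1 (hp a ha)).trans (H.2 a ha).le
  · exact (H.out ha).ge

/-- the degree on the disc is bounded by the poles outside -/
theorem Dv.dg_le (H : Dv j h D) (inj : Set.InjOn j {a | ‖a‖ < 1}) {E : Plk C K →₀ ℤ} (hE : 0 ≤ E)
    (hp : ∀ P ∉ j '' {a | ‖a‖ < 1}, -E P ≤ ord P h) : dgD D ≤ dg E := by
  classical
  have h1 : dg (D.mapDomain j) = dgD D := by
    rw [dg_apply, dgD, Finsupp.sum_mapDomain_index (fun _ => rfl) fun _ _ _ => rfl]
  have h2 : D.mapDomain j ≤ dv C h + E := fun P => by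
    have h3 : (0 : ℤ) ≤ E P := hE P
    rw [Finsupp.add_apply, dv_apply]
    by_cases hP : P ∈ j '' {a | ‖a‖ < 1}
    · obtain ⟨a, ha, rfl⟩ := hP
      rw [Finsupp.mapDomain_apply' _ D (fun b hb => H.1 b hb) inj ha, H.2 a ha]
      omega
    · have h4 : D.mapDomain j P = 0 := by_contra fun e => by
        obtain ⟨a, ha, rfl⟩ := Finset.mem_image.1
          (Finsupp.mapDomain_support (Finsupp.mem_support_iff.2 e))
        exact hP ⟨a, H.1 a ha, rfl⟩
      have := hp P hP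
      omega
  have := dg_mono h2
  rwa [map_add, dg_dv, zero_add, h1] at this

theorem exists_scale (hn : ∀ r : ℝ, 0 ≤ r → ∃ x : C, ‖x‖ = r) (η : NV C K) (h0 : h ≠ 0) :
    ∃ c : C, c ≠ 0 ∧ η (algebraMap C K c * h) = 1 := by
  have h1 : η h ≠ 0 := η.av.ne_zero h0
  obtain ⟨c, hc⟩ := hn (η h)⁻¹ (inv_nonneg.2 (η.av.nonneg h))
  exact ⟨c, by rw [← norm_ne_zero_iff, hc]; exact inv_ne_zero h1,
    by rw [map_mul, η.ext', hc, inv_mul_cancel₀ h1]⟩

theorem ne_of_one (e : η h = 1) : h ≠ 0 := by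
  rintro rfl
  rw [map_zero] at e
  exact zero_ne_one e

/-! ## discs -/

/-- the places `j a` carry the values of a disc with the boundary norm `η` -/
def Dk0 (η : K → ℝ) (j : C → Plk C K) : Prop :=
  ∀ h, h ≠ 0 → ∃ D, Dv j h D ∧ ∀ a, ‖a‖ < 1 → D a = 0 → ‖vl (j a) h‖ = η h * nP D a

/-- a disc with the boundary norm `η` -/
structure Dk (η : NV C K) (j : C → Plk C K) : Prop where
  inj : Set.InjOn j {a | ‖a‖ < 1}
  fac : Dk0 η j

/-- `z` is the branch of the disc -/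
def Bz (η : NV C K) (j : C → Plk C K) (z : Plk (kC C) (kap η)) : Prop :=
  ∀ h D, η h = 1 → Dv j h D → (η.red h ∈ z.1 ↔ 0 ≤ dgD D)

theorem Dk0.val {N : K → ℝ} (H : Dk0 N j) (h0 : h ≠ 0) (hD : Dv j h D) {a : C} (ha : ‖a‖ < 1)
    (e : D a = 0) : ‖vl (j a) h‖ = N h * nP D a := by
  obtain ⟨D', h1, h2⟩ := H h h0
  rw [hD.unique h1] at e ⊢
  exact h2 a ha e

theorem Dk0.evt {N : K → ℝ} (H : Dk0 N j) (h0 : h ≠ 0) (hD : Dv j h D) :
    ∀ᶠ a in bF C, ‖vl (j a) h‖ = N h * ‖a‖ ^ dgD D := by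
  filter_upwards [nP_ev hD.1, bF_lt] with a h1 h2
  rw [H.val h0 hD h2 h1.1, h1.2]

theorem Dk0.mem {N : K → ℝ} (H : Dk0 N j) (h : K) : ∀ᶠ a in bF C, h ∈ (j a).1 := by
  by_cases h0 : h = 0
  · exact Eventually.of_forall fun a => h0 ▸ zero_mem _
  obtain ⟨D, hD, -⟩ := H h h0
  filter_upwards [nP_ev hD.1, bF_lt] with a h1 h2
  rw [mem_ord, hD.2 a h2, h1.1]

theorem Dk0.tend {N : K → ℝ} (H : Dk0 N j) (hN : N 0 = 0) (h : K) :
    Tendsto (fun a => ‖vl (j a) h‖) (bF C) (𝓝 (N h)) := by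
  by_cases h0 : h = 0
  · simp only [h0, vl_zero, norm_zero, hN]
    exact tendsto_const_nhds
  obtain ⟨D, hD, -⟩ := H h h0
  exact (tend_pow (N h) (dgD D)).congr' ((H.evt h0 hD).mono fun _ e => e.symm)

theorem Dk0.exists_nv (hn : ∀ r : ℝ, 0 ≤ r → ∃ x : C, ‖x‖ = r) {N : K → ℝ} (H : Dk0 N j)
    (hN : ∀ h, N h = 0 ↔ h = 0) : ∃ η : NV C K, ∀ h, η h = N h := by
  haveI := bF_ne hn
  have t := H.tend ((hN 0).2 rfl)
  have nn : ∀ h, 0 ≤ N h := fun h => ge_of_tendsto' (t h) fun _ => norm_nonneg _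
  have na : ∀ x y, N (x + y) ≤ max (N x) (N y) := fun x y => by
    refine le_of_tendsto_of_tendsto (t (x + y)) ((t x).max (t y)) ?_
    filter_upwards [H.mem x, H.mem y] with a h1 h2
    rw [vl_add h1 h2]
    exact IsUltrametricDist.norm_add_le_max _ _
  refine ⟨⟨⟨⟨N, fun x y => ?_⟩, nn, hN, fun x y => (na x y).trans
    (max_le (le_add_of_nonneg_right (nn y)) (le_add_of_nonneg_left (nn x)))⟩, na, fun c => ?_⟩,
    fun _ => rfl⟩
  · refine tendsto_nhds_unique (t (x * y)) (((t x).mul (t y)).congr' ?_)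
    filter_upwards [H.mem x, H.mem y] with a h1 h2
    rw [vl_mul h1 h2, norm_mul]
  · refine tendsto_nhds_unique (t _) ?_
    simp only [vl_const]
    exact tendsto_const_nhds

theorem Dk.tend (H : Dk η j) (h : K) : Tendsto (fun a => ‖vl (j a) h‖) (bF C) (𝓝 (η h)) :=
  H.fac.tend (map_zero _) h

theorem Dk.dv (H : Dk η j) (h0 : h ≠ 0) : ∃ D, Dv j h D := (H.fac h h0).imp fun _ h => h.1

theorem nP_gt {a : C} (h0 : 0 < ‖a‖) (h1 : ∀ b ∈ D.support, ‖b‖ ≠ ‖a‖)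
    (h2 : ∀ b, ‖a‖ < ‖b‖ → 0 ≤ D b) {b₀ : C} (h3 : ‖a‖ < ‖b₀‖) (h4 : 0 < D b₀) :
    ‖a‖ ^ dgD D < nP D a := by
  rw [← prod_zpow h0.ne']
  refine Finset.prod_lt_prod (fun b _ => zpow_pos h0 _) (fun b hb => ?_)
    ⟨b₀, Finsupp.mem_support_iff.2 h4.ne', ?_⟩
  · beta_reduce
    rcases (h1 b hb).lt_or_gt with e | e
    · rw [norm_sub_of_lt e]
    · rw [norm_sub_rev, norm_sub_of_lt e]
      exact zpow_le_zpow_left₀ (h2 b e) h0.le e.le
  · beta_reduce
    rw [norm_sub_rev, norm_sub_of_lt h3]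
    exact zpow_lt_zpow_left₀ h4 h0.le h3

theorem exists_nc (hC : GF C) (η : NV C K) :
    ∃ g, η g ≤ 1 ∧ ∀ c, η.red g ≠ algebraMap (kC C) (kap η) c := by
  by_contra hc
  push Not at hc
  obtain ⟨P⟩ := nonempty_Plk C K
  have h1 := RR (Finsupp.single P ((gen C K : ℤ) + 1))
  rw [dg_sgl] at h1
  have h2 := P025H992.finrank_le_sum hC.sph hC.onto (fun _ : Unit => η)
    (LL C (Finsupp.single P ((gen C K : ℤ) + 1))) (fun _ => Submodule.span (kC C) {1})
    fun x _ hx _ => by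
      obtain ⟨c, e⟩ := hc x (hx ())
      exact Submodule.mem_span_singleton.2 ⟨c, by rw [e, Algebra.smul_def, mul_one]⟩
  rw [Fintype.sum_unique, finrank_span_singleton one_ne_zero] at h2
  omega

theorem cff_kap (η : NV C K) {g : K} (h1 : η g ≤ 1)
    (h2 : ∀ c, η.red g ≠ algebraMap (kC C) (kap η) c) : CFF (kC C) (kap η) := by
  have h3 : Transcendental (kC C) (η.red g) := fun ha => by
    obtain ⟨c, hc⟩ := (IsAlgClosed.algebraMap_bijective_of_isIntegral (k := kC C)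
      (K := integralClosure (kC C) (kap η))).2 ⟨_, ha.isIntegral⟩
    exact h2 c (congrArg Subtype.val hc).symm
  have h4 := Vale.Agent.P027M.G.overG_of_transc h1 h3
  haveI := (finite_of_notMem (k := C) (x := g)
    fun a e => h4.transc (e ▸ isAlgebraic_algebraMap a)).2
  exact h4.cff

theorem Dk.cff (hC : GF C) (η : NV C K) : CFF (kC C) (kap η) := by
  obtain ⟨g, h1, h2⟩ := exists_nc hC η
  exact cff_kap η h1 h2

theorem sub_const_one {g : K} (h1 : η g ≤ 1) (h2 : ∀ c, η.red g ≠ algebraMap (kC C) (kap η) c)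
    {c : C} (hc : ‖c‖ ≤ 1) : η (g - algebraMap C K c) = 1 := by
  have h3 : η (algebraMap C K c) ≤ 1 := by rwa [η.ext']
  refine le_antisymm (NV.sub_le h1 h3) (not_lt.1 fun h => h2 (cred c) ?_)
  have := NV.red_of_lt h
  rwa [NV.red_sub h1 h3, NV.red_algebraMap hc, sub_eq_zero] at this

/-- some function has non zero degree on the disc -/
theorem Dk.ex (hC : GF C) (H : Dk η j) : ∃ h D, η h = 1 ∧ Dv j h D ∧ dgD D < 0 := by
  suffices ∃ h D, η h = 1 ∧ Dv j h D ∧ dgD D ≠ 0 by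
    obtain ⟨h, D, h1, h2, h3⟩ := this
    rcases h3.lt_or_gt with e | e
    · exact ⟨h, D, h1, h2, e⟩
    · exact ⟨h⁻¹, -D, by rw [map_inv₀, h1, inv_one], h2.inv, by rw [dgD_neg]; omega⟩
  by_contra hc
  push Not at hc
  obtain ⟨g, h1, h2⟩ := exists_nc hC η
  have h3 : η g = 1 := by simpa using sub_const_one h1 h2 (c := 0) (by simp)
  obtain ⟨D, hD⟩ := H.dv (ne_of_one h3)
  obtain ⟨r, hr, h4⟩ := ev_bF.1 (((H.fac.evt (ne_of_one h3) hD).and (H.fac.mem g)).and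
    (bF_gt one_pos))
  simp only [hc g D h3 hD, h3, zpow_zero, mul_one] at h4
  have hr0 : max r 0 < 1 := max_lt hr one_pos
  have hm := le_max_left r 0
  have hm0 := le_max_right r 0
  obtain ⟨a₁, ha₁⟩ := hC.onto ((max r 0 + 1) / 2) (by positivity)
  have h5 := h4 a₁ (by linarith) (by linarith)
  have h6 := sub_const_one h1 h2 h5.1.1.le
  obtain ⟨D₁, hD₁⟩ := H.dv (ne_of_one h6)
  obtain ⟨s, hs, hs'⟩ := (Set.Ioo_infinite (show max r 0 < ‖a₁‖ by linarith)).exists_notMem_finset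
    (D₁.support.image norm)
  obtain ⟨a, rfl⟩ := hC.onto s (hm0.trans hs.1.le)
  have h7 : ∀ b ∈ D₁.support, ‖b‖ ≠ ‖a‖ := fun b hb e => hs' (Finset.mem_image.2 ⟨b, hb, e⟩)
  have h8 : ‖a‖ < 1 := by linarith [hs.2]
  have h9 := h4 a (hm.trans_lt hs.1) h8
  have h10 := nP_gt (D := D₁) h9.2 h7 (fun b hb => ?_) hs.2 ?_
  · rw [hc _ D₁ h6 hD₁, zpow_zero, ← one_mul (nP D₁ a), ← h6, ← H.fac.val (ne_of_one h6) hD₁ h8
      (by_contra fun e => h7 a (Finsupp.mem_support_iff.2 e) rfl), vl_sub_const h9.1.2, h6] at h10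
    exact absurd (norm_sub_le' h9.1.1.le h5.1.1.le) (not_le.2 h10)
  · by_cases hb1 : ‖b‖ < 1
    · rw [← hD₁.2 b hb1, ← mem_ord]
      exact sub_mem (h4 b ((hm.trans_lt hs.1).trans hb) hb1).1.2 (const_mem _ _)
    · exact (hD₁.out hb1).ge
  · rw [← hD₁.2 a₁ (by linarith)]
    exact pos_of_vl (ne_of_one h6) (sub_mem h5.1.2 (const_mem _ _))
      (by rw [vl_sub_const h5.1.2, sub_self])

theorem Dk.exists_out (hC : GF C) (H : Dk η j) : ∃ R, R ∉ j '' {a | ‖a‖ < 1} := by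
  by_contra hc
  push Not at hc
  obtain ⟨h, D, -, h2, h3⟩ := H.ex hC
  have := h2.inv.dg_le H.inj le_rfl fun P hP => absurd (hc P) hP
  rw [dgD_neg, map_zero] at this
  omega

/-- bounded values along a sequence which tends to the boundary -/
theorem Dk.bd_iff (H : Dk η j) {ι : Type} {l : Filter ι} [l.NeBot] {a : ι → C}
    (ha : Tendsto a l (bF C)) (h1 : η h = 1) (hD : Dv j h D) :
    (∀ᶠ i in l, ‖vl (j (a i)) h‖ ≤ 1) ↔ 0 ≤ dgD D := by
  have h2 := ha.eventually ((H.fac.evt (ne_of_one h1) hD).and (bF_lt.and (bF_gt one_pos)))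
  rw [h1] at h2
  constructor
  · intro h3
    obtain ⟨i, h4, h5, h6, h7⟩ := (h3.and h2).exists
    rw [h5, one_mul] at h4
    exact (zpow_le_one_iff_right_of_lt_one₀ h7 h6).1 h4
  · intro h3
    filter_upwards [h2] with i ⟨h5, h6, h7⟩
    rw [h5, one_mul]
    exact zpow_le_one₀ h7 h6.le h3

theorem Dk.exists_bz (hC : GF C) (H : Dk η j) : ∃ z, Bz η j z := by
  haveI := bF_ne hC.onto
  let B : K → Prop := fun h => ∀ᶠ a in bF C, ‖vl (j a) h‖ ≤ 1
  have b0 : ∀ h, η h < 1 → B h := fun h e => ((H.tend h).eventually_lt_const e).mono fun _ h => h.le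
  have b1 : ∀ x y, B x → B y → B (x + y) := fun x y hx hy => by
    filter_upwards [hx, hy, H.fac.mem x, H.fac.mem y] with a h1 h2 h3 h4
    rw [vl_add h3 h4]
    exact (IsUltrametricDist.norm_add_le_max _ _).trans (max_le h1 h2)
  have b2 : ∀ x y, B x → B y → B (x * y) := fun x y hx hy => by
    filter_upwards [hx, hy, H.fac.mem x, H.fac.mem y] with a h1 h2 h3 h4
    rw [vl_mul h3 h4, norm_mul]
    exact mul_le_one₀ h1 (norm_nonneg _) h2
  have b3 : ∀ c : C, ‖c‖ ≤ 1 → B (algebraMap C K c) := fun c hc =>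
    Eventually.of_forall fun a => by rwa [vl_const]
  have b4 : ∀ h D, η h = 1 → Dv j h D → (B h ↔ 0 ≤ dgD D) := fun h D => H.bd_iff tendsto_id
  let O : ValuationSubring (kap η) :=
    { carrier := {y | ∃ h, η h ≤ 1 ∧ η.red h = y ∧ B h}
      mul_mem' := by
        rintro _ _ ⟨x, h1, rfl, h2⟩ ⟨y, h3, rfl, h4⟩
        exact ⟨x * y, NV.mul_le_one h1 h3, NV.red_mul h1 h3, b2 x y h2 h4⟩
      one_mem' := ⟨1, by simp, NV.red_one, by simpa using b3 1 (by simp)⟩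
      add_mem' := by
        rintro _ _ ⟨x, h1, rfl, h2⟩ ⟨y, h3, rfl, h4⟩
        exact ⟨x + y, NV.add_le h1 h3, NV.red_add h1 h3, b1 x y h2 h4⟩
      zero_mem' := ⟨0, by simp, NV.red_zero, b0 0 (by simp)⟩
      neg_mem' := by
        rintro _ ⟨x, h1, rfl, h2⟩
        exact ⟨-x, by rwa [NV.map_neg'], NV.red_neg h1, by simpa using b2 _ x (b3 (-1) (by simp)) h2⟩
      mem_or_inv_mem' := fun y => by
        obtain ⟨h, h1, rfl⟩ := NV.red_surj y
        rcases h1.lt_or_eq with e | e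
        · exact Or.inl ⟨h, h1, rfl, b0 h e⟩
        obtain ⟨D, hD⟩ := H.dv (ne_of_one e)
        have e' : η h⁻¹ = 1 := by rw [map_inv₀, e, inv_one]
        rcases le_total 0 (dgD D) with h2 | h2
        · exact Or.inl ⟨h, h1, rfl, (b4 h D e hD).2 h2⟩
        · exact Or.inr ⟨h⁻¹, e'.le, NV.red_inv e, (b4 _ _ e' hD.inv).2 (by rw [dgD_neg]; omega)⟩ }
  have b5 : ∀ h D, η h = 1 → Dv j h D → (η.red h ∈ O ↔ 0 ≤ dgD D) := fun h D h1 hD => by
    rw [← b4 h D h1 hD]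
    refine ⟨?_, fun h2 => ⟨h, h1.le, rfl, h2⟩⟩
    rintro ⟨x, h2, h3, h4⟩
    have h5 : η (h - x) < 1 := by
      rw [← NV.red_eq_zero (NV.sub_le h1.le h2), NV.red_sub h1.le h2, h3, sub_self]
    simpa using b1 _ _ (b0 _ h5) h4
  refine ⟨⟨O, fun c => ?_, fun e => ?_⟩, b5⟩
  · obtain ⟨c, hc, rfl⟩ := cred_surj c
    exact ⟨algebraMap C K c, by rwa [η.ext'], NV.red_algebraMap hc, b3 c hc⟩
  · obtain ⟨h, D, h1, h2, h3⟩ := H.ex hC
    exact absurd ((b5 h D h1 h2).1 (e ▸ ValuationSubring.mem_top _)) (not_le.2 h3)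

section branch

variable {z : Plk (kC C) (kap η)}

theorem Bz.inv (B : Bz η j z) (h1 : η h = 1) (hD : Dv j h D) : (η.red h)⁻¹ ∈ z.1 ↔ dgD D ≤ 0 := by
  rw [← NV.red_inv h1, B _ _ (by rw [map_inv₀, h1, inv_one]) hD.inv, dgD_neg, neg_nonneg]

theorem red_zpow (h1 : η h = 1) (n : ℤ) : η (h ^ n) = 1 ∧ η.red (h ^ n) = η.red h ^ n := by
  refine ⟨by rw [map_zpow₀, h1, one_zpow], ?_⟩
  obtain ⟨m, rfl | rfl⟩ := n.eq_nat_or_neg
  · rw [zpow_natCast, zpow_natCast, NV.red_pow h1.le]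
  · rw [zpow_neg, zpow_neg, zpow_natCast, zpow_natCast,
      NV.red_inv (by rw [map_pow, h1, one_pow]), NV.red_pow h1.le]

variable [CFF (kC C) (kap η)]

theorem Bz.exists_e (H : Dk η j) (B : Bz η j z) :
    ∃ e : ℤ, 0 < e ∧ ∀ h D, η h = 1 → Dv j h D → dgD D = e * ord z (η.red h) := by
  obtain ⟨π', h0, h1⟩ := exists_unif z
  obtain ⟨π, h2, rfl⟩ := NV.red_surj π'
  have h3 : η π = 1 := h2.eq_of_not_lt fun e => h0 (NV.red_of_lt e)
  obtain ⟨D₀, hD₀⟩ := H.dv (ne_of_one h3)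
  refine ⟨dgD D₀, not_le.1 fun e => ?_, fun h D h4 hD => ?_⟩
  · have := (B.inv h3 hD₀).2 e
    rw [mem_ord, ord_inv, h1] at this
    omega
  · obtain ⟨h5, h6⟩ := red_zpow h3 (-ord z (η.red h))
    have h7 : η (h * π ^ (-ord z (η.red h))) = 1 := by rw [map_mul, h4, h5, mul_one]
    have h8 := hD.mul (hD₀.zpow (-ord z (η.red h))) (ne_of_one h4) (ne_of_one h5)
    have h9 : ord z (η.red (h * π ^ (-ord z (η.red h)))) = 0 := by
      rw [NV.red_mul h4.le h5.le, h6, ord_mul _ (NV.red_ne_zero h4) (zpow_ne_zero _ h0), ord_zpow,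
        h1, mul_one, add_neg_cancel]
    have h10 := (B _ _ h7 h8).1 (mem_ord.2 h9.ge)
    have h11 := (B.inv h7 h8).1 (mem_ord.2 (by rw [ord_inv, h9, neg_zero]))
    rw [dgD_add, dgD_eq (_ • D₀), map_zsmul, ← dgD_eq, smul_eq_mul] at h10 h11
    linarith

/-- the degree on the disc is the order of the reduction at the branch -/
theorem Bz.ord_eq (hC : GF C) (H : Dk η j) (B : Bz η j z) (h1 : η h = 1) (hD : Dv j h D) :
    ord z (η.red h) = dgD D := by
  classical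
  obtain ⟨e, he, h2⟩ := B.exists_e H
  suffices e = 1 by rw [h2 h D h1 hD, this, one_mul]
  by_contra he1
  obtain ⟨R, hR⟩ := H.exists_out hC
  set g : ℤ := (gen C K : ℤ) with hg
  have hg0 : 0 ≤ g := Int.natCast_nonneg _
  have h3 : 0 ≤ Finsupp.single R (2 * g + 2) := Finsupp.single_nonneg.2 (by omega)
  obtain ⟨T, -, -, h4, h5⟩ := exists_red η hC.sph hC.onto h3
  have h6 := RR (Finsupp.single R (2 * g + 2))
  rw [dg_sgl] at h6
  set W := Vale.Agent.P027M.Gs.redS η (LL C (Finsupp.single R (2 * g + 2)))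
  set E := pol (kC C) (η.red T)
  have h7 : ∀ y ∈ W, y ≠ 0 → 0 ≤ ord z y ∧ ord z y ≤ g + 1 := by
    rintro _ ⟨x, hx, h8, rfl⟩ h9
    have h10 : η x = 1 := h8.eq_of_not_lt fun e => h9 (NV.red_of_lt e)
    obtain ⟨Dx, hDx⟩ := H.dv (ne_of_one h10)
    have h11 := (mem_LL.1 hx).resolve_left (ne_of_one h10)
    have h12 := hDx.dg_le H.inj h3 fun P _ => h11 P
    have h13 : 0 ≤ dgD Dx := by
      rw [dgD_eq]
      refine (map_zero dg).ge.trans (dg_mono (hDx.nonneg fun a ha => mem_ord.2 ?_))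
      have := h11 (j a)
      rwa [Finsupp.single_eq_of_ne (fun e => hR ⟨a, ha, e⟩), neg_zero] at this
    rw [dg_sgl, h2 x Dx h10 hDx] at h12
    rw [h2 x Dx h10 hDx] at h13
    constructor <;> nlinarith [show 2 ≤ e by omega]
  have h8 : W ≤ LL (kC C) (E.update z 0) := fun y hy => by
    by_cases h0 : y = 0
    · exact mem_LL.2 (Or.inl h0)
    refine mem_LL.2 (Or.inr fun P => ?_)
    rw [Finsupp.update_apply]
    split_ifs with e
    · rw [e, neg_zero]
      exact (h7 y hy h0).1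
    · exact (mem_LL.1 (h4 hy)).resolve_left h0 P
  have h9 : E.update z 0 - Finsupp.single z (g + 2) ≤ E.update z 0 :=
    sub_le_self _ (Finsupp.single_nonneg.2 (by omega))
  have h10 := l_sub_le h9
  rw [map_sub, dg_sgl] at h10
  haveI := Submodule.finiteDimensional_of_le h4
  have h11 := Submodule.finrank_sup_add_finrank_inf_eq W
    (LL (kC C) (E.update z 0 - Finsupp.single z (g + 2)))
  have h12 : W ⊓ LL (kC C) (E.update z 0 - Finsupp.single z (g + 2)) = ⊥ := by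
    refine eq_bot_iff.2 fun y hy => by_contra fun h0 => ?_
    have h13 := (mem_LL.1 hy.2).resolve_left h0 z
    have h14 := (h7 y hy.1 h0).2
    rw [Finsupp.sub_apply, Finsupp.update_apply, if_pos rfl, Finsupp.single_eq_same] at h13
    omega
  have h13 := Submodule.finrank_mono (sup_le h8 (LL_mono h9))
  rw [h12, finrank_bot] at h11
  omega

end branch

/-- **SAME**: the branch determines the disc -/
theorem Dk.same (hC : GF C) (H : Dk η j) (H' : Dk η j') {z : Plk (kC C) (kap η)} (B : Bz η j z)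
    (B' : Bz η j' z) : j '' {a | ‖a‖ < 1} ⊆ j' '' {a | ‖a‖ < 1} := by
  intro P hP
  by_contra hP'
  have h1 := RR (Finsupp.single P ((gen C K : ℤ) + 1))
  rw [dg_sgl] at h1
  obtain ⟨f, hf, hf'⟩ : ∃ f ∈ LL C (Finsupp.single P ((gen C K : ℤ) + 1)), f ∉ LL C 0 := by
    by_contra hc
    push Not at hc
    have := Submodule.finrank_mono (show LL C _ ≤ LL C 0 from hc)
    rw [l_zero] at this
    omega
  have h2 : ∀ Q, Q ≠ P → f ∈ Q.1 := fun Q hQ => by
    rcases mem_LL.1 hf with e | e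
    · exact e ▸ zero_mem _
    · have := e Q
      rwa [Finsupp.single_eq_of_ne hQ, neg_zero, ← mem_ord] at this
  have h3 : f - algebraMap C K (vl (j' 0) f) ≠ 0 := fun e => hf' (by
    rw [sub_eq_zero.1 e]
    exact mem_LL.2 (Or.inr fun Q => by rw [ord_const]; rfl))
  obtain ⟨c, hc, h4⟩ := exists_scale hC.onto η h3
  obtain ⟨D, hD⟩ := H.dv h3
  obtain ⟨D', hD'⟩ := H'.dv h3
  have h5 := hD.dg_le H.inj le_rfl fun Q hQ =>
    mem_ord.1 (sub_mem (h2 Q fun e => hQ (e ▸ hP)) (const_mem _ _))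
  have h6 : ∀ a, ‖a‖ < 1 → f ∈ (j' a).1 := fun a ha => h2 _ fun e => hP' ⟨a, ha, e⟩
  have h7 : 0 < dgD D' := dgD_pos (hD'.nonneg fun a ha => sub_mem (h6 a ha) (const_mem _ _))
    (a := 0) (by
      rw [← hD'.2 0 (by simp)]
      exact pos_of_vl h3 (sub_mem (h6 0 (by simp)) (const_mem _ _))
        (by rw [vl_sub_const (h6 0 (by simp)), sub_self]))
  rw [map_zero] at h5
  exact absurd ((B'.inv h4 (hD'.smul h3 hc)).1 ((B.inv h4 (hD.smul h3 hc)).2 h5)) (not_le.2 h7)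

/-! ## discs with series -/

variable {ε : K →ₐ[C] C⸨X⸩}

theorem dsc_ev (H : Dsc ε j) {a : C} (ha : ‖a‖ < 1) (hm : h ∈ (j a).1) :
    Ev (ε h) a (vl (j a) h) := by
  by_cases h0 : h - algebraMap C K (vl (j a) h) = 0
  · have := ev_const a (vl (j a) h)
    rwa [← ε.commutes, ← sub_eq_zero.1 h0] at this
  obtain ⟨c, D, h1, h2⟩ := H.fac _ h0
  have h3 : 0 < D a := by
    rw [← h2 a ha]
    exact (vl_mem hm).resolve_left h0
  obtain ⟨v, h4, h5, -⟩ := fac_ev h1 ha h3.le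
  have := h4.add_const (vl (j a) h)
  rwa [h5 h3, zero_add, map_sub, ε.commutes, sub_add_cancel] at this

theorem dsc_fac (H : Dsc ε j) (h0 : h ≠ 0) : ∃ c D, Fac (ε h) c D ∧ Dv j h D ∧
    ∀ a, ‖a‖ < 1 → D a = 0 → ‖vl (j a) h‖ = ‖c‖ * nP D a := by
  obtain ⟨c, D, h1, h2⟩ := H.fac h h0
  refine ⟨c, D, h1, ⟨h1.2.1, h2⟩, fun a ha e => ?_⟩
  obtain ⟨v, h3, -, h4⟩ := fac_ev h1 ha e.ge
  rw [(dsc_ev H ha (mem_ord.2 (by rw [h2 a ha, e]))).unique h3, h4 e]

theorem dsc_dk (H : Dsc ε j) (hη : Gs ε η) : Dk η j :=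
  ⟨H.inj, fun h h0 => by
    obtain ⟨c, D, h1, h2, h3⟩ := dsc_fac H h0
    exact ⟨D, h2, by rwa [hη h c D h1]⟩⟩

theorem dsc_gs (hC : GF C) (H : Dsc ε j) : ∃ η, Gs ε η := by
  classical
  choose c D h1 h2 h3 using fun (h : K) (h0 : h ≠ 0) => dsc_fac H h0
  obtain ⟨η, hη⟩ := Dk0.exists_nv (j := j) hC.onto
    (N := fun h => if h0 : h = 0 then 0 else ‖c h h0‖)
    (fun h h0 => ⟨D h h0, h2 h h0, by simpa only [dif_neg h0] using h3 h h0⟩) fun h => by
      split_ifs with h0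
      · simp [h0]
      · simpa [h0] using (h1 h h0).1
  refine ⟨η, fun h c' D' h4 => ?_⟩
  have h0 : h ≠ 0 := fun e => fac_ne hC.onto h4 (by rw [e, map_zero])
  rw [hη, dif_neg h0, (fac_unique hC.onto (h1 h h0) h4).1]

theorem dsc_dv (hC : GF C) (H : Dsc ε j) {c : C} (h1 : Fac (ε h) c D) :
    ∃ D', Dv j h D' ∧ dgD D' = dgD D := by
  obtain ⟨c', D', h2, h3, -⟩ := dsc_fac H (h := h) fun e => fac_ne hC.onto h1 (by rw [e, map_zero])
  exact ⟨D', h3, (fac_unique hC.onto h2 h1).2⟩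

theorem brn_iff (hC : GF C) (H : Dsc ε j) (hη : Gs ε η) {z : Plk (kC C) (kap η)} :
    Brn ε η z ↔ Bz η j z := by
  constructor
  · intro B h D h1 hD
    obtain ⟨c, D', h2, h3, -⟩ := dsc_fac H (ne_of_one h1)
    rw [hD.unique h3]
    exact B h c D' h2 (by rw [← hη h c D' h2, h1])
  · intro B h c D h1 h2
    obtain ⟨D', h3, h4⟩ := dsc_dv hC H h1
    rw [← h4]
    exact B h D' (by rw [hη h c D h1, h2]) h3

end Vale.Agent.P022K.FI.Res

namespace Vale.Agent.P022K.FI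

open Res

variable {C : Type} [NontriviallyNormedField C] [IsUltrametricDist C] [CompleteSpace C]
  [IsAlgClosed C] [CharZero C]

/-- **BRA** -/
theorem bra : BRA C := by
  intro hC K _ _ _ ε j H
  obtain ⟨η, hη⟩ := dsc_gs hC H
  haveI := Dk.cff hC η
  obtain ⟨z, B⟩ := (dsc_dk H hη).exists_bz hC
  refine ⟨η, hη, this, z, (brn_iff hC H hη).2 B, fun h c D h1 h2 => ?_⟩
  obtain ⟨D', h3, h4⟩ := dsc_dv hC H h1
  rw [← h4]
  exact B.ord_eq hC (dsc_dk H hη) (by rw [hη h c D h1, h2]) h3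

/-- **BD** -/
theorem bd : BD C := by
  intro hC K _ _ _ ε ε' j j' η z H H' hη hη' B B'
  rw [brn_iff hC H hη] at B
  rw [brn_iff hC H' hη'] at B'
  exact ((dsc_dk H hη).same hC (dsc_dk H' hη') B B').antisymm
    ((dsc_dk H' hη').same hC (dsc_dk H hη) B' B)

end Vale.Agent.P022K.FI
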