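import Vale.Agent.P022K.FI.Sr

/-!
# P022K, block FI, row SA: strong approximation at `w`, indices of path stabilisers
-/

set_option linter.all false

noncomputable section

open scoped MatrixGroups

namespace Vale.Agent.P022K.FI

open Vale.Agent.P022K.Sh Mx

namespace Sa

section grp

variable {G : Type} [Group G] {H K P : Subgroup G}

theorem relIndex_eq_card {ι : Type} (f : ι → G) (h1 : ∀ i, f i ∈ K)
    (h2 : ∀ i j, (f i)⁻¹ * f j ∈ H → i = j) (h3 : ∀ k ∈ K, ∃ i, (f i)⁻¹ * k ∈ H) :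
    H.relIndex K = Nat.card ι := by
  refine (Nat.card_congr (Equiv.ofBijective
    (fun i => (QuotientGroup.mk (⟨f i, h1 i⟩ : K) : K ⧸ H.subgroupOf K)) ⟨fun i j e => ?_,
      fun q => ?_⟩)).symm
  · exact h2 i j (QuotientGroup.eq (s := H.subgroupOf K).1 e)
  · obtain ⟨k, rfl⟩ := QuotientGroup.mk_surjective q
    obtain ⟨i, hi⟩ := h3 k k.2
    exact ⟨i, QuotientGroup.eq.2 hi⟩

theorem relIndex_inf (h : ∀ k ∈ K, ∃ p ∈ P ⊓ K, p⁻¹ * k ∈ H) :
    H.relIndex (P ⊓ K) = H.relIndex K := by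
  refine Nat.card_congr (Equiv.ofBijective
    (Subgroup.quotientSubgroupOfEmbeddingOfLE H (inf_le_right : P ⊓ K ≤ K))
    ⟨Function.Embedding.injective _, fun q => ?_⟩)
  obtain ⟨k, rfl⟩ := QuotientGroup.mk_surjective q
  obtain ⟨p, hp, e⟩ := h k k.2
  exact ⟨QuotientGroup.mk ⟨p, hp⟩, QuotientGroup.eq.2 e⟩

end grp

section alg

variable {E : Type} [Field E]

/-- the Weyl element -/
def ww : GL (Fin 2) E :=
  Matrix.GeneralLinearGroup.mkOfDetNeZero !![0, 1; 1, 0] (by simp [Matrix.det_fin_two])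

theorem ww_val : ((ww : GL (Fin 2) E) : Matrix (Fin 2) (Fin 2) E) = !![0, 1; 1, 0] := rfl

theorem ww_inv : (ww : GL (Fin 2) E)⁻¹ = ww := by
  rw [inv_eq_iff_mul_eq_one]
  ext i j
  fin_cases i <;> fin_cases j <;> simp [ww_val, Matrix.mul_apply, Fin.sum_univ_two]

theorem det_un (c : E) : (un c).det = 1 := Units.ext (by rw [det_eq]; simp [un_val])

theorem det_dg (c : Eˣ) : (dg c).det = c := Units.ext (by rw [det_eq]; simp [dg_val])

/-- two opposite unipotent groups generate `SL₂` -/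
theorem sl2 {P : Subgroup (GL (Fin 2) E)} (h1 : ∀ c, un c ∈ P) {a : GL (Fin 2) E} (ha : a 1 0 ≠ 0)
    (h2 : ∀ c, a * un c * a⁻¹ ∈ P) {k : GL (Fin 2) E} (hk : k.det = 1) : k ∈ P := by
  have h3 : ∀ c : E, ww * un c * ww ∈ P := fun c => by
    have e : un (-(a 0 0 / a 1 0)) * (a * un (-(c * a.det / a 1 0 ^ 2)) * a⁻¹) *
        un (a 0 0 / a 1 0) = ww * un c * ww := by
      rw [← eq_mul_inv_iff_mul_eq, ← un_neg, ← mul_assoc, mul_inv_eq_iff_eq_mul]
      ext i j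
      fin_cases i <;> fin_cases j <;>
        simp [ww_val, un_val, Matrix.mul_apply, Fin.sum_univ_two, Matrix.det_fin_two] <;>
        field_simp <;> ring
    exact e ▸ mul_mem (mul_mem (h1 _) (h2 _)) (h1 _)
  have h4 : ∀ k : GL (Fin 2) E, k.det = 1 → k 1 0 ≠ 0 → k ∈ P := fun k hk h0 => by
    have d := det_eq k
    rw [hk, Units.val_one] at d
    have e : un ((k 0 0 - 1) / k 1 0) * (ww * un (k 1 0) * ww) * un ((k 1 1 - 1) / k 1 0) = k := by
      ext i j
      fin_cases i <;> fin_cases j <;>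
        simp [ww_val, un_val, Matrix.mul_apply, Fin.sum_univ_two] <;> field_simp
      · ring
      · linear_combination -d
      · ring
    exact e ▸ mul_mem (mul_mem (h1 _) (h3 _)) (h1 _)
  by_cases h0 : k 1 0 = 0
  · rw [← P.mul_mem_cancel_left (h3 1)]
    refine h4 _ (by
      rw [map_mul, hk, mul_one, map_mul, map_mul, det_un, mul_one, ← map_mul]
      conv_lhs => rw [← ww_inv, inv_mul_eq_one.2 ww_inv.symm, map_one]) ?_
    have : k 0 0 ≠ 0 := fun e => det_ne k (by simp [e, h0])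
    simpa [ww_val, un_val, Matrix.mul_apply, Fin.sum_univ_two, h0] using this
  · exact h4 k hk h0

theorem un_mul (c : E) (k : GL (Fin 2) E) :
    ((un c)⁻¹ * k : GL (Fin 2) E) 0 1 = k 0 1 - c * k 1 1 := by
  rw [← un_neg]
  simp [un_val, Matrix.mul_apply, Fin.sum_univ_two, sub_eq_add_neg]

end alg

section idx

variable {O E : Type} [CommRing O] [IsDomain O] [IsDiscreteValuationRing O] [Field E] [Algebra O E]
  {C : Type} [NontriviallyNormedField C] [IsUltrametricDist C] [Algebra E C] {ϖ : Eˣ}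

variable (O) in
/-- the stabiliser of the path from the standard vertex to the vertex `dg s` -/
def BB (s : Eˣ) : Subgroup (GL (Fin 2) E) := KZ O E ⊓ cj (dg s) (KZ O E)

variable (hF : LF O C ϖ)
include hF

theorem mem_KZ_e {k : GL (Fin 2) E} {e : ℝ} (he : 0 ≤ e) (h : nn C (k.det : E) = e ^ 2) :
    k ∈ KZ O E ↔ ∀ i j, nn C (k i j) ≤ e := by
  simp only [mem_KZ hF, h, sq_le_sq₀ (norm_nonneg _) he]

theorem exists_e {k : GL (Fin 2) E} (h : k ∈ KZ O E) :
    ∃ e : Eˣ, nn C (k.det : E) = nn C (e : E) ^ 2 := by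
  obtain ⟨v, hv, c, rfl⟩ := mem_supZ.1 h
  exact ⟨c, by rw [det_sc, ((mem_KK hF).1 hv).2, one_mul]⟩

theorem mem_BB {s : Eˣ} (hs : nn C (s : E) ≤ 1) {k : GL (Fin 2) E} {e : ℝ} (he : 0 ≤ e)
    (h : nn C (k.det : E) = e ^ 2) :
    k ∈ BB O s ↔ k ∈ KZ O E ∧ nn C (k 0 1) ≤ nn C (s : E) * e := by
  rw [BB, Subgroup.mem_inf, mem_cj]
  refine and_congr_right fun hk => ?_
  obtain ⟨a, b, c, d⟩ := dg_conj s⁻¹ k
  rw [dg_inv, inv_inv] at a b c d
  rw [mem_KZ_e hF he h] at hk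
  rw [mem_KZ_e hF he (by
    rw [map_mul, map_mul, map_inv, mul_right_comm, inv_mul_cancel, one_mul, h])]
  simp only [Fin.forall_fin_two, a, b, c, d, hk, true_and, and_true]
  rw [Units.val_inv_eq_inv_val, div_inv_eq_mul, ← div_eq_inv_mul, nn_div, nn_mul,
    div_le_iff₀' (nn_upos s)]
  exact and_iff_left ((mul_le_of_le_one_right (norm_nonneg _) hs).trans (hk 1 0))

theorem BB_anti {s t : Eˣ} (hs : nn C (s : E) ≤ 1) (h : nn C (t : E) ≤ nn C (s : E)) :
    BB O t ≤ BB O s := fun k hk => by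
  obtain ⟨e, he⟩ := exists_e hF hk.1
  rw [mem_BB hF (h.trans hs) (norm_nonneg _) he] at hk
  exact (mem_BB hF hs (norm_nonneg _) he).2
    ⟨hk.1, hk.2.trans (mul_le_mul_of_nonneg_right h (norm_nonneg _))⟩

theorem un_mem_BB {s : Eˣ} (hs : nn C (s : E) ≤ 1) {c : E} :
    un c ∈ BB O s ↔ nn C c ≤ nn C (s : E) := by
  rw [mem_BB hF hs zero_le_one (by simp [det_un, nn]), un_mem_KZ hF, mul_one]
  exact and_iff_right_of_imp fun h => h.trans hs

variable (O E) in
omit hF in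
/-- representatives of the residue field -/
def rp (i : IsLocalRing.ResidueField O) : E :=
  algebraMap O E (IsLocalRing.residue_surjective i).choose

theorem res_iff (a b : O) : IsLocalRing.residue O a = IsLocalRing.residue O b ↔
    nn C (algebraMap O E a - algebraMap O E b) ≤ nn C (ϖ : E) := by
  rw [← sub_eq_zero, ← map_sub, IsLocalRing.residue_eq_zero_iff, ← map_sub,
    ← pow_one (IsLocalRing.maximalIdeal O), mem_pow_iff hF, pow_one]

theorem rp_inj {i j : IsLocalRing.ResidueField O} (h : nn C (rp O E j - rp O E i) ≤ nn C (ϖ : E)) :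
    i = j := by
  have := (res_iff hF _ _).2 h
  rw [(IsLocalRing.residue_surjective i).choose_spec,
    (IsLocalRing.residue_surjective j).choose_spec] at this
  exact this.symm

theorem rp_sur {c : E} (h : nn C c ≤ 1) : ∃ i, nn C (c - rp O E i) ≤ nn C (ϖ : E) := by
  obtain ⟨a, rfl⟩ := (io_iff hF).2 h
  exact ⟨_, (res_iff hF _ _).1 (IsLocalRing.residue_surjective _).choose_spec.symm⟩

theorem step {s : Eˣ} (hs : nn C (s : E) ≤ 1) {k : GL (Fin 2) E} (hk : k ∈ BB O s) {e : Eˣ}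
    (he : nn C (k.det : E) = nn C (e : E) ^ 2) (h1 : nn C (k 1 1) = nn C (e : E)) :
    ∃ i, (un (s * rp O E i))⁻¹ * k ∈ BB O (s * ϖ) := by
  obtain ⟨a, b⟩ := (mem_BB hF hs (norm_nonneg _) he).1 hk
  have h0 : k 1 1 ≠ 0 := fun f => (nn_upos (C := C) e).ne' (by rw [← h1, f]; simp [nn])
  obtain ⟨i, hi⟩ := rp_sur hF (c := k 0 1 / (s * k 1 1)) (by
    rwa [nn_div, nn_mul, h1, div_le_one (mul_pos (nn_upos s) (nn_upos e))])
  have h2 : nn C ((s * ϖ : Eˣ) : E) = nn C (s : E) * nn C (ϖ : E) := nn_mul _ _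
  refine ⟨i, (mem_BB hF (h2.trans_le (mul_le_one₀ hs (norm_nonneg _) (nn_pi_lt hF).le))
    (norm_nonneg _) (by rw [map_mul, map_inv, det_un, inv_one, one_mul, he])).2
    ⟨mul_mem (inv_mem ((un_mem_KZ hF).2 ?_)) a, ?_⟩⟩
  · rw [nn_mul]
    exact mul_le_one₀ hs (norm_nonneg _) (nn_O hF _)
  · rw [un_mul, show k 0 1 - s * rp O E i * k 1 1 = s * (k 0 1 / (s * k 1 1) - rp O E i) * k 1 1 by
      field_simp, nn_mul, nn_mul, h1, h2]
    gcongr

theorem un_inj' {s : Eˣ} (hs : nn C (s : E) ≤ 1) {i j : IsLocalRing.ResidueField O}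
    (h : (un (s * rp O E i))⁻¹ * un (s * rp O E j) ∈ BB O (s * ϖ)) : i = j := by
  have h2 : nn C ((s * ϖ : Eˣ) : E) = nn C (s : E) * nn C (ϖ : E) := nn_mul _ _
  rw [← un_neg, ← un_add, un_mem_BB hF (h2.trans_le (mul_le_one₀ hs (norm_nonneg _)
    (nn_pi_lt hF).le)), h2, neg_add_eq_sub, ← mul_sub, nn_mul] at h
  exact rp_inj hF (le_of_mul_le_mul_left h (nn_upos s))

theorem idx {s : Eˣ} (hs : nn C (s : E) < 1) : (BB O (s * ϖ)).relIndex (BB O s) = qq O := by
  refine relIndex_eq_card (fun i => un (s * rp O E i)) (fun i => (un_mem_BB hF hs.le).2 ?_)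
    (fun i j => un_inj' hF hs.le) fun k hk => ?_
  · rw [nn_mul]
    exact mul_le_of_le_one_right (norm_nonneg _) (nn_O hF _)
  obtain ⟨e, he⟩ := exists_e hF hk.1
  obtain ⟨a, b⟩ := (mem_BB hF hs.le (norm_nonneg _) he).1 hk
  rw [mem_KZ_e hF (norm_nonneg _) he] at a
  refine step hF hs.le hk he (le_antisymm (a 1 1) (not_lt.1 fun h => ?_))
  have e0 := nn_upos (C := C) e
  rw [det_eq, sq] at he
  refine ((nn_sub _ _).trans_lt (max_lt ?_ ?_)).ne he <;> rw [nn_mul]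
  · exact mul_lt_mul' (a 0 0) h (norm_nonneg _) e0
  · exact mul_lt_mul_of_lt_of_le_of_nonneg_of_pos (b.trans_lt (mul_lt_of_lt_one_left e0 hs))
      (a 1 0) (norm_nonneg _) e0

theorem idx0 : (BB O ϖ).relIndex (KZ O E) = qq O + 1 := by
  haveI := hF.fin
  have h1 : nn C ((1 : Eˣ) : E) ≤ 1 := by simp [nn]
  have hp := nn_pi_lt hF
  have hw : nn C ((ww : GL (Fin 2) E).det : E) = 1 := by rw [det_eq]; simp [ww_val, nn]
  have hw' : (ww : GL (Fin 2) E) ∈ KZ O E := (mem_KZ hF).2 fun i j => by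
    rw [hw]
    fin_cases i <;> fin_cases j <;> simp [ww_val, nn]
  have hu : ∀ i, un (((1 : Eˣ) : E) * rp O E i) ∈ KZ O E := fun i => (un_mem_KZ hF).2 (by
    rw [Units.val_one, one_mul]; exact nn_O hF _)
  have key : ∀ k : GL (Fin 2) E, nn C (k.det : E) = 1 → k 0 1 = 1 → k ∉ BB O ϖ := fun k a b c => by
    have := ((mem_BB hF hp.le zero_le_one (by rw [a, one_pow])).1 c).2
    rw [b, mul_one] at this
    exact absurd (this.trans_lt hp) (by simp [nn])
  rw [qq, ← Finite.card_option]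
  refine relIndex_eq_card (fun i : Option (IsLocalRing.ResidueField O) =>
    i.elim ww fun i => un (((1 : Eˣ) : E) * rp O E i)) (fun i => ?_) (fun i j h => ?_) fun k hk => ?_
  · cases i
    exacts [hw', hu _]
  · cases i <;> cases j
    · rfl
    · refine absurd h (key _ ?_ ?_)
      · simp only [Option.elim, ww_inv, map_mul, det_un, mul_one, hw]
      · simp [ww_inv, ww_val, un_val, Matrix.mul_apply, Fin.sum_univ_two]
    · refine absurd h (key _ ?_ ?_)
      · simp only [Option.elim, map_mul, map_inv, det_un, inv_one, one_mul, hw]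
      · simp only [Option.elim, un_mul]
        simp [ww_val]
    · exact congrArg some (un_inj' hF h1 (by rwa [one_mul ϖ]))
  · obtain ⟨e, he⟩ := exists_e hF hk
    have a := (mem_KZ_e hF (norm_nonneg _) he).1 hk
    rcases (a 1 1).eq_or_lt with h | h
    · obtain ⟨i, hi⟩ := step hF h1 ((mem_BB hF h1 (norm_nonneg _) he).2
        ⟨hk, by simpa [nn] using a 0 1⟩) he h
      exact ⟨some i, by rwa [one_mul ϖ] at hi⟩
    · refine ⟨none, (mem_BB hF hp.le (norm_nonneg _) (e := nn C (e : E)) ?_).2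
        ⟨mul_mem (inv_mem hw') hk, ?_⟩⟩
      · simp only [Option.elim, ww_inv, map_mul, Units.val_mul, nn_mul, hw, one_mul, he]
      · simpa [ww_inv, ww_val, Matrix.mul_apply, Fin.sum_univ_two, mul_comm] using le_of_lt hF h

theorem nn_lt {d : ℤ} (hd : 0 < d) : nn C ((ϖ ^ d : Eˣ) : E) < 1 := by
  rw [nn_zpow]
  exact zpow_lt_one₀ (nn_upos ϖ) (nn_pi_lt hF) hd

theorem BB_le {d d' : ℤ} (hd : 0 < d) (h : d ≤ d') : BB O (ϖ ^ d') ≤ BB O (ϖ ^ d) :=
  BB_anti hF (nn_lt hF hd).le (by rw [nn_zpow, nn_zpow]; exact pi_anti hF h)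

theorem idx_add {d : ℤ} (hd : 0 < d) (j : ℕ) :
    (BB O (ϖ ^ (d + j))).relIndex (BB O (ϖ ^ d)) = qq O ^ j := by
  induction j with
  | zero => simp
  | succ j ih =>
    rw [← Subgroup.relIndex_mul_relIndex _ (BB O (ϖ ^ (d + j))) _
      (BB_le hF (by omega) (by omega)) (BB_le hF hd (by omega)), ih, Nat.cast_succ, ← add_assoc,
      zpow_add_one, idx hF (nn_lt hF (by omega)), pow_succ']

theorem idx_le {d d' : ℤ} (hd : 0 < d) (h : d ≤ d') :
    (BB O (ϖ ^ d')).relIndex (BB O (ϖ ^ d)) = qq O ^ (d' - d).toNat := by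
  rw [← idx_add hF hd, Int.toNat_of_nonneg (by omega), add_sub_cancel]

theorem idx_top {d : ℤ} (hd : 0 < d) :
    (BB O (ϖ ^ d)).relIndex (KZ O E) = (qq O + 1) * qq O ^ (d - 1).toNat := by
  rw [← Subgroup.relIndex_mul_relIndex _ (BB O (ϖ ^ (1 : ℤ))) _ (BB_le hF one_pos hd) inf_le_left,
    idx_le hF one_pos hd, zpow_one, idx0 hF, mul_comm]

omit hF in
theorem path_eq (g : GL (Fin 2) E) (m n : ℤ) :
    Vx O (g * dg (ϖ ^ m)) ⊓ Vx O (g * dg (ϖ ^ n)) = cj (g * dg (ϖ ^ m)) (BB O (ϖ ^ (n - m))) := by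
  rw [BB, cj, Subgroup.comap_inf, ← cj, ← cj, cj_cj, mul_assoc, ← dg_mul, ← zpow_add,
    add_sub_cancel]
  rfl

/-- every element of a vertex stabiliser has the determinant of an element fixing the axis -/
theorem exists_det {k : GL (Fin 2) E} (hk : k ∈ KZ O E) (s : Eˣ) :
    ∃ v ∈ BB O s, v.det = k.det := by
  obtain ⟨v, hv, c, rfl⟩ := mem_supZ.1 hk
  have h := (dg_mem_KZ hF).2 ((mem_KK hF).1 hv).2
  refine ⟨dg v.det * sc c, mul_mem ⟨h, mem_cj.2 ?_⟩ ⟨Subgroup.mem_sup_right (sc_mem c),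
    Z_le_cj _ le_sup_right (sc_mem c)⟩, by rw [map_mul, map_mul, det_dg]⟩
  rwa [mul_assoc, ← dg_mul, mul_comm, dg_mul, inv_mul_cancel_left]

end idx

variable {C L Γ O E : Type} [NontriviallyNormedField C] [IsUltrametricDist C] [CompleteSpace C]
  [IsAlgClosed C] [CharZero C] [Field L] [Algebra C L] [Group Γ] [CommRing O] [IsDomain O]
  [IsDiscreteValuationRing O] [Field E] [Algebra O E] [Algebra E C] {A : AT C L Γ O E}

theorem exists_sl (hA : A.Ok) {k : GL (Fin 2) E} (hk : k.det = 1) : ∃ γ ∈ A.H, A.π γ = k := by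
  obtain ⟨x, hx⟩ := hA.ex
  obtain ⟨θ, g, h⟩ := hA.cm x hx
  obtain ⟨δ, hδ⟩ := hA.nb g
  have := sl2 (P := cj g⁻¹ (A.H.map A.π)) (fun c => mem_cj.2 (by
    rw [inv_inv]; exact Sr.exists_H hA h hx c)) hδ (fun c => mem_cj.2 (by
      obtain ⟨γ, h1, h2⟩ := Sr.exists_H hA h hx c
      exact ⟨_, Gn.H_conj' hA h1 δ, by rw [map_mul, map_mul, map_inv, h2]; group⟩))
    (k := g⁻¹ * k * g) (by rw [map_mul, map_mul, hk, mul_one, map_inv, inv_mul_cancel])
  simpa [mem_cj, mul_assoc] using this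

theorem relIndex_U (hA : A.Ok) {W : Subgroup Γ} (hW : W ∈ A.Wl) (g : GL (Fin 2) E) (s : Eˣ)
    {V : Subgroup (GL (Fin 2) E)} (h1 : BB O s ≤ V) (h2 : V ≤ KZ O E) :
    (A.U W (cj g (BB O s))).relIndex (A.U W (cj g V)) = (BB O s).relIndex V := by
  have e : A.U W (cj g (BB O s)) = (cj g (BB O s)).comap A.π ⊓ A.U W (cj g V) := by
    rw [AT.U, AT.U, inf_left_comm, ← Subgroup.comap_inf,
      inf_eq_left.2 (show cj g (BB O s) ≤ cj g V from Subgroup.comap_mono h1)]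
  have e' : (A.U W (cj g V)).map A.π = W.map A.π ⊓ cj g V := by
    ext k
    exact ⟨fun ⟨γ, a, b⟩ => ⟨⟨γ, a.1, b⟩, b ▸ a.2⟩, fun ⟨⟨γ, a, b⟩, c⟩ => ⟨γ, ⟨a, show A.π γ ∈ cj g V from b.symm ▸ c⟩, b⟩⟩
  rw [e, Subgroup.inf_relIndex_right, Subgroup.relIndex_comap, e', relIndex_inf, relIndex_cj]
  intro k hk
  obtain ⟨v, hv, e⟩ := exists_det hA.lf (h2 (mem_cj.1 hk)) s
  obtain ⟨γ, a, b⟩ := exists_sl hA (k := k * (g * v * g⁻¹)⁻¹) (by
    simp only [map_mul, map_inv, e]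
    rw [mul_inv_eq_one, mul_inv_cancel_comm, inv_mul_cancel_comm])
  have c : g * v * g⁻¹ ∈ cj g (BB O s) := mem_cj.2 (by simpa [mul_assoc] using hv)
  exact ⟨_, ⟨⟨γ, Gn.mem_H.1 a W hW, b⟩, (cj g V).mul_mem hk ((cj g V).inv_mem (Subgroup.comap_mono h1 c))⟩, by
    simpa using c⟩

end Sa

variable {C L Γ O E : Type} [NontriviallyNormedField C] [IsUltrametricDist C] [CompleteSpace C]
  [IsAlgClosed C] [CharZero C] [Field L] [Algebra C L] [Group Γ] [CommRing O] [IsDomain O]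
  [IsDiscreteValuationRing O] [Field E] [Algebra O E] [Algebra E C] {A : AT C L Γ O E}

open Sa in
/-- **SA** -/
theorem sa (hA : A.Ok) : A.SA := ⟨fun k => exists_sl hA, fun W hW g m n h => ⟨by
  rw [path_eq, Vx, relIndex_U hA hW _ _ inf_le_left le_rfl, idx_top hA.lf (by omega)],
  fun l h1 h2 => by
    rw [path_eq, path_eq, relIndex_U hA hW _ _ (BB_le hA.lf (by omega) (by omega)) inf_le_left,
      idx_le hA.lf (by omega) (by omega), sub_sub_sub_cancel_right]⟩⟩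

end Vale.Agent.P022K.FI
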