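import Vale.Agent.P297Y.An.Crr
import Vale.Agent.P025.R2.H746.Defs

/-!
# Block FI, row SCHW: regular differentials and the Schwarz bound

A regular differential of the function field `K / k` is `θ dx` with `θ ∈ LL k (wdv k x)`.  For a
`k`-embedding `f : K → M` and a `k`-derivation `d` of `M` its pull back is `f θ * d (f x)`.

* `strong_appr` : strong approximation;
* `chain`, `loc_form`, `exists_form`, `two_terms`, `no_pole` : algebra;
* `reg_bound`, `bound`, `schwarz` : bounds which are uniform in `M`, `v`, `d`, `f`.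
-/

set_option linter.unusedSectionVars false
set_option linter.style.haveILetI false

namespace Vale.Agent.P022K.FI

open Vale.Agent.P019P P025H492 Polynomial IntermediateField

universe u

section alg

variable {k K : Type*} [Field k] [Field K] [Algebra k K] [CFF k K]

/-- strong approximation. -/
theorem strong_appr (P₀ : Plk k K) (S : Finset (Plk k K)) (hS : P₀ ∉ S) (β : Plk k K → K)
    (n : Plk k K → ℤ) :
    ∃ z : K, (∀ P ∈ S, z - β P ∈ Mge P (n P)) ∧ ∀ P, P ∉ S → P ≠ P₀ → z ∈ Mge P 0 := by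
  classical
  obtain ⟨g, -, c, hc⟩ := exists_riem k K
  let E : Plk k K →₀ ℤ := Finsupp.onFinset S (fun P => if P ∈ S then -n P else 0)
    (fun P h => by by_contra h'; exact h (if_neg h'))
  let b : Plk k K →₀ K := Finsupp.onFinset S (fun P => if P ∈ S then β P else 0)
    (fun P h => by by_contra h'; exact h (if_neg h'))
  have h1 : KD (Finsupp.single P₀ (c - dg E) + E) = ⊤ :=
    KD_eq_top hc (by rw [map_add, dg_sgl]; omega)
  have h2 : b ∈ KD (Finsupp.single P₀ (c - dg E) + E) := by rw [h1]; trivial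
  obtain ⟨z, hz⟩ := h2
  refine ⟨z, fun P hP => ?_, fun P hP hP0 => ?_⟩
  · have h3 := neg_mem (hz P)
    have h4 : P ≠ P₀ := fun e => hS (e ▸ hP)
    rw [Finsupp.add_apply, Finsupp.single_eq_of_ne h4] at h3
    simpa [E, b, hP] using h3
  · have h3 := neg_mem (hz P)
    rw [Finsupp.add_apply, Finsupp.single_eq_of_ne hP0] at h3
    simpa [E, b, hP] using h3

theorem self_mem (P : Plk k K) (z : K) : z ∈ Mge P (ord P z) := mem_Mge.2 (Or.inr le_rfl)

theorem one_mem0 (P : Plk k K) : (1 : K) ∈ Mge P 0 := mem_Mge.2 (Or.inr (ord_one P).ge)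

/-- a function with one simple pole forces genus zero. -/
theorem gen_eq_zero {Q : Plk k K} {z : K} (hz : ord Q z = -1)
    (h : ∀ P, P ≠ Q → 0 ≤ ord P z) : gen k K = 0 := by
  classical
  have hz0 : z ≠ 0 := by
    rintro rfl
    rw [ord_zero] at hz
    omega
  have key : ∀ n : ℕ, Module.finrank k (LL k (Finsupp.single Q (n : ℤ))) = n + 1 := by
    intro n
    induction n with
    | zero => rw [Nat.cast_zero, Finsupp.single_zero, l_zero]
    | succ n ih =>
      have h1 : Finsupp.single Q ((n + 1 : ℕ) : ℤ) =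
          Finsupp.single Q (n : ℤ) + Finsupp.single Q 1 := by
        rw [← Finsupp.single_add]
        push_cast
        rfl
      rw [h1, l_step_of_mem (z := z ^ (n + 1)), ih]
      · refine mem_LL.2 (Or.inr fun P => ?_)
        rw [ord_pow, ← h1]
        by_cases hP : P = Q
        · rw [hP, hz, Finsupp.single_eq_same]
          omega
        · rw [Finsupp.single_eq_of_ne hP]
          have := h P hP
          positivity
      · intro h2
        have h3 := (mem_LL.1 h2).resolve_left (pow_ne_zero _ hz0) Q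
        rw [ord_pow, hz, Finsupp.single_eq_same] at h3
        push_cast at h3
        omega
  have h1 := RR_large (D := Finsupp.single Q ((2 * gen k K : ℕ) : ℤ))
    (by rw [dg_can_eq, dg_sgl]; push_cast; omega)
  rw [key, dg_sgl] at h1
  push_cast at h1
  omega

variable [CharZero k]

section chain

variable {M : Type*} [Field M] [Algebra k M]

theorem der_aeval {F E : Type*} [Field F] [Algebra k F] [Algebra F M] [Field E] [Algebra E F]
    (w : Derivation k F M) (hw : ∀ e : E, w (algebraMap E F e) = 0) (a : F) (p : E[X]) :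
    w (aeval a p) = aeval a (derivative p) • w a := by
  induction p using Polynomial.induction_on' with
  | add p q hp hq => rw [map_add, map_add, hp, hq, derivative_add, map_add, add_smul]
  | monomial n c =>
    rw [derivative_monomial, aeval_monomial, aeval_monomial, Derivation.leibniz, hw, smul_zero,
      add_zero, Derivation.leibniz_pow, map_mul, map_natCast, mul_smul, mul_smul,
      Nat.cast_smul_eq_nsmul]

/-- the chain rule along an embedding. -/
theorem chain {x : K} (hx : ∀ a : k, x ≠ algebraMap k K a) {D : Derivation k K K} (hD : D x = 1)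
    (d : Derivation k M M) (f : K →ₐ[k] M) (y : K) : d (f y) = f (D y) * d (f x) := by
  letI : Algebra K M := f.toRingHom.toAlgebra
  haveI : IsScalarTower k K M := IsScalarTower.of_algebraMap_eq fun c => (f.commutes c).symm
  haveI : FiniteDimensional k⟮x⟯ K := (finite_of_notMem hx).2
  haveI : CharZero k⟮x⟯ := charZero_of_injective_algebraMap (algebraMap k k⟮x⟯).injective
  let w : Derivation k K M :=
    d.compAlgebraMap K - d (f x) • (Algebra.linearMap K M).compDer D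
  have h1 : ∀ b, w b = d (f b) - d (f x) * f (D b) := fun b => rfl
  have h0 : w x = 0 := by rw [h1, hD, map_one, mul_one, sub_self]
  have h2 : ∀ e : k⟮x⟯, w (algebraMap k⟮x⟯ K e) = 0 := by
    intro e
    obtain ⟨p, q, hpq⟩ := (mem_adjoin_simple_iff k (e : K)).1 e.2
    change w (e : K) = 0
    rw [hpq, div_eq_mul_inv, w.leibniz, w.leibniz_inv, w.map_aeval, w.map_aeval, h0]
    simp
  have ha : IsIntegral k⟮x⟯ y := Algebra.IsIntegral.isIntegral y
  have h3 := der_aeval w h2 y (minpoly k⟮x⟯ y)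
  rw [minpoly.aeval, map_zero] at h3
  have h4 := (minpoly.irreducible ha).separable.aeval_derivative_ne_zero (minpoly.aeval _ y)
  have h5 := (smul_eq_zero.1 h3.symm).resolve_left h4
  rw [h1, sub_eq_zero] at h5
  rw [h5, mul_comm]

theorem ne_zero_of_one {x : K} {D : Derivation k K K} (hD : D x = 1) : D ≠ 0 := by
  rintro rfl
  exact zero_ne_one hD

/-- change of the coordinate: `θ dx = (θ / (dy / dx)) dy`. -/
theorem change {x : K} (hx : ∀ a : k, x ≠ algebraMap k K a) {D : Derivation k K K} (hD : D x = 1)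
    {y : K} (hy : ∀ a : k, y ≠ algebraMap k K a) (θ : K) (d : Derivation k M M)
    (f : K →ₐ[k] M) : f θ * d (f x) = f (θ * (D y)⁻¹) * d (f y) := by
  rw [chain hx hD d f y, ← mul_assoc, ← map_mul, mul_assoc θ,
    inv_mul_cancel₀ (der_ne_zero (ne_zero_of_one hD) hy), mul_one]

end chain

theorem ord_D_unif {x : K} (hx : ∀ a : k, x ≠ algebraMap k K a) {D : Derivation k K K}
    (hD : D x = 1) {Q : Plk k K} {s : K} (hs : ord Q s = 1) : ord Q (D s) = -wd x Q := by
  have h1 := ord_D_eq_wd (ne_zero_of_one hD) hx Q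
  rw [hD, ord_one, ordD_eq (ne_zero_of_one hD) hs] at h1
  omega

theorem ord_coef {x : K} (hx : ∀ a : k, x ≠ algebraMap k K a) {D : Derivation k K K}
    (hD : D x = 1) {Q : Plk k K} {s : K} (hs : ord Q s = 1) {θ : K} (h0 : θ ≠ 0) :
    θ * (D s)⁻¹ ≠ 0 ∧ ord Q (θ * (D s)⁻¹) = ord Q θ + wd x Q := by
  have h1 : D s ≠ 0 := D_ne_zero (P := Q) (ne_zero_of_one hD) (by omega)
  refine ⟨mul_ne_zero h0 (inv_ne_zero h1), ?_⟩
  rw [ord_mul Q h0 (inv_ne_zero h1), ord_inv, ord_D_unif hx hD hs, neg_neg]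

theorem coef_mem {x : K} (hx : ∀ a : k, x ≠ algebraMap k K a) {D : Derivation k K K}
    (hD : D x = 1) {Q : Plk k K} {s : K} (hs : ord Q s = 1) {θ : K}
    (hθ : θ ∈ LL k (wdv k x)) : θ * (D s)⁻¹ ∈ Mge Q 0 := by
  by_cases h0 : θ = 0
  · rw [h0, zero_mul]
    exact zero_mem _
  have h1 := (mem_LL.1 hθ).resolve_left h0 Q
  rw [wdv_apply hx] at h1
  refine mem_Mge.2 (Or.inr ?_)
  rw [(ord_coef hx hD hs h0).2]
  omega

/-- the local form `a ds` of a regular differential. -/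
theorem loc_form {x θ : K} (hx : ∀ a : k, x ≠ algebraMap k K a) (hθ : θ ∈ LL k (wdv k x))
    {Q : Plk k K} {s : K} (hs : ord Q s = 1) :
    ∃ a ∈ Mge Q 0, (θ ≠ 0 → a ≠ 0 ∧ ord Q a = ord Q θ + wd x Q) ∧
      ∀ (M : Type u) [Field M] [Algebra k M] (d : Derivation k M M) (f : K →ₐ[k] M),
        f θ * d (f x) = f a * d (f s) := by
  obtain ⟨D, hD, -⟩ := P297Y.Crr.exists_ddx hx
  exact ⟨θ * (D s)⁻¹, coef_mem hx hD hs hθ, fun h0 => ord_coef hx hD hs h0,
    fun M _ _ d f => change hx hD (nc_of_ord (P := Q) (by omega)) θ d f⟩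

/-- a regular differential which does not vanish at a given place. -/
theorem exists_form (hg : 1 ≤ gen k K) {x : K} (hx : ∀ a : k, x ≠ algebraMap k K a)
    (Q : Plk k K) : ∃ θ ∈ LL k (wdv k x), θ ≠ 0 ∧ ord Q θ + wd x Q = 0 := by
  classical
  by_contra hcon
  push Not at hcon
  have h1 : LL k (wdv k x - Finsupp.single Q 1 + Finsupp.single Q 1) ≤
      LL k (wdv k x - Finsupp.single Q 1) := by
    rw [sub_add_cancel]
    intro θ hθ
    by_cases h0 : θ = 0
    · exact mem_LL.2 (Or.inl h0)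
    refine mem_LL.2 (Or.inr fun P => ?_)
    have h2 := (mem_LL.1 hθ).resolve_left h0 P
    by_cases hP : P = Q
    · have h3 := hcon θ hθ h0
      rw [hP] at h2 ⊢
      rw [Finsupp.sub_apply, Finsupp.single_eq_same]
      rw [wdv_apply hx] at h2 ⊢
      omega
    · rw [Finsupp.sub_apply, Finsupp.single_eq_of_ne hP]
      omega
  have h2 := l_step_of_eq h1
  rw [sub_add_cancel, P297Y.Crr.l_wdv hx] at h2
  have h3 := P297Y.Crr.RR_wdv hx (Finsupp.single Q 1)
  rw [← h2, dg_sgl] at h3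
  have h4 : ¬ LL k ((0 : Plk k K →₀ ℤ) + Finsupp.single Q 1) ≤ LL k (0 : Plk k K →₀ ℤ) := by
    intro h
    have h5 := l_step_of_eq h
    rw [zero_add, l_zero] at h5
    omega
  rw [SetLike.not_le_iff_exists] at h4
  obtain ⟨z, hz, hz'⟩ := h4
  have hz0 : z ≠ 0 := by
    rintro rfl
    exact hz' (zero_mem _)
  rw [zero_add] at hz
  have h5 := (mem_LL.1 hz).resolve_left hz0
  have h6 : ∀ P, P ≠ Q → 0 ≤ ord P z := fun P hP => by
    have := h5 P
    rw [Finsupp.single_eq_of_ne hP] at this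
    omega
  have h7 : ord Q z = -1 := by
    have h8 := h5 Q
    rw [Finsupp.single_eq_same] at h8
    by_contra h9
    refine hz' (mem_LL.2 (Or.inr fun P => ?_))
    rw [Finsupp.zero_apply]
    by_cases hP : P = Q
    · rw [hP]
      omega
    · have := h6 P hP
      omega
  have := gen_eq_zero h7 h6
  omega

/-- on the chart where `T` is regular a regular differential is `a₁ db₁ + a₂ db₂`. -/
theorem two_terms {x θ : K} (hx : ∀ a : k, x ≠ algebraMap k K a) (hθ : θ ∈ LL k (wdv k x))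
    {T : K} (hT : ∀ a : k, T ≠ algebraMap k K a) :
    ∃ a₁ b₁ a₂ b₂ : K, (∀ P : Plk k K, 0 ≤ ord P T →
        a₁ ∈ Mge P 0 ∧ b₁ ∈ Mge P 0 ∧ a₂ ∈ Mge P 0 ∧ b₂ ∈ Mge P 0) ∧
      ∀ (M : Type u) [Field M] [Algebra k M] (d : Derivation k M M) (f : K →ₐ[k] M),
        f θ * d (f x) = f a₁ * d (f b₁) + f a₂ * d (f b₂) := by
  classical
  obtain ⟨D, hD, -⟩ := P297Y.Crr.exists_ddx hx
  obtain ⟨P₀, hP₀⟩ := exists_pole hT
  obtain ⟨Q₀, hQ₀⟩ := exists_zero hT
  obtain ⟨α, hα⟩ : ∃ α, α = θ * (D T)⁻¹ := ⟨_, rfl⟩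
  obtain ⟨S, hS⟩ : ∃ S : Finset (Plk k K), ∀ P, P ∈ S ↔
      P = Q₀ ∨ (ord P α ≠ 0 ∧ 0 ≤ ord P T) :=
    ⟨insert Q₀ ((dv k α).support.filter fun P => 0 ≤ ord P T), fun P => by
      rw [Finset.mem_insert, Finset.mem_filter, Finsupp.mem_support_iff, dv_apply]⟩
  have hS0 : P₀ ∉ S := by
    rw [hS]
    rintro (h | h)
    · rw [h] at hP₀
      omega
    · omega
  obtain ⟨y, hy1, hy2⟩ := strong_appr P₀ S hS0 (fun P => (exists_unif P).choose) fun _ => 2
  have hy : ∀ P ∈ S, ord P y = 1 := by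
    intro P hP
    obtain ⟨h1, h2⟩ := (exists_unif P).choose_spec
    have h3 := (ord_add_of_lt h1 (w := y - (exists_unif P).choose)
      (by rw [h2]; exact hy1 P hP)).2
    rw [add_sub_cancel, h2] at h3
    exact h3
  have hyn : ∀ a : k, y ≠ algebraMap k K a :=
    nc_of_ord (P := Q₀) (by rw [hy Q₀ ((hS _).2 (Or.inl rfl))]; omega)
  obtain ⟨β, hβ⟩ : ∃ β, β = θ * (D y)⁻¹ := ⟨_, rfl⟩
  obtain ⟨S', hS'⟩ : ∃ S' : Finset (Plk k K), ∀ P, P ∈ S' ↔
      P ∈ S ∨ (ord P β ≠ 0 ∧ 0 ≤ ord P T) :=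
    ⟨S ∪ ((dv k β).support.filter fun P => 0 ≤ ord P T), fun P => by
      rw [Finset.mem_union, Finset.mem_filter, Finsupp.mem_support_iff, dv_apply]⟩
  have hS0' : P₀ ∉ S' := by
    rw [hS']
    rintro (h | h)
    · exact hS0 h
    · omega
  obtain ⟨e, he1, he2⟩ := strong_appr P₀ S' hS0' (fun P => if P ∈ S then 0 else 1)
    fun P => max (max 0 (-ord P α)) (-ord P β)
  have hne : ∀ P : Plk k K, 0 ≤ ord P T → P ≠ P₀ := by
    rintro P h rfl
    omega
  have he : ∀ P : Plk k K, 0 ≤ ord P T → e ∈ Mge P 0 := by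
    intro P hP
    by_cases h : P ∈ S'
    · have h1 := Mge_mono P (m := 0) (by omega) (he1 P h)
      by_cases h2 : P ∈ S
      · simpa [h2] using h1
      · simpa [h2] using add_mem h1 (show (if P ∈ S then (0 : K) else 1) ∈ Mge P 0 by
          rw [if_neg h2]; exact one_mem0 P)
    · exact he2 P h (hne P hP)
  refine ⟨e * α, T, (1 - e) * β, y, fun P hP => ⟨?_, mem_Mge.2 (Or.inr hP), ?_, ?_⟩,
    fun M _ _ d f => ?_⟩
  · by_cases h : P ∈ S
    · have h1 := he1 P ((hS' P).2 (Or.inl h))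
      rw [if_pos h, sub_zero] at h1
      exact Mge_mono P (by omega) (mul_mem_Mge h1 (self_mem P α))
    · have h1 : ord P α = 0 := by
        by_contra h2
        exact h ((hS P).2 (Or.inr ⟨h2, hP⟩))
      exact mul_mem_of_mem (he P hP) (mem_Mge.2 (Or.inr h1.ge))
  · by_cases h : P ∈ S
    · rw [hβ]
      exact mul_mem_of_mem (sub_mem (one_mem0 P) (he P hP)) (coef_mem hx hD (hy P h) hθ)
    by_cases h' : P ∈ S'
    · have h1 := neg_mem (he1 P h')
      rw [if_neg h, neg_sub] at h1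
      exact Mge_mono P (by omega) (mul_mem_Mge h1 (self_mem P β))
    · have h1 : ord P β = 0 := by
        by_contra h2
        exact h' ((hS' P).2 (Or.inr ⟨h2, hP⟩))
      exact mul_mem_of_mem (sub_mem (one_mem0 P) (he P hP)) (mem_Mge.2 (Or.inr h1.ge))
  · by_cases h : P ∈ S
    · exact mem_Mge.2 (Or.inr (by rw [hy P h]; omega))
    · exact hy2 P h (hne P hP)
  · rw [map_mul, map_mul, mul_assoc, mul_assoc, hα, hβ, ← change hx hD hT θ d f,
      ← change hx hD hyn θ d f, map_sub, map_one]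
    ring

/-- the pull back of a regular differential has no pole. -/
theorem no_pole {x θ : K} (hx : ∀ a : k, x ≠ algebraMap k K a) (hθ : θ ∈ LL k (wdv k x))
    {M : Type*} [Field M] [Algebra k M] (d : Derivation k M M) (f : K →ₐ[k] M)
    (O : ValuationSubring M) (hk : ∀ a : k, algebraMap k M a ∈ O) (hd : ∀ y ∈ O, d y ∈ O) :
    f θ * d (f x) ∈ O := by
  by_cases hO : O.comap f.toRingHom = ⊤
  · have h1 : ∀ a : K, f a ∈ O := fun a => by
      have : a ∈ O.comap f.toRingHom := by rw [hO]; trivial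
      exact this
    exact mul_mem (h1 θ) (hd _ (h1 x))
  let Q : Plk k K := ⟨O.comap f.toRingHom, fun c => by
    change f (algebraMap k K c) ∈ O
    rw [f.commutes]
    exact hk c, hO⟩
  have hQ : ∀ a : K, a ∈ Mge Q 0 → f a ∈ O := fun a ha => (mem_iff_ord Q a).2 ha
  obtain ⟨s, -, hs⟩ := exists_unif Q
  obtain ⟨a, ha, -, h⟩ := loc_form hx hθ hs
  rw [h M d f]
  exact mul_mem (hQ a ha) (hd _ (hQ s (mem_Mge.2 (Or.inr (by omega)))))

end alg

section bounds

variable {C K : Type*} [NormedField C] [Field K] [Algebra C K] [CFF C K]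

omit [CFF C K] in
theorem av_aeval_le {M : Type*} [Field M] [Algebra C M] (v : AbsoluteValue M ℝ)
    (hv : ∀ a : C, v (algebraMap C M a) = ‖a‖) {t : M} (ht : v t ≤ 1) (p : C[X]) :
    v (aeval t p) ≤ ∑ i ∈ Finset.range (p.natDegree + 1), ‖p.coeff i‖ := by
  rw [aeval_eq_sum_range]
  refine (v.sum_le _ _).trans (Finset.sum_le_sum fun i _ => ?_)
  rw [Algebra.smul_def, map_mul, hv, map_pow]
  exact mul_le_of_le_one_right (norm_nonneg _) (pow_le_one₀ (v.nonneg _) ht)

/-- a function which is regular where `T` is regular is bounded on `|T| ≤ 1`, uniformly in the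
absolute value. -/
theorem reg_bound {T z : K} (hT : ∀ a : C, T ≠ algebraMap C K a)
    (hz : ∀ P : Plk C K, 0 ≤ ord P T → z ∈ Mge P 0) :
    ∃ c : ℝ, 0 < c ∧ ∀ (M : Type u) [Field M] [Algebra C M] (v : AbsoluteValue M ℝ),
      (∀ a : C, v (algebraMap C M a) = ‖a‖) → ∀ f : K →ₐ[C] M, v (f T) ≤ 1 → v (f z) ≤ c := by
  classical
  obtain ⟨r, hr⟩ := exists_mem_Mr hz
  obtain ⟨e, a, he, -⟩ := exists_GrB hT
  obtain ⟨G, hG, -⟩ := he.exists_mat hr
  let B : C[X] → ℝ := fun p => ∑ i ∈ Finset.range (p.natDegree + 1), ‖p.coeff i‖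
  have hB : ∀ p, 0 ≤ B p := fun p => Finset.sum_nonneg fun _ _ => norm_nonneg _
  have hs : 0 ≤ ∑ j, ∑ i, B (G i j) :=
    Finset.sum_nonneg fun _ _ => Finset.sum_nonneg fun _ _ => hB _
  refine ⟨1 + ∑ j, ∑ i, B (G i j), by linarith, fun M _ _ v hv f hf => ?_⟩
  haveI : FiniteDimensional C⟮T⟯ K := (finite_of_notMem hT).2
  haveI : Nonempty (Fin (Module.finrank C⟮T⟯ K)) := ⟨⟨0, Module.finrank_pos⟩⟩
  obtain ⟨j, -, hj⟩ := Finset.exists_max_image Finset.univ (fun i => v (f (e i)))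
    Finset.univ_nonempty
  have hpos : 0 < v (f (e j)) := v.pos ((map_ne_zero f).2 (he.ind.ne_zero j))
  have h1 : v (f z) * v (f (e j)) ≤ (∑ i, B (G i j)) * v (f (e j)) := by
    rw [← map_mul, ← map_mul, hG, map_sum, Finset.sum_mul]
    refine (v.sum_le _ _).trans (Finset.sum_le_sum fun i _ => ?_)
    rw [map_mul, map_mul, ← aeval_algHom_apply]
    exact mul_le_mul (av_aeval_le v hv hf _) (hj i (Finset.mem_univ i)) (v.nonneg _) (hB _)
  have h2 := le_of_mul_le_mul_right h1 hpos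
  have h3 : ∑ i, B (G i j) ≤ ∑ j, ∑ i, B (G i j) :=
    Finset.single_le_sum (f := fun j => ∑ i, B (G i j))
      (fun _ _ => Finset.sum_nonneg fun _ _ => hB _) (Finset.mem_univ j)
  linarith

variable [CharZero C]

theorem bound_chart {x θ : K} (hx : ∀ a : C, x ≠ algebraMap C K a) (hθ : θ ∈ LL C (wdv C x))
    {T : K} (hT : ∀ a : C, T ≠ algebraMap C K a) :
    ∃ c : ℝ, 0 < c ∧ ∀ (M : Type u) [Field M] [Algebra C M] (v : AbsoluteValue M ℝ),
      (∀ a : C, v (algebraMap C M a) = ‖a‖) → ∀ (d : Derivation C M M) (ρ : ℝ),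
      (∀ y, v (d y) ≤ ρ * v y) → ∀ f : K →ₐ[C] M, v (f T) ≤ 1 → v (f θ * d (f x)) ≤ c * ρ := by
  obtain ⟨a₁, b₁, a₂, b₂, h, he⟩ := two_terms.{u} hx hθ hT
  obtain ⟨c₁, p₁, h₁⟩ := reg_bound.{u} hT fun P hP => (h P hP).1
  obtain ⟨c₂, p₂, h₂⟩ := reg_bound.{u} hT fun P hP => (h P hP).2.1
  obtain ⟨c₃, p₃, h₃⟩ := reg_bound.{u} hT fun P hP => (h P hP).2.2.1
  obtain ⟨c₄, p₄, h₄⟩ := reg_bound.{u} hT fun P hP => (h P hP).2.2.2
  refine ⟨c₁ * c₂ + c₃ * c₄, by positivity, fun M _ _ v hv d ρ hd f hf => ?_⟩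
  have hρ : 0 ≤ ρ := by simpa using hd 1
  have key : ∀ {a b : K} {c c' : ℝ}, 0 < c → v (f a) ≤ c → v (f b) ≤ c' →
      v (f a * d (f b)) ≤ c * c' * ρ := by
    intro a b c c' hc ha hb
    rw [map_mul, mul_assoc, mul_comm c' ρ]
    exact mul_le_mul ha ((hd _).trans (mul_le_mul_of_nonneg_left hb hρ)) (v.nonneg _) hc.le
  rw [he M d f, add_mul]
  exact (v.add_le _ _).trans (add_le_add (key p₁ (h₁ M v hv f hf) (h₂ M v hv f hf))
    (key p₃ (h₃ M v hv f hf) (h₄ M v hv f hf)))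

/-- **the uniform bound** for the pull backs of a regular differential. -/
theorem bound {x θ : K} (hx : ∀ a : C, x ≠ algebraMap C K a) (hθ : θ ∈ LL C (wdv C x)) :
    ∃ c : ℝ, 0 < c ∧ ∀ (M : Type u) [Field M] [Algebra C M] (v : AbsoluteValue M ℝ),
      (∀ a : C, v (algebraMap C M a) = ‖a‖) → ∀ (d : Derivation C M M) (ρ : ℝ),
      (∀ y, v (d y) ≤ ρ * v y) → ∀ f : K →ₐ[C] M, v (f θ * d (f x)) ≤ c * ρ := by
  obtain ⟨c₁, p₁, h₁⟩ := bound_chart.{u} hx hθ hx
  obtain ⟨c₂, p₂, h₂⟩ := bound_chart.{u} hx hθ (nc_inv hx)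
  refine ⟨c₁ + c₂, by positivity, fun M _ _ v hv d ρ hd f => ?_⟩
  have hρ : 0 ≤ ρ := by simpa using hd 1
  rcases le_total (v (f x)) 1 with h | h
  · exact (h₁ M v hv d ρ hd f h).trans (mul_le_mul_of_nonneg_right (by linarith) hρ)
  · refine (h₂ M v hv d ρ hd f ?_).trans (mul_le_mul_of_nonneg_right (by linarith) hρ)
    rw [map_inv₀, map_inv₀]
    exact inv_le_one_of_one_le₀ h

/-- the uniform bound for the library absolute values. -/
theorem bound_nv {x θ : K} (hx : ∀ a : C, x ≠ algebraMap C K a) (hθ : θ ∈ LL C (wdv C x)) :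
    ∃ c : ℝ, 0 < c ∧ ∀ (M : Type u) [Field M] [Algebra C M] (w : P025H746.NV C M)
      (d : Derivation C M M) (ρ : ℝ), (∀ y, w (d y) ≤ ρ * w y) →
      ∀ f : K →ₐ[C] M, w (f θ * d (f x)) ≤ c * ρ := by
  obtain ⟨c, hc, h⟩ := bound.{u} hx hθ
  exact ⟨c, hc, fun M _ _ w => h M w.av w.ext'⟩

omit [CharZero C] in
/-- a bound for a derivation passes to the field of fractions. -/
theorem der_frac {R M : Type*} [CommRing R] [Field M] [Algebra R M] [IsFractionRing R M]
    [Algebra C M] (v : AbsoluteValue M ℝ) (hv : IsNonarchimedean v) (d : Derivation C M M)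
    {ρ : ℝ} (hd : ∀ y : R, v (d (algebraMap R M y)) ≤ ρ * v (algebraMap R M y)) (y : M) :
    v (d y) ≤ ρ * v y := by
  haveI : Nontrivial R :=
    (IsFractionRing.nontrivial_iff_nontrivial (R := R) (S := M)).2 inferInstance
  obtain ⟨a, b, hb, rfl⟩ := IsFractionRing.div_surjective (A := R) y
  have hb0 : algebraMap R M b ≠ 0 := IsFractionRing.to_map_ne_zero_of_mem_nonZeroDivisors hb
  have hp : 0 < v (algebraMap R M b) := v.pos hb0
  have h1 : d (algebraMap R M a / algebraMap R M b) = d (algebraMap R M a) / algebraMap R M b +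
      -(algebraMap R M a * d (algebraMap R M b) / algebraMap R M b ^ 2) := by
    rw [div_eq_mul_inv, d.leibniz, d.leibniz_inv]
    simp only [smul_eq_mul]
    field_simp
    ring
  rw [h1]
  refine (hv _ _).trans (max_le ?_ ?_)
  · rw [map_div₀, map_div₀, ← mul_div_assoc]
    exact div_le_div_of_nonneg_right (hd a) hp.le
  · rw [v.map_neg, map_div₀, map_div₀, map_mul, map_pow, div_le_iff₀ (by positivity)]
    have h2 := mul_le_mul_of_nonneg_left (hd b) (v.nonneg (algebraMap R M a))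
    refine h2.trans (le_of_eq ?_)
    field_simp

omit [CharZero C] in
/-- the value at the centre of the pull back of a regular function. -/
theorem ev_eq_vl {P : Plk C K} {s : K} (hs : ord P s = 1) {M : Type*} [Field M] [Algebra C M]
    (O : Subring M) (ev : O →+* C) (f : K →ₐ[C] M) (hf : ∀ z ∈ Mge P 0, f z ∈ O)
    (hev : ∀ (a : C) (h : algebraMap C M a ∈ O), ev ⟨_, h⟩ = a)
    (h0 : ∀ h : f s ∈ O, ev ⟨_, h⟩ = 0) {z : K} (hz : z ∈ Mge P 0) :
    ev ⟨f z, hf z hz⟩ = vl P z := by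
  have hs0 : s ≠ 0 := by
    rintro rfl
    rw [ord_zero] at hs
    omega
  have hz' : 0 ≤ ord P z := by
    rcases mem_Mge.1 hz with h | h
    · rw [h, ord_zero]
    · exact h
  have h1 : s⁻¹ * (z - algebraMap C K (vl P z)) ∈ Mge P 0 := by
    have h2 := mul_mem_Mge (self_mem P s⁻¹) (sub_vl_mem hz')
    rwa [ord_inv, hs, neg_add_cancel] at h2
  have h2 : s ∈ Mge P 0 := mem_Mge.2 (Or.inr (by omega))
  have h3 : algebraMap C M (vl P z) ∈ O := by
    rw [← f.commutes]
    exact hf _ (mem_Mge.2 (Or.inr (ord_const P _).ge))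
  have h4 : (⟨f z, hf z hz⟩ : O) = ⟨_, h3⟩ + ⟨f s, hf s h2⟩ * ⟨_, hf _ h1⟩ := by
    apply Subtype.ext
    change f z = algebraMap C M (vl P z) + f s * f (s⁻¹ * (z - algebraMap C K (vl P z)))
    rw [← map_mul, ← mul_assoc, mul_inv_cancel₀ hs0, one_mul, map_sub, f.commutes]
    ring
  rw [h4, map_add, map_mul, hev, h0, zero_mul, add_zero]

/-- **Schwarz lemma.**  `Os` is the set of the points of a disc with field of functions `M`, `O` is
the local ring of the centre and `ev` the value there.  For every map `f` of the disc to the curve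
which sends the centre to `P` the derivative of `s ∘ f` at the centre is bounded by `c * ρ`. -/
theorem schwarz (hg : 1 ≤ gen C K) {P : Plk C K} {s : K} (hs : ord P s = 1) :
    ∃ c : ℝ, 0 < c ∧ ∀ (M : Type u) [Field M] [Algebra C M] (v : AbsoluteValue M ℝ),
      (∀ a : C, v (algebraMap C M a) = ‖a‖) → ∀ (d : Derivation C M M) (ρ : ℝ),
      (∀ y, v (d y) ≤ ρ * v y) → ∀ Os : Set (ValuationSubring M),
      (∀ V ∈ Os, (∀ a : C, algebraMap C M a ∈ V) ∧ ∀ y ∈ V, d y ∈ V) →
      ∀ (O : Subring M) (ev : O →+* C),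
      (∀ (a : C) (h : algebraMap C M a ∈ O), ev ⟨_, h⟩ = a) →
      (∀ y : O, (∀ V ∈ Os, (y : M) ∈ V) → ‖ev y‖ ≤ v y) →
      ∀ f : K →ₐ[C] M, (∀ z ∈ Mge P 0, f z ∈ O) → (∀ h : f s ∈ O, ev ⟨_, h⟩ = 0) →
      ∀ h : d (f s) ∈ O, ‖ev ⟨_, h⟩‖ ≤ c * ρ := by
  have hx : ∀ a : C, s ≠ algebraMap C K a := nc_of_ord (P := P) (by omega)
  obtain ⟨θ, hθ, h0, h1⟩ := exists_form hg hx P
  have hw : wd s P = 0 := by
    rw [wd, if_pos (by omega), vl_eq_of_pos (c := 0) (by rw [map_zero, sub_zero]; omega),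
      map_zero, sub_zero, hs, sub_self]
  rw [hw, add_zero] at h1
  have hθ0 : θ ∈ Mge P 0 := mem_Mge.2 (Or.inr h1.ge)
  have hvl : vl P θ ≠ 0 := by
    intro h
    have h2 := sub_vl_mem h1.ge
    rw [h, map_zero, sub_zero] at h2
    have := (mem_Mge.1 h2).resolve_left h0
    omega
  have hp : 0 < ‖vl P θ‖ := norm_pos_iff.2 hvl
  obtain ⟨c, hc, hb⟩ := bound.{u} hx hθ
  refine ⟨c / ‖vl P θ‖, by positivity, fun M _ _ v hv d ρ hd Os hOs O ev hev hmax f hf hf0 h => ?_⟩
  have h2 := hmax (⟨f θ, hf θ hθ0⟩ * ⟨_, h⟩) fun V hV =>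
    no_pole hx hθ d f V (hOs V hV).1 (hOs V hV).2
  rw [map_mul, norm_mul, ev_eq_vl hs O ev f hf hev hf0 hθ0] at h2
  have h3 := h2.trans (hb M v hv d ρ hd f)
  rw [div_mul_eq_mul_div, le_div_iff₀ hp, mul_comm]
  exact h3

end bounds

end Vale.Agent.P022K.FI
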