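import Vale.Agent.P022K.FI.Schw1
import Vale.Agent.P022K.FI.AnW

/-!
# Block FI, row SCHW: the Schwarz lemma for power series
-/

set_option linter.unusedSectionVars false
set_option linter.style.haveILetI false

namespace Vale.Agent.P022K.FI

open Vale.Agent.P019P P025H492 PowerSeries LaurentSeries

/-- a non archimedean absolute value extends to the field of fractions. -/
theorem exists_av_frac {R M : Type*} [CommRing R] [IsDomain R] [Field M] [Algebra R M]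
    [IsFractionRing R M] (n : AbsoluteValue R ℝ) (hn : IsNonarchimedean n) :
    ∃ v : AbsoluteValue M ℝ, IsNonarchimedean v ∧ ∀ a, v (algebraMap R M a) = n a := by
  let φ := IsLocalization.toLocalizationMap (nonZeroDivisors R) M
  have h : ∀ s : nonZeroDivisors R, IsUnit (n.toMonoidWithZeroHom.toMonoidHom s) := fun s =>
    isUnit_iff_ne_zero.2 (n.ne_zero (nonZeroDivisors.ne_zero s.2))
  let w : M →* ℝ := φ.lift h
  have h1 : ∀ a, w (algebraMap R M a) = n a := fun a => φ.lift_eq h a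
  have h2 : ∀ a b : R, b ≠ 0 → w (algebraMap R M a / algebraMap R M b) = n a / n b := by
    intro a b hb
    have hb' : algebraMap R M b ≠ 0 := by simpa using hb
    rw [eq_div_iff (n.ne_zero hb), ← h1 b, ← map_mul, div_mul_cancel₀ _ hb', h1]
  have h3 : ∀ y : M, ∃ a b : R, b ≠ 0 ∧ y = algebraMap R M a / algebraMap R M b := fun y => by
    obtain ⟨a, b, hb, rfl⟩ := IsFractionRing.div_surjective (A := R) y
    exact ⟨a, b, nonZeroDivisors.ne_zero hb, rfl⟩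
  have h4 : ∀ y, 0 ≤ w y := fun y => by
    obtain ⟨a, b, hb, rfl⟩ := h3 y
    rw [h2 a b hb]
    exact div_nonneg (n.nonneg a) (n.nonneg b)
  have h5 : ∀ x y, w (x + y) ≤ max (w x) (w y) := fun x y => by
    obtain ⟨a, b, hb, rfl⟩ := h3 x
    obtain ⟨c, d, hd, rfl⟩ := h3 y
    have hb' : algebraMap R M b ≠ 0 := by simpa using hb
    have hd' : algebraMap R M d ≠ 0 := by simpa using hd
    have pb := n.pos hb
    have pd := n.pos hd
    rw [div_add_div _ _ hb' hd', ← map_mul, ← map_mul, ← map_mul, ← map_add,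
      h2 _ _ (mul_ne_zero hb hd), h2 a b hb, h2 c d hd, div_le_iff₀ (n.pos (mul_ne_zero hb hd)),
      max_mul_of_nonneg _ _ (n.nonneg _)]
    refine (hn _ _).trans (le_of_eq ?_)
    simp only [map_mul]
    congr 1 <;> field_simp
  refine ⟨⟨⟨w, w.map_mul⟩, h4, fun y => ?_, fun x y =>
    (h5 x y).trans (max_le_add_of_nonneg (h4 x) (h4 y))⟩, h5, h1⟩
  obtain ⟨a, b, hb, rfl⟩ := h3 y
  change w _ = 0 ↔ _
  rw [h2 a b hb]
  simp [hb]

section ps

variable {C : Type} [NontriviallyNormedField C] [IsUltrametricDist C]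

/-- the derivative on the Tate algebra. -/
noncomputable def dTA {r : ℝ} (hr : 0 < r) : Derivation C (TA C r) (TA C r) :=
  Derivation.mk'
    { toFun := fun f => ⟨d⁄dX C (f : C⟦X⟧), Cv.deriv hr f.2⟩
      map_add' := fun f g => Subtype.ext (map_add (d⁄dX C) (f : C⟦X⟧) (g : C⟦X⟧))
      map_smul' := fun c f => Subtype.ext ((d⁄dX C).map_smul c (f : C⟦X⟧)) }
    fun f g => Subtype.ext ((d⁄dX C).leibniz (f : C⟦X⟧) (g : C⟦X⟧))

theorem dTA_coe {r : ℝ} (hr : 0 < r) (f : TA C r) : (dTA hr f : C⟦X⟧) = d⁄dX C (f : C⟦X⟧) := rfl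

/-- the sup norm as an absolute value. -/
noncomputable def avTA {r : ℝ} (hr : 0 < r) : AbsoluteValue (TA C r) ℝ where
  toFun f := gn r (f : C⟦X⟧)
  map_mul' f g := gn_mul hr f.2 g.2
  nonneg' _ := gn_nonneg hr _
  eq_zero' f := (gn_eq_zero hr f.2).trans ZeroMemClass.coe_eq_zero
  add_le' f g := (gn_add_le hr f.2 g.2).trans
    (max_le_add_of_nonneg (gn_nonneg hr _) (gn_nonneg hr _))

/-- the Tate algebra is a principal ideal domain. -/
theorem pid_TA [CompleteSpace C] {r : ℝ} (hr : 0 < r) : IsPrincipalIdealRing (TA C r) := by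
  classical
  refine ⟨fun I => ?_⟩
  by_cases h : ∃ n, ∃ f ∈ I, f ≠ 0 ∧ wd r (f : C⟦X⟧) = n
  swap
  · refine ⟨0, le_antisymm (fun f hf => ?_) (by simp)⟩
    by_contra h1
    exact h ⟨_, f, hf, fun e => h1 (by rw [e]; exact zero_mem _), rfl⟩
  obtain ⟨f, hf, f0, hn⟩ := Nat.find_spec h
  have f1 : (f : C⟦X⟧) ≠ 0 := fun e => f0 (Subtype.ext e)
  refine ⟨f, le_antisymm (fun g hg => ?_) ((Submodule.span_singleton_le_iff_mem _ _).2 hf)⟩
  obtain ⟨q, R, h1, h2, h3⟩ := wdiv' hr f.2 f1 g.2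
  have h4 : Cv r R := Cv.of_fin r h2
  have h5 : (⟨R, h4⟩ : TA C r) = g - ⟨q, h1⟩ * f := Subtype.ext (by
    change R = (g : C⟦X⟧) - q * f
    rw [h3]
    ring)
  by_cases R0 : R = 0
  · refine Submodule.mem_span_singleton.2 ⟨⟨q, h1⟩, Subtype.ext ?_⟩
    change q * (f : C⟦X⟧) = g
    rw [h3, R0, add_zero]
  · exfalso
    have h6 : wd r R < wd r (f : C⟦X⟧) := by
      by_contra h7
      exact coeff_wd_ne hr h4 R0 (h2 _ (not_lt.1 h7))
    refine Nat.find_min h (hn ▸ h6) ⟨⟨R, h4⟩, ?_, fun e => R0 (congrArg Subtype.val e), rfl⟩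
    rw [h5]
    exact sub_mem hg (I.mul_mem_left _ hf)

variable {K : Type*} [Field K] [Algebra C K] [CFF C K] [CharZero C]

/-- `f` maps `K` to quotients of series which converge on the closed disc of radius `r`. -/
def InFr (r : ℝ) (f : K →ₐ[C] C⸨X⸩) : Prop :=
  ∀ y, ∃ a b : C⟦X⟧, Cv r a ∧ Cv r b ∧ b ≠ 0 ∧ f y * (b : C⸨X⸩) = (a : C⸨X⸩)

theorem form_ps_aux {x θ : K} (hx : ∀ a : C, x ≠ algebraMap C K a) (hθ : θ ∈ LL C (wdv C x)) :
    ∃ c : ℝ, 0 < c ∧ ∀ r : ℝ, 0 < r → IsPrincipalIdealRing (TA C r) →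
      ∀ f : K →ₐ[C] C⸨X⸩, InFr r f → ∃ w : C⟦X⟧, Cv r w ∧ gn r w ≤ c / r ∧
        ∀ a b : C⟦X⟧, f x * (b : C⸨X⸩) = (a : C⸨X⸩) →
          (w : C⸨X⸩) * (b : C⸨X⸩) ^ 2 = f θ * ((d⁄dX C a * b - a * d⁄dX C b : C⟦X⟧) : C⸨X⸩) := by
  obtain ⟨c, hc, h⟩ := bound_ring.{0} hx hθ
  refine ⟨c, hc, fun r hr hpid f hf => ?_⟩
  let M := FractionRing (TA C r)
  let g₀ : C⟦X⟧ →ₐ[C] C⸨X⸩ := { HahnSeries.ofPowerSeries ℤ C with commutes' := fun _ => rfl }
  let g : TA C r →ₐ[C] C⸨X⸩ := g₀.comp (TA C r).val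
  have hg : ∀ a : TA C r, g a = ((a : C⟦X⟧) : C⸨X⸩) := fun a => rfl
  have hinj : Function.Injective (algebraMap C⟦X⟧ C⸨X⸩) := IsFractionRing.injective _ _
  have hgi : Function.Injective g := hinj.comp Subtype.val_injective
  let ι : M →ₐ[C] C⸨X⸩ := IsFractionRing.liftAlgHom hgi
  have hι : ∀ a : TA C r, ι (algebraMap _ M a) = ((a : C⟦X⟧) : C⸨X⸩) := fun a =>
    IsFractionRing.lift_algebraMap (g := (g : TA C r →+* C⸨X⸩)) hgi a
  have hne : ∀ {b : C⟦X⟧}, b ≠ 0 → (b : C⸨X⸩) ≠ 0 := fun hb e => hb (hinj (e.trans (map_zero _).symm))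
  have hr' : ∀ y, f y ∈ ι.range := fun y => by
    obtain ⟨a, b, ha, hb, hb0, e⟩ := hf y
    refine ⟨algebraMap _ M (⟨a, ha⟩ : TA C r) / algebraMap _ M (⟨b, hb⟩ : TA C r), ?_⟩
    change ι _ = _
    rw [map_div₀, hι, hι, div_eq_iff (hne hb0), e]
  let f' : K →ₐ[C] M := (AlgEquiv.ofInjectiveField ι).symm.toAlgHom.comp (f.codRestrict _ hr')
  have hf' : ∀ y, ι (f' y) = f y := fun y =>
    congrArg Subtype.val ((AlgEquiv.ofInjectiveField ι).apply_symm_apply ⟨f y, hr' y⟩)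
  obtain ⟨v, hna, hv⟩ := exists_av_frac (M := M) (avTA (C := C) hr) fun a b => gn_add_le hr a.2 b.2
  obtain ⟨d, hd⟩ := exists_der_frac (M := M) (dTA (C := C) hr)
  obtain ⟨w, hw, hwb⟩ := h (TA C r) M v hna (fun a => by
      rw [IsScalarTower.algebraMap_apply C (TA C r) M, hv]
      exact gn_C hr a) (dTA hr) d hd r⁻¹ (fun a => by
      rw [hv, hv, inv_mul_eq_div]
      exact gn_deriv hr a.2) f'
  rw [hv] at hwb
  refine ⟨w, w.2, hwb, fun a b hab => ?_⟩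
  obtain ⟨a₀, b₀, ha₀, hb₀, hb0, e⟩ := hf x
  have e1 : f' x = algebraMap _ M (⟨a₀, ha₀⟩ : TA C r) / algebraMap _ M (⟨b₀, hb₀⟩ : TA C r) := by
    apply ι.injective
    change ι _ = ι _
    rw [hf', map_div₀, hι, hι, eq_div_iff (hne hb0), e]
  have hb1 : algebraMap _ M (⟨b₀, hb₀⟩ : TA C r) ≠ 0 := by
    intro e2
    have := congrArg ι e2
    rw [hι, map_zero] at this
    exact hne hb0 this
  have e2 := congrArg ι hw
  rw [hι, map_mul, hf', e1, der_div d _ hb1, hd, hd, map_div₀, map_sub, map_mul, map_mul, map_pow,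
    hι, hι, hι, hι, dTA_coe, dTA_coe] at e2
  have e3 : a * b₀ = a₀ * b := by
    apply hinj
    rw [map_mul, map_mul]
    change (a : C⸨X⸩) * (b₀ : C⸨X⸩) = (a₀ : C⸨X⸩) * (b : C⸨X⸩)
    rw [← hab, ← e]
    ring
  have e4 := congrArg (d⁄dX C) e3
  rw [Derivation.leibniz, Derivation.leibniz] at e4
  simp only [smul_eq_mul] at e4
  have e5 : (d⁄dX C a₀ * b₀ - a₀ * d⁄dX C b₀) * b ^ 2 = (d⁄dX C a * b - a * d⁄dX C b) * b₀ ^ 2 := by
    linear_combination (-(b * b₀)) * e4 + (d⁄dX C b * b₀ + b * d⁄dX C b₀) * e3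
  have e6 := congrArg (algebraMap C⟦X⟧ C⸨X⸩) e5
  simp only [map_mul, map_sub, map_pow, LaurentSeries.coe_algebraMap] at e6 ⊢
  rw [e2, mul_assoc, div_mul_eq_mul_div, e6, mul_div_assoc, div_self (pow_ne_zero _ (hne hb0)),
    mul_one]

theorem schwarz_ps_aux (hg : 1 ≤ gen C K) {P : Plk C K} {s : K} (hs : ord P s = 1) :
    ∃ c : ℝ, 0 < c ∧ ∀ r : ℝ, 0 < r → IsPrincipalIdealRing (TA C r) →
      ∀ f : K →ₐ[C] C⸨X⸩, InFr r f → (∀ z ∈ Mge P 0, ∃ g : C⟦X⟧, f z = (g : C⸨X⸩)) →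
      ∀ h : C⟦X⟧, f s = (h : C⸨X⸩) → constantCoeff h = 0 → ‖coeff 1 h‖ ≤ c / r := by
  have hx : ∀ a : C, s ≠ algebraMap C K a := nc_of_ord (P := P) (by omega)
  obtain ⟨θ, hθ, h0, h1⟩ := exists_form hg hx P
  have hw : P025H492.wd s P = 0 := by
    rw [P025H492.wd, if_pos (by omega),
      vl_eq_of_pos (c := 0) (by rw [map_zero, sub_zero]; omega), map_zero, sub_zero, hs, sub_self]
  rw [hw, add_zero] at h1
  have hvl : vl P θ ≠ 0 := by
    intro h
    have h2 := sub_vl_mem h1.ge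
    rw [h, map_zero, sub_zero] at h2
    have := (mem_Mge.1 h2).resolve_left h0
    omega
  have hp : 0 < ‖vl P θ‖ := norm_pos_iff.2 hvl
  obtain ⟨c, hc, hb⟩ := form_ps_aux hx hθ
  refine ⟨c / ‖vl P θ‖, by positivity, fun r hr hpid f hf hf0 h hh hh0 => ?_⟩
  obtain ⟨w, hw1, hw2, hw3⟩ := hb r hr hpid f hf
  have hinj : Function.Injective (algebraMap C⟦X⟧ C⸨X⸩) := IsFractionRing.injective _ _
  have hs0 : s ≠ 0 := fun e => hx 0 (by rw [e, map_zero])
  have h2 : s⁻¹ * (θ - algebraMap C K (vl P θ)) ∈ Mge P 0 := by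
    have h3 := mul_mem_Mge (self_mem P s⁻¹) (sub_vl_mem h1.ge)
    rwa [ord_inv, hs, neg_add_cancel] at h3
  obtain ⟨g, hg⟩ := hf0 _ h2
  have h3 : f θ = ((PowerSeries.C (vl P θ) + h * g : C⟦X⟧) : C⸨X⸩) := by
    have h4 : θ = algebraMap C K (vl P θ) + s * (s⁻¹ * (θ - algebraMap C K (vl P θ))) := by
      rw [← mul_assoc, mul_inv_cancel₀ hs0, one_mul]
      ring
    conv_lhs => rw [h4]
    rw [map_add, map_mul, hg, hh, f.commutes, map_add, map_mul]
    rfl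
  have h4 := hw3 h 1 (by rw [hh, map_one, mul_one])
  rw [h3, map_one, one_pow, mul_one, mul_one, Derivation.map_one_eq_zero, mul_zero, sub_zero,
    ← map_mul] at h4
  have h5 := congrArg constantCoeff (hinj h4)
  rw [map_mul, map_add, map_mul, hh0, zero_mul, add_zero, constantCoeff_C,
    ← coeff_zero_eq_constantCoeff_apply (d⁄dX C h), coeff_derivative] at h5
  have h6 := (le_gn hw1 0).trans hw2
  rw [pow_zero, mul_one, coeff_zero_eq_constantCoeff_apply, h5] at h6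
  simp only [zero_add, Nat.cast_zero, mul_one, norm_mul] at h6
  rw [div_right_comm, le_div_iff₀ hp, mul_comm]
  exact h6

variable [CompleteSpace C]

/-- the pull back `w dX` of the regular differential `θ dx` to a closed disc of radius `r` converges
and has norm at most `c / r`. -/
theorem form_ps {x θ : K} (hx : ∀ a : C, x ≠ algebraMap C K a) (hθ : θ ∈ LL C (wdv C x)) :
    ∃ c : ℝ, 0 < c ∧ ∀ r : ℝ, 0 < r → ∀ f : K →ₐ[C] C⸨X⸩, InFr r f →
      ∃ w : C⟦X⟧, Cv r w ∧ gn r w ≤ c / r ∧ ∀ a b : C⟦X⟧, f x * (b : C⸨X⸩) = (a : C⸨X⸩) →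
        (w : C⸨X⸩) * (b : C⸨X⸩) ^ 2 = f θ * ((d⁄dX C a * b - a * d⁄dX C b : C⟦X⟧) : C⸨X⸩) := by
  obtain ⟨c, hc, h⟩ := form_ps_aux hx hθ
  exact ⟨c, hc, fun r hr => h r hr (pid_TA hr)⟩

/-- **Schwarz lemma** for power series: if `f` is an expansion of `K` at the place `P` which is
meromorphic on the closed disc of radius `r`, the derivative at `0` of the expansion of the local
parameter `s` is at most `c / r`. -/
theorem schwarz_ps (hg : 1 ≤ gen C K) {P : Plk C K} {s : K} (hs : ord P s = 1) :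
    ∃ c : ℝ, 0 < c ∧ ∀ r : ℝ, 0 < r → ∀ f : K →ₐ[C] C⸨X⸩, InFr r f →
      (∀ z ∈ Mge P 0, ∃ g : C⟦X⟧, f z = (g : C⸨X⸩)) →
      ∀ h : C⟦X⟧, f s = (h : C⸨X⸩) → constantCoeff h = 0 → ‖coeff 1 h‖ ≤ c / r := by
  obtain ⟨c, hc, h⟩ := schwarz_ps_aux hg hs
  exact ⟨c, hc, fun r hr => h r hr (pid_TA hr)⟩

end ps

end Vale.Agent.P022K.FI
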