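import Vale.Agent.P022K.FI.Mx
import Vale.Agent.P022K.FI.Twr
import Vale.Agent.P022K.FI.Gnn
import Vale.Agent.P022K.FI.Schw2

/-!
# P022K, block FI, rows HYP and SRN: the decomposition group of a small disc at a special point
-/

set_option linter.all false

noncomputable section

open PowerSeries Filter Topology Vale.Agent.P019P P025H746 P025H492 P025H552 Module
open scoped MatrixGroups LaurentSeries

namespace Vale.Agent.P022K.FI

open Vale.Agent.P022K.Sh An4 Mx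

variable {C L Γ O E : Type} [NontriviallyNormedField C] [IsUltrametricDist C] [CompleteSpace C]
  [IsAlgClosed C] [CharZero C] [Field L] [Algebra C L] [Group Γ] [CommRing O] [IsDomain O]
  [IsDiscreteValuationRing O] [Field E] [Algebra O E] [Algebra E C] {A : AT C L Γ O E}
  {x : Plk C L} {θ θ' : L →ₐ[C] C⸨X⸩} {g g' : GL (Fin 2) E} {r : ℝ} {t u γ : Γ} {μ μ' : Eˣ}
  {c : E}

namespace Sr

theorem nn_pow (a : Eˣ) (n : ℕ) : nn C ((a ^ n : Eˣ) : E) = nn C (a : E) ^ n := by simp [nn]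

theorem nn_inv (a : Eˣ) : nn C ((a⁻¹ : Eˣ) : E) = (nn C (a : E))⁻¹ := by simp [nn]

/-- an element which is trivial away from `w` and central at `w` acts trivially -/
theorem ker_of (hA : A.Ok) (h : u ∈ A.H) (hz : A.π u ∈ Zl E) : u ∈ A.act.ker := by
  refine MonoidHom.mem_ker.2 (AlgEquiv.ext fun z => ?_)
  obtain ⟨W, hW, m, e⟩ := hA.smo z
  exact A.mem_K.1 e u ⟨Gn.mem_H.1 h W hW, Subgroup.mem_sup_right hz⟩

theorem act_eq (hA : A.Ok) (h : u ∈ A.H) (h' : γ ∈ A.H) {k : GL (Fin 2) E} (e : Fm g (A.π u) k)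
    (e' : Fm g (A.π γ) k) : A.act u = A.act γ := by
  have h1 := e.inv.mul e'
  rw [inv_mul_cancel, fm_one_iff, ← map_inv, ← map_mul] at h1
  have h2 := ker_of hA (mul_mem (inv_mem h) h') h1
  rwa [MonoidHom.mem_ker, map_mul, map_inv, inv_mul_eq_one] at h2

theorem attr (hA : A.Ok) (h : A.CM x θ g) (hx : A.Hyp x) {W : Subgroup Γ} (hW : W ∈ A.Wl) :
    ∃ γ ∈ W, γ ∈ A.St x ∧ ∃ μ : Eˣ, Fm g (A.π γ) (dg μ) ∧ ‖algebraMap E C μ‖ < 1 := by
  obtain ⟨W₀, h0, γ, h1, h2, h3⟩ := hx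
  obtain ⟨δ, d1, d2, μ, d3, d4⟩ : ∃ δ ∈ W₀, δ ∈ A.St x ∧ ∃ μ : Eˣ, Fm g (A.π δ) (dg μ) ∧
      nn C (μ : E) < 1 := by
    obtain ⟨μ, e, -⟩ := h.lin γ h2
    rcases lt_trichotomy (nn C (μ : E)) 1 with a | a | a
    · exact ⟨γ, h1, h2, μ, e, a⟩
    · exact absurd (hA.neat W₀ h0 g γ ⟨h1, (e.mem_cj le_sup_right).2 ((dg_mem_KZ hA.lf).2 a)⟩ x h2)
        h3
    · refine ⟨γ⁻¹, inv_mem h1, inv_mem h2, μ⁻¹, by rw [map_inv, dg_inv]; exact e.inv, ?_⟩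
      rw [nn_inv]
      exact inv_lt_one_of_one_lt₀ a
  obtain ⟨n, hn, -, e⟩ := Subgroup.exists_pow_mem_of_relIndex_ne_zero (hA.fi W hW W₀ h0) d1
  refine ⟨δ ^ n, e.1, pow_mem d2 n, μ ^ n, by rw [map_pow, dg_pow]; exact d3.pow n, ?_⟩
  exact (nn_pow μ n).trans_lt (pow_lt_one₀ (norm_nonneg _) d4 hn.ne')

theorem order_one (h : A.CM x θ g) (h' : A.CM x θ' g') {s : L} (hs : (θ s).order = 1) :
    (θ' s).order = 1 := by
  obtain ⟨s', hs'⟩ := h'.uni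
  have key : ∀ z, 0 ≤ (θ z).order ↔ 0 ≤ (θ' z).order := fun z => (h.pl z).symm.trans (h'.pl z)
  have a : ∀ φ : L →ₐ[C] C⸨X⸩, ∀ z, (φ z).order = 1 → z ≠ 0 := fun φ z e f => by simp [f] at e
  have h1 := key s⁻¹
  have h2 := key s'⁻¹
  have h3 := key (s' / s)
  simp only [map_inv₀, order_inv, map_div₀] at h1 h2 h3
  rw [order_div ((map_ne_zero _).2 (a _ _ hs')) ((map_ne_zero _).2 (a _ _ hs)),
    order_div ((map_ne_zero _).2 (a _ _ hs')) ((map_ne_zero _).2 (a _ _ hs))] at h3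
  omega

theorem two (h : A.CM x θ g) {s : L} (hs : (θ s).order = 1) (ht : t ∈ A.St x)
    (hμ : Fm g (A.π t) (dg μ)) :
    (algebraMap C L (algebraMap E C μ) * A.act t s - s) / s ^ 2 ∈ x.1 := by
  by_cases e : algebraMap C L (algebraMap E C μ) * A.act t s - s = 0
  · rw [e, zero_div]; exact zero_mem _
  have s0 : θ s ≠ 0 := fun f => by simp [f] at hs
  have μ0 : algebraMap E C μ ≠ 0 := (map_ne_zero _).2 μ.ne_zero
  have e' := (map_ne_zero θ).2 e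
  rw [h.pl, map_div₀, map_pow, order_div e' (pow_ne_zero _ s0), HahnSeries.order_pow, hs,
    sub_nonneg, HahnSeries.le_order_iff_forall e']
  intro j hj
  rw [map_sub, map_mul, AlgHom.commutes, h.lin' ht hμ, HahnSeries.coeff_sub,
    LaurentSeries.algebraMap_apply, HahnSeries.C_mul_eq_smul, HahnSeries.coeff_smul,
    coeff_sub_cx (inv_ne_zero μ0)]
  by_cases f : j = 1
  · simp [f, μ0]
  · rw [HahnSeries.coeff_eq_zero_of_lt_order (x := θ s) (by simp at hj; omega)]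
    simp

theorem mu_eq (h : A.CM x θ g) (h' : A.CM x θ' g') (ht : t ∈ A.St x) (hμ : Fm g (A.π t) (dg μ))
    (hμ' : Fm g' (A.π t) (dg μ')) : μ = μ' := by
  obtain ⟨s, hs⟩ := h.uni
  have h1 := sub_mem (two h hs ht hμ) (two h' (order_one h h' hs) ht hμ')
  by_contra hne
  have s0 : θ s ≠ 0 := fun f => by simp [f] at hs
  have μ0 : algebraMap E C μ ≠ 0 := (map_ne_zero _).2 μ.ne_zero
  have h2 : algebraMap E C μ - algebraMap E C μ' ≠ 0 := by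
    rw [← map_sub, map_ne_zero, sub_ne_zero]; exact fun e => hne (Units.ext e)
  have h3 : (θ (A.act t s)).order = 1 := by
    rw [h.lin' ht hμ, order_sub (cx_zero _) (cx_ne (inv_ne_zero μ0)), hs, mul_one, map_mul,
      HahnSeries.order_mul (by rw [am_C]; simpa using μ0) (am_ne X_ne_zero), am_C, order_const,
      order_am_X, zero_add]
  have h4 : θ (A.act t s) ≠ 0 := fun f => by simp [f] at h3
  have h5 : algebraMap C C⸨X⸩ (algebraMap E C μ - algebraMap E C μ') ≠ 0 := (map_ne_zero _).2 h2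
  rw [← _root_.sub_div, sub_sub_sub_cancel_right, ← sub_mul, ← map_sub, h.pl, map_div₀, map_pow, map_mul,
    AlgHom.commutes, order_div (mul_ne_zero h5 h4) (pow_ne_zero _ s0), HahnSeries.order_pow,
    HahnSeries.order_mul h5 h4, order_const, h3, hs] at h1
  simp at h1

theorem diag {k : GL (Fin 2) E} (h : Fm g k (dg μ)) (h' : Fm g' k (dg μ)) (hμ : nn C (μ : E) < 1) :
    (g⁻¹ * g' : GL (Fin 2) E) 1 0 = 0 ∧ (g⁻¹ * g' : GL (Fin 2) E) 0 1 = 0 := by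
  have h1 := h.frame (g⁻¹ * g')
  rw [mul_inv_cancel_left] at h1
  obtain ⟨c, hc⟩ := mem_Z.1 (h'.uniq h1)
  generalize g⁻¹ * g' = a at hc
  have h2 : a * dg μ * sc c = dg μ * a := by rw [hc]; group
  have e := fun i j => congrArg (fun z : GL (Fin 2) E => z i j) h2
  have e00 := e 0 0
  have e01 := e 0 1
  have e10 := e 1 0
  have e11 := e 1 1
  simp only [mul_sc] at e00 e01 e10 e11
  simp only [Units.val_mul, dg_val, Matrix.mul_apply, Fin.sum_univ_two] at e00 e01 e10 e11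
  simp at e00 e01 e10 e11
  have h3 : (μ : E) ≠ 1 := fun f => by simp [f, nn] at hμ
  by_cases f : a 1 1 = 0
  · have f1 : a 0 1 ≠ 0 := fun f' => det_ne a (by simp [f, f'])
    have f2 : a 1 0 ≠ 0 := fun f' => det_ne a (by simp [f, f'])
    have f3 : (c : E) = μ := mul_left_cancel₀ f1 (by rw [e01, mul_comm])
    have f4 : (μ : E) * μ = 1 := mul_left_cancel₀ f2 (by rw [f3] at e10; rw [← mul_assoc, e10, mul_one])
    have f5 := congrArg (nn C) f4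
    rw [nn_mul] at f5
    have := mul_lt_one_of_nonneg_of_lt_one_left (norm_nonneg _) hμ hμ.le
    simp only [nn, map_one, norm_one] at f5 this
    exact absurd f5 this.ne
  · have f3 : (c : E) = 1 := mul_left_cancel₀ f (by rw [e11, mul_one])
    rw [f3, mul_one] at e01 e10
    constructor
    · by_contra f1
      exact h3 (mul_left_cancel₀ f1 (by rw [e10, mul_one]))
    · by_contra f1
      exact h3 (mul_right_cancel₀ f1 (by rw [← e01, one_mul]))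

end Sr

open Sr in
/-- **HYP** -/
theorem hyp (hA : A.Ok) : A.HYP := fun x θ g h =>
  ⟨fun hx W hW => attr hA h hx hW, fun t μ μ' => Twr.fm_dg, fun θ' g' h' => by
    obtain ⟨t, ht, μ, h1, h2⟩ := h.exists_attr hA
    obtain ⟨μ', h3, -⟩ := h'.lin t ht
    obtain rfl := Sr.mu_eq h h' ht h1 h3
    exact diag h1 h3 h2⟩

namespace Sr

/-- the functions which are meromorphic on the disc of radius `r` -/
def FF (θ : L →ₐ[C] C⸨X⸩) (r : ℝ) : IntermediateField C L := (MM C r).comap θ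

theorem mem_FF {z : L} : z ∈ FF θ r ↔ θ z ∈ MM C r := Iff.rfl

variable (A) in
/-- the decomposition group of the disc of radius `r` -/
def GG (θ : L →ₐ[C] C⸨X⸩) (r : ℝ) : Subgroup Γ := (FF θ r).fixingSubgroup.comap A.act

theorem mem_GG : u ∈ GG A θ r ↔ ∀ z ∈ FF θ r, A.act u z = z := by
  rw [GG, Subgroup.mem_comap, IntermediateField.mem_fixingSubgroup_iff]

theorem GG_mono {r' : ℝ} (hr : 0 < r) (h : r ≤ r') : GG A θ r ≤ GG A θ r' := fun _ hu =>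
  mem_GG.2 fun z hz => mem_GG.1 hu z (MM_anti hr h hz)

theorem act_mem (h : A.CM x θ g) (ht : t ∈ A.St x) (hμ : Fm g (A.π t) (dg μ)) (hr : 0 < r)
    (z : L) : A.act t z ∈ FF θ (nn C (μ : E) * r) ↔ z ∈ FF θ r := by
  rw [mem_FF, mem_FF, h.lin' ht hμ, mem_sub_cx (mul_pos (nn_upos μ) hr)
    (inv_ne_zero ((map_ne_zero _).2 μ.ne_zero)), norm_inv, inv_mul_cancel_left₀ (nn_upos μ).ne']

theorem conj_mem (h : A.CM x θ g) (ht : t ∈ A.St x) (hμ : Fm g (A.π t) (dg μ)) (hr : 0 < r)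
    (hu : u ∈ GG A θ r) : t * u * t⁻¹ ∈ GG A θ (nn C (μ : E) * r) := mem_GG.2 fun z hz => by
  rw [← A.act_inv' t z, act_mem h ht hμ hr] at hz
  rw [A.act_mul, A.act_mul, mem_GG.1 hu _ hz, A.act_inv']

theorem exists_small (hA : A.Ok) (h : A.CM x θ g) {S : Subgroup Γ} (hS : A.Lv S) :
    ∃ r₀, 0 < r₀ ∧ ∀ r, 0 < r → r ≤ r₀ → A.K S ≤ FF θ r ∧ GG A θ r ≤ S := by
  obtain ⟨r₀, h0, h1⟩ := h.rad hA hS
  exact ⟨r₀, h0, fun r a b => ⟨h1 r a b, fun u hu =>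
    hS.mem_of_fix hA fun z hz => mem_GG.1 hu z (h1 r a b z hz)⟩⟩

/-- conjugation by an attracting element moves the decomposition group into every level -/
theorem exists_conj (hA : A.Ok) (h : A.CM x θ g) (ht : t ∈ A.St x) (hμ : Fm g (A.π t) (dg μ))
    (h1 : nn C (μ : E) < 1) (hr : 0 < r) {S : Subgroup Γ} (hS : A.Lv S) :
    ∃ k : ℕ, ∀ u ∈ GG A θ r, t ^ k * u * (t ^ k)⁻¹ ∈ S := by
  obtain ⟨r₀, h0, h2⟩ := exists_small hA h hS
  obtain ⟨k, hk⟩ := exists_pow_lt_of_lt_one (div_pos h0 hr) h1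
  refine ⟨k, fun u hu => (h2 _ (mul_pos (nn_upos (μ ^ k)) hr) ?_).2
    (conj_mem h (pow_mem ht k) (by rw [map_pow, dg_pow]; exact hμ.pow k) hr hu)⟩
  rw [nn_pow]
  exact ((lt_div_iff₀ hr).1 hk).le

theorem GG_le_H (hA : A.Ok) (h : A.CM x θ g) (hx : A.Hyp x) (hr : 0 < r) : GG A θ r ≤ A.H :=
  fun u hu => Gn.mem_H.2 fun W hW => by
    obtain ⟨t, h1, ht, μ, hμ, h2⟩ := attr hA h hx hW
    obtain ⟨k, hk⟩ := exists_conj hA h ht hμ h2 hr (AT.lv_U hW (ll_Vx hA.lf g))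
    have : _ ∈ W := (hk u hu).1
    rwa [W.mul_mem_cancel_right (inv_mem (pow_mem h1 k)),
      W.mul_mem_cancel_left (pow_mem h1 k)] at this

theorem fm_conj {k : GL (Fin 2) E} (hμ : Fm g (A.π t) (dg μ)) (hu : Fm g (A.π u) k) :
    Fm g (A.π (t * u * t⁻¹)) (dg μ * k * (dg μ)⁻¹) := by
  rw [map_mul, map_mul, map_inv]
  exact (hμ.mul hu).mul hμ.inv

theorem bound (hA : A.Ok) (h : A.CM x θ g) (hr : 0 < r) {m : ℕ} (hm : 1 ≤ m) :
    ∃ a : Eˣ, nn C (a : E) ≤ 1 ∧ ∀ u ∈ GG A θ r, ∀ k, Fm g (A.π u) k →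
      dg a * k * (dg a)⁻¹ ∈ Km O E m ⊔ Zl E := by
  obtain ⟨t, ht, μ, hμ, h2⟩ := h.exists_attr hA
  obtain ⟨W, hW⟩ := Gn.exists_W hA
  obtain ⟨k, hk⟩ := exists_conj hA h ht hμ h2 hr (AT.lv_U hW (ll_cj hA.lf g m))
  refine ⟨μ ^ k, (nn_pow μ k).trans_le (pow_le_one₀ (norm_nonneg _) h2.le), fun u hu k₀ e => ?_⟩
  exact ((fm_conj (t := t ^ k) (by rw [map_pow, dg_pow]; exact hμ.pow k) e).mem_cj
    le_sup_right).1 (hk u hu).2

theorem exists_un (hA : A.Ok) (h : A.CM x θ g) (hr : 0 < r) (hu : u ∈ GG A θ r) :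
    ∃ c, Fm g (A.π u) (un c) := by
  have e := fm_self' g (A.π u)
  generalize g⁻¹ * A.π u * g = k at e
  have key : ∀ m : ℕ, 1 ≤ m → k 1 1 ≠ 0 ∧ nn C (k 0 0 / k 1 1 - 1) ≤ 1 * nn C (A.ϖ : E) ^ m ∧
      nn C (k 1 0 / k 1 1) ≤ 1 * nn C (A.ϖ : E) ^ m := fun m hm => by
    obtain ⟨a, a1, a2⟩ := bound hA h hr hm
    obtain ⟨b1, b2, -, b4⟩ := (mem_KmZ hA.lf hm).1 (a2 u hu k e)
    obtain ⟨c1, -, c3, c4⟩ := dg_conj a k
    rw [c4] at b1 b2 b4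
    rw [c1] at b2
    rw [c3, div_right_comm, nn_div, div_le_iff₀ (nn_upos a)] at b4
    rw [one_mul]
    exact ⟨b1, b2, b4.trans (mul_le_of_le_one_right (by positivity) a1)⟩
  have h0 := (key 1 le_rfl).1
  have h1 := eq_zero_of_le hA.lf fun m hm => (key m hm).2.1
  have h2 := eq_zero_of_le hA.lf fun m hm => (key m hm).2.2
  rw [sub_eq_zero, div_eq_one_iff_eq h0] at h1
  exact ⟨_, e.congr (eq_un ((div_eq_zero_iff.1 h2).resolve_right h0) h1)⟩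

variable (A) in
/-- the entries of the decomposition group -/
def II (θ : L →ₐ[C] C⸨X⸩) (g : GL (Fin 2) E) (r : ℝ) : Set E :=
  {c | ∃ u ∈ GG A θ r, Fm g (A.π u) (un c)}

theorem II_bdd (hA : A.Ok) (h : A.CM x θ g) (hr : 0 < r) :
    ∃ n : ℤ, ∀ c ∈ II A θ g r, nn C c ≤ nn C (A.ϖ : E) ^ n := by
  obtain ⟨a, -, a2⟩ := bound hA h hr le_rfl
  obtain ⟨n, hn⟩ := exists_zpow hA.lf a.ne_zero
  refine ⟨1 - n, fun c ⟨u, hu, e⟩ => ?_⟩
  have := a2 u hu _ e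
  rw [dg_un, un_mem_KmZ hA.lf le_rfl, nn_mul, hn, pow_one] at this
  rwa [zpow_sub₀ (nn_upos A.ϖ).ne', zpow_one, le_div_iff₀' (zpow_pos (nn_upos A.ϖ) n)]

theorem II_mul (h : A.CM x θ g) (ht : t ∈ A.St x) (hμ : Fm g (A.π t) (dg μ)) (hr : 0 < r)
    (h1 : nn C (μ : E) ≤ 1) (hc : c ∈ II A θ g r) : μ * c ∈ II A θ g r := by
  obtain ⟨u, hu, e⟩ := hc
  exact ⟨_, GG_mono (mul_pos (nn_upos μ) hr) (mul_le_of_le_one_left hr.le h1)
    (conj_mem h ht hμ hr hu), dg_un μ c ▸ fm_conj hμ e⟩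

theorem mem_Nn (hA : A.Ok) {n : ℤ} : γ ∈ A.Nn g n ↔
    γ ∈ A.H ∧ ∃ c : E, nn C c ≤ nn C (A.ϖ : E) ^ n ∧ Fm g (A.π γ) (un c) := by
  simp only [Gn.mem_Nn, io_div hA.lf (A.ϖ ^ n).ne_zero, nn_zpow]

theorem fm_sub {d : E} (e : Fm g (A.π u) (un c)) (e' : Fm g (A.π γ) (un d)) :
    Fm g (A.π (u⁻¹ * γ)) (un (d - c)) := by
  rw [map_mul, map_inv, sub_eq_neg_add, un_add, un_neg]
  exact e.inv.mul e'

theorem act_eq' (hA : A.Ok) (hu : u ∈ A.H) (hγ : γ ∈ A.H) {d : E} (e : Fm g (A.π u) (un c))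
    (e' : Fm g (A.π γ) (un d)) {n : ℤ} (hn : nn C (d - c) ≤ nn C (A.ϖ : E) ^ n) {z : L}
    (hz : z ∈ A.Ln g n) : A.act γ z = A.act u z := by
  have := A.mem_K.1 hz _ ((mem_Nn hA).2 ⟨mul_mem (inv_mem hu) hγ, _, hn, fm_sub e e'⟩)
  rw [← mul_inv_cancel_left u γ, A.act_mul, this]

theorem II_closed (hA : A.Ok) (h : A.CM x θ g) (hx : A.Hyp x) (hr : 0 < r) {S : Subgroup Γ}
    (hS : A.Lv S) (hle : GG A θ r ≤ S)
    (hc : ∀ n : ℤ, ∃ d ∈ II A θ g r, nn C (d - c) ≤ nn C (A.ϖ : E) ^ n) : c ∈ II A θ g r := by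
  have hH := GG_le_H hA h hx hr
  obtain ⟨u, hu, H⟩ := hS.compact hA (fun z : L => z) (fun z w => ∀ n : ℤ, z ∈ A.Ln g n →
      ∀ γ ∈ GG A θ r, ∀ d, Fm g (A.π γ) (un d) → nn C (d - c) ≤ nn C (A.ϖ : E) ^ n →
      A.act γ z = w) fun s => by
    choose m hm using Gn.exists_Ln hA (mat hA) g
    obtain ⟨M, hM⟩ := (s.image m).bddAbove
    obtain ⟨d₀, ⟨u, hu, e⟩, h0⟩ := hc M
    refine ⟨u, hle hu, fun z hz n h1 γ hγ d e' h2 => ?_⟩
    have h3 : z ∈ A.Ln g M := Gn.Ln_mono hA g (hM (Finset.mem_image_of_mem m hz)) (hm z)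
    have h4 := nn_sub (C := C) (d - c) (d₀ - c)
    rw [sub_sub_sub_cancel_right] at h4
    rcases le_total n M with a | a
    · exact act_eq' hA (hH hu) (hH hγ) e e'
        (h4.trans (max_le h2 (h0.trans (pi_anti hA.lf a)))) h1
    · exact act_eq' hA (hH hu) (hH hγ) e e'
        (h4.trans (max_le (h2.trans (pi_anti hA.lf a)) h0)) h3
  have h1 : u ∈ GG A θ r := mem_GG.2 fun z hz => by
    obtain ⟨n, hn⟩ := Gn.exists_Ln hA (mat hA) g z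
    obtain ⟨d, ⟨γ, hγ, e⟩, h0⟩ := hc n
    rw [← H z n hn γ hγ d e h0, mem_GG.1 hγ z hz]
  obtain ⟨c', e'⟩ := exists_un hA h hr h1
  have h2 : c' - c = 0 := eq_zero_of_le hA.lf (M := 1) fun m _ => by
    obtain ⟨d, ⟨γ, hγ, e⟩, h0⟩ := hc m
    obtain ⟨-, d', h3, h4⟩ := (mem_Nn hA).1 (Gn.mem_Nn_of_fix hA (mat hA) (AT.gal0 hA) g m
      (γ⁻¹ * u) fun z hz => by rw [A.act_mul, ← H z m hz γ hγ d e h0, A.act_inv])
    rw [un_inj (h4.uniq (fm_sub e e'))] at h3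
    rw [one_mul, ← zpow_natCast, ← sub_add_sub_cancel c' d c]
    exact (nn_add _ _).trans (max_le h3 h0)
  exact ⟨u, h1, sub_eq_zero.1 h2 ▸ e'⟩

theorem II_ideal (hA : A.Ok) (h : A.CM x θ g) (hx : A.Hyp x) (hr : 0 < r) {S : Subgroup Γ}
    (hS : A.Lv S) (hle : GG A θ r ≤ S) {d : E} (hd : d ∈ II A θ g r) (hc : nn C c ≤ nn C d) :
    c ∈ II A θ g r := by
  by_cases c0 : c = 0
  · exact ⟨1, one_mem _, by rw [c0, un_zero, map_one]; exact fm_one g⟩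
  have d1 := (nn_pos (C := C) c0).trans_le hc
  have d0 : d ≠ 0 := fun e => by simp [e, nn] at d1
  refine II_closed hA h hx hr hS hle fun n => ?_
  obtain ⟨t, ht, μ, hμ, e⟩ := h.den (Units.mk0 _ (div_ne_zero c0 d0))
    (min 1 (nn C (A.ϖ : E) ^ n / nn C d)) (lt_min one_pos (div_pos (zpow_pos (nn_upos _) n) d1))
  rw [Units.val_mk0, ← map_sub, lt_min_iff] at e
  refine ⟨_, II_mul h ht hμ hr ?_ hd, ?_⟩
  · rw [← sub_add_cancel (μ : E) (c / d)]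
    exact (nn_add _ _).trans (max_le e.1.le (by rwa [nn_div, div_le_one d1]))
  · rw [show μ * d - c = (μ - c / d) * d by field_simp, nn_mul]
    exact ((lt_div_iff₀ d1).1 e.2).le

/-- the Schwarz lemma excludes a trivial decomposition group -/
theorem II_ne (hA : A.Ok) (h : A.CM x θ g) (hx : A.Hyp x) (hr : 0 < r) {W : Subgroup Γ}
    (hW : W ∈ A.Wl) {V : Subgroup (GL (Fin 2) E)} (hV : Ll O V) (hle : A.K (A.U W V) ≤ FF θ r) :
    ∃ c ∈ II A θ g r, c ≠ 0 := by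
  by_contra! hn
  have hS := AT.lv_U (A := A) hW hV
  have h1 : ∀ z, z ∈ FF θ r := fun z => hS.mem_of_fixed hA hle fun u _ hu => by
    obtain ⟨c, e⟩ := exists_un hA h hr (mem_GG.2 hu)
    rw [hn c ⟨u, mem_GG.2 hu, e⟩, un_zero, fm_one_iff] at e
    rw [MonoidHom.mem_ker.1 (ker_of hA (GG_le_H hA h hx hr (mem_GG.2 hu)) e), AlgEquiv.one_apply]
  obtain ⟨t, ht, μ, hμ, h2⟩ := h.exists_attr hA
  have := hS.cff hA
  obtain ⟨s, hs⟩ := h.uni
  obtain ⟨s₀, s1, s2⟩ := hS.exists_uni hA hs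
  obtain ⟨P, hP⟩ := hS.under hA le_rfl x
  have h3 := hS.ord_eq hA h.at hs hP
  obtain ⟨c, c0, hc⟩ := schwarz_ps ((hA.gen2 W hW V hV).trans' (by norm_num))
    ((h3 ⟨s₀, s1⟩).trans s2)
  obtain ⟨f, hf⟩ := exists_am (x := θ s₀) (by omega)
  have f1 : coeff 1 f ≠ 0 := by
    rw [← coeff_am, ← hf, Nat.cast_one, ← s2]
    exact HahnSeries.coeff_order_eq_zero.not.2 fun e => by simp [e] at s2
  have f0 : constantCoeff f = 0 := by
    rw [← coeff_zero_eq_constantCoeff_apply, ← coeff_am, ← hf]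
    exact HahnSeries.coeff_eq_zero_of_lt_order (by simp [s2])
  obtain ⟨k, hk⟩ := exists_pow_lt_of_lt_one (div_pos (mul_pos (norm_pos_iff.2 f1) hr) c0) h2
  have h4 := nn_upos (C := C) (μ ^ k)
  have h5 := hc (r / nn C ((μ ^ k : Eˣ) : E)) (div_pos hr h4) (θ.comp (A.K _).val)
    (fun z => mem_MM'.1 ((act_mem h (pow_mem ht k) (by rw [map_pow, dg_pow]; exact hμ.pow k)
      (div_pos hr h4) z).1 (by rw [mul_div_cancel₀ _ h4.ne']; exact h1 _)))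
    (fun z hz => exists_am (by
      rcases mem_Mge.1 hz with e | e
      · simp [e]
      · rwa [h3] at e)) f hf f0
  rw [div_div_eq_mul_div, le_div_iff₀ hr, nn_pow] at h5
  rw [lt_div_iff₀' c0] at hk
  exact absurd h5 (not_le.2 hk)

theorem main (hA : A.Ok) (h : A.CM x θ g) (hx : A.Hyp x) :
    ∃ (r : ℝ) (n : ℤ), 0 < r ∧ GG A θ r = A.Nn g n ∧ FF θ r = A.Ln g n ∧
      ∀ c, nn C c ≤ nn C (A.ϖ : E) ^ n → c ∈ II A θ g r := by
  obtain ⟨W, hW⟩ := Gn.exists_W hA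
  have hS := AT.lv_U (A := A) hW (ll_Vx hA.lf g)
  obtain ⟨r, hr, h1⟩ := exists_small hA h hS
  obtain ⟨h1, h2⟩ := h1 r hr le_rfl
  obtain ⟨c, hc, c0⟩ := II_ne hA h hx hr hW (ll_Vx hA.lf g) h1
  obtain ⟨M, hM⟩ := II_bdd hA h hr
  obtain ⟨n, ⟨d, hd, hn⟩, h3⟩ := Int.exists_least_of_bdd
    (P := fun n => ∃ d ∈ II A θ g r, nn C d = nn C (A.ϖ : E) ^ n)
    ⟨M, fun n ⟨d, hd, e⟩ => (zpow_le_zpow_iff_right_of_lt_one₀ (nn_upos A.ϖ) (nn_pi_lt hA.lf)).1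
      (e ▸ hM d hd)⟩ ((exists_zpow hA.lf c0).imp fun n e => ⟨c, hc, e⟩)
  have h4 : ∀ c, nn C c ≤ nn C (A.ϖ : E) ^ n → c ∈ II A θ g r := fun c e =>
    II_ideal hA h hx hr hS h2 hd (hn ▸ e)
  have h5 : GG A θ r = A.Nn g n := by
    refine le_antisymm (fun u hu => ?_) fun γ hγ => ?_
    · obtain ⟨c, e⟩ := exists_un hA h hr hu
      refine (mem_Nn hA).2 ⟨GG_le_H hA h hx hr hu, c, ?_, e⟩
      by_cases c0 : c = 0
      · rw [c0, nn, map_zero, norm_zero]; exact (zpow_pos (nn_upos _) n).le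
      obtain ⟨m, hm⟩ := exists_zpow hA.lf c0
      exact hm ▸ pi_anti hA.lf (h3 m ⟨c, ⟨u, hu, e⟩, hm⟩)
    · obtain ⟨a, c, b, e⟩ := (mem_Nn hA).1 hγ
      obtain ⟨u, hu, e'⟩ := h4 c b
      rw [mem_GG, act_eq hA a (GG_le_H hA h hx hr hu) e e']
      exact mem_GG.1 hu
  refine ⟨r, n, hr, h5, le_antisymm (fun z hz => A.mem_K.2 fun γ hγ => ?_) fun z hz => ?_, h4⟩
  · exact mem_GG.1 (h5 ▸ hγ) z hz
  · exact hS.mem_of_fixed hA h1 fun u _ hu => A.mem_K.1 hz u (h5 ▸ mem_GG.2 hu)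

theorem exists_H (hA : A.Ok) (h : A.CM x θ g) (hx : A.Hyp x) (c : E) :
    ∃ γ ∈ A.H, A.π γ = g * un c * g⁻¹ := by
  obtain ⟨r, n, hr, -, -, h1⟩ := main hA h hx
  obtain ⟨t, ht, μ, hμ, h2⟩ := h.exists_attr hA
  obtain ⟨k, hk⟩ := exists_pow_lt_of_lt_one
    (div_pos (zpow_pos (nn_upos (C := C) A.ϖ) n) (show 0 < nn C c + 1 by positivity)) h2
  obtain ⟨u, hu, e⟩ := h1 ((μ ^ k : Eˣ) * c) (by
    rw [nn_mul, nn_pow]
    rw [lt_div_iff₀ (by positivity)] at hk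
    exact (mul_le_mul_of_nonneg_left (le_add_of_nonneg_right zero_le_one) (by positivity)).trans
      hk.le)
  have h3 := fm_conj (t := (t ^ k)⁻¹) (μ := (μ ^ k)⁻¹)
    (by rw [map_inv, map_pow, dg_inv, dg_pow]; exact (hμ.pow k).inv) e
  rw [dg_un, Units.inv_mul_cancel_left] at h3
  obtain ⟨d, hd⟩ := fm_iff.1 h3
  obtain ⟨z, hz, e'⟩ := hA.sc _ (sc_mem d)
  exact ⟨_, mul_mem (Gn.H_conj' hA (GG_le_H hA h hx hr hu) _) (inv_mem (Gn.ker_le_H hA hz)), by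
    rw [map_mul, hd, map_inv, e', mul_inv_cancel_right]⟩

end Sr

/-- **SRN** -/
theorem srn (hA : A.Ok) : A.SRN := fun x θ g h hx => ⟨Sr.exists_H hA h hx, by
  obtain ⟨r, n, hr, -, h1, -⟩ := Sr.main hA h hx
  exact ⟨r, n, hr, fun z => by rw [mr_iff, ← h1, Sr.mem_FF]⟩⟩

end Vale.Agent.P022K.FI
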