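import Vale.Agent.P022K.FI.St
import Vale.Agent.P022K.FI.Cnt
import Vale.Agent.P027M.G.Sp3

/-!
# P022K, block FI: the rows which join the abstract tower and the count
-/

set_option autoImplicit false
set_option linter.unusedSectionVars false

open PowerSeries Vale.Agent.P019P P025H746 Module Function
open scoped MatrixGroups LaurentSeries

noncomputable section

namespace Vale.Agent.P022K.FI

open Vale.Agent.P022K.Sh

/-- **SPB**: the points of a disc specialise to its branch -/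
def SPB (C : Type) [NontriviallyNormedField C] [IsUltrametricDist C] [CompleteSpace C]
    [IsAlgClosed C] [CharZero C] : Prop :=
  GF C → ∀ (K : Type) [Field K] [Algebra C K] [CFF C K] (ε : K →ₐ[C] C⸨X⸩) (j : C → Plk C K)
    (η : NV C K) [CFF (kC C) (kap η)] (z : Plk (kC C) (kap η))
    (s : Plk C K → Plk (kC C) (kap η)), Dsc ε j → Gs ε η → Brn ε η z → P027M.Gs.IsSp η s →
    ∀ a, ‖a‖ < 1 → s (j a) = z

/-- the conclusion of the count of the periodic points of `φ` -/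
def CntP (k : Type) [Field k] (q : ℕ) {P : Type} (φ : P → P) (I : Type) (N : ℕ) : Prop :=
  ∀ (E : Type) (κ : E → Type) [∀ c, Field (κ c)] [∀ c, Algebra k (κ c)] [∀ c, CFF k (κ c)]
    (ψ : E → E) (F : ∀ c, κ (ψ c) →ₐ[k] κ c), (∀ c, Pw (F c) q) → ∀ pt : P → E, Surjective pt →
    (∀ x, pt (φ x) = ψ (pt x)) → ∀ pl : ∀ c, P → Plk k (κ c),
    (∀ x y, y ∈ (pl (ψ (pt x)) (φ x)).1 ↔ F (pt x) y ∈ (pl (pt x) x).1) →
    (∀ x x', pt x = pt x' → pl (pt x) x = pl (pt x) x' → x = x') → (∀ c, (Exc pt pl c).Finite) →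
    ∀ cp : E → I, Surjective cp → Bijective cp ∧ N ≤ ∑ᶠ c, gen k (κ c)

section tower

variable {C L Γ O E : Type} [NontriviallyNormedField C] [IsUltrametricDist C] [CompleteSpace C]
  [IsAlgClosed C] [CharZero C] [Field L] [Algebra C L] [Group Γ] [CommRing O] [IsDomain O]
  [IsDiscreteValuationRing O] [Field E] [Algebra O E] [Algebra E C]

/-- a finite union of curves `K (S c)` with its ordinary points `P`; `Rp y Y` says that the place
`Y` lies over `y` -/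
structure Fam (A : AT C L Γ O E) (P I : Type) where
  S : I → Subgroup Γ
  fr : I → GL (Fin 2) E
  cp : P → I
  φ : P → P
  Rp : P → Plk C L → Prop

/-- the axioms of a family -/
structure Fam.Ok {A : AT C L Γ O E} {P I : Type} (F : Fam A P I) : Prop where
  vt : ∀ c, ∃ W ∈ A.Wl, F.S c = A.U W (Vx O (F.fr c))
  sur : Surjective F.cp
  ex : ∀ y, ∃ Y, F.Rp y Y
  cnj : ∀ y Y Y', F.Rp y Y → (F.Rp y Y' ↔ ∃ s ∈ F.S (F.cp y), Y' = A.sm s Y)
  inj : ∀ y y' Y, F.cp y = F.cp y' → F.Rp y Y → F.Rp y' Y → y = y'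
  cm : ∀ y Y, F.Rp y Y → A.Hyp Y ∧ ∃ θ g, A.CM Y θ g ∧ (F.fr (F.cp y))⁻¹ * g ∈ KZ O E
  pt : ∀ c Y θ g, A.Hyp Y → A.CM Y θ g → (F.fr c)⁻¹ * g ∈ KZ O E → ∃ y, F.cp y = c ∧ F.Rp y Y
  st : ∀ c g, (F.fr c)⁻¹ * g ∈ KZ O E → ∃ c' γ, ∃ W ∈ A.Wl, F.S c = A.U W (Vx O g) ∧
    F.S c' = cj γ (A.U W (Vx O (g * dg A.ϖ⁻¹))) ∧
    (F.fr c')⁻¹ * (A.π γ * (g * dg A.ϖ⁻¹)) ∈ KZ O E ∧
    ∀ y Y θ, F.cp y = c → F.Rp y Y → A.CM Y θ g → F.cp (F.φ y) = c' ∧ F.Rp (F.φ y) (A.sm γ Y)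

/-- **ASM**: the count gives good reduction on the curves of a family -/
def AT.ASM (A : AT C L Γ O E) : Prop := ∀ D : LTD C O E, D.Ok A.ϖ → ∀ (P I : Type) [Finite I]
  (F : Fam A P I), F.Ok → ∀ [∀ c, CFF C (A.K (F.S c))] (N : ℕ), CntP (kC C) (qq O) F.φ I N →
  ∑ᶠ c, gen C (A.K (F.S c)) ≤ N → ∀ c ν g, A.Ord D ν g → (F.fr c)⁻¹ * g ∈ KZ O E →
    ∀ [CFF (kC C) (kap (ν.comap (A.K (F.S c))))],
      gen C (A.K (F.S c)) ≤ gen (kC C) (kap (ν.comap (A.K (F.S c))))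

end tower

end Vale.Agent.P022K.FI
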