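import Mathlib.Combinatorics.SimpleGraph.Acyclic
import Mathlib.GroupTheory.GroupAction.Quotient
import Mathlib.Data.Set.Card.Arithmetic
import Mathlib.Tactic

/-! P022K, curve side: counting fixed points of cyclic correspondences on a tree (helper57). -/

set_option linter.all false

namespace Vale.Agent.P022K.FI

/-- `d` is the distance function of a tree in which every vertex has `q + 1` neighbours -/
structure TreeD {V : Type*} (d : V → V → ℕ) (q : ℕ) : Prop where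
  zero : ∀ u v, d u v = 0 ↔ u = v
  symm : ∀ u v, d u v = d v u
  adj : ∀ u v y, d u v = 1 → d v y = d u y + 1 ∨ d u y = d v y + 1
  step : ∀ u y, u ≠ y → ∃! a, d u a = 1 ∧ d a y + 1 = d u y
  deg : ∀ u, {a | d u a = 1}.ncard = q + 1

theorem treeD_of_isTree {V : Type*} {G : SimpleGraph V} (h : G.IsTree) {q : ℕ}
    (hq : ∀ u, (G.neighborSet u).ncard = q + 1) : TreeD G.dist q := by
  classical
  refine ⟨fun u v => h.connected.dist_eq_zero_iff, fun u v => G.dist_comm, fun u v y a => ?_,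
    fun u y n => ?_, fun u => ?_⟩
  · rw [G.dist_comm (u := v), G.dist_comm (u := u)]
    exact (h.dist_eq_dist_add_one_of_adj y (G.dist_eq_one_iff_adj.1 a)).symm
  · have k : ∀ a, G.dist u a = 1 ∧ G.dist a y + 1 = G.dist u y →
        ∀ p : G.Walk u y, p.IsPath → a = p.snd := fun a ⟨a1, a2⟩ p hp => by
      obtain ⟨w, hw⟩ := (h.connected a y).exists_walk_length_eq_dist
      have := h.isAcyclic.path_unique ⟨p, hp⟩ ⟨.cons (G.dist_eq_one_iff_adj.1 a1) w,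
        SimpleGraph.Walk.isPath_of_length_eq_dist _ (by rw [SimpleGraph.Walk.length_cons, hw, a2])⟩
      rw [show p = _ from congrArg Subtype.val this]
      simp
    obtain ⟨p, hp, hl⟩ := (h.connected u y).exists_path_of_dist
    refine existsUnique_of_exists_of_unique ?_ fun a b ha hb => (k a ha p hp).trans (k b hb p hp).symm
    cases p with
    | nil => exact absurd rfl n
    | cons a w =>
      refine ⟨_, G.dist_eq_one_iff_adj.2 a, le_antisymm ?_ ?_⟩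
      · rw [← hl]
        exact Nat.succ_le_succ (G.dist_le w)
      · have := h.connected.dist_triangle (u := u) (v := _) (w := y) |>.trans_eq
          (congrArg (· + _) (G.dist_eq_one_iff_adj.2 a))
        omega
  · simp only [G.dist_eq_one_iff_adj]
    exact hq u

namespace TreeD

variable {V : Type*} {d : V → V → ℕ} {q : ℕ} (T : TreeD d q)
include T

theorem tri (u y z : V) : d u z ≤ d u y + d y z := by
  induction h : d u y generalizing u with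
  | zero => rw [(T.zero _ _).1 h, zero_add]
  | succ n ih =>
    obtain ⟨a, ⟨a1, a2⟩, -⟩ := T.step u y fun e => by simp [(T.zero _ _).2 e] at h
    have := ih a (by omega)
    have := T.adj u a z a1
    omega

theorem uniq {u y a b : V} (a1 : d u a = 1) (a2 : d a y < d u y) (b1 : d u b = 1)
    (b2 : d b y < d u y) : a = b := by
  have := T.adj u a y a1
  have := T.adj u b y b1
  exact (T.step u y fun e => by simp [(T.zero _ _).2 e] at a2).unique ⟨a1, by omega⟩ ⟨b1, by omega⟩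

/-- two geodesics from `v` with different first steps form a geodesic -/
theorem add_iff (v y z : V) :
    d y z = d v y + d v z ↔ ∀ a, d v a = 1 → d a y < d v y → ¬ d a z < d v z := by
  refine ⟨fun h a _ a1 a2 => ?_, ?_⟩
  · have := T.tri y a z
    have := T.symm y a
    omega
  induction h : d v y generalizing v with
  | zero => exact fun _ => by rw [(T.zero _ _).1 h, zero_add]
  | succ n ih =>
    intro k
    obtain ⟨a, ⟨a1, a2⟩, -⟩ := T.step v y fun e => by simp [(T.zero _ _).2 e] at h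
    have := k a a1 (by omega)
    have := T.adj v a z a1
    have := ih a (by omega) fun b b1 b2 b3 => by
      rw [T.uniq b1 b3 ((T.symm _ _).trans a1) (by omega)] at b2
      omega
    omega

variable {g : Equiv.Perm V} (hg : ∀ u v, d (g u) (g v) = d u v)
include hg

theorem inv_eq (u v : V) : d u (g⁻¹ v) = d (g u) v := by
  rw [← hg]
  simp

theorem out_iff {u v : V} (h : d v u = 1) (h0 : g v ≠ v) : d u (g u) = d v (g v) + 2 ↔
    ¬ d u (g v) < d v (g v) ∧ ¬ d u (g⁻¹ v) < d v (g⁻¹ v) := by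
  have e1 := T.adj v u (g v) h
  have e2 := T.adj (g v) (g u) u ((hg _ _).trans h)
  have e3 := T.adj v u (g u) h
  have e4 := T.adj (g v) (g u) v ((hg _ _).trans h)
  have := T.symm u (g u)
  have := T.symm u (g v)
  have := T.symm v (g u)
  have := T.symm v (g v)
  rw [T.inv_eq hg, T.inv_eq hg]
  refine ⟨fun k => by omega, fun k => by_contra fun n => ?_⟩
  obtain ⟨b, ⟨b1, b2⟩, -⟩ := T.step (g v) v h0
  have := T.tri b v u
  rw [← T.uniq (y := u) b1 (by omega) ((hg _ _).trans h) (by omega)] at k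
  omega

theorem back {u v : V} (h : d u v = 1) (h0 : g (g u) ≠ u) (h1 : d v (g u) < d u (g u))
    (h2 : d v (g⁻¹ u) < d u (g⁻¹ u)) : d u (g u) = d v (g v) + 2 := by
  rw [T.inv_eq hg, T.inv_eq hg] at h2
  obtain ⟨c, ⟨c1, c2⟩, -⟩ := T.step (g u) v fun e => by
    subst e
    have := T.symm (g u) u
    exact h0 ((T.zero _ _).1 (by omega))
  have := T.tri c v u
  have := T.symm v u
  have := T.symm u (g u)
  have := T.symm v (g u)
  have := T.adj u v (g u) h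
  rw [T.uniq (y := u) c1 (by omega) ((hg _ _).trans h) h2, T.symm (g v)] at c2
  omega

end TreeD

section orb

variable {Γ Ω Ω' : Type*} [Group Γ] [MulAction Γ Ω] [MulAction Γ Ω']

/-- the set of orbits which meet `S` -/
def orbs (Γ : Type*) [Group Γ] [MulAction Γ Ω] (S : Set Ω) : Set (MulAction.orbitRel.Quotient Γ Ω) :=
  Quotient.mk _ '' S

theorem orbs_mk {a b : Ω} : (Quotient.mk (MulAction.orbitRel Γ Ω) a = Quotient.mk _ b) ↔
    ∃ g : Γ, g • b = a := Quotient.eq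

theorem orbs_fib {S : Set Ω} {S' : Set Ω'} {R : Ω → Ω' → Prop} {c : ℕ}
    (hS : ∀ (g : Γ), ∀ a ∈ S, g • a ∈ S)
    (hS' : ∀ (g : Γ), ∀ a ∈ S', g • a ∈ S') (hR : ∀ (g : Γ) a b, R a b → R (g • a) (g • b))
    (fr : ∀ (g : Γ), ∀ b ∈ S', g • b = b → ∀ a ∈ S, R a b → g • a = a)
    (h1 : ∀ a ∈ S, ∃! b, b ∈ S' ∧ R a b)
    (h2 : ∀ b ∈ S', {a | a ∈ S ∧ R a b}.Finite ∧ {a | a ∈ S ∧ R a b}.ncard = c)
    (fin : (orbs Γ S').Finite) : (orbs Γ S).Finite ∧ (orbs Γ S).ncard = c * (orbs Γ S').ncard := by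
  classical
  have := fin.fintype
  have m : ∀ b : orbs Γ S', b.1.out ∈ S' := by
    rintro ⟨_, b, hb, rfl⟩
    obtain ⟨g, e⟩ := (orbs_mk (Γ := Γ)).1 (Quotient.out_eq (Quotient.mk _ b))
    exact e ▸ hS' g b hb
  have : ∀ b : orbs Γ S', Finite {a | a ∈ S ∧ R a b.1.out} := fun b => (h2 _ (m b)).1
  have bj : Function.Bijective fun z : Σ b : orbs Γ S', {a | a ∈ S ∧ R a b.1.out} =>
      (⟨Quotient.mk _ z.2.1, _, z.2.2.1, rfl⟩ : orbs Γ S) := by
    refine ⟨?_, ?_⟩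
    · rintro ⟨b, a, a1, a2⟩ ⟨b', a', a3, a4⟩ e
      obtain ⟨g, rfl⟩ := (orbs_mk (Γ := Γ)).1 (congrArg Subtype.val e)
      have e1 := (h1 _ a1).unique ⟨m b, a2⟩ ⟨hS' g _ (m b'), hR g _ _ a4⟩
      obtain rfl : b = b' := Subtype.ext (by
        rw [← Quotient.out_eq b.1, ← Quotient.out_eq b'.1]
        exact orbs_mk.2 ⟨g, e1.symm⟩)
      simp [fr g _ (m b) e1.symm a' a3 a4]
    · rintro ⟨_, a, a1, rfl⟩
      obtain ⟨b, ⟨b1, b2⟩, -⟩ := h1 a a1
      obtain ⟨g, e⟩ := (orbs_mk (Γ := Γ)).1 (Quotient.out_eq (Quotient.mk _ b))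
      exact ⟨⟨⟨_, b, b1, rfl⟩, g • a, hS g a a1, e ▸ hR g _ _ b2⟩, Subtype.ext (orbs_mk.2 ⟨g, rfl⟩)⟩
  refine ⟨Finite.of_surjective _ bj.2, ?_⟩
  rw [← Nat.card_coe_set_eq, ← Nat.card_eq_of_bijective _ bj, Nat.card_sigma,
    Finset.sum_congr rfl fun b _ => (Nat.card_coe_set_eq _).trans (h2 _ (m b)).2,
    Finset.sum_const, smul_eq_mul, mul_comm, Finset.card_univ, ← Nat.card_eq_fintype_card,
    Nat.card_coe_set_eq]

theorem orbs_split {S : Set Ω} (P : Ω → Prop) (hP : ∀ (g : Γ) a, P a → P (g • a))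
    (fin : (orbs Γ S).Finite) :
    (orbs Γ S).ncard = (orbs Γ {a ∈ S | P a}).ncard + (orbs Γ {a ∈ S | ¬ P a}).ncard := by
  unfold orbs at *
  rw [← Set.ncard_union_eq _ (fin.subset (Set.image_mono (Set.sep_subset _ _)))
    (fin.subset (Set.image_mono (Set.sep_subset _ _))), ← Set.image_union, ← Set.sep_or,
    Set.sep_eq_self_iff_mem_true.2 fun a _ => em (P a)]
  rw [Set.disjoint_left]
  rintro _ ⟨a, a1, rfl⟩ ⟨b, b1, e⟩
  obtain ⟨g, rfl⟩ := orbs_mk.1 e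
  exact b1.2 (hP g a a1.2)

end orb

/-- orbits over a transitive set are orbits of the stabiliser -/
theorem orbs_prod {Γ X Y : Type*} [Group Γ] [MulAction Γ X] [MulAction Γ Y] {S : Set (X × Y)}
    (hS : ∀ (g : Γ), ∀ a ∈ S, g • a ∈ S) (y : Y) (tr : ∀ a ∈ S, ∃ g : Γ, g • a.2 = y) :
    Nonempty (orbs (MulAction.stabilizer Γ y) {x | (x, y) ∈ S} ≃ orbs Γ S) := by
  refine ⟨Equiv.ofBijective (fun z => ⟨Quotient.mk _ (z.1.out, y), _, ?_, rfl⟩) ⟨?_, ?_⟩⟩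
  · obtain ⟨_, x, hx, rfl⟩ := z
    obtain ⟨g, e⟩ := (orbs_mk (Γ := MulAction.stabilizer Γ y)).1 (Quotient.out_eq (Quotient.mk _ x))
    exact Set.mem_of_eq_of_mem (Prod.ext e.symm g.2.symm) (hS g _ hx)
  · intro z z' e
    obtain ⟨g, e⟩ := (orbs_mk (Γ := Γ)).1 (congrArg Subtype.val e)
    refine Subtype.ext ?_
    rw [← Quotient.out_eq z.1, ← Quotient.out_eq z'.1]
    exact orbs_mk.2 ⟨⟨g, congrArg Prod.snd e⟩, congrArg Prod.fst e⟩
  · rintro ⟨_, a, m, rfl⟩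
    obtain ⟨g, rfl⟩ := tr a m
    obtain ⟨k, e⟩ := (orbs_mk (Γ := MulAction.stabilizer Γ (g • a.2))).1
      (Quotient.out_eq (Quotient.mk _ (g • a.1)))
    exact ⟨⟨_, g • a.1, hS g a m, rfl⟩, Subtype.ext (orbs_mk.2 ⟨k * g, Prod.ext
      ((mul_smul _ _ _).trans e) ((mul_smul _ _ _).trans k.2)⟩)⟩

variable {Γ X V : Type*} [Group Γ] [MulAction Γ X] [MulAction Γ V]

/-- the permutation of the vertices given by a group element -/
abbrev im (V : Type*) [MulAction Γ V] : Γ →* (MulAction.toPermHom Γ V).range :=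
  (MulAction.toPermHom Γ V).rangeRestrict

/-- a point, a vertex and a permutation of the vertices -/
@[ext] structure Trp (Γ X V : Type*) [Group Γ] [MulAction Γ V] where
  x : X
  v : V
  g : (MulAction.toPermHom Γ V).range

instance : MulAction Γ (Trp Γ X V) where
  smul h t := ⟨h • t.x, im V h • t.v, im V h * t.g * (im V h)⁻¹⟩
  one_smul t := Trp.ext (one_smul _ _) (one_smul Γ _) (show im V 1 * _ * (im V 1)⁻¹ = _ by simp)
  mul_smul a b t := Trp.ext (mul_smul _ _ _) (mul_smul a b _)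
    (show im V (a * b) * _ * (im V (a * b))⁻¹ = im V a * (im V b * _ * (im V b)⁻¹) * (im V a)⁻¹ by
      rw [map_mul]; group)

theorem Trp.smul_v (h : Γ) (t : Trp Γ X V) : (h • t).v = im V h • t.v := rfl
theorem Trp.smul_g (h : Γ) (t : Trp Γ X V) : (h • t).g = im V h * t.g * (im V h)⁻¹ := rfl

/-- fixed points of the cyclic correspondence of length `n` -/
def FixT (Γ X : Type*) [Group Γ] [MulAction Γ X] [MulAction Γ V] (d : V → V → ℕ) (n : ℕ) :
    Set (Trp Γ X V) := {t | (∃ g : Γ, g • t.x = t.x ∧ im V g = t.g) ∧ d t.v (t.g • t.v) = n}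

/-- the vertex lies on the axis -/
def Trp.On (d : V → V → ℕ) (t : Trp Γ X V) : Prop :=
  d (t.g⁻¹ • t.v) (t.g • t.v) = 2 * d t.v (t.g • t.v)

/-- fixed points of the cyclic correspondence of length `n`: a point and two vertices -/
def FixP (Γ X : Type*) [Group Γ] [MulAction Γ X] [MulAction Γ V] (d : V → V → ℕ) (n : ℕ) :
    Set (X × V × V) := {p | ∃ g : Γ, g • p.1 = p.1 ∧ g • p.2.1 = p.2.2 ∧ d p.2.1 p.2.2 = n}

/-- the fixed points whose vertices lie on the axis -/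
def OnP (Γ X : Type*) [Group Γ] [MulAction Γ X] [MulAction Γ V] (d : V → V → ℕ) (n : ℕ) :
    Set (X × V × V) := {p | ∃ g : Γ, g • p.1 = p.1 ∧ g • p.2.1 = p.2.2 ∧ d p.2.1 p.2.2 = n ∧
      d (g⁻¹ • p.2.1) p.2.2 = 2 * n}

section count

variable {d : V → V → ℕ} {q : ℕ} (T : TreeD d q)
  (hd : ∀ (g : (MulAction.toPermHom Γ V).range) u v, d (g • u) (g • v) = d u v)
include hd

theorem fixT_smul {n : ℕ} (h : Γ) (t : Trp Γ X V) (m : t ∈ FixT Γ X d n) : h • t ∈ FixT Γ X d n :=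
  ⟨m.1.elim fun g k => ⟨h * g * h⁻¹, show _ • h • t.x = h • t.x by simp [mul_smul, k.1],
    by simp [Trp.smul_g, k.2]⟩, by simp only [Trp.smul_v, Trp.smul_g, mul_smul, inv_smul_smul, hd, m.2]⟩

theorem on_smul (h : Γ) (t : Trp Γ X V) : (h • t).On d ↔ t.On d := by
  simp only [Trp.On, Trp.smul_v, Trp.smul_g, mul_smul, hd, mul_inv_rev, inv_inv, inv_smul_smul]

include T

theorem on_iff (t : Trp Γ X V) : t.On d ↔ ∀ a, d t.v a = 1 → d a (t.g • t.v) < d t.v (t.g • t.v) →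
    ¬ d a (t.g⁻¹ • t.v) < d t.v (t.g⁻¹ • t.v) := by
  rw [← T.add_iff, Trp.On, T.symm, two_mul, ← hd t.g t.v (t.g⁻¹ • t.v), smul_inv_smul,
    T.symm (t.g • t.v) t.v]

variable (fr : ∀ (g : Γ) (x : X) (v : V), g • x = x → g • g • v = v → im V g = 1)
include fr

theorem off_back {n : ℕ} (hn : n ≠ 0) {t : Trp Γ X V} (m : t ∈ FixT Γ X d n) (k : ¬ t.On d) :
    ∃ a, d t.v a = 1 ∧ d a (t.g • a) + 2 = n ∧ d a (t.g • a) ≠ 0 := by
  have g1 : t.g ≠ 1 := fun e => hn (by rw [← m.2, e, one_smul, T.zero])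
  rw [on_iff T hd] at k
  push Not at k
  obtain ⟨a, a1, a2, a3⟩ := k
  obtain ⟨g, g2, g3⟩ := m.1
  have f : ∀ v, t.g • t.g • v ≠ v := fun v e => g1 (g3 ▸ fr g _ v g2 (by rw [← g3] at e; exact e))
  exact ⟨a, a1, (T.back (g := MulAction.toPerm t.g) (hd _) a1 (f _) a2
    a3).symm.trans m.2, fun e => f a (by rw [← (T.zero _ _).1 e, ← (T.zero _ _).1 e])⟩

theorem on_small {n : ℕ} (h0 : n ≠ 0) (h2 : n ≤ 2) : {t ∈ FixT Γ X d n | t.On d} = FixT Γ X d n :=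
  Set.sep_eq_self_iff_mem_true.2 fun t m => by_contra fun k => by
    obtain ⟨a, -, a1, a2⟩ := off_back T hd fr h0 m k
    omega

theorem tree_countT {n : ℕ} (hn : n ≠ 0) (f0 : (orbs Γ (FixT Γ X d n)).Finite)
    (f2 : (orbs Γ (FixT Γ X d (n + 2))).Finite) :
    (orbs Γ (FixT Γ X d (n + 2))).ncard + (orbs Γ {t ∈ FixT Γ X d n | t.On d}).ncard =
      q * (orbs Γ (FixT Γ X d n)).ncard + (orbs Γ {t ∈ FixT Γ X d (n + 2) | t.On d}).ncard := by
  let R : Trp Γ X V → Trp Γ X V → Prop := fun a b => a.x = b.x ∧ a.g = b.g ∧ d b.v a.v = 1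
  have hR : ∀ (g : Γ) a b, R a b → R (g • a) (g • b) := fun g a b k =>
    ⟨congrArg (g • ·) k.1, congrArg (im V g * · * (im V g)⁻¹) k.2.1, (hd _ _ _).trans k.2.2⟩
  have oi : ∀ b ∈ FixT Γ X d n, ∀ u, d b.v u = 1 → (d u (b.g • u) = n + 2 ↔
      ¬ d u (b.g • b.v) < n ∧ ¬ d u (b.g⁻¹ • b.v) < n) := fun b m u k => by
    have := T.out_iff (g := MulAction.toPerm b.g) (hd _) k fun e => hn (by
      rw [← m.2, T.zero]; exact e.symm)
    rw [T.inv_eq (g := MulAction.toPerm b.g) (hd _) b.v, T.symm _ b.v] at this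
    exact m.2 ▸ this
  have ex : ∀ a ∈ FixT Γ X d (n + 2), ∀ b ∈ FixT Γ X d n, R a b →
      d b.v (a.g • a.v) < n + 2 ∧ d b.v (a.g⁻¹ • a.v) < n + 2 := fun a m b m' k => by
    have := T.tri b.v (b.g • b.v) (b.g • a.v)
    have := T.tri b.v (b.g⁻¹ • b.v) (b.g⁻¹ • a.v)
    have := hd b.g b.v (b.g⁻¹ • b.v)
    rw [smul_inv_smul, T.symm] at this
    rw [hd, k.2.2] at *
    have := m'.2
    rw [k.2.1]
    omega
  let S := {a ∈ FixT Γ X d (n + 2) | ¬ a.On d}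
  let P : Trp Γ X V → Prop := fun a => ∃ b ∈ FixT Γ X d n, b.On d ∧ R a b
  have hP : ∀ (g : Γ) a, P a → P (g • a) := fun g a ⟨b, b1, b2, b3⟩ =>
    ⟨g • b, fixT_smul hd g b b1, (on_smul hd g b).2 b2, hR g a b b3⟩
  have hP' : ∀ (g : Γ) a, ¬ P a → ¬ P (g • a) := fun g a k k' =>
    k (inv_smul_smul g a ▸ hP g⁻¹ _ k')
  have hS : ∀ (g : Γ), ∀ a ∈ S, g • a ∈ S := fun g a m =>
    ⟨fixT_smul hd g a m.1, mt (on_smul hd g a).1 m.2⟩
  have u1 : ∀ a ∈ S, ∃! b, b ∈ FixT Γ X d n ∧ R a b := fun a m => by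
    obtain ⟨v, v1, v2, -⟩ := off_back T hd fr (by omega) m.1 m.2
    refine existsUnique_of_exists_of_unique ⟨⟨a.x, v, a.g⟩, ⟨m.1.1, by
      show d v (a.g • v) = n
      omega⟩, rfl, rfl, (T.symm _ _).trans v1⟩ fun b b' k k' => Trp.ext (k.2.1.symm.trans k'.2.1)
      (T.uniq ((T.symm _ _).trans k.2.2.2) (m.1.2.symm ▸ (ex a m.1 b k.1 k.2).1)
        ((T.symm _ _).trans k'.2.2.2) (m.1.2.symm ▸ (ex a m.1 b' k'.1 k'.2).1))
      (k.2.2.1.symm.trans k'.2.2.1)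
  have frb : ∀ (g : Γ) (b : Trp Γ X V), g • b = b → ∀ a, R a b → g • a = a := fun g b e a k => by
    have e1 := fr g b.x b.v (congrArg Trp.x e) (by
      have : g • b.v = b.v := congrArg Trp.v e
      rw [this, this])
    exact Trp.ext (show g • a.x = a.x by rw [k.1]; exact congrArg Trp.x e)
      (by rw [Trp.smul_v, e1, one_smul])
      (by simp [Trp.smul_g, e1])
  have fb : ∀ b ∈ FixT Γ X d n, ∀ Q : Trp Γ X V → Prop, (∀ a ∈ S, R a b → Q a) →
      {a | a ∈ {a ∈ S | Q a} ∧ R a b}.Finite ∧ ∃ u u', (u = u' ↔ ¬ b.On d) ∧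
        {a | a ∈ {a ∈ S | Q a} ∧ R a b}.ncard + ({u, u'} : Set V).ncard = q + 1 := by
    intro b m Q hQ
    have e0 : d b.v (b.g⁻¹ • b.v) = n := by rw [← hd b.g, smul_inv_smul, T.symm, m.2]
    obtain ⟨u, ⟨a1, a2⟩, -⟩ := T.step b.v (b.g • b.v) fun e => hn (by rw [← m.2, T.zero]; exact e)
    obtain ⟨u', ⟨a3, a4⟩, -⟩ := T.step b.v (b.g⁻¹ • b.v) fun e => hn (by
      rw [← e0, T.zero]; exact e)
    have e2 := m.2
    have fin : {a | d b.v a = 1}.Finite := Set.finite_of_ncard_ne_zero (by rw [T.deg]; omega)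
    have e1 : {a | a ∈ {a ∈ S | Q a} ∧ R a b} =
        (fun v => ⟨b.x, v, b.g⟩) '' ({a | d b.v a = 1} \ {u, u'}) := by
      ext ⟨x, v, g⟩
      constructor
      · rintro ⟨⟨⟨k, -⟩, -⟩, rfl, rfl, k'⟩
        have := (oi b m v k').1 k.2
        refine ⟨v, ⟨k', ?_⟩, rfl⟩
        rintro (rfl | rfl) <;> omega
      · rintro ⟨w, ⟨k, k'⟩, ⟨⟩⟩
        have m' : (⟨b.x, v, b.g⟩ : Trp Γ X V) ∈ FixT Γ X d (n + 2) := ⟨m.1, (oi b m v k).2
          ⟨fun z => k' (.inl (T.uniq k (e2.symm ▸ z) a1 (by omega))),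
            fun z => k' (.inr (T.uniq k (e0.symm ▸ z) a3 (by omega)))⟩⟩
        have := ex _ m' b m ⟨rfl, rfl, k⟩
        have mS : (⟨b.x, v, b.g⟩ : Trp Γ X V) ∈ S := ⟨m', fun z => (on_iff T hd _).1 z b.v
          ((T.symm _ _).trans k) (m'.2.symm ▸ this.1) (by
            have e3 : d v (b.g⁻¹ • v) = n + 2 := by
              rw [← hd b.g v, smul_inv_smul, T.symm _ v]
              exact m'.2
            exact this.2.trans_eq e3.symm)⟩
        exact ⟨⟨mS, hQ _ mS ⟨rfl, rfl, k⟩⟩, rfl, rfl, k⟩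
    rw [e1, Set.ncard_image_of_injective _ fun _ _ e => congrArg Trp.v e]
    refine ⟨fin.diff.image _, u, u', ⟨fun e z => (on_iff T hd b).1 z u a1 (by omega)
      (by rw [e]; omega), fun z => ?_⟩, ?_⟩
    · rw [on_iff T hd] at z
      push Not at z
      obtain ⟨a, z1, z2, z3⟩ := z
      exact (T.uniq a1 (by omega) z1 z2).trans (T.uniq z1 z3 a3 (by omega))
    · rw [Set.ncard_diff_add_ncard_of_subset (by rintro _ (rfl | rfl) <;> assumption) fin, T.deg]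
  have c1 := orbs_fib (S := {a ∈ S | P a}) (S' := {t ∈ FixT Γ X d n | t.On d}) (c := q - 1)
    (fun g a m => ⟨hS g a m.1, hP g a m.2⟩)
    (fun g a m => ⟨fixT_smul hd g a m.1, (on_smul hd g a).2 m.2⟩) hR (fun g b _ e a _ => frb g b e a)
    (fun a ⟨m, b, b1, b2, b3⟩ => ⟨b, ⟨⟨b1, b2⟩, b3⟩, fun b' k =>
      (u1 a m).unique ⟨k.1.1, k.2⟩ ⟨b1, b3⟩⟩) (fun b m => by
      obtain ⟨f, u, u', e, e'⟩ := fb b m.1 P fun a _ k => ⟨b, m.1, m.2, k⟩
      rw [Set.ncard_pair fun z => e.1 z m.2] at e'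
      exact ⟨f, by omega⟩) (f0.subset (Set.image_mono (Set.sep_subset _ _)))
  have c2 := orbs_fib (S := {a ∈ S | ¬ P a}) (S' := {t ∈ FixT Γ X d n | ¬ t.On d}) (c := q)
    (fun g a m => ⟨hS g a m.1, hP' g a m.2⟩)
    (fun g a m => ⟨fixT_smul hd g a m.1, mt (on_smul hd g a).1 m.2⟩) hR (fun g b _ e a _ => frb g b e a)
    (fun a m => by
      obtain ⟨b, b1, b2⟩ := u1 a m.1
      exact ⟨b, ⟨⟨b1.1, fun z => m.2 ⟨b, b1.1, z, b1.2⟩⟩, b1.2⟩, fun b' k => b2 b' ⟨k.1.1, k.2⟩⟩)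
    (fun b m => by
      obtain ⟨f, u, u', e, e'⟩ := fb b m.1 (fun a => ¬ P a) fun a ma k ⟨b', b1, b2, b3⟩ =>
        m.2 ((u1 a ma).unique ⟨b1, b3⟩ ⟨m.1, k⟩ ▸ b2)
      rw [← e.2 m.2, Set.pair_eq_singleton, Set.ncard_singleton] at e'
      exact ⟨f, by omega⟩) (f0.subset (Set.image_mono (Set.sep_subset _ _)))
  have s0 := orbs_split (Trp.On d) (fun g a => (on_smul hd g a).2) f0
  have s2 := orbs_split (Trp.On d) (fun g a => (on_smul hd g a).2) f2
  have s1 := orbs_split (S := S) P hP (f2.subset (Set.image_mono (Set.sep_subset _ _)))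
  rw [s2, show (orbs Γ {a ∈ FixT Γ X d (n + 2) | ¬ Trp.On d a}).ncard = _ from s1, c1.2, c2.2, s0]
  rcases (orbs Γ {t ∈ FixT Γ X d n | t.On d}).eq_empty_or_nonempty with e | ⟨_, b, m, -⟩
  · simp [e, add_comm]
  obtain ⟨-, u, u', e, e'⟩ := fb b m.1 (fun _ => True) fun _ _ _ => trivial
  rw [Set.ncard_pair fun z => e.1 z m.2] at e'
  obtain ⟨r, rfl⟩ : ∃ r, q = r + 1 := ⟨q - 1, by omega⟩
  rw [Nat.add_sub_cancel]
  ring

theorem orbs_pair {S : Set (Trp Γ X V)} {S' : Set (X × V × V)} {n : ℕ} (h0 : S ⊆ FixT Γ X d n)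
    (h0' : S' ⊆ FixP Γ X d n) (hS : ∀ (g : Γ), ∀ a ∈ S, g • a ∈ S)
    (h : ∀ t ∈ FixT Γ X d n, t ∈ S ↔ (t.x, t.v, t.g • t.v) ∈ S') (fin : (orbs Γ S').Finite) :
    (orbs Γ S).Finite ∧ (orbs Γ S).ncard = (orbs Γ S').ncard := by
  have hR : ∀ (g : Γ) (a : Trp Γ X V), ((g • a).x, (g • a).v, (g • a).g • (g • a).v) =
      g • (a.x, a.v, a.g • a.v) := fun g a => Prod.ext rfl (Prod.ext rfl (by
    simp only [Trp.smul_v, Trp.smul_g, mul_smul, inv_smul_smul]; rfl))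
  have ex : ∀ b ∈ S', ∃ a ∈ S, (a.x, a.v, a.g • a.v) = b := fun b m => by
    obtain ⟨g, g1, g2, g3⟩ := h0' m
    have e : (b.1, b.2.1, im V g • b.2.1) = b := Prod.ext rfl (Prod.ext rfl g2)
    exact ⟨⟨b.1, b.2.1, im V g⟩, (h _ ⟨⟨g, g1, rfl⟩, g2 ▸ g3⟩).2 (e.symm ▸ m), e⟩
  have un : ∀ a ∈ S, ∀ a' ∈ S, (a.x, a.v, a.g • a.v) = (a'.x, a'.v, a'.g • a'.v) → a = a' := by
    rintro ⟨x, v, s⟩ m ⟨x', v', s'⟩ m' e
    obtain ⟨g, g1, rfl⟩ := (h0 m).1
    obtain ⟨g', g2, rfl⟩ := (h0 m').1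
    obtain ⟨rfl, rfl, e⟩ := Prod.mk.inj e |>.imp_right Prod.mk.inj
    have e' : (g⁻¹ * g') • v = v := by rw [mul_smul, inv_smul_eq_iff]; exact e.symm
    have := fr (g⁻¹ * g') x v (by rw [mul_smul, inv_smul_eq_iff]; exact g2.trans g1.symm)
      (by rw [e', e'])
    rw [map_mul, map_inv, inv_mul_eq_one] at this
    rw [this]
  have := orbs_fib (Γ := Γ) (R := fun a b => (a.x, a.v, a.g • a.v) = b) (c := 1) hS (fun g b m => by
      obtain ⟨a, a1, rfl⟩ := ex b m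
      exact hR g a ▸ (h _ (h0 (hS g a a1))).1 (hS g a a1))
    (fun g a b e => e ▸ hR g a) (fun g b _ e a m k => un _ (hS g a m) _ m (by rw [hR, k, e]))
    (fun a m => ⟨_, ⟨(h a (h0 m)).1 m, rfl⟩, fun b k => k.2.symm⟩) (fun b m => by
      obtain ⟨a, a1, rfl⟩ := ex b m
      rw [(Set.eq_singleton_iff_unique_mem (s := {a' | a' ∈ S ∧ (a'.x, a'.v, a'.g • a'.v) =
        (a.x, a.v, a.g • a.v)})).2 ⟨⟨a1, rfl⟩, fun a' k => un _ k.1 _ a1 k.2⟩]
      simp) fin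
  rwa [one_mul] at this

theorem on_pair {n : ℕ} (t : Trp Γ X V) (m : t ∈ FixT Γ X d n) :
    t ∈ {t ∈ FixT Γ X d n | t.On d} ↔ (t.x, t.v, t.g • t.v) ∈ OnP Γ X d n := by
  obtain ⟨⟨g, g1, g2⟩, g3⟩ := id m
  have k : ∀ g' : Γ, im V g' = t.g → g'⁻¹ • t.v = t.g⁻¹ • t.v := fun g' e => by
    rw [← e, ← map_inv]; rfl
  refine ⟨fun z => ⟨g, g1, by rw [← g2]; rfl, g3, by rw [k g g2, ← g3]; exact z.2⟩, ?_⟩
  rintro ⟨g', a1, a2, -, a4⟩
  have e' : (g⁻¹ * g') • t.v = t.v := by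
    rw [mul_smul, inv_smul_eq_iff]
    exact a2.trans (by rw [← g2]; rfl)
  have := fr (g⁻¹ * g') t.x t.v (by rw [mul_smul, inv_smul_eq_iff]; exact a1.trans g1.symm)
    (by rw [e', e'])
  rw [map_mul, map_inv, inv_mul_eq_one] at this
  exact ⟨m, by rw [Trp.On, g3, ← k g' (this.symm.trans g2)]; exact a4⟩

end count

section pair

variable {d : V → V → ℕ} {q : ℕ} (T : TreeD d q) (hd : ∀ (g : Γ) u v, d (g • u) (g • v) = d u v)
  (fr : ∀ (g : Γ) (x : X) (v : V), g • x = x → g • g • v = v → ∀ u : V, g • u = u)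

theorem onP_sub {n : ℕ} : OnP Γ X d n ⊆ FixP Γ X d n := fun _ ⟨g, a, b, c, _⟩ => ⟨g, a, b, c⟩

include T hd fr

/-- for lengths one and two all fixed points lie on the axis -/
theorem onP_small {n : ℕ} (h0 : n ≠ 0) (h2 : n ≤ 2) : OnP Γ X d n = FixP Γ X d n := by
  have hd' : ∀ (g : (MulAction.toPermHom Γ V).range) u v, d (g • u) (g • v) = d u v := by
    rintro ⟨_, g, rfl⟩
    exact hd g
  have fr' := fun g x v a b => (Subtype.ext (Equiv.ext (fr g x v a b)) : im V g = 1)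
  refine onP_sub.antisymm ?_
  rintro ⟨x, v, w⟩ ⟨g, a, b, c⟩
  obtain rfl : g • v = w := b
  have m : (⟨x, v, im V g⟩ : Trp Γ X V) ∈ FixT Γ X d n := ⟨⟨g, a, rfl⟩, c⟩
  exact (on_pair T hd' fr' _ m).1 ((on_small T hd' fr' h0 h2).symm ▸ m)

/-- **The tree count.** -/
theorem tree_count {n : ℕ} (hn : n ≠ 0) (f0 : (orbs Γ (FixP Γ X d n)).Finite)
    (f2 : (orbs Γ (FixP Γ X d (n + 2))).Finite) :
    (orbs Γ (FixP Γ X d (n + 2))).ncard + (orbs Γ (OnP Γ X d n)).ncard =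
      q * (orbs Γ (FixP Γ X d n)).ncard + (orbs Γ (OnP Γ X d (n + 2))).ncard := by
  have hd' : ∀ (g : (MulAction.toPermHom Γ V).range) u v, d (g • u) (g • v) = d u v := by
    rintro ⟨_, g, rfl⟩
    exact hd g
  have fr' := fun g x v a b => (Subtype.ext (Equiv.ext (fr g x v a b)) : im V g = 1)
  have k1 := fun n => orbs_pair T hd' fr' (n := n) subset_rfl subset_rfl (fixT_smul hd')
    fun t m => iff_of_true m (m.1.elim fun g k => ⟨g, k.1, by rw [← k.2]; rfl, m.2⟩)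
  have k2 := fun n (f : (orbs Γ (FixP Γ X d n)).Finite) => (orbs_pair T hd' fr' (n := n)
    (Set.sep_subset _ _) onP_sub (fun g a m => ⟨fixT_smul hd' g a m.1, (on_smul hd' g a).2 m.2⟩)
    (on_pair T hd' fr') (f.subset (Set.image_mono onP_sub))).2
  rw [← (k1 _ f0).2, ← (k1 _ f2).2, ← k2 _ f0, ← k2 _ f2]
  exact tree_countT T hd' fr' hn (k1 _ f0).1 (k1 _ f2).1

end pair

end Vale.Agent.P022K.FI
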