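import Vale.Agent.P022K.FI.TreeA
import Vale.Agent.P022K.FI.TreeB

/-! P022K, curve side: sphere operators and Ihara's formula on a tree (helper57). -/

set_option linter.all false

namespace Vale.Agent.P022K.FI

open Vale.Agent.P022K.Ih Module Finset

section sph

variable {V : Type*} {d : V → V → ℕ} {q : ℕ} (T : TreeD d q)
include T

theorem TreeD.fin (n : ℕ) (v : V) : {b | d v b = n}.Finite := by
  have f : ∀ v, {a | d v a = 1}.Finite := fun v =>
    Set.finite_of_ncard_ne_zero (by rw [T.deg]; omega)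
  induction n generalizing v with
  | zero => exact (Set.finite_singleton v).subset fun b k => ((T.zero _ _).1 k).symm
  | succ n ih =>
    refine ((f v).biUnion fun a _ => ih a).subset fun b (k : d v b = _) => ?_
    obtain ⟨a, ⟨a1, a2⟩, -⟩ := T.step v b fun e => by simp [(T.zero _ _).2 e] at k
    exact Set.mem_biUnion a1 (show d a b = n by omega)

/-- the sphere of radius `n` -/
noncomputable def TreeD.S (n : ℕ) (v : V) : Finset V := (T.fin n v).toFinset

theorem TreeD.mem_S {n : ℕ} {v b : V} : b ∈ T.S n v ↔ d v b = n := Set.Finite.mem_toFinset _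

omit T in
/-- summation over spheres -/
noncomputable def TreeD.sph (T : TreeD d q) (R M : Type*) [Semiring R] [AddCommMonoid M] [Module R M] (n : ℕ) :
    End R (V → M) where
  toFun φ v := ∑ b ∈ T.S n v, φ b
  map_add' _ _ := funext fun _ => sum_add_distrib
  map_smul' c φ := funext fun v => (smul_sum (r := c) (f := φ)).symm

theorem TreeD.sph_apply {R M : Type*} [Semiring R] [AddCommMonoid M] [Module R M] (n : ℕ)
    (φ : V → M) (v : V) : T.sph R M n φ v = ∑ b ∈ T.S n v, φ b := rfl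

theorem TreeD.card_one (v : V) : (T.S 1 v).card = q + 1 := by
  rw [← T.deg v, TreeD.S, Set.ncard_eq_toFinset_card _ (T.fin 1 v)]

theorem TreeD.sum_sum {M : Type*} [AddCommMonoid M] (φ : V → M) (n : ℕ) (v : V) :
    ∑ a ∈ T.S 1 v, ∑ b ∈ T.S (n + 1) a, φ b =
      ∑ b ∈ T.S (n + 2) v, φ b + (if n = 0 then q + 1 else q) • ∑ b ∈ T.S n v, φ b := by
  classical
  rw [sum_comm' (t' := T.S (n + 2) v ∪ T.S n v)
    (s' := fun b => (T.S 1 v).filter fun a => d a b = n + 1) fun a b => by
      simp only [mem_union, mem_filter, T.mem_S]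
      exact ⟨fun k => ⟨k, by have := T.adj v a b k.1; omega⟩, fun k => k.1⟩,
    sum_union (disjoint_left.2 fun b k k' => by rw [T.mem_S] at k k'; omega), smul_sum]
  have st : ∀ b, v ≠ b → ((T.S 1 v).filter fun a => d a b + 1 = d v b).card = 1 := fun b n => by
    obtain ⟨a, a1, a2⟩ := T.step v b n
    exact card_eq_one.2 ⟨a, eq_singleton_iff_unique_mem.2 ⟨by simpa [T.mem_S] using a1,
      fun x k => a2 x (by simpa [T.mem_S] using k)⟩⟩
  congr 1 <;> refine sum_congr rfl fun b k => ?_ <;> rw [T.mem_S] at k <;> rw [sum_const]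
  · rw [filter_congr (q := fun a => d a b + 1 = d v b) fun a _ => by omega,
      st b fun e => by simp [(T.zero _ _).2 e] at k, one_smul]
  congr 1
  have := card_filter_add_card_filter_not (s := T.S 1 v) fun a => d a b = n + 1
  rw [T.card_one, filter_congr (p := fun a => ¬ d a b = n + 1) (q := fun a => d a b + 1 = d v b)
    fun a m => by have := T.adj v a b (T.mem_S.1 m); omega] at this
  split_ifs with h
  · rw [← this, filter_false_of_mem (p := fun a => d a b + 1 = d v b) fun a _ => by omega]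
    rfl
  · rw [st b fun e => h (k.symm.trans ((T.zero _ _).2 e))] at this
    omega

/-- the number of vertices on a sphere -/
theorem TreeD.card_S (n : ℕ) (v : V) : (T.S (n + 1) v).card = (q + 1) * q ^ n := by
  induction n using Nat.twoStepInduction generalizing v with
  | zero => simp [T.card_one]
  | one =>
    have := T.sum_sum (fun _ => 1) 0 v
    have e : T.S 0 v = {v} := by ext b; simp [T.mem_S, T.zero, eq_comm]
    simp [T.card_one, e] at this ⊢
    nlinarith
  | more n h0 h1 =>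
    have := T.sum_sum (fun _ => 1) (n + 1) v
    simp [T.card_one, h0, h1] at this
    rw [pow_succ] at this
    rw [pow_succ, pow_succ]
    nlinarith

theorem TreeD.cyc (R M : Type*) [Ring R] [AddCommGroup M] [Module R M] : Cyc q (T.sph R M) := by
  refine ⟨LinearMap.ext fun φ => funext fun v => ?_, fun n => LinearMap.ext fun φ => funext fun v => ?_⟩
  · have e : T.S 0 v = {v} := by ext b; simp [T.mem_S, T.zero, eq_comm]
    refine (T.sum_sum φ 0 v).trans ?_
    simp [e, T.sph_apply, add_smul]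
  · refine (T.sum_sum φ (n + 1) v).trans ?_
    simp [T.sph_apply]

end sph

/-- the recursion passes to an invariant submodule -/
theorem Cyc.of_inj {R M N : Type*} [Ring R] [AddCommGroup M] [Module R M] [AddCommGroup N]
    [Module R N] {q : ℕ} {T : ℕ → End R M} {T' : ℕ → End R N} (h : Cyc q T) (ι : N →ₗ[R] M)
    (hι : Function.Injective ι) (e : ∀ n x, ι (T' n x) = T n (ι x)) : Cyc q T' :=
  ⟨LinearMap.ext fun x => hι (by simpa [e] using LinearMap.congr_fun h.two (ι x)),
    fun n => LinearMap.ext fun x => hι (by simpa [e] using LinearMap.congr_fun (h.more n) (ι x))⟩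

variable {Γ X V : Type*} [Group Γ] [MulAction Γ X] [MulAction Γ V] {d : V → V → ℕ} {q : ℕ}
  (T : TreeD d q) (hd : ∀ (g : Γ) u v, d (g • u) (g • v) = d u v)
include T hd

theorem onP_smul {n : ℕ} (h : Γ) (p : X × V × V) (m : p ∈ OnP Γ X d n) : h • p ∈ OnP Γ X d n := by
  obtain ⟨g, a, b, c, e⟩ := m
  exact ⟨h * g * h⁻¹, by simp [mul_smul, a], by simp [mul_smul, b], by simp [hd, c],
    by simp [mul_smul, hd, e]⟩

theorem onP_swap {n : ℕ} {p : X × V × V} (m : p ∈ OnP Γ X d n) :
    (p.1, p.2.2, p.2.1) ∈ OnP Γ X d n := by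
  obtain ⟨g, a, b, c, e⟩ := m
  exact ⟨g⁻¹, inv_smul_eq_iff.2 a.symm, inv_smul_eq_iff.2 b.symm, (T.symm _ _).trans c, by
    rw [inv_inv, ← e, T.symm, ← hd g (g⁻¹ • _), smul_inv_smul]⟩

/-- every axis has two orientations -/
theorem on_half {n : ℕ} (P : X × V × V → Prop) (hP : ∀ (g : Γ) p, P p → P (g • p))
    (sw : ∀ p ∈ OnP Γ X d n, P p ↔ ¬ P (p.1, p.2.2, p.2.1)) (fin : (orbs Γ (OnP Γ X d n)).Finite) :
    (orbs Γ (OnP Γ X d n)).ncard = 2 * (orbs Γ {p ∈ OnP Γ X d n | P p}).ncard := by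
  have := orbs_fib (Γ := Γ) (S := {p ∈ OnP Γ X d n | ¬ P p}) (S' := {p ∈ OnP Γ X d n | P p})
    (R := fun a b => a = (b.1, b.2.2, b.2.1)) (c := 1)
    (fun g a m => ⟨onP_smul T hd g a m.1, fun k => m.2 (inv_smul_smul g a ▸ hP g⁻¹ _ k)⟩)
    (fun g a m => ⟨onP_smul T hd g a m.1, hP g a m.2⟩) (fun g a b e => e ▸ rfl)
    (fun g b _ e a _ k => k ▸ congrArg (fun b : X × V × V => (b.1, b.2.2, b.2.1)) e)
    (fun a m => ⟨(a.1, a.2.2, a.2.1), ⟨⟨onP_swap T hd m.1, (sw _ (onP_swap T hd m.1)).2 m.2⟩, rfl⟩,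
      fun b k => by rw [k.2]⟩) (fun b m => by
      rw [(Set.eq_singleton_iff_unique_mem (s := {a | a ∈ {p ∈ OnP Γ X d n | ¬ P p} ∧
        a = (b.1, b.2.2, b.2.1)})).2 ⟨⟨⟨onP_swap T hd m.1, (sw b m.1).1 m.2⟩, rfl⟩, fun _ k => k.2⟩]
      simp) (fin.subset (Set.image_mono (Set.sep_subset _ _)))
  rw [orbs_split P hP fin, this.2]
  ring

/-- **Ihara's formula on the tree.** -/
theorem ihara_tree {K M : Type*} [Field K] [CharZero K] [IsAlgClosed K] [AddCommGroup M]
    [Module K M] [FiniteDimensional K M]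
    (fr : ∀ (g : Γ) (x : X) (v : V), g • x = x → g • g • v = v → ∀ u : V, g • u = u)
    (fin : ∀ n, (orbs Γ (FixP Γ X d (n + 1))).Finite) {H : ℕ → End K M} (hH : Cyc q H)
    {f : ℕ → K} {h : K} (f2 : f 2 = h) (fp : ∀ n, f (n + 3) = f (n + 1))
    (lef : ∀ n, 2 * LinearMap.trace K M (H (n + 1)) =
      2 * ((q + 1) * q ^ n * f (n + 1)) - (orbs Γ (FixP Γ X d (n + 1))).ncard)
    (P : X × V × V → Prop) (hP : ∀ (g : Γ) p, P p → P (g • p))
    (sw : ∀ n, ∀ p ∈ OnP Γ X d (n + 1), P p ↔ ¬ P (p.1, p.2.2, p.2.1)) :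
    ∃ B : Multiset K, B.card = 2 * finrank K M ∧
      (∀ a ∈ B, ∃ b ∈ B, a * b = q ∧ (H 1).HasEigenvalue (a + b)) ∧ ∀ m, 0 < m →
      ((orbs Γ {p ∈ OnP Γ X d m | P p}).ncard : K) =
        (q ^ m + 1) * f m - ps B m - if Even m then (q - 1) * (finrank K M - h) else 0 := by
  have k : ∀ n, ((orbs Γ (OnP Γ X d (n + 1))).ncard : K) =
      2 * (orbs Γ {p ∈ OnP Γ X d (n + 1) | P p}).ncard := fun n => by
    exact_mod_cast congrArg (Nat.cast (R := K)) (on_half T hd P hP (sw n)
      ((fin n).subset (Set.image_mono onP_sub)))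
  refine ihara hH (F := fun n => (orbs Γ (FixP Γ X d n)).ncard / 2) f2 fp
    (fun n => by linear_combination lef n / 2) ?_ ?_ fun n => ?_
  · rw [← onP_small T hd fr one_ne_zero one_le_two]
    linear_combination k 0 / 2
  · rw [← onP_small T hd fr two_ne_zero le_rfl]
    linear_combination k 1 / 2
  · have := congrArg (Nat.cast (R := K)) (tree_count T hd fr n.succ_ne_zero (fin n) (fin (n + 2)))
    push_cast at this
    linear_combination this / 2 - k n / 2 + k (n + 2) / 2

end Vale.Agent.P022K.FI
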