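import Vale.Agent.P022K.FI.Lt6
import Vale.Agent.P022K.FI.Unq
import Vale.Agent.P022K.FI.Fcs
import Vale.Agent.P022K.FI.Ovs
import Vale.Agent.P022K.WB.YDefs

/-!
# P022K, block FI: the multiplicative group as Lubin-Tate data; conjugation of coefficients
-/

set_option autoImplicit false
set_option linter.unusedSectionVars false
set_option linter.style.haveILetI false

open PowerSeries P025H746
open scoped LaurentSeries

noncomputable section

namespace Vale.Agent.P022K.FI.Wf

open Vale.Agent.P022K.Sh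

section ode

variable {C : Type} [Field C] [CharZero C] {u v : C⟦X⟧} {e : C}

theorem ode_rec (h : (1 + X) * d⁄dX C u = PowerSeries.C e * u) (n : ℕ) :
    coeff (n + 1) u * ((n : C) + 1) = (e - n) * coeff n u := by
  have := congrArg (coeff n) h
  rw [add_mul, one_mul, map_add, coeff_derivative, coeff_C_mul] at this
  cases n with
  | zero => simpa using this
  | succ n =>
    rw [coeff_succ_X_mul, coeff_derivative] at this
    push_cast at this ⊢
    linear_combination this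

theorem ode_uniq (h : (1 + X) * d⁄dX C u = PowerSeries.C e * u)
    (h' : (1 + X) * d⁄dX C v = PowerSeries.C e * v) (h0 : constantCoeff u = constantCoeff v) :
    u = v := by
  ext n
  induction n with
  | zero => simpa using h0
  | succ n ih =>
    refine mul_right_cancel₀ (Nat.cast_add_one_ne_zero n) ?_
    rw [ode_rec h, ode_rec h', ih]

/-- a series without constant term which is invariant under a substitution -/
theorem fix_zero {f : C⟦X⟧} (h0 : constantCoeff f = 0) (h1 : ∀ m, 0 < m → coeff 1 f ^ m ≠ 1)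
    (hu : constantCoeff u = 0) (h : u.subst f = u) : u = 0 := by
  by_contra hne
  have hs := HasSubst.of_constantCoeff_zero' h0
  obtain ⟨g, rfl⟩ := X_dvd_iff.2 h0
  have hm : 0 < u.order.toNat := Nat.pos_of_ne_zero fun e => coeff_order hne (by simpa [e] using hu)
  have k := (isUnit_divided_by_X_pow_order hne).map constantCoeff
  have e := X_pow_order_mul_divXPowOrder (f := u)
  generalize u.order.toNat = m at *
  generalize divXPowOrder u = r at *
  subst e
  rw [subst_mul hs, subst_pow hs, subst_X hs, mul_pow, mul_assoc] at h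
  have h2 := congrArg constantCoeff (mul_left_cancel₀ (pow_ne_zero m X_ne_zero) h)
  rw [map_mul, map_pow, Lt.cc_subst h0] at h2
  refine h1 m hm ?_
  rw [coeff_succ_X_mul, coeff_zero_eq_constantCoeff_apply]
  exact mul_right_cancel₀ k.ne_zero (h2.trans (one_mul _).symm)

omit [CharZero C] in
/-- a series of order one determines the substitution -/
theorem sub_eq_X {b : C⟦X⟧} (h0 : constantCoeff b = 0) (h1 : b ≠ 0) {z : C⸨X⸩} (ho : z.order = 1)
    (h : sub b z = z) : b = X := by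
  obtain ⟨F, rfl⟩ := exists_am (x := z) (by omega)
  have hF : F ≠ 0 := by rintro rfl; simp at ho
  have c0 : constantCoeff F = 0 := by
    by_contra e
    rw [order_am_eq_zero e] at ho
    exact zero_ne_one ho
  have c1 : IsUnit (coeff 1 F) := by
    have := HahnSeries.coeff_order_eq_zero.not.2 (am_ne hF)
    rw [ho] at this
    exact Ne.isUnit (by rwa [← coeff_am])
  rw [sub_am h0 h1] at h
  have hs := HasSubst.of_constantCoeff_zero' h0
  have := subst_substInvOfIsUnit_left F c0 c1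
  rw [← subst_X hs (R := C), ← this, subst_comp_subst_apply (HasSubst.of_constantCoeff_zero' c0) hs,
    am_inj h]

end ode

variable {p : ℕ} [Fact p.Prime] {C : Type} [NontriviallyNormedField C] [IsUltrametricDist C]
  [CompleteSpace C] [IsAlgClosed C] [CharZero C] [Algebra ℚ_[p] C]

theorem qq_p : qq ℤ_[p] = p := (Nat.card_congr PadicInt.residueField.toEquiv).trans (Nat.card_zmod p)

theorem io_p {x : ℚ_[p]} : Io ℤ_[p] x ↔ ‖x‖ ≤ 1 :=
  ⟨fun ⟨a, h⟩ => h ▸ a.2, fun h => ⟨⟨x, h⟩, rfl⟩⟩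

/-- the Lubin-Tate data of the multiplicative group, with the character `ψ` -/
structure Mu (D : LTD C ℤ_[p] ℚ_[p]) (ϖ : ℚ_[p]ˣ) (ψ : ℚ_[p] → C) : Prop where
  ok : D.Ok ϖ
  psi : WB.Psi p ψ
  f : D.f = (1 + X) ^ p - 1
  lg : (1 + X) * d⁄dX C D.lg = 1
  tr : ∀ x, D.tr x = PowerSeries.C (ψ x) * (1 + X) - 1

variable {D : LTD C ℤ_[p] ℚ_[p]} {ϖ : ℚ_[p]ˣ} {ψ : ℚ_[p] → C}

theorem cmp_lin (t : C⟦X⟧) (a : C) :
    An4.cmp t (PowerSeries.C a * (1 + X) - 1) = PowerSeries.C a * (1 + t) - 1 := by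
  have := An4.cmp_poly t (Polynomial.C a * (1 + Polynomial.X) - 1)
  simpa [C_eq_algebraMap] using this

theorem mu_of (hϖ : (ϖ : ℚ_[p]) = p) (hD : D.Ok ϖ) (hf : D.f = (1 + X) ^ p - 1) :
    Mu D ϖ fun x => 1 + constantCoeff (D.tr x) := by
  have hp := (Fact.out : p.Prime)
  have e0 : D.br p = (1 + X) ^ p - 1 := (hD.f_br p (by simp [hϖ])).trans hf
  have lg : (1 + X) * d⁄dX C D.lg = 1 := by
    have h0 := hD.br0 p
    have hs := HasSubst.of_constantCoeff_zero' h0
    have h1 := Ov.br_deriv hD p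
    rw [cmp_eq_subst h0] at h1
    refine sub_eq_zero.1 (fix_zero h0 (fun m hm e => ?_) ?_ ?_)
    · rw [Cl.br_one hD, map_natCast, map_natCast] at e
      exact (Nat.one_lt_pow hm.ne' hp.one_lt).ne' (by exact_mod_cast e)
    · have : constantCoeff (d⁄dX C D.lg) = 1 := by
        rw [← coeff_zero_eq_constantCoeff_apply, coeff_derivative, zero_add, hD.lg1]
        simp
      simp [this]
    · have h2 : (p : C⟦X⟧) ≠ 0 := by
        rw [← map_natCast (PowerSeries.C (R := C))]
        exact (map_ne_zero _).2 (Nat.cast_ne_zero.2 hp.ne_zero)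
      rw [← coe_substAlgHom hs, map_sub, map_mul, map_add, map_one, coe_substAlgHom, subst_X hs]
      generalize (d⁄dX C D.lg).subst (D.br p) = y at *
      rw [e0, map_sub, derivative_pow, map_natCast, map_natCast, smul_eq_C_mul, map_natCast] at h1
      simp only [map_add, derivative_X, Derivation.map_one_eq_zero, zero_add, sub_zero, mul_one] at h1
      refine mul_left_cancel₀ h2 ?_
      have h3 : (1 + X : C⟦X⟧) ^ p = (1 + X) ^ (p - 1) * (1 + X) := by
        rw [← pow_succ, Nat.sub_add_cancel hp.pos]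
      rw [e0, h3]
      linear_combination (1 + X) * h1
  have tr : ∀ x, D.tr x = PowerSeries.C (1 + constantCoeff (D.tr x)) * (1 + X) - 1 := fun x => by
    have ht := Cl.near_sm (hD.tr_red x)
    have ho : Lt.Ou D.lg := by
      rw [show D.lg = itg (d⁄dX C D.lg) from derivative.ext (d_itg _).symm (by rw [cc_itg, hD.lg0])]
      exact Lt.Io.ou_itg hD.lg_un.1
    have h1 := ht.deriv_cmp ho
    rw [← cmp4_eq, hD.tr_lg] at h1
    have h2 := ht.cmp_mul (Lt.io_one.add Lt.io_X).ou (Lt.Io.ou hD.lg_un.1)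
    rw [lg, ht.cmp_add Lt.io_one.ou Lt.io_X.ou, ← cmp4_eq, ← cmp4_eq, An4.cmp_one, An4.cmp_X] at h2
    refine eq_sub_of_add_eq' (ode_uniq (e := 1) ?_ ?_ (by simp))
    · rw [map_add, Derivation.map_one_eq_zero, zero_add, map_one]
      linear_combination (1 + D.tr x) * lg - (1 + X) * (1 + D.tr x) * h1 +
        (1 + X) * d⁄dX C (D.tr x) * h2
    · rw [Derivation.leibniz, derivative_C, map_add (d⁄dX C), Derivation.map_one_eq_zero,
        derivative_X]
      simp [mul_comm]
  refine ⟨hD, ⟨fun a b => ?_, fun b => ?_⟩, hf, lg, tr⟩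
  · rw [hD.tr_add, tr a, cmp_lin]
    simp
  · rw [add_eq_left, ← io_p]
    exact ⟨hD.tr_zero b, fun h => by rw [hD.tr_int b h, constantCoeff_X]⟩

/-- **the multiplicative group** -/
theorem ex_mu (hL : LF ℤ_[p] C ϖ) (hϖ : (ϖ : ℚ_[p]) = p) :
    ∃ (D : LTD C ℤ_[p] ℚ_[p]) (ψ : ℚ_[p] → C), Mu D ϖ ψ := by
  have hp := (Fact.out : p.Prime)
  have m1 : ((Polynomial.X + 1 : Polynomial ℤ_[p]) ^ p).Monic :=
    (Polynomial.monic_X_add_C 1).pow p
  have d1 : ((Polynomial.X + 1 : Polynomial ℤ_[p]) ^ p).natDegree = p := by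
    rw [← Polynomial.C_1, (Polynomial.monic_X_add_C 1).natDegree_pow, Polynomial.natDegree_X_add_C,
      mul_one]
  have c : ∀ n, ((Polynomial.X + 1 : Polynomial ℤ_[p]) ^ p - 1).coeff n =
      if n = 0 then 0 else (p.choose n : ℤ_[p]) := fun n => by
    rw [Polynomial.coeff_sub, Polynomial.coeff_X_add_one_pow, Polynomial.coeff_one]
    split_ifs with h <;> simp [h]
  obtain ⟨D, h1, h2⟩ := lt (C := C) ℤ_[p] ℚ_[p] ϖ hL ((Polynomial.X + 1) ^ p - 1)
    (m1.sub_of_left (by
      rw [Polynomial.degree_one, Polynomial.degree_eq_natDegree m1.ne_zero, d1]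
      exact_mod_cast hp.pos))
    (by rw [Polynomial.natDegree_sub_eq_left_of_natDegree_lt (by simpa [d1] using hp.pos), d1, qq_p])
    (by simp [c]) (by simp [c, hϖ]) fun n hn => by
      rw [c, PadicInt.maximalIdeal_eq_span_p, Ideal.mem_span_singleton]
      split_ifs with h
      · exact dvd_zero _
      · exact Nat.cast_dvd_cast (hp.dvd_choose_self h (qq_p (p := p) ▸ hn))
  exact ⟨D, _, mu_of hϖ h1 (by simp [h2, add_comm])⟩

namespace Mu

variable (h : Mu D ϖ ψ)

include h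

theorem br_der (a : ℤ_[p]) :
    (1 + X) * d⁄dX C (D.br a) = PowerSeries.C (algebraMap ℚ_[p] C a) * (1 + D.br a) := by
  have h0 := h.ok.br0 a
  have hs := HasSubst.of_constantCoeff_zero' h0
  have h1 := Ov.br_deriv h.ok a
  rw [cmp_eq_subst h0, smul_eq_C_mul] at h1
  have h2 := congrArg (substAlgHom (R := C) hs) h.lg
  rw [map_mul, map_add, map_one, coe_substAlgHom, subst_X hs] at h2
  have h3 := h.lg
  change _ = PowerSeries.C (algebraMap ℚ_[p] C a) * _ at h1
  linear_combination (1 + X) * (1 + D.br a) * h1 - (1 + X) * d⁄dX C (D.br a) * h2 +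
    PowerSeries.C (algebraMap ℚ_[p] C a) * (1 + D.br a) * h3

theorem br_der' (a : ℤ_[p]) :
    (1 + X) * d⁄dX C (1 + D.br a) = PowerSeries.C (algebraMap ℚ_[p] C a) * (1 + D.br a) := by
  rw [map_add, Derivation.map_one_eq_zero, zero_add, h.br_der]

theorem cc_tr (x : ℚ_[p]) : constantCoeff (D.tr x) = ψ x - 1 := by simp [h.tr]

theorem br_ev (a : ℤ_[p]) (x : ℚ_[p]) : An4.ev (ψ x - 1) (D.br a) = ψ (a * x) - 1 := by
  rw [← h.cc_tr, ← h.cc_tr]
  exact Uq.e_br h.ok x a

theorem br_add (a b : ℤ_[p]) : 1 + D.br (a + b) = (1 + D.br a) * (1 + D.br b) := by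
  refine ode_uniq (h.br_der' _) ?_ (by simp [h.ok.br0])
  rw [Derivation.leibniz, smul_eq_mul, smul_eq_mul, PadicInt.coe_add,
    map_add (algebraMap ℚ_[p] C), map_add (PowerSeries.C (R := C))]
  linear_combination (1 + D.br a) * h.br_der' b + (1 + D.br b) * h.br_der' a

theorem br_one : D.br 1 = X :=
  add_left_cancel (a := 1) (ode_uniq (h.br_der' 1) (by simp [derivative_X]) (by simp [h.ok.br0]))

/-- only the trivial endomorphism has trivial reduction -/
theorem eq_zero_of_sm (hL : LF ℤ_[p] C ϖ) {a : ℤ_[p]} (ha : Sm (D.br a)) : a = 0 := by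
  by_contra h0
  have nm : ∀ x y : ℚ_[p], ‖x‖ = ‖y‖ → ‖algebraMap ℚ_[p] C x‖ = ‖algebraMap ℚ_[p] C y‖ :=
    fun x y e => by
      rcases eq_or_ne y 0 with rfl | y0
      · rw [norm_eq_zero.1 (e.trans norm_zero)]
      have x0 : x ≠ 0 := fun e0 => y0 (norm_eq_zero.1 (by rw [← e, e0, norm_zero]))
      have k : ∀ x y : ℚ_[p], y ≠ 0 → ‖x‖ = ‖y‖ →
          ‖algebraMap ℚ_[p] C x‖ ≤ ‖algebraMap ℚ_[p] C y‖ := fun x y y0 e => by
        have := (hL.nrm (x / y)).2 (io_p.2 (by rw [norm_div, e, div_self (norm_ne_zero_iff.2 y0)]))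
        rwa [map_div₀, norm_div, div_le_one (norm_pos_iff.2 ((map_ne_zero _).2 y0))] at this
      exact le_antisymm (k x y y0 e) (k y x x0 e.symm)
  have hp := (Fact.out : p.Prime)
  have na : ‖(a : ℚ_[p])‖ = ‖((p ^ a.valuation : ℕ) : ℚ_[p])‖ := by
    rw [Nat.cast_pow, norm_pow, Padic.norm_p, ← PadicInt.norm_def,
      PadicInt.norm_eq_zpow_neg_valuation h0, zpow_neg, zpow_natCast, inv_pow]
  have key : ∀ n : ℕ, n < p ^ a.valuation →
      ‖coeff (n + 1) (1 + D.br a)‖ * ‖(n : C) + 1‖ = ‖algebraMap ℚ_[p] C a‖ := fun n hn => by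
    induction n with
    | zero =>
      rw [← norm_mul, ode_rec (h.br_der' a)]
      simp [h.ok.br0]
    | succ n ih =>
      rw [← norm_mul, ode_rec (h.br_der' a), norm_mul, ← ih (by omega), mul_comm, ← Nat.cast_succ,
        ← map_natCast (algebraMap ℚ_[p] C), ← map_sub]
      refine congrArg _ (nm _ _ ?_)
      have h1 : ‖(a : ℚ_[p])‖ < ‖((n + 1 : ℕ) : ℚ_[p])‖ := by
        by_contra hc
        have h2 := (Padic.norm_int_le_pow_iff_dvd (p := p) (n + 1 : ℕ) a.valuation).1 (by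
          rw [Int.cast_natCast, zpow_neg, zpow_natCast, ← inv_pow, ← Padic.norm_p, ← norm_pow,
            ← Nat.cast_pow, ← na]
          exact not_lt.1 hc)
        exact absurd (Nat.le_of_dvd n.succ_pos (by exact_mod_cast h2)) (not_le.2 hn)
      rw [sub_eq_add_neg, IsUltrametricDist.norm_add_eq_max_of_norm_ne_norm (by
        rw [norm_neg]; exact h1.ne), norm_neg, max_eq_right h1.le]
  obtain ⟨n, hn⟩ := Nat.exists_eq_succ_of_ne_zero (pow_ne_zero a.valuation hp.ne_zero)
  have h1 := key n (by omega)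
  rw [nm _ _ na, map_natCast, hn, Nat.cast_succ, map_add, coeff_one, if_neg n.succ_ne_zero,
    zero_add] at h1
  exact (ha _).ne (mul_right_cancel₀ (norm_ne_zero_iff.2 (Nat.cast_add_one_ne_zero n))
    (h1.trans (one_mul _).symm))

theorem eq_one_of_rd (hL : LF ℤ_[p] C ϖ) {a : ℤ_[p]} (ha : rd (D.br a) = X) : a = 1 := by
  have h1 := congrArg rd (h.br_add (a - 1) 1)
  have i := h.ok.br_ig
  rw [sub_add_cancel, h.br_one, rd_mul (ig_one.add (i _)) (ig_one.add ig_X), rd_add ig_one (i _),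
    rd_add ig_one (i _), rd_add ig_one ig_X, rd_one, rd_X, ha] at h1
  have h2 : (1 + X : (kC C)⟦X⟧) ≠ 0 := fun e => by simpa using congrArg constantCoeff e
  have h3 := mul_right_cancel₀ h2 ((one_mul _).trans h1)
  exact sub_eq_zero.1 (h.eq_zero_of_sm hL ((rd_eq_zero (i _)).1 (left_eq_add.1 h3)))

/-- the action of an isometry on the data -/
theorem map_lg (s : C →+* C) : PowerSeries.map s D.lg = D.lg := by
  have h2 : (1 + X : C⟦X⟧) ≠ 0 := fun e => by simpa using congrArg constantCoeff e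
  refine derivative.ext (mul_left_cancel₀ h2 ?_) ?_
  · have := congrArg (PowerSeries.map s) h.lg
    rw [map_mul, map_add, map_one, map_X] at this
    rw [h.lg]
    refine Eq.trans (congrArg _ ?_) this
    ext n
    simp [coeff_derivative]
  · rw [← coeff_zero_eq_constantCoeff_apply, coeff_map, coeff_zero_eq_constantCoeff_apply, h.ok.lg0,
      map_zero]

theorem map_tr (s : C →+* C) {c : ℚ_[p]} (hs : ∀ x, s (ψ x) = ψ (c * x)) (x : ℚ_[p]) :
    PowerSeries.map s (D.tr x) = D.tr (c * x) := by simp [h.tr, hs]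

end Mu

section conj

variable {k k' : Type} [Field k] [Field k'] (s : k →+* k')

/-- conjugation of the coefficients -/
def mp : k⸨X⸩ →+* k'⸨X⸩ where
  toFun x := x.map s
  map_one' := HahnSeries.map_one s.toMonoidWithZeroHom
  map_mul' _ _ := HahnSeries.map_mul s.toNonUnitalRingHom
  map_zero' := HahnSeries.map_zero s.toAddMonoidHom.toZeroHom
  map_add' _ _ := HahnSeries.map_add s.toAddMonoidHom

theorem coeff_mp (x : k⸨X⸩) (n : ℤ) : (mp s x).coeff n = s (x.coeff n) := rfl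

theorem mp_am (f : k⟦X⟧) : mp s (am k f) = am k' (PowerSeries.map s f) := by
  ext n
  rcases lt_or_ge n 0 with h | h
  · rw [coeff_mp, coeff_am_neg _ h, coeff_am_neg _ h, map_zero]
  · obtain ⟨m, rfl⟩ := Int.eq_ofNat_of_zero_le h
    rw [coeff_mp, coeff_am, coeff_am, coeff_map]

theorem mp_const (c : k) : mp s (algebraMap k k⸨X⸩ c) = algebraMap k' k'⸨X⸩ (s c) := by
  rw [← am_C, mp_am, map_C, am_C]

theorem order_mp (x : k⸨X⸩) : (mp s x).order = x.order := by
  rcases eq_or_ne x 0 with rfl | h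
  · simp
  refine le_antisymm (HahnSeries.order_le_of_coeff_ne_zero ?_)
    (HahnSeries.order_le_of_coeff_ne_zero fun e => ?_)
  · exact (map_ne_zero s).2 (HahnSeries.coeff_order_eq_zero.not.2 h)
  · exact (map_ne_zero (mp s)).2 h (HahnSeries.coeff_order_eq_zero.1 (by rw [coeff_mp, e, map_zero]))

theorem cc_map {g : k⟦X⟧} (h0 : constantCoeff g = 0) : constantCoeff (PowerSeries.map s g) = 0 := by
  rw [← coeff_zero_eq_constantCoeff_apply, coeff_map, coeff_zero_eq_constantCoeff_apply, h0, map_zero]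

theorem map_ne {g : k⟦X⟧} (hg : g ≠ 0) : PowerSeries.map s g ≠ 0 :=
  (map_ne_zero_iff _ (map_injective s s.injective)).2 hg

theorem mp_sub {g : k⟦X⟧} (h0 : constantCoeff g = 0) (hg : g ≠ 0) (x : k⸨X⸩) :
    mp s (sub g x) = sub (PowerSeries.map s g) (mp s x) := by
  obtain ⟨a, b, -, rfl⟩ := exists_div x
  have hs := HasSubst.of_constantCoeff_zero' h0
  rw [sub_div h0 hg, map_div₀, map_div₀, mp_am, mp_am, mp_am, mp_am,
    sub_div (cc_map s h0) (map_ne s hg)]
  exact congrArg₂ (fun a b => am k' a / am k' b) (map_subst hs a) (map_subst hs b)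

/-- powers in characteristic `p` -/
theorem pow_frob [CharP k p] (x : k⸨X⸩) : x ^ p = sub (X ^ p) (mp (frobenius k p) x) := by
  have hp := (Fact.out : p.Prime)
  have h0 : constantCoeff (X ^ p : k⟦X⟧) = 0 := by simp [hp.ne_zero]
  have key : ∀ a : k⟦X⟧, a ^ p = (PowerSeries.map (frobenius k p) a).subst (X ^ p : k⟦X⟧) :=
    fun a => by
      rw [← MvPowerSeries.map_frobenius_expand p hp.ne_zero, ← PowerSeries.expand_apply p hp.ne_zero]
      exact PowerSeries.map_expand p hp.ne_zero _ a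
  obtain ⟨a, b, -, rfl⟩ := exists_div x
  rw [map_div₀, mp_am, mp_am, sub_div h0 (pow_ne_zero _ X_ne_zero), ← key, ← key, div_pow, map_pow,
    map_pow]

omit [Algebra ℚ_[p] C] [IsAlgClosed C] [CharZero C]

variable {σ : C ≃+* C} (hσ : ∀ c, ‖σ c‖ = ‖c‖) {x y : C⸨X⸩} {P τ : C⟦X⟧} {z : (kC C)⸨X⸩}

include hσ

theorem ig_map : Ig (PowerSeries.map (σ : C →+* C) P) ↔ Ig P :=
  forall_congr' fun n => by rw [coeff_map, RingHom.coe_coe, hσ]

theorem map_cmp (τ P : C⟦X⟧) : PowerSeries.map (σ : C →+* C) (An4.cmp τ P) =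
    An4.cmp (PowerSeries.map (σ : C →+* C) τ) (PowerSeries.map (σ : C →+* C) P) := by
  have hs : Isometry σ := AddMonoidHomClass.isometry_of_norm σ hσ
  have hs' : Isometry σ.symm := AddMonoidHomClass.isometry_of_norm σ.symm fun c => by
    rw [← hσ, σ.apply_symm_apply]
  ext n
  rw [coeff_map, An4.coeff_cmp, An4.coeff_cmp, RingHom.coe_coe,
    Function.LeftInverse.map_tsum (g := σ) _ hs.continuous hs'.continuous σ.symm_apply_apply]
  simp only [map_mul, ← map_pow, coeff_map, RingHom.coe_coe]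

theorem cm_map (h : Cm τ x y) :
    Cm (PowerSeries.map (σ : C →+* C) τ) (mp (σ : C →+* C) x) (mp (σ : C →+* C) y) := by
  intro P Q hP hQ e
  obtain ⟨P, rfl⟩ := map_surjective (σ : C →+* C) σ.surjective P
  obtain ⟨Q, rfl⟩ := map_surjective (σ : C →+* C) σ.surjective Q
  have e1 : x * am C Q = am C P := (mp (σ : C →+* C)).injective (by rwa [map_mul, mp_am, mp_am])
  have e2 : y * am C _ = am C _ := h P Q ((ig_map hσ).1 hP) ((ig_map hσ).1 hQ) e1
  have := congrArg (mp (σ : C →+* C)) e2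
  rwa [map_mul, mp_am, mp_am, map_cmp hσ, map_cmp hσ] at this

theorem fac_map {c : C} {Dv : C →₀ ℤ} (h : Fac x c Dv) :
    Fac (mp (σ : C →+* C) x) (σ c) (Dv.equivMapDomain σ.toEquiv) := by
  obtain ⟨h1, h2, u, hu, rfl⟩ := fac_iff.1 h
  refine fac_iff.2 ⟨(map_ne_zero σ).2 h1, fun a ha => ?_, PowerSeries.map (σ : C →+* C) u,
    ⟨(ig_map hσ).2 hu.1, by rw [coeff_map, RingHom.coe_coe, hσ, hu.2]⟩, ?_⟩
  · rw [← σ.apply_symm_apply a, hσ]
    exact h2 _ (by simpa using ha)
  · rw [map_mul, map_mul, mp_const, mp_am, pr, pr, Finsupp.prod_equivMapDomain, map_finsuppProd]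
    refine congrArg _ (Finsupp.prod_congr fun a _ => ?_)
    rw [map_zpow₀, mp_am, map_sub, map_X, map_C]
    rfl

theorem rd_mp {t : kC C →+* kC C} (ht : ∀ c, ‖c‖ ≤ 1 → cred (σ c) = t (cred c)) (h : Rd x z) :
    Rd (mp (σ : C →+* C) x) (mp t z) := by
  obtain ⟨P, Q, a1, a2, a3, a4, a5⟩ := h
  have k : ∀ P : C⟦X⟧, Ig P → rd (PowerSeries.map (σ : C →+* C) P) = PowerSeries.map t (rd P) :=
    fun P hP => PowerSeries.ext fun n => by
      rw [coeff_rd, coeff_map, coeff_map, coeff_rd, ← ht _ (hP n), RingHom.coe_coe]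
  exact ⟨_, _, (ig_map hσ).2 a1, (ig_map hσ).2 a2, k Q a2 ▸ map_ne t a3,
    by rw [← mp_am, ← mp_am, ← map_mul, a4], by rw [k Q a2, k P a1, ← mp_am, ← mp_am, ← map_mul, a5]⟩

omit hσ

theorem cc_rd {b : C⟦X⟧} (h0 : constantCoeff b = 0) : constantCoeff (rd b) = 0 := by
  rw [← coeff_zero_eq_constantCoeff_apply, coeff_rd, coeff_zero_eq_constantCoeff_apply, h0, cred_zero]

theorem rd_subst {b : C⟦X⟧} (hb : Ig b) (h0 : constantCoeff b = 0) (hP : Ig P) :
    Ig (P.subst b) ∧ rd (P.subst b) = (rd P).subst (rd b) := by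
  obtain ⟨b, rfl⟩ := ig_iff.1 hb
  obtain ⟨P, rfl⟩ := ig_iff.1 hP
  have hs : HasSubst b := HasSubst.of_constantCoeff_zero' (Subtype.ext (by
    rw [← coeff_zero_eq_constantCoeff_apply, coeff_map, coeff_zero_eq_constantCoeff_apply] at h0
    exact h0))
  have e : (PowerSeries.map (OC C).subtype P).subst (PowerSeries.map (OC C).subtype b) =
      PowerSeries.map (OC C).subtype (P.subst b) := (map_subst hs P).symm
  exact ⟨ig_iff.2 ⟨_, e.symm⟩, by rw [e, rd_map, rd_map, rd_map]; exact map_subst hs P⟩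

theorem rd_sub' {b : C⟦X⟧} (hb : Ig b) (h0 : constantCoeff b = 0) (h1 : rd b ≠ 0) (h : Rd x z) :
    Rd (sub b x) (sub (rd b) z) := by
  obtain ⟨P, Q, a1, a2, a3, a4, a5⟩ := h
  have h2 : b ≠ 0 := fun e => h1 (by rw [e, rd_zero])
  obtain ⟨b1, b2⟩ := rd_subst hb h0 a1
  obtain ⟨b3, b4⟩ := rd_subst hb h0 a2
  exact ⟨_, _, b1, b3, b4 ▸ subst_ne (cc_rd h0) h1 a3,
    by rw [← sub_am h0 h2, ← sub_am h0 h2, ← map_mul, a4],
    by rw [b2, b4, ← sub_am (cc_rd h0) h1, ← sub_am (cc_rd h0) h1, ← map_mul, a5]⟩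

theorem rd_pow' (h : Rd x z) (n : ℕ) : Rd (x ^ n) (z ^ n) := by
  induction n with
  | zero => simpa using rd_one'
  | succ n ih => rw [pow_succ, pow_succ]; exact ih.mul h

end conj

end Vale.Agent.P022K.FI.Wf
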