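import Vale.Agent.P022K.FI.Wf0
import Vale.Agent.P022K.FI.AllB
import Vale.Agent.P022K.FI.Dic
import Vale.Agent.P022K.FI.Locx

/-!
# P022K, block FI: expansions of the functions of a tower at ordinary points
-/

set_option autoImplicit false
set_option linter.unusedSectionVars false
set_option linter.style.haveILetI false

open PowerSeries UpperHalfPlane Vale.Agent.P019P
open scoped LaurentSeries MatrixGroups

noncomputable section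

namespace Vale.Agent.P022K.FI.Wf

open Vale.Agent.P022K.Sh Vale.Agent.P022.H218.L3 Hk Br

variable {G0 G : Type} [Group G0] [Group G] {T : Tw G0 G} {O K : Type} [CommRing O] [IsDomain O]
  [IsDiscreteValuationRing O] [Field K] [Algebra O K] {w : T.Lc O K} {p : ℕ} [Fact p.Prime]

open Classical in
variable (T) in
/-- a meromorphic function as an element of the field of the tower -/
def lw (f : Mer) : LW T := if h : f ∈ LW T then ⟨f, h⟩ else 0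

theorem lw_coe (f : LW T) : lw T f = f := dif_pos f.2

theorem coe_lw {f : Mer} (h : f ∈ LW T) : (lw T f : Mer) = f := congrArg _ (lw_coe ⟨f, h⟩)

theorem val_mem (hT : T.Ok) {U : Subgroup G} (hU : U ∈ T.Lev) {φ : G → Mer} (hφ : φ ∈ T.RU U)
    (y : G) : φ y ∈ LW T := KX_le hT hU y (RU_mem hφ y)

variable (hT : T.Ok) (D : Emb w p) [Algebra K (Cx D.ι)] (LD : LTD (Cx D.ι) O K)

/-- the standing assumptions -/
structure Cf : Prop where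
  ha : ∀ c, algebraMap K (Cx D.ι) c = Cx.of D.ι (D.e c)
  ok : (tw w hT D.ι).Ok
  ff : FF T
  nl : ∃ U, Nl w U
  den : DEN w D.e
  ld : LD.Ok w.ϖ

open Classical in
/-- the coordinates of the basin of the point `τ` with the frame `g` -/
def ee (τ : ℍ) (g : GL (Fin 2) K) : ℤ → LW T →ₐ[Cx D.ι] (Cx D.ι)⸨X⸩ :=
  if h : ∃ ε θ b, (tw w hT D.ι).Bas LD (plL hT D.ι τ) θ g b ε then h.choose else fun _ => th D.ι τ

/-- the expansion of `φ` at the point `(τ, y)` in the coordinate of level `n` -/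
def Ex (n : ℤ) (τ : ℍ) (y : G) (φ : G → Mer) : (Cx D.ι)⸨X⸩ :=
  ee hT D LD τ (w.π y) n (lw T (φ y))

variable {hT D LD} {U : Subgroup G} {n : ℤ} {τ : ℍ} {y : G} {φ φ' : G → Mer}

/-! ## B0 -/

theorem Ex_eq {f : LW T} (e : (f : Mer) = φ y) :
    Ex hT D LD n τ y φ = ee hT D LD τ (w.π y) n f := by rw [Ex, ← e, lw_coe]

theorem Ex_congr {y' : G} (e : w.π y = w.π y') (e' : φ y = φ' y') :
    Ex hT D LD n τ y φ = Ex hT D LD n τ y' φ' := by rw [Ex, Ex, e, e']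

theorem Ex_mul (h : φ y ∈ LW T) (h' : φ' y ∈ LW T) :
    Ex hT D LD n τ y (φ * φ') = Ex hT D LD n τ y φ * Ex hT D LD n τ y φ' := by
  rw [Ex_eq (f := ⟨_, h⟩) rfl, Ex_eq (f := ⟨_, h'⟩) rfl, ← map_mul]
  exact Ex_eq rfl

theorem Ex_add (h : φ y ∈ LW T) (h' : φ' y ∈ LW T) :
    Ex hT D LD n τ y (φ + φ') = Ex hT D LD n τ y φ + Ex hT D LD n τ y φ' := by
  rw [Ex_eq (f := ⟨_, h⟩) rfl, Ex_eq (f := ⟨_, h'⟩) rfl, ← map_add]
  exact Ex_eq rfl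

theorem Ex_sub (h : φ y ∈ LW T) (h' : φ' y ∈ LW T) :
    Ex hT D LD n τ y (φ - φ') = Ex hT D LD n τ y φ - Ex hT D LD n τ y φ' := by
  rw [Ex_eq (f := ⟨_, h⟩) rfl, Ex_eq (f := ⟨_, h'⟩) rfl, ← map_sub]
  exact Ex_eq rfl

theorem Ex_pow (h : φ y ∈ LW T) (m : ℕ) :
    Ex hT D LD n τ y (φ ^ m) = Ex hT D LD n τ y φ ^ m := by
  rw [Ex_eq (f := ⟨_, h⟩) rfl, ← map_pow]
  exact Ex_eq rfl

theorem Ex_inv (h : φ y ∈ LW T) : Ex hT D LD n τ y φ⁻¹ = (Ex hT D LD n τ y φ)⁻¹ := by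
  rw [Ex_eq (f := ⟨_, h⟩) rfl, ← map_inv₀]
  exact Ex_eq rfl

theorem Ex_prod {I : Type} (s : Finset I) {φ : I → G → Mer} (h : ∀ i, φ i y ∈ LW T) :
    Ex hT D LD n τ y (∏ i ∈ s, φ i) = ∏ i ∈ s, Ex hT D LD n τ y (φ i) := by
  rw [Ex_eq (f := ∏ i ∈ s, ⟨_, h i⟩) (by simp), map_prod]
  exact Finset.prod_congr rfl fun i _ => (Ex_eq rfl).symm

theorem Ex_const {c : ℂ} (h : φ y = algebraMap ℂ Mer c) :
    Ex hT D LD n τ y φ = algebraMap (Cx D.ι) _ (Cx.of D.ι c) := by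
  rw [Ex_eq (f := algebraMap (Cx D.ι) _ (Cx.of D.ι c)) h.symm, AlgHom.commutes]

theorem Ex_one (h : φ y = 1) : Ex hT D LD n τ y φ = 1 := by
  rw [Ex_eq (f := 1) h.symm, map_one]

theorem Ex_ne (h : φ y ∈ LW T) (h0 : φ y ≠ 0) : Ex hT D LD n τ y φ ≠ 0 := by
  rw [Ex_eq (f := ⟨_, h⟩) rfl]
  exact (map_ne_zero _).2 fun e => h0 (congrArg Subtype.val e)

theorem tt_eq : tt w = dg (w.ϖ ^ (-1 : ℤ)) * d2 w.ϖ w.ϖ := by
  rw [Gn.dg_eq, d2_mul, tt]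
  simp

theorem d2_eq (a d : Kˣ) : d2 a d = dg (a / d) * d2 d d := by
  rw [Gn.dg_eq, d2_mul, div_mul_cancel, one_mul]

namespace Cf

variable (h : Cf hT D LD) {g : GL (Fin 2) K} {θ : LW T →ₐ[Cx D.ι] (Cx D.ι)⸨X⸩} {b : Cx D.ι}
  {ε : ℤ → LW T →ₐ[Cx D.ι] (Cx D.ι)⸨X⸩}

include h

theorem dic : Dic hT D (tw w hT D.ι) := Br.dic h.ha h.ff h.nl.choose_spec h.den

theorem sa : w.SA := h.dic.sa h.ok.rSA

theorem ee_eq (hb : (tw w hT D.ι).Bas LD (plL hT D.ι τ) θ g b ε) : ee hT D LD τ g = ε := by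
  have e : ∃ ε θ b, (tw w hT D.ι).Bas LD (plL hT D.ι τ) θ g b ε := ⟨ε, θ, b, hb⟩
  obtain ⟨θ', b', h'⟩ := e.choose_spec
  exact (dif_pos e).trans (h.ok.rUNQ LD h.ld _ _ _ _ _ _ _ _ hb h')

theorem bas (o : Ord w D.e τ y) : ∃ b, (tw w hT D.ι).Bas LD (plL hT D.ι τ) (th D.ι τ) (w.π y) b
    (ee hT D LD τ (w.π y)) := by
  obtain ⟨b, ε, hb⟩ := h.ok.rBAS LD h.ld _ _ _ (cm_of_ord h.ha h.den o) (h.dic.cm τ y o).1
  exact ⟨b, (h.ee_eq hb).symm ▸ hb⟩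

theorem act_un (hU : U ∈ T.Lev) (hφ : φ ∈ T.RU U) (y : G) (c : K) :
    ∃ δ ∈ (tw w hT D.ι).H, Fm (w.π y) ((tw w hT D.ι).π δ) (un c) ∧
      (tw w hT D.ι).act δ (lw T (φ y)) = lw T (φ (y * w.ι (un c))) := by
  obtain ⟨δ, hδ, e⟩ := Cl.exists_un h.ok.rSA (w.π y) c
  exact ⟨δ, hδ, e ▸ Gn.fm_self _ _, Subtype.ext ((Lx.act_un h.dic hU hφ hδ e
    (coe_lw (val_mem hT hU hφ y))).trans (coe_lw (val_mem hT hU hφ _)).symm)⟩

/-- the field `L_n` in terms of translations -/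
theorem mem_Ln (hU : U ∈ T.Lev) (hφ : φ ∈ T.RU U) :
    lw T (φ y) ∈ (tw w hT D.ι).Ln (w.π y) n ↔
      ∀ c : K, Io O (c / (w.ϖ ^ n : Kˣ)) → φ (y * w.ι (un c)) = φ y := by
  have e := coe_lw (val_mem hT hU hφ y)
  refine (AT.mem_K _).trans ⟨fun k c hc => ?_, fun k γ hγ => ?_⟩
  · obtain ⟨δ, h1, h2, h3⟩ := h.act_un hU hφ y c
    rw [← coe_lw (val_mem hT hU hφ _), ← h3, k δ (Gn.mem_Nn.2 ⟨h1, c, hc, h2⟩), e]
  · obtain ⟨h1, c, hc, h2⟩ := Gn.mem_Nn.1 hγ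
    exact Subtype.ext ((act_H h.nl.choose_spec h1 h2 hU hφ e).trans ((k c hc).trans e.symm))

/-- unipotent elements near the identity lie in the level -/
theorem ex_lev (hU : U ∈ T.Lev) : ∃ m : ℕ, ∀ n : ℤ, (m : ℤ) ≤ n → ∀ c : K,
    Io O (c / (w.ϖ ^ n : Kˣ)) → w.ι (un c) ∈ U := by
  obtain ⟨m, hm⟩ := w.op U hU
  refine ⟨m, fun n hn c hc => hm ((h.ok.rMAT.2.2.2.2.2.1 m _).2 fun i l => ?_)⟩
  have h1 : Io O (c / w.ϖ ^ m) := by simpa [tw_uni] using Gn.io_mono h.ok.lf hn hc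
  have h2 : Io O c := by simpa using Gn.io_mono h.ok.lf (m := 0) (by omega) hc
  rw [← un_neg]
  fin_cases i <;> fin_cases l <;>
    simp [un_val, Gn.io_zero, Gn.io_one, Gn.io_neg h2, h2, tw_uni, h1]

theorem lev_Ln (hU : U ∈ T.Lev) : ∃ m : ℕ, ∀ n : ℤ, (m : ℤ) ≤ n → ∀ φ ∈ T.RU U, ∀ y,
    lw T (φ y) ∈ (tw w hT D.ι).Ln (w.π y) n :=
  (h.ex_lev hU).imp fun _ k n hn _ hφ y => (h.mem_Ln hU hφ).2 fun c hc => hφ.2 y _ (k n hn c hc)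

theorem kk_Ln (hU : U ∈ T.Lev) (mx : w.At (KK O K) U) (hn : 0 ≤ n) (hφ : φ ∈ T.RU U) (y : G) :
    lw T (φ y) ∈ (tw w hT D.ι).Ln (w.π y) n := (h.mem_Ln hU hφ).2 fun c hc =>
  hφ.2 y _ (mx.1 _ (Gn.un_mem_KK (by simpa using Gn.io_mono h.ok.lf hn hc)))

variable (o : Ord w D.e τ y)

include o

theorem fac (hl : lw T (φ y) ∈ (tw w hT D.ι).Ln (w.π y) n) (hm : φ y ∈ LW T) (h0 : φ y ≠ 0) :
    ∃ c Dv, Fac (Ex hT D LD n τ y φ) c Dv :=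
  (h.bas o).choose_spec.fac n _ hl fun e => h0 (by rw [← coe_lw hm, e]; rfl)

theorem Ex_succ : Ex hT D LD (n + 1) τ y φ = sub LD.f (Ex hT D LD n τ y φ) :=
  Cl.eps_succ h.ok h.ld (h.bas o).choose_spec n _

theorem Ex_order (hm : φ y ∈ LW T) : (Ex hT D LD n τ y φ).order = F0.Cf.od τ (φ y) := by
  rw [Ex, (h.ok.rCAL LD h.ld _ _ _ _ _ (h.bas o).choose_spec).2.1, th_order, coe_lw hm]

theorem ee_act (γ : G0) {z : GL (Fin 2) K} (hz : z ∈ Zl K) (f : LW T) :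
    ee hT D LD (T.r γ • τ) (w.π (T.j γ) * w.π y * z) n ((tw w hT D.ι).act (jm' hT γ) f) =
      ee hT D LD τ (w.π y) n f := by
  have := Cl.bas_z (Cl.bas_act h.ok (h.bas o).choose_spec (jm' hT γ)) hz
  rw [sm_j] at this
  have e := h.ee_eq (g := w.π (T.j γ) * w.π y * z) this
  rw [e]
  exact congrArg (ee hT D LD τ (w.π y) n) ((tw w hT D.ι).act_inv _ f)

theorem ee_z {z : GL (Fin 2) K} (hz : z ∈ Zl K) :
    ee hT D LD τ (w.π y * z) = ee hT D LD τ (w.π y) := h.ee_eq (Cl.bas_z (h.bas o).choose_spec hz)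

theorem ee_o {c : Oˣ} {μ : Kˣ} (e : (μ : K) = algebraMap O K c) (f : LW T) :
    ee hT D LD τ (w.π y * dg μ) n f = sub (LD.br c) (ee hT D LD τ (w.π y) n f) := by
  rw [h.ee_eq (Cl.bas_o h.ok fac_row fcs h.ld (h.bas o).choose_spec e)]
  rfl

theorem ee_pi (m : ℤ) : ee hT D LD τ (w.π y * dg (w.ϖ ^ m)) n = ee hT D LD τ (w.π y) (n + m) :=
  congrFun (h.ee_eq (Cl.bas_pi (h.bas o).choose_spec m)) n

/-- **B1** -/
theorem Ex_act (hU : U ∈ T.Lev) (hφ : φ ∈ T.RU U) (γ : G0) {u : G} (hu : u ∈ U)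
    (hz : w.π u ∈ Zl K) : Ex hT D LD n (T.r γ • τ) (T.j γ * y * u) φ = Ex hT D LD n τ y φ := by
  rw [Ex_eq (f := (tw w hT D.ι).act (jm' hT γ) (lw T (φ y))), map_mul, map_mul, h.ee_act o γ hz, Ex]
  rw [act_j, coe_lw (val_mem hT hU hφ y), Tw.RU_val hφ γ y hu]

/-- translation by an element which is central at `w` -/
theorem Ex_z {u : G} (hz : w.π u ∈ Zl K) :
    Ex hT D LD n τ (y * u) φ = Ex hT D LD n τ y (rt u φ) := by
  rw [Ex, map_mul, h.ee_z o hz]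
  rfl

/-- **B2** -/
theorem Ex_o {c : Oˣ} {μ : Kˣ} (e : (μ : K) = algebraMap O K c) :
    Ex hT D LD n τ (y * w.ι (dg μ)) φ =
      sub (LD.br c) (Ex hT D LD n τ y (rt (w.ι (dg μ)) φ)) := by
  rw [Ex, map_mul, w.πι, h.ee_o o e]
  rfl

/-- **B3** -/
theorem Ex_pi (m : ℤ) : Ex hT D LD n τ (y * w.ι (dg (w.ϖ ^ m))) φ =
    Ex hT D LD (n + m) τ y (rt (w.ι (dg (w.ϖ ^ m))) φ) := by
  rw [Ex, map_mul, w.πι, h.ee_pi o]
  rfl

theorem ee_tt (i : ℕ) : ee hT D LD τ (w.π y * tt w ^ i) n = ee hT D LD τ (w.π y) (n - i) := by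
  have e : tt w ^ i = dg (w.ϖ ^ (-i : ℤ)) * d2 (w.ϖ ^ i) (w.ϖ ^ i) := by
    rw [Gn.dg_eq, d2_mul, tt, d2_pow]
    simp
  have o' : Ord w D.e τ (y * w.ι (dg (w.ϖ ^ (-i : ℤ)))) := o.right ((w.πι _).trans (Gn.dg_eq _))
  have := h.ee_z o' (mem_Zl.2 ⟨w.ϖ ^ i, rfl⟩)
  rw [map_mul, w.πι] at this
  rw [e, ← mul_assoc, this, h.ee_pi o, sub_eq_add_neg]

/-- **B3**, for the forward step -/
theorem Ex_tt (i : ℕ) : Ex hT D LD n τ (y * w.ι (tt w ^ i)) φ =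
    Ex hT D LD (n - i) τ y (rt (w.ι (tt w ^ i)) φ) := by
  rw [Ex, map_mul, w.πι, h.ee_tt o]
  rfl

/-- **B4** -/
theorem Ex_un (hU : U ∈ T.Lev) (hφ : φ ∈ T.RU U)
    (hl : lw T (φ y) ∈ (tw w hT D.ι).Ln (w.π y) n) (c : K) :
    Cm (LD.tr (c / (w.ϖ ^ n : Kˣ))) (Ex hT D LD n τ y φ)
      (Ex hT D LD n τ y (rt (w.ι (un c)) φ)) := by
  obtain ⟨δ, h1, h2, h3⟩ := h.act_un hU hφ y c
  have := (h.bas o).choose_spec.trn n c δ h1 h2 _ hl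
  rwa [h3] at this

/-- **B6** -/
theorem dvd (hl : lw T (φ y) ∈ (tw w hT D.ι).Ln (w.π y) n) (hm : φ y ∈ LW T) {f : Mer} {N : ℕ}
    (e : φ y = f ^ N) {c : Cx D.ι} {Dv : Cx D.ι →₀ ℤ} (hf : Fac (Ex hT D LD n τ y φ) c Dv)
    (a : Cx D.ι) : (N : ℤ) ∣ Dv a := by
  classical
  by_cases ha : ‖a‖ < 1
  swap
  · rw [hf.out ha]
    exact dvd_zero _
  obtain ⟨_, ⟨V, hV, rfl⟩, V', h1, h2, h3⟩ := h.ok.rGN2 (w.π y) n {lw T (φ y)} (by simpa using hl)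
  haveI := h.ok.cff _ (Wg_mem hV) V' h1
  obtain ⟨j, h4, -⟩ := h.ok.rDSC LD h.ld _ _ _ _ _ (h.bas o).choose_spec n _ (Wg_mem hV) V' h1 h2
  have h5 := hV.set_lev hT h1
  have k : ∀ f : LW T, f ∈ (tw w hT D.ι).K ((tw w hT D.ι).U (Wg w hT D.ι V) V') ↔
      (f : Mer) ∈ KX T (w.set V' V) 1 := fun _ => by
    rw [U_Wg hV.lev h1.z (ll_le h.ha h1)]
    exact mem_K h5
  obtain ⟨_, pt, hp⟩ := T.cf _ (hT.fu _ h5 1)
  obtain ⟨j', h6, -⟩ := Lx.dsc_equiv (kE (KX_le hT h5 1) k) h4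
  let x : KX T (w.set V' V) 1 := ⟨_, (k _).1 (h3 _ (Finset.mem_singleton_self _))⟩
  have x0 : x ≠ 0 := fun e0 => hf.ne (by
    rw [Ex, show lw T (φ y) = 0 from Subtype.ext (congrArg (fun a : KX T _ 1 => (a : Mer)) e0), map_zero])
  obtain ⟨c', D', h7, h8⟩ := h6.fac x x0
  obtain ⟨τ', h9⟩ := hp.onto (j' a)
  have := hp.ord (hV.set_neat h1 1) τ' x x0
  rw [h9, show (x : Mer) = f ^ N from (coe_lw hm).trans e] at this
  rw [(fac_row.1 _ _ _ _ _ hf h7).2, ← h8 a ha]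
  exact MOrd.dvd_pow this

end Cf

end Vale.Agent.P022K.FI.Wf
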