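import Vale.Agent.P022K.FI.As2
import Vale.Agent.P022K.FI.Wf1

/-!
# P022K, block FI: the conjugates of an ordinary point under inertia and Frobenius
-/

set_option autoImplicit false
set_option linter.unusedSectionVars false
set_option linter.style.haveILetI false

open PowerSeries Vale.Agent.P019P P025H746
open scoped MatrixGroups LaurentSeries

noncomputable section

namespace Vale.Agent.P022K.FI.Wf.W2

open Vale.Agent.P022K.Sh Vale.Agent.P022.H218.L3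

section ser

theorem sub_frob {k : Type} [Field k] (p : ℕ) [Fact p.Prime] [CharP k p] (e : ℕ) (z : k⸨X⸩) :
    sub (X ^ p ^ e) (mp (iterateFrobenius k p e) z) = z ^ p ^ e := by
  have hp : p ^ e ≠ 0 := pow_ne_zero _ (Fact.out : p.Prime).ne_zero
  have key : ∀ a : k⟦X⟧, (PowerSeries.map (iterateFrobenius k p e) a).subst (X ^ p ^ e : k⟦X⟧) =
      a ^ p ^ e := fun a => by
    rw [← expand_apply _ hp, ← map_expand]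
    exact MvPowerSeries.map_iterateFrobenius_expand p (Fact.out : p.Prime).ne_zero a e
  obtain ⟨a, b, -, rfl⟩ := exists_div z
  rw [map_div₀, mp_am, mp_am, sub_div (by rw [map_pow, constantCoeff_X, zero_pow hp])
    (pow_ne_zero _ X_ne_zero), key, key, map_pow, map_pow, div_pow]

/-- the computation in the reduction -/
theorem ser {C : Type} [NontriviallyNormedField C] [IsUltrametricDist C] [CompleteSpace C]
    {u : C⟦X⟧} {x : C⸨X⸩} {z : (kC C)⸨X⸩} (p : ℕ) [Fact p.Prime] [CharP (kC C) p] {e : ℕ}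
    {s : C ≃+* C} (hs : ∀ c, ‖s c‖ = ‖c‖)
    (ht : ∀ c, ‖c‖ ≤ 1 → cred (s c) = cred c ^ p ^ e) {Φ : C⟦X⟧} (f1 : Ig Φ)
    (f0 : constantCoeff Φ = 0) (f2 : rd Φ = X ^ p ^ e) (hu : Ig u) (h0 : constantCoeff u = 0)
    (h1 : rd u ≠ 0) (h : Rd x z) (hz : z.order = 1) {x' : C⸨X⸩} {z' : (kC C)⸨X⸩} (h' : Rd x' z')
    (h2 : Rd (sub Φ x' - x ^ p ^ e) 0) (h3 : sub u x' = mp (s : C →+* C) x) : rd u = X := by
  have a1 := rd_sub' f1 f0 (f2 ▸ pow_ne_zero _ X_ne_zero) h'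
  have a2 := h2.add (rd_pow' h (p ^ e))
  rw [sub_add_cancel, zero_add] at a2
  have a3 := a1.unique a2
  rw [f2, ← sub_frob p e z] at a3
  have a4 := (sub (X ^ p ^ e : (kC C)⟦X⟧)).injective a3
  have a5 := (rd_sub' hu h0 h1 h').unique (h3 ▸ rd_mp hs (t := iterateFrobenius _ p e)
    (fun c hc => (ht c hc).trans (iterateFrobenius_def _ _ _).symm) h)
  rw [← a4] at a5
  exact sub_eq_X (cc_rd h0) h1 (by rw [a4, order_mp, hz]) a5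

end ser

section tower

variable {C L Γ O E : Type} [NontriviallyNormedField C] [IsUltrametricDist C] [CompleteSpace C]
  [IsAlgClosed C] [CharZero C] [Field L] [Algebra C L] [Group Γ] [CommRing O] [IsDomain O]
  [IsDiscreteValuationRing O] [Field E] [Algebra O E] [Algebra E C] {A : AT C L Γ O E}
  {D : LTD C O E} {x : Plk C L} {θ θ' : L →ₐ[C] C⸨X⸩} {g g' : GL (Fin 2) E} {b b' : C}
  {ε ε' : ℤ → L →ₐ[C] C⸨X⸩} {ν : NV C L}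

theorem rd_br_ne {ϖ : Eˣ} (hL : LF O C ϖ) (hD : D.Ok ϖ) (o : Oˣ) : rd (D.br o) ≠ 0 := fun e => by
  have := (rd_eq_zero (hD.br_ig o)).1 e 1
  rw [Cl.br_one hD, Cl.norm_unit hL] at this
  exact this.false

theorem same_pt (hA : A.Ok) (hD : D.Ok A.ϖ) (hB : A.Bas D x θ g b ε) (hB' : A.Bas D x θ' g' b' ε')
    (hg : g⁻¹ * g' ∈ KZ O E) :
    ∃ o : Oˣ, (∀ n h, ε' n h = sub (D.br o) (ε n h)) ∧ (o = 1 → g⁻¹ * g' ∈ Zl E) := by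
  have := hA.lf.fr
  obtain ⟨a1, a2⟩ := (hA.rHYP x θ g hB.cm).2.2 θ' g' hB'.cm
  obtain ⟨c, μ, z, hz, e, hc⟩ := Cl.borel a1
  rw [hc a2, un_zero, one_mul] at e
  obtain ⟨o, ho⟩ := As.unit_of_KZ hz (e ▸ hg)
  refine ⟨o, fun n h => ?_, fun e1 => ?_⟩
  · rw [inv_mul_eq_iff_eq_mul, ← mul_assoc] at e
    have h1 := Cl.bas_z (Cl.bas_o hA fac_row fcs hD hB ho) hz
    rw [← e] at h1
    rw [hA.rUNQ D hD _ _ _ _ _ _ _ _ h1 hB']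
    rfl
  · rwa [e, show μ = 1 from Units.ext (by rw [ho, e1, Units.val_one, map_one, Units.val_one]),
      Gn.dg_one, one_mul]

theorem ex_rd (hb : A.Bas D x θ g b ε) (hν : A.Gv g ε ν) {n : ℤ} {h : L} (hh : h ∈ A.Ln g n)
    (h1 : ν h ≤ 1) : ∃ z, Rd (ε n h) z ∧ (ν h < 1 → z = 0) := by
  rcases eq_or_ne h 0 with rfl | h0
  · exact ⟨0, by rw [map_zero]; exact rd_zero', fun _ => rfl⟩
  obtain ⟨c, Dv, hc⟩ := hb.fac n h hh h0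
  rw [hν n h hh c Dv hc] at h1 ⊢
  exact (hc.red h1).imp fun _ k => ⟨k.1, k.2.1⟩

/-- a function whose reduction is a uniformiser -/
theorem ex_unif (hA : A.Ok) (hD : D.Ok A.ϖ) (hb : A.Bas D x θ g b ε) (hν : A.Gv g ε ν)
    {W : Subgroup Γ} (hW : W ∈ A.Wl) :
    ∃ f ∈ A.Kv W g, f ∈ A.Ln g 0 ∧ ν f ≤ 1 ∧ ∃ z, Rd (ε 0 f) z ∧ z.order = 1 := by
  have hN := As.np0 hA.rMAT g
  haveI := hA.cff W hW _ (hA.rMAT.1 g)
  obtain ⟨j, hj, -⟩ := hA.rDSC D hD x θ g b ε hb 0 W hW _ (hA.rMAT.1 g) hN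
  obtain ⟨η, e1, _, z, -, e2⟩ := bra hA.gf _ _ j hj
  obtain ⟨t, t0, t1⟩ := exists_unif z
  obtain ⟨h, h1, rfl⟩ := NV.red_surj t
  have h0 : h ≠ 0 := by rintro rfl; exact t0 (NV.red_of_lt (by simp))
  obtain ⟨c, Dv, hc, -⟩ := hj.fac h h0
  have c1 : ‖c‖ = 1 := by
    rw [← e1 h c Dv hc]
    exact h1.eq_of_not_lt fun h2 => t0 (NV.red_of_lt h2)
  have hh : (h : L) ∈ A.Ln g 0 := Gn.le_Ln hW (hA.rMAT.1 _).z (fun c hc => (hN c).2 hc) h.2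
  obtain ⟨y, y1, -, y2⟩ := hc.red c1.le
  exact ⟨h, h.2, hh, (hν 0 h hh c Dv hc).trans_le c1.le, y, y1,
    (y2 c1).2.trans ((e2 h c Dv hc c1).symm.trans t1)⟩

/-- the frame of the conjugate basin -/
theorem frame (p : ℕ) [Fact p.Prime] [CharP (kC C) p] (hA : A.Ok) (hD : D.Ok A.ϖ)
    (rig : ∀ o : Oˣ, rd (D.br o) = X → o = 1) (hb : A.Bas D x θ g b ε) (hν : A.Gv g ε ν)
    {W : Subgroup Γ} (hW : W ∈ A.Wl) {m : ℤ} (hm : m ≤ 0) {e : ℕ} {Φ : C⟦X⟧} (f1 : Ig Φ)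
    (f0 : constantCoeff Φ = 0) (f2 : rd Φ = X ^ p ^ e) (hε : ∀ h, ε 0 h = sub Φ (ε m h)) {γ : Γ}
    (hb' : A.Bas D (A.sm γ x) θ' g' b' ε') (hg : (A.π γ * (g * dg (A.ϖ ^ m)))⁻¹ * g' ∈ KZ O E)
    {s : C ≃+* C} (hs : ∀ c, ‖s c‖ = ‖c‖) (ht : ∀ c, ‖c‖ ≤ 1 → cred (s c) = cred c ^ p ^ e)
    (H : ∀ f ∈ A.Kv W g, ν f ≤ 1 → ∃ f' ∈ A.Ln g m, ν (f' - f ^ p ^ e) < 1 ∧
      ε' 0 (A.act γ f') = mp (s : C →+* C) (ε 0 f)) :
    (A.π γ * (g * dg (A.ϖ ^ m)))⁻¹ * g' ∈ Zl E := by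
  obtain ⟨o, h1, h2⟩ := same_pt hA hD (Cl.bas_act hA (Cl.bas_pi hb m) γ) hb' hg
  obtain ⟨f, a1, a2, a3, z, a4, a5⟩ := ex_unif hA hD hb hν hW
  obtain ⟨f', b1, b2, b3⟩ := H f a1 a3
  have b4 : ν f' ≤ 1 := by simpa using NV.add_le b2.le (NV.pow_le_one' a3 (p ^ e))
  obtain ⟨z', c1, -⟩ := ex_rd hb hν b1 b4
  obtain ⟨y, c2, c3⟩ := ex_rd hb hν (sub_mem (Gn.Ln_mono hA g hm b1) (pow_mem a2 (p ^ e))) b2.le
  rw [c3 b2, map_sub, map_pow, hε f'] at c2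
  refine h2 (rig o (ser p hs ht f1 f0 f2 (hD.br_ig o) (hD.br0 o) (rd_br_ne hA.lf hD o) a4 a5 c1 c2
    (Eq.trans ?_ b3)))
  rw [h1, zero_add]
  exact congrArg (fun y => sub (D.br o) (ε m y)) (A.act_inv γ f').symm

end tower

section pt

open Hk Br UpperHalfPlane Vale.Agent.P027M

variable {G0 G : Type} [Group G0] [Group G] {T : Tw G0 G} {hT : T.Ok} {O K : Type} [CommRing O]
  [IsDomain O] [IsDiscreteValuationRing O] [Field K] [Algebra O K] {w : T.Lc O K} {p : ℕ}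
  [Fact p.Prime] {D : Emb w p} [Algebra K (Cx D.ι)] {A : AT (Cx D.ι) (LW T) (Gm hT) O K}
  {U : Subgroup G} {σ : ℂ ≃+* ℂ} {θ : (G → Mer) → G → Mer} {n : ℕ}
  (hA : A.Ok) (d : Dic hT D A) (hx : EXO w D.e) (ari : ∀ τ x, Ord w D.e τ x → Ari w τ x)

include hA d hx ari

theorem ctx (hU : Nl w U) [∀ x, CFF ℂ (KX T U x)] : Ctx D U :=
  ⟨hT, T.cf, T.gen, hU.lev, hU.neat, hU.mx, d.sa hA.rSA, rd_of hA d hx ari hU.lev hU.neat hU.mx⟩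

/-- the action on the ordinary points of a neat maximal level -/
theorem th_eq (cen : CEN T) (cj : CJ T) (hU : Nl w U) (s : T.Sl σ θ)
    (dec : Dec D.ι D.e (qq O ^ n) σ) :
    ∃ th, IsTh w D.e σ θ U th ∧ ∀ y, th y = (fw w D.e U)^[n] y := by
  obtain ⟨h1, h2⟩ := noa _ _ T hT (Tw.pts_of hT T.cf) (mul_row hT) (Oc.ff hT (left _ _ T hT)) cen cj
    O K w D.e D.cmp ari σ θ s dec.fix
  obtain ⟨th, t⟩ := h1 U hU.lev
  refine ⟨th, t, h2 n (fun V hV nV mV th t => ?_) U hU.lev hU.neat hU.mx th t⟩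
  haveI := cff_KX hT hV
  exact (ctx hA d hx ari ⟨hV, nV, mV⟩).rigb s ⟨dec.iso, dec.pow⟩ t

omit hA d hx ari in
theorem cong [∀ x, CFF ℂ (KX T U x)] (h : Ctx D U) (s : T.Sl σ θ) (hn : n ≤ 1)
    (dec : Dec D.ι D.e (qq O ^ n) σ) {th : OP w D.e U → OP w D.e U} (t : IsTh w D.e σ θ U th)
    (e : ∀ y, th y = (fw w D.e U)^[n] y) {v : NV (Cx D.ι) (LW T)} {τ : ℍ} {y : G} (l : Vl D U v τ)
    (o : Ord w D.e τ y) (φ : T.RU U) (h1 : v (h.evL y φ) ≤ 1) :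
    v (h.evL (y * w.ι (tt w ^ n)) (thU s h.lev φ) - h.evL y φ ^ qq O ^ n) < 1 := by
  have h2 := (h.v_evL (l y o) φ).symm.trans_le h1
  obtain rfl | rfl : n = 0 ∨ n = 1 := by omega
  · obtain ⟨a, b⟩ := (h.ine s ⟨dec.iso, by simpa only [pow_zero] using dec.pow⟩ t e y).2 φ
    rw [pow_zero, pow_zero, map_one, mul_one, pow_one,
      ← I.red_eq_iff ((h.v_evL (l y o) _).trans_le (a.trans_le h2)) h1]
    exact (h.emb_red (l y o) _).symm.trans ((congrArg _ b.symm).trans (h.emb_red (l y o) _))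
  · obtain ⟨-, a, b⟩ := h.fro s ⟨dec.iso, by simpa only [pow_one] using dec.pow⟩ t e
    rw [pow_one, pow_one, ← I.red_eq_iff ((h.v_evL (l _ o.step) _).trans_le ((a y φ).trans_le h2))
      (NV.pow_le_one' h1 _), NV.red_pow h1]
    exact b v τ y l o φ

/-- **the conjugate of an ordinary point** under inertia (`n = 0`) and Frobenius (`n = 1`) -/
theorem main (cen : CEN T) (cj : CJ T) {LD : LTD (Cx D.ι) O K} (hD : LD.Ok A.ϖ)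
    (rig : ∀ o : Oˣ, rd (LD.br o) = X → o = 1) (hU : Nl w U) (s : T.Sl σ θ) (hn : n ≤ 1)
    (dec : Dec D.ι D.e (qq O ^ n) σ) {τ τ' : ℍ} {y y' u₀ : G} (o : Ord w D.e τ y)
    (pt : T.Pt σ θ τ y τ' y') (h0 : u₀ ∈ U) {ϑ ϑ' : LW T →ₐ[Cx D.ι] (Cx D.ι)⸨X⸩} {b b' : Cx D.ι}
    {ε ε' : ℤ → LW T →ₐ[Cx D.ι] (Cx D.ι)⸨X⸩} (hb : A.Bas LD (plL hT D.ι τ) ϑ (w.π y) b ε)
    (hb' : A.Bas LD (plL hT D.ι τ') ϑ' (w.π (y' * u₀)) b' ε')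
    (gal : ∀ φ ∈ T.RU U, ∀ f f' : LW T, (f : Mer) = φ y → (f' : Mer) = θ φ y' →
      ε' 0 f' = mp (au D.ι σ : Cx D.ι →+* Cx D.ι) (ε 0 f)) :
    ∃ γ, ∃ u ∈ U, τ' = T.r γ • τ ∧ y' * u₀ = T.j γ * (y * w.ι (tt w ^ n)) * u ∧ w.π u ∈ Zl K := by
  obtain ⟨th, t, e⟩ := th_eq hA d hx ari cen cj hU s dec
  haveI := cff_KX hT hU.lev
  have h := ctx hA d hx ari hU
  have e1 := t τ y o τ' y' pt
  rw [e, fw_iter hT D.cmp] at e1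
  obtain ⟨γ, u, hu, rfl, rfl⟩ := pm_eq.1 e1
  obtain ⟨ν, hν⟩ := ex_nu hA d hD o
  have l : Vl D U ν τ := fun x ox => by
    obtain ⟨_, _, _, h6, h7⟩ := hν x ox
    exact rLOCX hA d LD hD (one hA d hx hD) U hU.lev hU.neat hU.mx τ x ox _ _ _ ν h6 h7
  obtain ⟨_, _, ε₁, h6, gv⟩ := hν y o
  obtain rfl := hA.rUNQ LD hD _ _ _ _ _ _ _ _ hb h6
  obtain ⟨W, hW, lev⟩ := d.lev U hU.lev hU.neat hU.mx y
  obtain ⟨k, hk⟩ := Emb.qq_eq D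
  have e2 : tt w ^ n = dg (A.ϖ ^ (-n : ℤ)) * d2 (w.ϖ ^ n) (w.ϖ ^ n) := by
    rw [Gn.dg_eq, d2_mul, tt, d2_pow, d.uni]
    simp
  have hz : d2 (w.ϖ ^ n) (w.ϖ ^ n) ∈ Zl K := mem_Zl.2 ⟨_, rfl⟩
  have e3 : (A.π (jm' hT γ) * (w.π y * dg (A.ϖ ^ (-n : ℤ))))⁻¹ *
      w.π (T.j γ * (y * w.ι (tt w ^ n)) * u * u₀) = d2 (w.ϖ ^ n) (w.ϖ ^ n) * w.π (u * u₀) := by
    simp only [d.pi, coe_jm', map_mul, w.πι, e2]
    group
  obtain ⟨Φ, f1, f0, f2, f3⟩ : ∃ Φ : (Cx D.ι)⟦X⟧, Ig Φ ∧ constantCoeff Φ = 0 ∧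
      rd Φ = X ^ qq O ^ n ∧ ∀ h, ε₁ 0 h = sub Φ (ε₁ (-n : ℤ) h) := by
    obtain rfl | rfl : n = 0 ∨ n = 1 := by omega
    · exact ⟨X, ig_X, constantCoeff_X, by simp [rd_X], fun h => by simp [sub_X]⟩
    · refine ⟨LD.f, (Cl.f_deg hD).1, Cl.f_zero hA.lf hD, ?_, fun h => by
        simpa using Cl.eps_succ hA hD hb (-1) h⟩
      have := (rd_eq_zero hD.f_red.ig).2 hD.f_red
      rwa [rd_sub (Cl.f_deg hD).1 (ig_X.pow _), rd_pow ig_X, rd_X, sub_eq_zero, ← pow_one (qq O)] at this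
  have is : Isom D.ι σ (qq O ^ n) := ⟨dec.iso, dec.pow⟩
  have l0 := lev 1
  have l1 := lev (tt w ^ n)
  rw [map_one, mul_one, mul_one] at l0
  rw [hA.rMAT.2.2.2.2.2.2.2.1 (w.π y * dg (A.ϖ ^ (-n : ℤ))) _ (by
    rw [e2, ← mul_assoc (w.π y), inv_mul_cancel_left]
    exact As.zl_KZ hz)] at l1
  rw [hk, ← pow_mul] at f2 is
  rw [← Fm0.sm_j d] at hb'
  have key := frame p hA hD rig hb gv hW (by omega) f1 f0 f2 f3 hb' (by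
    rw [e3]
    exact mul_mem (As.zl_KZ hz) (hU.mx.2 _ (mul_mem hu h0))) (s := au D.ι σ)
    is.au (fun c hc => by rw [← is.kEq, kEq_cred]) fun f h1 h2 => by
      obtain ⟨φ, hφ, e4, -⟩ := Tw.ex_RU y ((Lx.mem_K d hU.lev l0 f).1 h1)
      obtain rfl : f = h.evL y ⟨φ, hφ⟩ := Subtype.ext e4.symm
      refine ⟨h.evL _ (thU s h.lev ⟨φ, hφ⟩), Lx.kv_le hA.rMAT hW _ _
        ((Lx.mem_K d hU.lev l1 _).2 (RU_mem (s.mem U hU.lev φ hφ) _)), ?_, gal φ hφ _ _ rfl ?_⟩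
      · rw [pow_mul, ← hk]
        exact cong h s hn dec t e l o _ h2
      · rw [d.act, aL_apply, ac_j, Tw.RU_val (s.mem U hU.lev φ hφ) γ _ hu]
        rfl
  rw [e3] at key
  exact ⟨γ, u * u₀, mul_mem hu h0, rfl, mul_assoc _ _ _, (mul_mem_cancel_left hz).1 key⟩

omit hA d hx ari [Algebra K (Cx D.ι)] in
/-- an isometry fixes the `p`-adic numbers -/
theorem fix_e {w : T.Lc ℤ_[p] ℚ_[p]} (D : Emb w p) (hσ : ∀ c, ‖D.ι (σ c)‖ = ‖D.ι c‖) (c : ℚ_[p]) :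
    σ (D.e c) = D.e c := by
  refine RingHom.congr_fun (IsFractionRing.ringHom_ext (A := ℤ_[p])
    (f1 := (σ : ℂ →+* ℂ).comp D.e) (f2 := D.e) fun a => D.ι.injective ?_) c
  refine sub_eq_zero.1 (norm_le_zero_iff.1 (ge_of_tendsto' (tendsto_pow_atTop_nhds_zero_of_lt_one
    (norm_nonneg _) (CS.norm_p_lt p)) fun k => ?_))
  obtain ⟨b, hb⟩ := Ideal.mem_span_singleton'.1 (a.appr_spec k)
  have h1 := (D.int _).2 (show ig ℤ_[p] (algebraMap ℤ_[p] ℚ_[p] b) from ⟨b, rfl⟩)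
  have h2 := IsUltrametricDist.norm_add_le_max (D.ι (σ (D.e (algebraMap ℤ_[p] ℚ_[p] b))))
    (-D.ι (D.e (algebraMap ℤ_[p] ℚ_[p] b)))
  rw [norm_neg, hσ, max_self] at h2
  rw [eq_sub_iff_add_eq.1 hb |>.symm]
  simp only [RingHom.comp_apply, map_add, map_mul, map_pow, map_natCast, RingHom.coe_coe]
  rw [add_sub_add_right_eq_sub, ← sub_mul, norm_mul, norm_pow, sub_eq_add_neg]
  exact mul_le_of_le_one_left (by positivity) (h2.trans h1)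

end pt

end Vale.Agent.P022K.FI.Wf.W2

namespace Vale.Agent.P022K.FI.Wf

open Vale.Agent.P022K.Sh Vale.Agent.P022.H218.L3 Hk Br UpperHalfPlane

variable {G0 G : Type} [Group G0] [Group G] {T : Tw G0 G} {hT : T.Ok} {p : ℕ} [Fact p.Prime]
  {U : Subgroup G} {σ : ℂ ≃+* ℂ} {θ : (G → Mer) → G → Mer} {τ τ' : ℍ} {y y' : G}

section gen

variable {O K : Type} [CommRing O] [IsDomain O] [IsDiscreteValuationRing O] [Field K] [Algebra O K]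
  {w : T.Lc O K} (D : Emb w p)

/-- the arithmetic inputs -/
structure Ar : Prop where
  exo : EXO w D.e
  ari : ∀ τ x, Ord w D.e τ x → Ari w τ x
  cen : CEN T
  cj : CJ T

variable [Algebra K (Cx D.ι)] (LD : LTD (Cx D.ι) O K) (hT σ θ U τ y τ' y') in
/-- the expansions at the conjugate point (B5 at level zero) -/
def G5 (χ : Kˣ) : Prop := Ord w D.e τ' y' ∧ ∀ φ ∈ T.RU U,
  Ex hT D LD 0 τ' (y' * w.ι (dg χ⁻¹)) (rt (w.ι (dg χ)) (θ φ)) =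
    mp (au D.ι σ : Cx D.ι →+* Cx D.ι) (Ex hT D LD 0 τ y φ)

variable {D} [Algebra K (Cx D.ι)] {LD : LTD (Cx D.ι) O K}

/-- **INE** (`n = 0`) and **FRO** (`n = 1`) for any local field -/
theorem Cf.conj (h : Cf hT D LD) (a : Ar D) (rig : ∀ o : Oˣ, rd (LD.br o) = X → o = 1)
    (hU : Nl w U) (s : T.Sl σ θ) {n : ℕ} (hn : n ≤ 1) (dec : Dec D.ι D.e (qq O ^ n) σ)
    (o : Ord w D.e τ y) (pt : T.Pt σ θ τ y τ' y') {χ : Kˣ} (hχ : dg χ ∈ KK O K)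
    (g : G5 hT U σ θ τ τ' y y' D LD χ) : ∃ γ, ∃ u ∈ U, τ' = T.r γ • τ ∧
      y' * w.ι (dg χ⁻¹) = T.j γ * y * w.ι (tt w ^ n) * u ∧ w.π u ∈ Zl K := by
  obtain ⟨b, hb⟩ := h.bas o
  obtain ⟨b', hb'⟩ := h.bas (g.1.right ((w.πι (dg χ⁻¹)).trans (Gn.dg_eq _)))
  simp only [mul_assoc (T.j _) y]
  refine W2.main h.ok h.dic a.exo a.ari a.cen a.cj h.ld rig hU s hn dec o pt
    (hU.mx.1 _ (Gn.dg_inv χ ▸ inv_mem hχ)) hb hb' fun φ hφ f f' e e' => ?_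
  rw [← Ex_eq e, ← g.2 φ hφ]
  refine (Ex_eq (e'.trans ?_)).symm
  rw [rt, mul_assoc, ← map_mul, Gn.dg_inv, inv_mul_cancel, map_one, mul_one]

end gen

section quat

variable {F : Type} [Field F] [NumberField F] (X : QD F) {v : Pl F}

theorem arx' {O K : Type} [CommRing O] [IsDomain O] [IsDiscreteValuationRing O] [Field K]
    [Algebra O K] {L : X.tw.Lc O K} (h : X.IsPl v L) (D : Emb L p) (he : IsE X L D.e) : Ar D :=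
  ⟨(cmpx X O K L v h D.e he).2, arx (left _ _ _ X.ok) O K L v h D.e, cenx X, cjx X⟩

/-- the standing assumptions for the tower of a quaternion algebra -/
theorem cfa {L : X.tw.Lc ℤ_[p] ℚ_[p]} (h : X.IsPl v L) (D : Emb L p) (he : IsE X L D.e)
    (hp : (L.ϖ : ℚ_[p]) = p) : letI := alg D
    ∃ LD ψ, Cf X.ok D LD ∧ Mu LD L.ϖ ψ ∧ Ar D := by
  letI := alg D
  have a := arx' X h D he
  have k := okx X.ok (left _ _ _ X.ok) h D a.exo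
  obtain ⟨LD, ψ, m⟩ := ex_mu k.lf hp
  exact ⟨LD, ψ, ⟨alg_eq D, k, Oc.ff X.ok (left _ _ _ X.ok), nlx h, denx h D.e, m.ok⟩, m, a⟩

end quat

variable {w : T.Lc ℤ_[p] ℚ_[p]} {D : Emb w p} [Algebra ℚ_[p] (Cx D.ι)]
  {LD : LTD (Cx D.ι) ℤ_[p] ℚ_[p]} {ψ : ℚ_[p] → Cx D.ι} {χ : ℚ_[p]ˣ}

theorem dec_of {a : WB.Iso (CS p)} (hσ : ∀ c, D.ι (σ c) = a.1 (D.ι c)) {N : ℕ}
    (ha : ∀ x : CS p, ‖x‖ ≤ 1 → ‖a.1 x - x ^ N‖ < 1) : Dec D.ι D.e N σ :=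
  have i : ∀ c, ‖D.ι (σ c)‖ = ‖D.ι c‖ := fun c => hσ c ▸ a.2 _
  ⟨i, W2.fix_e D i, fun c hc => by rw [map_sub, map_pow, hσ]; exact ha _ hc⟩

variable (h : Cf hT D LD) (m : Mu LD w.ϖ ψ) (ar : Ar D) (hU : Nl w U) (s : T.Sl σ θ)
  {a : WB.Iso (CS p)} (hσ : ∀ c, D.ι (σ c) = a.1 (D.ι c)) (o : Ord w D.e τ y)
  (pt : T.Pt σ θ τ y τ' y') (hχ : ‖(χ : ℚ_[p])‖ = 1) (g : G5 hT U σ θ τ τ' y y' D LD χ)

include h m ar hU s hσ o pt hχ g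

theorem conj {n : ℕ} (hn : n ≤ 1) (ha : ∀ x : CS p, ‖x‖ ≤ 1 → ‖a.1 x - x ^ p ^ n‖ < 1) :
    ∃ γ, ∃ u ∈ U, τ' = T.r γ • τ ∧
      y' * w.ι (dg χ⁻¹) = T.j γ * y * w.ι (tt w ^ n) * u ∧ w.π u ∈ Zl ℚ_[p] :=
  h.conj ar (fun _ e => Units.ext (m.eq_one_of_rd h.ok.lf e)) hU s hn
    (by rw [qq_p]; exact dec_of hσ ha) o pt (Sg.dg_mem (PadicInt.mkUnits hχ) rfl) g

/-- **INE** -/
theorem ine (ha : ∀ x : CS p, ‖x‖ ≤ 1 → ‖a.1 x - x‖ < 1) : ∃ γ, ∃ u ∈ U, τ' = T.r γ • τ ∧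
    y' * w.ι (dg χ⁻¹) = T.j γ * y * u ∧ w.π u ∈ Zl ℚ_[p] := by
  simpa only [pow_zero, map_one, mul_one] using
    conj h m ar hU s hσ o pt hχ g zero_le_one (by simpa only [pow_zero, pow_one] using ha)

/-- **FRO** -/
theorem fro (ha : ∀ x : CS p, ‖x‖ ≤ 1 → ‖a.1 x - x ^ p‖ < 1) : ∃ γ, ∃ u ∈ U, τ' = T.r γ • τ ∧
    y' * w.ι (dg χ⁻¹) = T.j γ * y * w.ι (tt w) * u ∧ w.π u ∈ Zl ℚ_[p] := by
  simpa only [pow_one] using conj h m ar hU s hσ o pt hχ g le_rfl (by simpa only [pow_one] using ha)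

/-- **FRO**, with the step `diag (ϖ, 1)⁻¹` -/
theorem fro' (ha : ∀ x : CS p, ‖x‖ ≤ 1 → ‖a.1 x - x ^ p‖ < 1) : ∃ γ, ∃ u ∈ U, τ' = T.r γ • τ ∧
    y' * w.ι (dg χ⁻¹) = T.j γ * y * w.ι (dg w.ϖ)⁻¹ * u ∧ w.π u ∈ Zl ℚ_[p] := by
  obtain ⟨γ, u, h1, h2, h3, h4⟩ := fro h m ar hU s hσ o pt hχ g ha
  have hz : d2 w.ϖ w.ϖ ∈ Zl ℚ_[p] := mem_Zl.2 ⟨_, rfl⟩
  refine ⟨γ, w.ι (d2 w.ϖ w.ϖ) * u, mul_mem ((sInf_le hU.lev : T.Z ≤ U) (w.cen _ hz)) h1, h2, ?_,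
    by rw [map_mul, w.πι]; exact mul_mem hz h4⟩
  rw [h3, ← mul_assoc, mul_assoc _ (w.ι _) (w.ι _), ← map_mul, ← Gn.dg_inv, Gn.dg_eq, d2_mul,
    inv_mul_cancel, one_mul, tt]

end Vale.Agent.P022K.FI.Wf
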