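import Vale.Agent.P022K.FI.Wf1
import Vale.Agent.P022K.FI.Hk2
import Vale.Agent.P022K.FI.Famx
import Vale.Agent.P022K.F0.Pts

/-!
# P022K, block FI: the action of the Galois group on the expansions at ordinary points
-/

set_option autoImplicit false
set_option linter.unusedSectionVars false
set_option linter.style.haveILetI false

open PowerSeries UpperHalfPlane Vale.Agent.P019P
open scoped LaurentSeries MatrixGroups

noncomputable section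

namespace Vale.Agent.P022K.FI.Wf

open Vale.Agent.P022K.Sh Vale.Agent.P022.H218.L3

section tower

variable {C L Γ O E : Type} [NontriviallyNormedField C] [IsUltrametricDist C] [CompleteSpace C]
  [IsAlgClosed C] [CharZero C] [Field L] [Algebra C L] [Group Γ] [CommRing O] [IsDomain O]
  [IsDiscreteValuationRing O] [Field E] [Algebra O E] [Algebra E C]

/-- a semilinear automorphism of a tower -/
structure Tr (A : AT C L Γ O E) (σ : C ≃+* C) (Θ : L ≃+* L) (κ : Γ ≃* Γ) (a : GL (Fin 2) E) :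
    Prop where
  nrm : ∀ c, ‖σ c‖ = ‖c‖
  fix : ∀ e, σ (algebraMap E C e) = algebraMap E C e
  semi : ∀ c, Θ (algebraMap C L c) = algebraMap C L (σ c)
  act : ∀ γ f, Θ (A.act γ f) = A.act (κ γ) (Θ f)
  pi : ∀ γ, A.π (κ γ) = a * A.π γ * a⁻¹
  H : ∀ γ, κ γ ∈ A.H ↔ γ ∈ A.H
  wl : ∀ W ∈ A.Wl, ∃ W' ∈ A.Wl, ∀ γ ∈ W, κ γ ∈ W'

variable {A : AT C L Γ O E} {σ : C ≃+* C} {Θ : L ≃+* L} {κ : Γ ≃* Γ} {a g : GL (Fin 2) E}
  {x x' : Plk C L} {θ : L →ₐ[C] C⸨X⸩} {D : LTD C O E} {b : C} {ε : ℤ → L →ₐ[C] C⸨X⸩}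

namespace Tr

variable (h : Tr A σ Θ κ a)

/-- the conjugate of an expansion -/
def cv (θ : L →ₐ[C] C⸨X⸩) : L →ₐ[C] C⸨X⸩ :=
  { (mp (σ : C →+* C)).comp ((θ : L →+* C⸨X⸩).comp (Θ.symm : L →+* L)) with
    commutes' := fun c => by
      obtain ⟨c, rfl⟩ := σ.surjective c
      show mp _ (θ (Θ.symm _)) = _
      rw [← h.semi, Θ.symm_apply_apply, AlgHom.commutes, mp_const]
      rfl }

theorem cv_apply (θ : L →ₐ[C] C⸨X⸩) (f : L) : h.cv θ (Θ f) = mp (σ : C →+* C) (θ f) :=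
  congrArg (fun f => mp (σ : C →+* C) (θ f)) (Θ.symm_apply_apply f)

include h

theorem fm {γ : Γ} {k : GL (Fin 2) E} : Fm (a * g) (A.π (κ γ)) k ↔ Fm g (A.π γ) k := by
  rw [h.pi, Gn.fm_conj]

theorem mem_K {S S' : Subgroup Γ} (e : ∀ γ, κ γ ∈ S' ↔ γ ∈ S) {f : L} :
    Θ f ∈ A.K S' ↔ f ∈ A.K S := by
  rw [A.mem_K, A.mem_K, κ.surjective.forall]
  exact forall_congr' fun γ => by rw [e, ← h.act, Θ.injective.eq_iff]

theorem mem_Ln {n : ℤ} {f : L} : Θ f ∈ A.Ln (a * g) n ↔ f ∈ A.Ln g n :=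
  h.mem_K fun γ => by simp only [Gn.mem_Nn, h.H, h.fm]

variable (hx : ∀ f, Θ f ∈ x'.1 ↔ f ∈ x.1)

include hx

theorem st {γ : Γ} : κ γ ∈ A.St x' ↔ γ ∈ A.St x := by
  refine (Subtype.ext_iff.trans SetLike.ext_iff).trans
    (Iff.trans ?_ (Subtype.ext_iff.trans SetLike.ext_iff).symm)
  rw [Θ.surjective.forall]
  exact forall_congr' fun f => by rw [A.mem_sm, A.mem_sm, ← map_inv, ← h.act, hx, hx]

theorem cm (c : A.CM x θ g) : A.CM x' (h.cv θ) (a * g) := by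
  refine ⟨Θ.surjective.forall.2 fun f => ?_, c.uni.elim fun s hs => ⟨Θ s, ?_⟩,
    κ.surjective.forall.2 fun t ht => ?_, fun e r hr => ?_⟩
  · rw [hx, cv_apply, order_mp, c.pl]
  · rwa [cv_apply, order_mp]
  · obtain ⟨μ, h1, h2⟩ := c.lin t ((h.st hx).1 ht)
    refine ⟨μ, h.fm.2 h1, Θ.surjective.forall.2 fun f n => ?_⟩
    rw [← h.act, cv_apply, cv_apply, coeff_mp, coeff_mp, ← h2 f n, map_mul, map_zpow₀,
      RingHom.coe_coe, h.fix]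
  · obtain ⟨t, h1, μ, h2, h3⟩ := c.den e r hr
    exact ⟨κ t, (h.st hx).2 h1, μ, h.fm.2 h2, h3⟩

theorem hyp (c : A.Hyp x) : A.Hyp x' := by
  obtain ⟨W, hW, γ, h1, h2, h3⟩ := c
  obtain ⟨W', hW', k⟩ := h.wl W hW
  refine ⟨W', hW', κ γ, k γ h1, (h.st hx).2 h2, fun e => h3 (AlgEquiv.ext fun f => Θ.injective ?_)⟩
  rw [h.act, MonoidHom.mem_ker.1 e]
  rfl

/-- **transport of basins** -/
theorem bas (hD : D.Ok A.ϖ) (hl : PowerSeries.map (σ : C →+* C) D.lg = D.lg) {o : Oˣ} {μ : Eˣ}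
    (e : (μ : E) = algebraMap O E o)
    (ht : ∀ t, PowerSeries.map (σ : C →+* C) (D.tr t) = D.tr (μ * t)) (B : A.Bas D x θ g b ε) :
    A.Bas D x' (h.cv θ) (a * g * dg μ⁻¹) (σ b) fun n => h.cv (ε n) := by
  have b0 : σ b ≠ 0 := (map_ne_zero σ).2 B.b0
  have l : ∀ n f, Θ f ∈ A.Ln (a * g * dg μ⁻¹) n → f ∈ A.Ln g n := fun n f hf => by
    rwa [Cl.Ln_o (o := o⁻¹) _ (by rw [Units.val_inv_eq_inv_val, e, map_units_inv]), h.mem_Ln] at hf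
  refine ⟨Cl.cm_frame (h.cm hx B.cm) fun _ _ => Cl.fm_dg_dg _ _, h.hyp hx B.hyp, b0,
    fun n => Θ.surjective.forall.2 fun f => ?_, fun n => Θ.surjective.forall.2 fun f hf h0 => ?_,
    fun n c => κ.surjective.forall.2 fun γ hγ hf => Θ.surjective.forall.2 fun f hl => ?_⟩
  · refine (sb_iff (Cl.lam0 hD _) (Cl.lam_ne hD (Cl.co_ne b0 n))).2 ?_
    rw [cv_apply, cv_apply, Cl.eps hD B, mp_sub _ (Cl.lam0 hD _) (Cl.lam_ne hD (Cl.co_ne B.b0 n)),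
      smul_eq_C_mul, map_mul, hl, map_C, map_mul, map_zpow₀, RingHom.coe_coe, h.fix,
      smul_eq_C_mul]
  · obtain ⟨c, Dv, k⟩ := B.fac n f (l n f hf) fun e => h0 (by rw [e, map_zero])
    exact ⟨_, _, h.cv_apply _ f ▸ fac_map h.nrm k⟩
  · have := cm_map h.nrm (B.trn n _ γ ((h.H γ).1 hγ) (h.fm.1 ((Cl.fm_dg_un _ _).1 hf)) f (l n f hl))
    rwa [ht, ← mul_div_assoc, Units.mul_inv_cancel_left, ← h.cv_apply, ← h.cv_apply, h.act] at this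

end Tr

end tower

open Hk Br

variable {G0 G : Type} [Group G0] [Group G] {T : Tw G0 G} {U : Subgroup G} {σ : ℂ ≃+* ℂ}
  {θ : (G → Mer) → G → Mer} {τ τ' : ℍ} {y y' : G}

theorem rel_iff {Θ : T.RU U ≃+* T.RU U} {x x' z z' : G} (h : Ker Θ x x') (h' : Ker Θ z z') :
    T.Rel U x z ↔ T.Rel U x' z' := by
  have k : ∀ {x x'}, Ker Θ x x' → Ker Θ.symm x' x := fun h φ e => by
    obtain ⟨s, hs⟩ := h.ex
    exact congrArg Subtype.val ((map_eq_zero s).1 ((hs (Θ.symm φ)).trans (by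
      rw [Θ.apply_symm_apply]
      exact Subtype.ext e)))
  exact ⟨fun r => (h.left r).rel h', fun r => ((k h).left r).rel (k h')⟩

variable (hT : T.Ok)

theorem mem_Gm (x : G) {g : G} : g ∈ Gm hT ↔ ∀ U ∈ T.Lev, T.Rel U x (g * x) := by
  refine ⟨fun h U hU => ?_, fun h U hU => ?_⟩
  · obtain ⟨γ, k⟩ := h _ (hT.conj U hU x)
    exact ⟨γ, _, mem_cj.1 k, by group⟩
  · obtain ⟨γ, u, hu, e⟩ := h _ (hT.conj U hU x⁻¹)
    refine ⟨γ, ?_⟩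
    convert mem_cj.1 hu using 1
    rw [eq_mul_inv_of_mul_eq e]
    group

include hT

theorem ex_val (y : G) (f : LW T) : ∃ U ∈ T.Lev, ∃ φ ∈ T.RU U, (f : Mer) = φ y := by
  obtain ⟨U, hU, h⟩ := ex_lev hT f
  obtain ⟨φ, h1, h2, -⟩ := Tw.ex_RU (T := T) (U := cj y⁻¹ U) y (f := f) (by
    rwa [Gam_cj, mul_inv_cancel])
  exact ⟨_, hT.conj U hU _, φ, h1, h2.symm⟩

variable (s : T.Sl σ θ) (q : T.Pt σ θ τ y τ' y')

include s q

theorem ker_pt (hU : U ∈ T.Lev) (g : G) : Ker (thU s hU) (y * g) (y' * g) :=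
  Pv.ker (σ := σ) (τ := τ) (τ' := τ') fun φ => s.em.pt_mul hT q g U hU φ φ.2

theorem gm_iff {g : G} : y' * y⁻¹ * g * (y' * y⁻¹)⁻¹ ∈ Gm hT ↔ g ∈ Gm hT := by
  refine (mem_Gm hT y').trans (Iff.trans (forall₂_congr fun U hU => ?_) (mem_Gm hT y).symm)
  have := rel_iff (ker_pt hT s q hU 1) (ker_pt hT s q hU (y⁻¹ * g * y))
  rw [mul_one, mul_one, show y * (y⁻¹ * g * y) = g * y by group,
    show y' * (y⁻¹ * g * y) = y' * y⁻¹ * g * (y' * y⁻¹)⁻¹ * y' by group] at this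
  exact this.symm

/-- conjugation of the group of a component -/
def ka : Gm hT ≃* Gm hT where
  toFun g := ⟨_, (gm_iff hT s q).2 g.2⟩
  invFun g := ⟨(y' * y⁻¹)⁻¹ * g * (y' * y⁻¹), (gm_iff hT s q).1 (by
    convert g.2 using 1
    group)⟩
  left_inv g := Subtype.ext (by simp [mul_assoc])
  right_inv g := Subtype.ext (by simp [mul_assoc])
  map_mul' g g' := Subtype.ext (by simp [mul_assoc])

theorem coe_ka (g : Gm hT) : (ka hT s q g : G) = y' * y⁻¹ * g * (y' * y⁻¹)⁻¹ := rfl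

theorem ex_Th : ∃ Θ : LW T ≃+* LW T, ∀ U ∈ T.Lev, ∀ φ ∈ T.RU U, ∀ f : LW T,
    (f : Mer) = φ y → (Θ f : Mer) = θ φ y' := by
  choose V hV ψ hψ e using ex_val hT y
  have wd : ∀ U ∈ T.Lev, ∀ φ ∈ T.RU U, ∀ f : LW T, (f : Mer) = φ y → θ (ψ f) y' = θ φ y' :=
    fun U hU φ hφ f hf => by
      have := ker_pt hT s q (hT.inf _ (hV f) _ hU) 1
        (⟨ψ f, Tw.RU_mono inf_le_left (hψ f)⟩ - ⟨φ, Tw.RU_mono inf_le_right hφ⟩)
        (sub_eq_zero.2 (by rw [mul_one]; exact (e f).symm.trans hf))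
      rw [map_sub, mul_one] at this
      exact sub_eq_zero.1 this
  have two : ∀ f g : LW T, ψ f ∈ T.RU (V f ⊓ V g) ∧ ψ g ∈ T.RU (V f ⊓ V g) := fun f g =>
    ⟨Tw.RU_mono inf_le_left (hψ f), Tw.RU_mono inf_le_right (hψ g)⟩
  let F : LW T →+* LW T :=
    { toFun := fun f => ⟨θ (ψ f) y', val_mem hT (hV f) (s.mem _ (hV f) _ (hψ f)) y'⟩
      map_one' := Subtype.ext ((wd _ (hV 1) 1 (one_mem _) 1 rfl).trans
        (congrFun (by simpa using s.cst 1) y'))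
      map_mul' := fun f g => Subtype.ext ((wd _ (hT.inf _ (hV f) _ (hV g)) _
        (mul_mem (two f g).1 (two f g).2) _ (congrArg₂ (· * ·) (e f) (e g))).trans
        (congrFun (s.mul _ (hT.inf _ (hV f) _ (hV g)) _ (two f g).1 _ (two f g).2) y'))
      map_zero' := Subtype.ext ((wd _ (hV 0) 0 (zero_mem _) 0 rfl).trans
        (congrFun (by simpa using s.cst 0) y'))
      map_add' := fun f g => Subtype.ext ((wd _ (hT.inf _ (hV f) _ (hV g)) _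
        (add_mem (two f g).1 (two f g).2) _ (congrArg₂ (· + ·) (e f) (e g))).trans
        (congrFun (s.add _ (hT.inf _ (hV f) _ (hV g)) _ (two f g).1 _ (two f g).2) y')) }
  refine ⟨RingEquiv.ofBijective F ⟨F.injective, fun g => ?_⟩, wd⟩
  obtain ⟨U, hU, φ, hφ, h⟩ := ex_val hT y' g
  obtain ⟨φ, h1, rfl⟩ := (s.bij U hU).surjOn hφ
  exact ⟨⟨φ y, val_mem hT hU h1 y⟩, Subtype.ext ((wd U hU φ h1 _ rfl).trans h.symm)⟩

variable {Θ : LW T ≃+* LW T} (hΘ : ∀ U ∈ T.Lev, ∀ φ ∈ T.RU U, ∀ f : LW T,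
  (f : Mer) = φ y → (Θ f : Mer) = θ φ y')

include hΘ

theorem od_Th (f : LW T) : F0.Cf.od τ' (Θ f : Mer) = F0.Cf.od τ (f : Mer) := by
  rcases eq_or_ne f 0 with rfl | h0
  · simp [F0.Cf.od_zero]
  obtain ⟨U, hU, φ, hφ, e⟩ := ex_val hT y f
  obtain ⟨V, hV, hn⟩ := hT.neat
  have hW := hT.inf U hU V hV
  have := s.is.mord hT hT T.cf T.cf hW (hn.mono inf_le_right) (hn.mono inf_le_right) (q _ hW)
    (Tw.RU_mono inf_le_left hφ) (e ▸ mord_od τ fun e => h0 (Subtype.ext e))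
  rw [hΘ U hU φ hφ f e, (mord_iff.1 this).2, e]

variable {O K : Type} [CommRing O] [IsDomain O] [IsDiscreteValuationRing O] [Field K] [Algebra O K]
  {w : T.Lc O K} {p : ℕ} [Fact p.Prime] {D : Emb w p} [Algebra K (Cx D.ι)]
  {LD : LTD (Cx D.ι) O K}

theorem pl_Th (f : LW T) : Θ f ∈ (plL hT D.ι τ').1 ↔ f ∈ (plL hT D.ι τ).1 := by
  rw [mem_plL, mem_plL, F0.Cf.reg_iff, F0.Cf.reg_iff, od_Th hT s q hΘ]
  simp

variable {hT} in
theorem Cf.tr (h : Cf hT D LD) (hn : ∀ c, ‖D.ι (σ c)‖ = ‖D.ι c‖) (he : ∀ c, σ (D.e c) = D.e c) :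
    Tr (tw w hT D.ι) (au D.ι σ) Θ (ka hT s q) (w.π (y' * y⁻¹)) := by
  obtain ⟨V, hV⟩ := h.nl
  have e1 : ∀ γ : Gm hT, (y' * y⁻¹)⁻¹ * ka hT s q γ * (y' * y⁻¹) = γ := fun γ => by
    rw [coe_ka]
    group
  have e2 : ∀ γ : Gm hT, w.π (ka hT s q γ) ∈ Ev K (Cx D.ι) ↔ w.π γ ∈ Ev K (Cx D.ι) := fun γ => by
    rw [← Ev_conj (w.π (y' * y⁻¹)), ← map_inv, ← map_mul, ← map_mul, e1]
  refine ⟨hn, fun c => by rw [h.ha]; exact he c, fun c => Subtype.ext ?_, fun γ f => Subtype.ext ?_,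
    fun γ => by rw [tw_pi, tw_pi, coe_ka, map_mul, map_mul, map_inv], fun γ => ?_, ?_⟩
  · exact (hΘ V hV.lev _ (Subalgebra.algebraMap_mem _ (c : ℂ)) _ rfl).trans (congrFun (s.cst c) y')
  · obtain ⟨U, hU, φ, hφ, e⟩ := ex_val hT y f
    rw [hΘ _ (hT.conj U hU (y⁻¹ * γ * y)) _ (Tw.RU_rt hφ _) _ ((act_RU hU hφ γ y e).trans
      (congrArg φ (by group))), s.eqv U hU φ hφ,
      act_RU hU (s.mem U hU φ hφ) _ y' (hΘ U hU φ hφ f e), coe_ka]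
    exact congrArg (θ φ) (by group)
  · rw [mem_H hV, mem_H hV, e2]
    refine and_congr_left' ⟨fun k => ?_, fun k => ?_⟩
    · rwa [← e1 γ, map_mul, map_mul, map_inv, Z_conj hT k]
    · rw [coe_ka, map_mul, map_mul, map_inv]
      have := Z_conj hT k (Lv.aw w (y' * y⁻¹))⁻¹
      rw [inv_inv] at this
      rwa [this]
  · rintro _ ⟨U, hU, rfl⟩
    exact ⟨_, Wx_mem hU (y' * y⁻¹), fun γ k => mem_Wx.2 ⟨(e1 γ).symm ▸ k.1, (e2 γ).2 k.2⟩⟩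

omit hΘ

variable {hT} in
/-- **B5** -/
theorem Cf.gal (h : Cf hT D LD) (o : Ord w D.e τ y) (hn : ∀ c, ‖D.ι (σ c)‖ = ‖D.ι c‖)
    (he : ∀ c, σ (D.e c) = D.e c)
    (hl : PowerSeries.map (au D.ι σ : Cx D.ι →+* Cx D.ι) LD.lg = LD.lg) {c : Oˣ} {χ : Kˣ}
    (e : (χ : K) = algebraMap O K c)
    (ht : ∀ t, PowerSeries.map (au D.ι σ : Cx D.ι →+* Cx D.ι) (LD.tr t) = LD.tr (χ * t)) :
    Ord w D.e τ' y' ∧ ∀ n, ∀ U ∈ T.Lev, ∀ φ ∈ T.RU U,
      Ex hT D LD n τ' (y' * w.ι (dg χ⁻¹)) (rt (w.ι (dg χ)) (θ φ)) =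
        mp (au D.ι σ : Cx D.ι →+* Cx D.ι) (Ex hT D LD n τ y φ) := by
  obtain ⟨Θ, hΘ⟩ := ex_Th hT s q
  have t := h.tr s q hΘ hn he
  have hx := pl_Th (D := D) hT s q hΘ
  obtain ⟨b, B⟩ := h.bas o
  have e1 : w.π (y' * y⁻¹) * w.π y = w.π y' := by rw [← map_mul, inv_mul_cancel_right]
  refine ⟨?_, fun n U hU φ hφ => ?_⟩
  · obtain ⟨x, hx'⟩ := ord_of_hyp h.ha (t.hyp hx B.hyp)
    have := Fm0.ord_of h.ok.rHYP h.dic hx' (g₀ := 1)
      (by rw [AT.sm_one]; exact t.cm hx B.cm) e1.symm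
    simpa using this
  · have B' := t.bas hx h.ld hl e ht B
    rw [Ex_eq (f := Θ (lw T (φ y))), map_mul, w.πι, ← e1, h.ee_eq B', t.cv_apply, Ex]
    rw [hΘ U hU φ hφ _ (coe_lw (val_mem hT hU hφ y))]
    exact congrArg (θ φ) (by rw [mul_assoc, ← map_mul, Gn.dg_inv, inv_mul_cancel, map_one, mul_one])

end Vale.Agent.P022K.FI.Wf
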