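import Vale.Agent.P022K.FI.Na3

/-!
# P022K, block FI: the conjugates of an ordinary point are finite in number at each level
-/

set_option autoImplicit false

open UpperHalfPlane WithZero
open scoped MatrixGroups

noncomputable section

namespace Vale.Agent.P022K.FI.Na

open Vale.Agent.P022K.Sh Vale.Agent.P022K.FI.Lv Vale.Agent.P022K.FI.Oc

variable {G0 G : Type} [Group G0] [Group G] {T : Tw G0 G}
variable {O K : Type} [CommRing O] [IsDomain O] [IsDiscreteValuationRing O] [Field K] [Algebra O K]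
variable {w : T.Lc O K} {e : K →+* ℂ} {τ : ℍ} {x : G} {U : Subgroup G}

/-- **FIN** -/
theorem fin_cent (hT : T.Ok) (hF : FF T) (hx : Ord w e τ x) (hU : U ∈ T.Lev) (hn : T.Neat U)
    (h : w.At (KK O K) U) : ∃ (n : ℕ) (f : {s // Cent T τ x s} → Fin n), ∀ s s', f s = f s' →
      pm T U τ (x * s) = pm T U τ (x * s') := by
  have := Z_normal hT
  obtain ⟨γ, a, d, h1, h2, h3, -⟩ := hx
  have hZ : T.Z ≤ U := sInf_le hU
  have hg : lc T x γ ∉ U := fun hg => by
    have := (d2_mem w).1 (h2 ▸ h.2 _ hg)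
    rw [← lt_one w, map_div₀, this, div_self (Lv.pos w a).ne'] at h3
    exact h3.false
  obtain ⟨n, f, hf⟩ := fx_fin (S := dc U (lc T x γ) U)
    (fun s : {s // Cent T τ x s} => (τ, x * s, γ))
    (fun s => ⟨h1, 1, one_mem _, _, hZ (qz_eq.1 (show Qz T (lc T x γ) =
      Qz T ((s : G)⁻¹ * lc T x γ * s) by
        rw [map_mul, map_mul, map_inv, mul_assoc, ← (cz_iff.1 (s.2 γ h1)).eq,
          inv_mul_cancel_left])), by
      show lc T (x * _) γ = _
      rw [lc_right]
      group⟩) (hF U hU hn _ hg)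
  refine ⟨n, f, fun s s' e1 => ?_⟩
  obtain ⟨δ, u, hu, k1, k2, -⟩ := hf s s' e1
  exact pm_eq.2 ⟨δ, u, hu, k1, k2⟩

end Vale.Agent.P022K.FI.Na
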