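import Vale.Agent.P022K.FI.Wf2
import Vale.Agent.P022K.FI.Wf3
import Vale.Agent.P022K.FI.Wf4
import Vale.Agent.P022K.WB.WfSt
import Vale.Agent.P022K.WB.Psi

/-!
# P022K, block FI: the action of the isometries on the ordinary points of a level
-/

set_option autoImplicit false
set_option linter.unusedSectionVars false

open UpperHalfPlane Vale.Agent.P019P

noncomputable section

namespace Vale.Agent.P022K.FI.Wf

open Vale.Agent.P022K.Sh Vale.Agent.P022.H218.L3 Hk Br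

variable {G0 G : Type} [Group G0] [Group G] {T : Tw G0 G} {hT : T.Ok} {p : ℕ} [Fact p.Prime]
  {w : T.Lc ℤ_[p] ℚ_[p]} {U : Subgroup G} {σ : ℂ ≃+* ℂ} {θ : (G → Mer) → G → Mer} {τ τ' : ℍ}
  {y y' : G}

/-- the isometry `s` moves the point `(τ, y)` to `(τ', y')` -/
def Rr (D : Emb w p) (th : WB.Iso (CS p) → (G → Mer) → G → Mer) (s : WB.Iso (CS p)) (τ : ℍ) (y : G)
    (τ' : ℍ) (y' : G) : Prop :=
  ∃ σ θ y0, T.Sl σ θ ∧ (∀ c, D.ι (σ c) = s.1 (D.ι c)) ∧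
    (∀ U ∈ T.Nl, ∀ k b b', T.Ga θ (p ^ k) U b b' → T.Ga (th s) (p ^ k) U b b') ∧
    T.Pt σ θ τ y τ' y0 ∧ y' = y0 * w.ι (dg (WB.uq (WB.chi0 p s))⁻¹)

variable {D : Emb w p} [Algebra ℚ_[p] (Cx D.ι)] {LD : LTD (Cx D.ι) ℤ_[p] ℚ_[p]}
  {ψ : ℚ_[p] → Cx D.ι} (h : Cf hT D LD) (m : Mu LD w.ϖ ψ)

include h m

/-- **B5** for the multiplicative group -/
theorem gal_gm (s : T.Sl σ θ) {a : WB.Iso (CS p)} (hσ : ∀ c, D.ι (σ c) = a.1 (D.ι c))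
    (o : Ord w D.e τ y) (q : T.Pt σ θ τ y τ' y') :
    Ord w D.e τ' y' ∧ ∀ n, ∀ U ∈ T.Lev, ∀ φ ∈ T.RU U,
      Ex hT D LD n τ' (y' * w.ι (dg (WB.uq (WB.chi0 p a))⁻¹))
        (rt (w.ι (dg (WB.uq (WB.chi0 p a)))) (θ φ)) =
        mp (au D.ι σ : Cx D.ι →+* Cx D.ι) (Ex hT D LD n τ y φ) :=
  have i : ∀ c, ‖D.ι (σ c)‖ = ‖D.ι c‖ := fun c => hσ c ▸ a.2 _
  h.gal s q o i (W2.fix_e D i) (m.map_lg _) (c := WB.chi0 p a) rfl (m.map_tr _ fun x =>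
    D.ι.injective ((hσ _).trans ((WB.Psi.chg (Cx.iso D.ι) m.psi).cyc0 a x)))

/-- **PR** -/
theorem pr (hϖ : (w.ϖ : ℚ_[p]) = p) (ar : Ar D) {th : WB.Iso (CS p) → (G → Mer) → G → Mer}
    (ga : ∀ s : WB.Iso (CS p), ∃ σ θ, T.Sl σ θ ∧ (∀ c, D.ι (σ c) = s.1 (D.ι c)) ∧
      ∀ U ∈ T.Nl, ∀ k b b', T.Ga θ (p ^ k) U b b' → T.Ga (th s) (p ^ k) U b b')
    (hU : U ∈ T.Nl) (mx : w.At (KK ℤ_[p] ℚ_[p]) U) : WB.Gl.Pr w D.e (Rr D th) U := by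
  have := Na.Z_normal hT
  choose σ θ s hσ g using ga
  have key := fun a τ y (o : Ord w D.e τ y) => Na.cmt hT (Tw.pts_of hT T.cf) (mul_row hT) ar.cj
    D.cmp (s a) (W2.fix_e D fun c => hσ a c ▸ a.2 _) o
  have nm : ∀ a, ‖(WB.uq (WB.chi0 p a) : ℚ_[p])‖ = 1 := fun a => PadicInt.norm_units _
  have g5 : ∀ a τ y (o : Ord w D.e τ y) {y'} (q : T.Pt (σ a) (θ a) τ y τ y'),
      G5 hT U (σ a) (θ a) τ τ y y' D LD (WB.uq (WB.chi0 p a)) := fun a τ y o _ q =>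
    (gal_gm h m (s a) (hσ a) o q).imp_right fun k => k 0 U hU.1
  refine ⟨fun a ha τ y o => ?_, fun a ha τ y o => ?_, fun τ y o => ?_⟩
  · obtain ⟨c, -, q⟩ := key a τ y o
    obtain ⟨γ, u, h1, h2, h3, h4⟩ :=
      ine h m ar ⟨hU.1, hU.2, mx⟩ (s a) (hσ a) o q (nm a) (g5 a τ y o q) ha
    exact ⟨γ, u, h1, h4, _, _, _, s a, hσ a, g a, h2 ▸ q, h3.symm⟩
  · obtain ⟨c, -, q⟩ := key a τ y o
    obtain ⟨γ, u, h1, h2, h3, h4⟩ :=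
      fro' h m ar ⟨hU.1, hU.2, mx⟩ (s a) (hσ a) o q (nm a) (g5 a τ y o q) ha
    have e : dg w.ϖ = WB.tt p := by
      ext i l
      fin_cases i <;> fin_cases l <;> simp [dg_val, hϖ, WB.tt, WB.dd, WB.mk, WB.pu]
    exact ⟨γ, u, h1, h4, _, _, _, s a, hσ a, g a, h2 ▸ q, e ▸ h3.symm⟩
  · choose c h1 q using fun a => key a τ y o
    obtain ⟨n, f, hf⟩ := Na.fin_cent hT h.ff o hU.1 hU.2 mx
    have k : ∀ a, pm T U τ (y * c a) = pm T U τ (y * c a * w.ι (dg (WB.uq (WB.chi0 p a))⁻¹)) :=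
      fun a => pm_eq.2 ⟨1, w.ι (dg (WB.uq (WB.chi0 p a))⁻¹),
        mx.1 _ (Gn.dg_inv (WB.uq (WB.chi0 p a)) ▸ inv_mem (Sg.dg_mem (WB.chi0 p a) rfl)),
        by rw [map_one, one_smul],
        by rw [map_one, one_mul]⟩
    exact ⟨n, fun a => f ⟨c a, h1 a⟩, fun _ => τ, _, fun a => ⟨⟨_, _, _, s a, hσ a, g a, q a, rfl⟩,
      (Na.ord_cent o (h1 a)).right ((w.πι _).trans (Gn.dg_eq _))⟩,
      fun a a' e => (k a).symm.trans ((hf _ _ e).trans (k a'))⟩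

end Vale.Agent.P022K.FI.Wf
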