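import Vale.Agent.P027M.I.Van3

/-!
# P022K FI, row X0, part A1: local rings of branches, specialisation of points

`Ob b` is the local ring of the glue class of the branch `b`; `Spc P b` says that the point `P`
specialises to the class of `b`.  Main result `lr`: a function with norm at most one everywhere
whose poles do not specialise to `b` lies in `Ob b`; hence the gluing does not depend on the
parameter (`ob_of_bb`, `glue_tw`).
-/

set_option linter.unusedSectionVars false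
set_option linter.style.haveILetI false

noncomputable section

open IntermediateField Vale.Agent.P019P P025H746 P025H492 Module Vale.Agent.P027M.I

namespace Vale.Agent.P022K.FI.X0

variable {C : Type} [NontriviallyNormedField C] [IsUltrametricDist C] [IsAlgClosed C]
variable {F : Type} [Field F] [Algebra C F] {T : F} [FiniteDimensional C⟮T⟯ F] {f g : F}

theorem cred_sub {x y : C} (hx : ‖x‖ ≤ 1) (hy : ‖y‖ ≤ 1) : cred (x - y) = cred x - cred y := by
  have h : ‖x - y‖ ≤ 1 := by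
    rw [sub_eq_add_neg]
    exact (IsUltrametricDist.norm_add_le_max _ _).trans (max_le hx (by rwa [norm_neg]))
  rw [eq_sub_iff_add_eq, ← cred_add h hy, sub_add_cancel]

theorem nv_one_of {w : NV C F} (h : w f ≤ 1) (h0 : w.red f ≠ 0) : w f = 1 :=
  le_antisymm h (not_lt.1 fun h1 => h0 (NV.red_of_lt h1))

theorem nv_mul (w : NV C F) (x y : F) : w (x * y) = w x * w y := map_mul w.av x y

theorem nv_inv (w : NV C F) (x : F) : w x⁻¹ = (w x)⁻¹ := map_inv₀ w.av x

section vals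

variable {k K : Type*} [Field k] [Field K] [Algebra k K] [CFF k K] {P : Plk k K} {y z : K}

theorem inv_mem_of_vl (hz : z ∈ P.1) (h : vl P z ≠ 0) : z⁻¹ ∈ P.1 := by
  rw [Ne, vl_eq_zero_iff hz, mem_Mge_one_iff, not_or, not_not] at h
  exact h.2

theorem ne_zero_of_vl (h : vl P z ≠ 0) : z ≠ 0 := by
  rintro rfl; exact h vl_zero'

theorem mem_of_mul (hz : z ∈ P.1) (h : vl P z ≠ 0) (hy : y * z ∈ P.1) : y ∈ P.1 := by
  have := mul_mem hy (inv_mem_of_vl hz h)
  rwa [mul_inv_cancel_right₀ (ne_zero_of_vl h)] at this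

theorem mul_pow_mem (hz : z ∈ Mge P 1) {n : ℕ} (hy : y ∈ Mge P (-(n : ℤ))) : y * z ^ n ∈ P.1 := by
  have h : ∀ m : ℕ, z ^ m ∈ Mge P m := fun m => by
    induction m with
    | zero => simpa using mem_Mge0.2 (one_mem P.1)
    | succ m ih => rw [pow_succ]; exact_mod_cast mul_mem_Mge ih hz
  have := mul_mem_Mge hy (h n)
  rwa [neg_add_cancel, mem_Mge0] at this

theorem exists_Mge (P : Plk k K) (y : K) : ∃ n : ℕ, y ∈ Mge P (-(n : ℤ)) :=
  ⟨(-ord P y).toNat, Or.inr (by omega)⟩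

theorem poles_finite (y : K) : {P : Plk k K | y ∉ P.1}.Finite := by
  by_cases h : y = 0
  · subst h; simp
  · exact (dv_finite (k := k) h).subset fun P hP e => hP ((mem_iff_ord P y).2 (Or.inr e.ge))

theorem const_of_reg (h : ∀ P : Plk k K, z ∈ P.1) : ∃ a : k, z = algebraMap k K a :=
  LL_zero_le (mem_LL_iff.2 fun P => by simpa using mem_Mge0.2 (h P))

/-- a proper non-zero ideal of a subring containing the constants has a zero -/
theorem exists_plk (E : Subring K) (hE : ∀ a : k, algebraMap k K a ∈ E) (J : Ideal E) (hJ : J ≠ ⊤)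
    {z₀ : E} (h0 : z₀ ∈ J) (h1 : (z₀ : K) ≠ 0) :
    ∃ x : Plk k K, (∀ z ∈ E, z ∈ x.1) ∧ ∀ z : E, z ∈ J → (z : K) ∈ Mge x 1 := by
  obtain ⟨V, hV1, hV2⟩ := Ideal.image_subset_nonunits_valuationSubring J hJ
  have h2 : ∀ z : E, z ∈ J → (z : K) ≠ 0 → (z : K)⁻¹ ∉ V := fun z hz h3 e => by
    have h4 := (V.valuation_le_one_iff _).2 e
    rw [map_inv₀, inv_le_one₀ (zero_lt_iff.2 ((map_ne_zero _).2 h3))] at h4
    exact absurd (V.mem_nonunits_iff.1 (hV2 ⟨z, hz, rfl⟩)) (not_lt.2 h4)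
  refine ⟨⟨V, fun a => hV1 (hE a), fun e => h2 z₀ h0 h1 (e ▸ ValuationSubring.mem_top _)⟩,
    fun z hz => hV1 hz, fun z hz => mem_Mge_one_iff.2 ?_⟩
  by_cases h3 : (z : K) = 0
  · exact Or.inl h3
  · exact Or.inr (h2 z hz h3)

end vals

/-- the reductions of `BB` at one component -/
def EE (w : WW C T) : Subring (kap w.1) where
  carrier := {z | ∃ f, BB C T f ∧ w.1.red f = z}
  mul_mem' := by
    rintro _ _ ⟨f, hf, rfl⟩ ⟨g, hg, rfl⟩
    exact ⟨f * g, hf.mul hg, NV.red_mul (hf.1 w) (hg.1 w)⟩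
  one_mem' := ⟨1, BB.one, NV.red_one⟩
  add_mem' := by
    rintro _ _ ⟨f, hf, rfl⟩ ⟨g, hg, rfl⟩
    exact ⟨f + g, hf.add hg, NV.red_add (hf.1 w) (hg.1 w)⟩
  zero_mem' := ⟨0, BB.zero, NV.red_zero⟩
  neg_mem' := by
    rintro _ ⟨f, hf, rfl⟩
    exact ⟨-f, by simpa using BB.zero.sub hf, NV.red_neg (hf.1 w)⟩

theorem const_mem_EE (w : WW C T) (a : kC C) : algebraMap (kC C) (kap w.1) a ∈ EE w := by
  obtain ⟨c, hc, rfl⟩ := cred_surj a
  exact ⟨_, BB.const hc, NV.red_algebraMap hc⟩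

/-- the local ring of the class of a branch -/
def Ob (b : Br C T) (f : F) : Prop :=
  ∃ h, BB C T h ∧ b.ev (redv C T h) ≠ 0 ∧ BB C T (f * h)

namespace Ob

variable {b b' : Br C T}

theorem of_bb (hf : BB C T f) : Ob b f :=
  ⟨1, BB.one, by simpa using (evB_const (T := T) b (c := 1) (by simp)).trans_ne (by simp), by
    rwa [mul_one]⟩

theorem unit {h : F} (h1 : BB C T h) (h2 : b.ev (redv C T h) ≠ 0) : b.w.1 h = 1 :=
  nv_one_of (h1.1 _) (ne_zero_of_vl h2)

theorem le (hf : Ob b f) : b.w.1 f ≤ 1 := by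
  obtain ⟨h, h1, h2, h3⟩ := hf
  have := h3.1 b.w
  rwa [nv_mul, unit h1 h2, mul_one] at this

theorem mem (hf : Ob b f) : b.w.1.red f ∈ b.x.1 := by
  have h0 := hf.le
  obtain ⟨h, h1, h2, h3⟩ := hf
  refine mem_of_mul (h1.red_mem b) h2 ?_
  rw [← NV.red_mul h0 (h1.1 _)]
  exact h3.red_mem b

theorem ev_mul' (hf : Ob b f) (hg : Ob b g) :
    b.ev (redv C T (f * g)) = b.ev (redv C T f) * b.ev (redv C T g) := by
  change vl b.x (b.w.1.red (f * g)) = _
  rw [NV.red_mul hf.le hg.le]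
  exact vl_mul' hf.mem hg.mem

theorem mul (hf : Ob b f) (hg : Ob b g) : Ob b (f * g) := by
  obtain ⟨h, h1, h2, h3⟩ := hf
  obtain ⟨h', h1', h2', h3'⟩ := hg
  refine ⟨h * h', h1.mul h1', by rw [evB_mul b h1 h1']; exact mul_ne_zero h2 h2', ?_⟩
  rw [mul_mul_mul_comm]
  exact h3.mul h3'

theorem add (hf : Ob b f) (hg : Ob b g) : Ob b (f + g) := by
  obtain ⟨h, h1, h2, h3⟩ := hf
  obtain ⟨h', h1', h2', h3'⟩ := hg
  refine ⟨h * h', h1.mul h1', by rw [evB_mul b h1 h1']; exact mul_ne_zero h2 h2', ?_⟩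
  rw [show (f + g) * (h * h') = f * h * h' + g * h' * h by ring]
  exact (h3.mul h1').add (h3'.mul h1)

theorem sub (hf : Ob b f) (hg : Ob b g) : Ob b (f - g) := by
  obtain ⟨h, h1, h2, h3⟩ := hf
  obtain ⟨h', h1', h2', h3'⟩ := hg
  refine ⟨h * h', h1.mul h1', by rw [evB_mul b h1 h1']; exact mul_ne_zero h2 h2', ?_⟩
  rw [show (f - g) * (h * h') = f * h * h' - g * h' * h by ring]
  exact (h3.mul h1').sub (h3'.mul h1)

theorem inv (hf : Ob b f) (h0 : b.ev (redv C T f) ≠ 0) : Ob b f⁻¹ := by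
  have hf0 : f ≠ 0 := by
    rintro rfl
    exact ne_zero_of_vl h0 NV.red_zero
  have hf' := hf
  obtain ⟨h, h1, h2, h3⟩ := hf
  refine ⟨f * h, h3, by rw [hf'.ev_mul' (of_bb h1)]; exact mul_ne_zero h0 h2, ?_⟩
  rwa [inv_mul_cancel_left₀ hf0]

theorem glue (hf : Ob b f) (h : Glue b b') : Ob b' f := by
  obtain ⟨h, h1, h2, h3⟩ := hf
  exact ⟨h, h1, by rwa [← ‹Glue b b'› h h1], h3⟩

theorem ev_eq (hf : Ob b f) (hg : Glue b b') : b.ev (redv C T f) = b'.ev (redv C T f) := by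
  have hf' := hf
  obtain ⟨h, h1, h2, h3⟩ := hf
  have := hg _ h3
  rw [hf'.ev_mul' (of_bb h1), (hf'.glue hg).ev_mul' (of_bb h1), ← hg h h1] at this
  exact mul_right_cancel₀ h2 this

end Ob

variable [CFF C F]

/-- the point `P` specialises to the class of the branch `b` -/
def Spc (P : Plk C F) (b : Br C T) : Prop :=
  T ∈ P.1 ∧ ‖vl P T‖ ≤ 1 ∧ ∀ f, BB C T f → cred (vl P f) = b.ev (redv C T f)

theorem norm_vl_le (hT : Transcendental C T) {P : Plk C F} (h1 : T ∈ P.1) (h2 : ‖vl P T‖ ≤ 1)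
    (hf : BB C T f) : ‖vl P f‖ ≤ 1 := (val C F T hT f hf.2 P h1 h2).1 hf.1

theorem Spc.glue {P : Plk C F} {b b' : Br C T} (h : Spc P b) (hg : Glue b b') : Spc P b' :=
  ⟨h.1, h.2.1, fun f hf => (h.2.2 f hf).trans (hg f hf)⟩

theorem Spc.glue_of {P : Plk C F} {b b' : Br C T} (h : Spc P b) (h' : Spc P b') : Glue b b' :=
  fun f hf => (h.2.2 f hf).symm.trans (h'.2.2 f hf)

/-- evaluation at a point on the local ring of its specialisation -/
theorem Spc.ob {P : Plk C F} {b : Br C T} (h : Spc P b) (hf : Ob b f) :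
    f ∈ P.1 ∧ ‖vl P f‖ ≤ 1 ∧ cred (vl P f) = b.ev (redv C T f) := by
  have hf' := hf
  obtain ⟨u, h1, h2, h3⟩ := hf
  have hT := b.w.2.transc
  have h4 := norm_vl_le hT h.1 h.2.1 h1
  have h5 : cred (vl P u) ≠ 0 := by rwa [h.2.2 u h1]
  have h6 : ‖vl P u‖ = 1 := le_antisymm h4 (not_lt.1 fun e => h5 ((cred_eq_zero h4).2 e))
  have h7 : vl P u ≠ 0 := by rw [← norm_ne_zero_iff, h6]; exact one_ne_zero
  have h8 := mem_of_mul (h1.2 P h.1) h7 (h3.2 P h.1)
  have h9 := norm_vl_le hT h.1 h.2.1 h3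
  have h10 := h.2.2 _ h3
  rw [vl_mul' h8 (h1.2 P h.1)] at h9 h10
  rw [norm_mul, h6, mul_one] at h9
  rw [cred_mul h9 h4, hf'.ev_mul' (Ob.of_bb h1), h.2.2 u h1] at h10
  exact ⟨h8, h9, mul_right_cancel₀ h2 h10⟩

/-- a point which does not specialise to `b` is killed by a unit at `b` -/
theorem kill {P : Plk C F} {b : Br C T} (h : ¬ Spc P b) :
    ∃ u, BB C T u ∧ b.ev (redv C T u) ≠ 0 ∧ (T ∈ P.1 → u ∈ Mge P 1) := by
  by_cases h1 : T ∈ P.1
  · by_cases h2 : ‖vl P T‖ ≤ 1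
    · have h3 : ∃ f, BB C T f ∧ cred (vl P f) ≠ b.ev (redv C T f) := by
        by_contra h3
        push Not at h3
        exact h ⟨h1, h2, h3⟩
      obtain ⟨f, hf, h3⟩ := h3
      have h4 := norm_vl_le b.w.2.transc h1 h2 hf
      exact ⟨f - algebraMap C F (vl P f), hf.sub (BB.const h4), by
        rw [evB_sub b hf (BB.const h4), evB_const b h4]; exact sub_ne_zero.2 h3.symm,
        fun _ => sub_vl (hf.2 P h1)⟩
    · push Not at h2
      have h3 : vl P T ≠ 0 := by rw [← norm_pos_iff]; linarith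
      have h4 : ‖(vl P T)⁻¹‖ < 1 := by rw [norm_inv]; exact inv_lt_one_of_one_lt₀ h2
      have h5 : BB C T (algebraMap C F (vl P T)⁻¹ * T) := (BB.const h4.le).mul BB.self
      refine ⟨1 - algebraMap C F (vl P T)⁻¹ * T, BB.one.sub h5, ?_, fun _ => ?_⟩
      · rw [evB_sub b BB.one h5, evB_mul b (BB.const h4.le) BB.self, evB_const b h4.le,
          (cred_eq_zero h4.le).2 h4, zero_mul, sub_zero, ← map_one (algebraMap C F),
          evB_const b (by simp), cred_one]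
        exact one_ne_zero
      · rw [← vl_eq_zero_iff (sub_mem (one_mem _) (h5.2 P h1)), vl_sub' (one_mem _) (h5.2 P h1),
          vl_mul' (P.2.1 _) h1, vl_const, vl_one', inv_mul_cancel₀ h3, sub_self]
  · exact ⟨1, BB.one, by
      simpa using (evB_const (T := T) b (c := 1) (by simp)).trans_ne (by simp), fun e => absurd e h1⟩

/-- functions whose poles do not specialise to `b` are in the local ring -/
theorem ob_of_not_spc {b : Br C T} (hf : Itg C T f) (h : ∀ P : Plk C F, f ∉ P.1 → ¬ Spc P b) :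
    Ob b f := by
  classical
  choose! u hu1 hu2 hu3 using fun (P : Plk C F) (hP : ¬ Spc P b) => kill hP
  choose n hn using fun P : Plk C F => exists_Mge P f
  let A := (poles_finite (k := C) f).toFinset
  have hA : ∀ P, P ∈ A ↔ f ∉ P.1 := fun P => Set.Finite.mem_toFinset _
  have h1 : ∀ P ∈ A, BB C T (u P ^ n P) := fun P hP => (hu1 P (h P ((hA P).1 hP))).pow _
  refine ⟨∏ P ∈ A, u P ^ n P, BB.prod _ _ h1, ?_, hf.mul (BB.prod _ _ h1).1, fun P hP => ?_⟩
  · rw [evB_prod b _ _ h1, Finset.prod_ne_zero_iff]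
    intro P hP
    have h2 := hu1 P (h P ((hA P).1 hP))
    rw [redv_pow h2.1]
    exact (vl_pow' (h2.red_mem b) _).trans_ne (pow_ne_zero _ (hu2 P (h P ((hA P).1 hP))))
  · by_cases e : P ∈ A
    · rw [← Finset.mul_prod_erase _ _ e, ← mul_assoc]
      exact mul_mem (mul_pow_mem (hu3 P (h P ((hA P).1 e)) hP) (hn P))
        (prod_mem fun Q hQ => (h1 Q (Finset.mem_of_mem_erase hQ)).2 P hP)
    · rw [hA, not_not] at e
      exact mul_mem e (prod_mem fun Q hQ => (h1 Q hQ).2 P hP)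

/-- functions with an integral point as only pole are regular at the branches at infinity -/
theorem reg_inf {P : Plk C F} (h1 : T ∈ P.1) (h2 : ‖vl P T‖ ≤ 1) (hf : Itg C T f)
    (hP : ∀ Q, Q ≠ P → f ∈ Q.1) (w : WW C T) (x : Plk (kC C) (kap w.1)) (hx : w.1.red T ∉ x.1) :
    w.1.red f ∈ x.1 := by
  haveI : FiniteDimensional C⟮T⁻¹⟯ F := by rw [adjoin_inv_eq]; infer_instance
  have hT0 : T ≠ 0 := by
    rintro rfl
    exact hx (by rw [NV.red_zero]; exact zero_mem _)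
  have h3 : w.1.red T⁻¹ ∈ Mge x 1 := by
    rw [NV.red_inv w.2.apply_T, mem_Mge_one_iff, inv_inv]
    exact Or.inr hx
  have h4 : w.1.red T⁻¹ ∈ x.1 := mem_Mge0.1 (Mge_mono x zero_le_one h3)
  let b : Br C T⁻¹ := ⟨⟨w.1, w.2.inv⟩, x, h4⟩
  have h5 : Ob b f := ob_of_not_spc (fun v => hf ⟨v.1, overG_inv.1 v.2⟩) fun Q hQ hs => by
    have e : Q = P := by_contra fun e => hQ (hP Q e)
    subst e
    have h6 := hs.2.2 _ BB.self
    have h7 : vl Q T * vl Q T⁻¹ = 1 := by rw [← vl_mul' h1 hs.1, mul_inv_cancel₀ hT0, vl_one']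
    have h8 := congrArg cred h7
    rw [cred_mul h2 hs.2.1, h6, cred_one] at h8
    have h9 : b.ev (redv C T⁻¹ T⁻¹) = 0 := (vl_eq_zero_iff h4).2 h3
    rw [h9, mul_zero] at h8
    exact zero_ne_one h8
  exact h5.mem

/-- every point is the only pole of a function whose reduction has a pole -/
theorem exists_pole' (hF : Full C T) (P : Plk C F) : ∃ f, Itg C T f ∧ (∀ Q, Q ≠ P → f ∈ Q.1) ∧
    ∃ (w : WW C T) (x : Plk (kC C) (kap w.1)), w.1.red f ∉ x.1 := by
  by_contra hcon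
  push Not at hcon
  set n := 2 * gen C F + Fintype.card (WW C T) with hn
  obtain ⟨-, h1⟩ := dim C F T hF (LP P n) inferInstance
  have h2 := l_LP P (n := n) (by omega)
  let φ : (WW C T → kC C) →ₗ[kC C] PP C T :=
    LinearMap.pi fun w => (Algebra.linearMap (kC C) (kap w.1)).comp (LinearMap.proj w)
  have h3 : Rd C T (LP P n) ≤ LinearMap.range φ := by
    rintro _ ⟨f, hf, hf1, rfl⟩
    choose a ha using fun w : WW C T => const_of_reg (hcon f hf1
      (fun Q hQ => (mem_iff_ord Q f).2 (mem_RO.1 (mem_LP.1 hf).1 Q hQ)) w)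
    exact ⟨a, funext fun w => (ha w).symm⟩
  have h4 := (Submodule.finrank_mono h3).trans (LinearMap.finrank_range_le φ)
  rw [h1, Module.finrank_fintype_fun_eq_card] at h4
  omega

/-- the poles of the reductions of the functions with a single pole see the specialisation -/
theorem Spc.pole (hF : Full C T) {P : Plk C F} {b : Br C T} (h : Spc P b) :
    ∃ f, Itg C T f ∧ (∀ Q, Q ≠ P → f ∈ Q.1) ∧ ∃ c, Glue b c ∧ c.w.1.red f ∉ c.x.1 := by
  obtain ⟨f, h1, h2, w, x, h3⟩ := exists_pole' hF P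
  have h4 : w.1.red T ∈ x.1 := by_contra fun e => h3 (reg_inf h.1 h.2.1 h1 h2 w x e)
  refine ⟨f, h1, h2, ⟨w, x, h4⟩, by_contra fun e => h3 ?_, h3⟩
  exact (ob_of_not_spc (b := ⟨w, x, h4⟩) h1 fun Q hQ hs => e (by
    have e : Q = P := by_contra fun e => hQ (h2 Q e)
    subst e
    exact h.glue_of hs)).mem

/-- change of the parameter -/
theorem ob_of_bb (hF : Full C T) {T₁ : F} [FiniteDimensional C⟮T₁⟯ F]
    (hW : ∀ w : NV C F, w.OverG T ↔ w.OverG T₁) {b : Br C T}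
    (hb : ∀ c, Glue b c → c.w.1.red T₁ ∈ c.x.1) (hf : BB C T₁ f) : Ob b f := by
  refine ob_of_not_spc (fun w => hf.1 ⟨w.1, (hW _).1 w.2⟩) fun P hP hs => ?_
  obtain ⟨f', h1, h2, c, h3, h4⟩ := hs.pole hF
  have h5 : BB C T₁ f' := ⟨fun w => h1 ⟨w.1, (hW _).2 w.2⟩, fun Q hQ => h2 Q (by
    rintro rfl; exact hP (hf.2 Q hQ))⟩
  exact h4 (h5.red_mem ⟨⟨c.w.1, (hW _).1 c.w.2⟩, c.x, hb c h3⟩)

/-- integral points specialise -/
theorem exists_spc (hT : Transcendental C T) {P : Plk C F} (h1 : T ∈ P.1) (h2 : ‖vl P T‖ ≤ 1) :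
    ∃ b : Br C T, Spc P b := by
  classical
  have hv := fun f (hf : BB C T f) => norm_vl_le hT h1 h2 hf
  have key : ∃ w : WW C T, ∀ f, BB C T f → cred (vl P f) = 0 → w.1.red f ≠ 1 := by
    by_contra hcon
    push Not at hcon
    choose f hf hf0 hf1 using hcon
    have h3 : ∀ w, BB C T (1 - f w) := fun w => BB.one.sub (hf w)
    have h4 := (val C F T hT _ (BB.prod Finset.univ _ fun w _ => h3 w).2 P h1 h2).2 fun w => by
      rw [← Finset.mul_prod_erase _ _ (Finset.mem_univ w), nv_mul]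
      refine mul_lt_one_of_nonneg_of_lt_one_left (w.1.av.nonneg _) ?_
        ((BB.prod _ _ fun v _ => h3 v).1 w)
      rw [← red_eq_iff (BB.one.1 w) ((hf w).1 w), hf1, NV.red_one]
    rw [vl_prod' _ _ fun w _ => (h3 w).2 P h1, norm_prod, Finset.prod_eq_one] at h4
    · exact lt_irrefl _ h4
    · intro w _
      refine le_antisymm (hv _ (h3 w)) (not_lt.1 fun e => ?_)
      rw [← cred_eq_zero (hv _ (h3 w)), vl_sub' (one_mem _) ((hf w).2 P h1), vl_one',
        cred_sub (by simp) (hv _ (hf w)), hf0, cred_one, sub_zero] at e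
      exact one_ne_zero e
  obtain ⟨w, hw⟩ := key
  let J : Ideal (EE w) :=
    { carrier := {z | ∃ f, BB C T f ∧ cred (vl P f) = 0 ∧ w.1.red f = z}
      add_mem' := by
        rintro a b ⟨f, hf, hf0, e⟩ ⟨g, hg, hg0, e'⟩
        exact ⟨f + g, hf.add hg, by
          rw [vl_add' (hf.2 P h1) (hg.2 P h1), cred_add (hv f hf) (hv g hg), hf0, hg0, add_zero],
          by rw [NV.red_add (hf.1 w) (hg.1 w), e, e']; rfl⟩
      zero_mem' := ⟨0, BB.zero, by rw [vl_zero', cred_zero], NV.red_zero⟩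
      smul_mem' := by
        rintro ⟨_, g, hg, rfl⟩ b ⟨f, hf, hf0, e⟩
        exact ⟨g * f, hg.mul hf, by
          rw [vl_mul' (hg.2 P h1) (hf.2 P h1), cred_mul (hv g hg) (hv f hf), hf0, mul_zero],
          by rw [NV.red_mul (hg.1 w) (hf.1 w), e]; rfl⟩ }
  have h5 : ∀ f (hf : BB C T f), (⟨_, _, hf.sub (BB.const (hv f hf)), rfl⟩ : EE w) ∈ J :=
    fun f hf => ⟨_, hf.sub (BB.const (hv f hf)), by
      rw [vl_sub' (hf.2 P h1) (P.2.1 _), vl_const, sub_self, cred_zero], rfl⟩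
  have h6 : ∀ f, BB C T f → w.1.red (f - algebraMap C F (vl P f)) =
      w.1.red f - algebraMap (kC C) _ (cred (vl P f)) := fun f hf => by
    rw [NV.red_sub (hf.1 w) ((BB.const (hv f hf)).1 w), NV.red_algebraMap (hv f hf)]
  obtain ⟨x, hx1, hx2⟩ := exists_plk (EE w) (const_mem_EE w) J (by
    rw [Ne, Ideal.eq_top_iff_one]
    rintro ⟨f, hf, hf0, e⟩
    exact hw f hf hf0 e) (h5 T BB.self) (by
      change w.1.red _ ≠ 0
      rw [h6 T BB.self]; exact sub_ne_zero.2 (w.2.red_ne _))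
  refine ⟨⟨w, x, hx1 _ ⟨T, BB.self, rfl⟩⟩, h1, h2, fun f hf => (vl_eq ?_).symm⟩
  have h7 : w.1.red (f - algebraMap C F (vl P f)) ∈ Mge x 1 := hx2 _ (h5 f hf)
  rw [h6 f hf] at h7
  exact h7

end Vale.Agent.P022K.FI.X0
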