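import Vale.Agent.P022K.FI.X0A

/-!
# P022K FI, row X0, part A2: automorphisms which do not fix the parameter

`Stb g T`: the automorphism `g` permutes the components.  `glue_tw`: it preserves the gluing.
`node`: the action on the toric part.  `uni`, `igu`: inertia.
-/

set_option linter.unusedSectionVars false
set_option linter.style.haveILetI false

noncomputable section

open IntermediateField Vale.Agent.P019P P025H746 P025H492 Module Vale.Agent.P027M.I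

namespace Vale.Agent.P022K.FI.X0

variable {C : Type} [NontriviallyNormedField C] [IsUltrametricDist C] [IsAlgClosed C]
variable {F : Type} [Field F] [Algebra C F] {T : F} {g : F ≃+* F} {s : C ≃+* C}

variable (C) in
/-- `g` permutes the components -/
def Stb (g : F ≃+* F) (T : F) : Prop := ∀ w : NV C F, w.OverG T ↔ w.OverG (g T)

theorem overG_pull (h : Semi C g s) {w w' : NV C F} (hw : ∀ y, w' (g y) = w y) :
    w'.OverG (g T) ↔ w.OverG T := by
  have e1 : w = pullNV (g : F →+* F) h.1 h.2 w' := P025H992.nv_ext fun y => (hw y).symm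
  have e2 : w' = pullNV (g.symm : F →+* F) h.symm.1 h.symm.2 w := P025H992.nv_ext fun y => by
    refine Eq.trans ?_ (hw (g.symm y))
    exact congrArg w' (g.apply_symm_apply y).symm
  refine ⟨fun h1 => e1 ▸ pullNV_overG _ _ _ h1, fun h1 => e2 ▸ pullNV_overG _ _ _ ?_⟩
  change w.OverG (g.symm (g T))
  rwa [g.symm_apply_apply]

/-- the image of an absolute value -/
def push (h : Semi C g s) (w : NV C F) : NV C F :=
  pullNV (g.symm : F →+* F) h.symm.1 h.symm.2 w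

theorem push_apply (h : Semi C g s) (w : NV C F) (y : F) : push h w (g y) = w y :=
  congrArg w (g.symm_apply_apply y)

theorem stb_of_fix (h : Semi C g s) (hfix : ∀ (w : WW C T) y, w.1 (g y) = w.1 y) : Stb C g T := by
  refine fun w => ⟨fun hw => (overG_pull h (hfix ⟨w, hw⟩)).2 hw, fun hw => ?_⟩
  have h1 := pullNV_overG (g : F →+* F) h.1 h.2 hw
  have e : w = pullNV (g : F →+* F) h.1 h.2 w := P025H992.nv_ext fun y => by
    obtain ⟨y, rfl⟩ := g.surjective y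
    exact (hfix ⟨_, h1⟩ y).symm
  rwa [e]

theorem Stb.symm (hT : Stb C g T) (h : Semi C g s) : Stb C g.symm T := fun w => by
  rw [← overG_pull h (push_apply h w), ← overG_pull (T := g.symm T) h (push_apply h w),
    g.apply_symm_apply, ← hT]

theorem Stb.up (hT : Stb C g T) {L : Type} [Field L] [Algebra C L] [Algebra F L]
    [IsScalarTower C F L] {G : L ≃+* L} (hG : ∀ x, G (algebraMap F L x) = algebraMap F L (g x)) :
    Stb C G (algebraMap F L T) := fun v => by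
  rw [hG, NVExt.overG (w := v.comap F), NVExt.overG (w := v.comap F)]
  exact hT _

theorem exists_w' (h : Semi C g s) (hT : Stb C g T) (w : WW C T) :
    ∃ w' : WW C T, ∀ y, w'.1 (g y) = w.1 y :=
  ⟨⟨push h w.1, (hT _).2 ((overG_pull h (push_apply h w.1)).2 w.2)⟩, push_apply h w.1⟩

theorem exists_tw' (h : Semi C g s) (hT : Stb C g T) (b : Br C T)
    (hb : b.w.1.red (g.symm T) ∈ b.x.1) : ∃ b' : Br C T, Tw (g : F →+* F) b b' := by
  obtain ⟨w', hw'⟩ := exists_w' h hT b.w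
  obtain ⟨b', -, hb'⟩ := exists_tw (g : F →+* F) h.1 h.2 b w' hw'
    (fun y' _ => ⟨g.symm y', by simp⟩) ⟨g.symm T, by
      rw [← hw', g.apply_symm_apply]; exact w'.2.apply_T.le, hb, by simp⟩
  exact ⟨b', hb'⟩

variable [CFF C F]

theorem bb_of_map (h : Semi C g s) {f : F} (hf : BB C (g T) (g f)) : BB C T f := by
  refine ⟨fun w => ?_, fun P hP => ?_⟩
  · rw [← push_apply h w.1]
    exact hf.1 ⟨_, (overG_pull h (push_apply h w.1)).2 w.2⟩
  · have h1 := hf.2 (plEquiv g s h.1 P) (by rwa [AuxFAct.mem_plEquiv, g.symm_apply_apply])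
    rwa [AuxFAct.mem_plEquiv, g.symm_apply_apply] at h1

theorem fin_of_overG {w : NV C F} (h : w.OverG T) : FiniteDimensional C⟮T⟯ F :=
  (finite_of_notMem (nc_of_transc h.transc)).2

variable [FiniteDimensional C⟮T⟯ F]

/-- images of `BB` are in the local rings -/
theorem ob_map (hF : Full C T) (h : Semi C g s) (hT : Stb C g T) {b : Br C T}
    (hb : ∀ c, Glue b c → c.w.1.red (g T) ∈ c.x.1) {f : F} (hf : BB C T f) : Ob b (g f) := by
  haveI := fin_of_overG ((hT _).1 b.w.2)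
  exact ob_of_bb hF hT hb (bb_of_map h.symm (by simpa using hf))

theorem glue_tw (hF : Full C T) (h : Semi C g s) (hT : Stb C g T) {b₁ b₁' b₂ b₂' : Br C T}
    (hb : ∀ c, Glue b₁ c → ∃ c' : Br C T, Tw (g : F →+* F) c c')
    (h₁ : Tw (g : F →+* F) b₁ b₁') (h₂ : Tw (g : F →+* F) b₂ b₂') (hg : Glue b₁ b₂) :
    Glue b₁' b₂' := by
  rw [glue_iff_zero]
  intro f hf
  have h3 : Ob b₁ (g.symm f) := ob_map hF h.symm (hT.symm h) (fun c hc => by
    obtain ⟨c', h3⟩ := hb c hc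
    have e : (g : F →+* F) (g.symm T) = T := g.apply_symm_apply T
    refine (h3.2 _ (by rw [← h3.1, e]; exact c'.w.2.apply_T.le)).1 ?_
    rw [e]
    exact c'.fin) hf
  have h4 := h₁.ev_zero h3.le h3.mem
  have h5 := h₂.ev_zero (h3.glue hg).le (h3.glue hg).mem
  have e : (g : F →+* F) (g.symm f) = f := g.apply_symm_apply f
  rw [e] at h4 h5
  rw [h4, h5, h3.ev_eq hg]

/-- all glued pairs are nodes -/
theorem mem_of_ne (hF : Full C T) {S : Finset (Br C T)} (hS : Nodal C T S) {b c : Br C T}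
    (hg : Glue b c) (hne : b ≠ c) : b ∈ S := by
  classical
  by_contra hb
  have h1 := half' C F T hF (insert b (insert c S)) fun d hd => by
    rcases Finset.mem_insert.1 hd with rfl | hd
    · exact ⟨c, by simp, hne.symm, hg⟩
    rcases Finset.mem_insert.1 hd with rfl | hd
    · exact ⟨b, by simp, hne, hg.symm⟩
    · obtain ⟨d', h1, h2, h3⟩ := hS.2 d hd
      exact ⟨d', by simp [h1], h2, h3⟩
  rw [Finset.card_insert_of_notMem (by simp [hb, hne]), ← hS.1] at h1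
  have h2 := Finset.card_le_card (Finset.subset_insert c S)
  omega

theorem mem_of_glue (hF : Full C T) {S : Finset (Br C T)} (hS : Nodal C T S) {b c : Br C T}
    (hb : b ∈ S) (hg : Glue b c) : c ∈ S := by
  by_cases e : c = b
  · rwa [e]
  · exact mem_of_ne hF hS hg.symm e

open Node

section core

variable {L : Type} [Field L] [Algebra C L] [Algebra F L] [IsScalarTower C F L]

theorem core [CharZero C] [CFF C L] [FiniteDimensional F L]
    (hF : Full C T) {S : Finset (Br C T)} (hS : Nodal C T S) {m c : ℕ} {g : F ≃+* F} {s : C ≃+* C}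
    (hm : (m : kC C) ≠ 0) (h : Semi C g s) (hfix : ∀ (w : WW C T) y, w.1 (g y) = w.1 y)
    (hb : ∀ b ∈ S, Tw (g : F →+* F) b b)
    (hs : ∀ μ : C, μ ^ m = 1 → s μ = μ ^ c) {Y : Set L} (hY : IntermediateField.adjoin F Y = ⊤)
    (hy : ∀ y ∈ Y, ∃ f : F, y ^ m = algebraMap F L f ∧ (∀ P : Plk C F, (m : ℤ) ∣ ord P f) ∧
      ∀ w : WW C T, w.1 (f - 1) < 1)
    (G : L ≃+* L) (hGg : ∀ x, G (algebraMap F L x) = algebraMap F L (g x)) {y : L} {f : F}
    (hy0 : y ≠ 0) (hyf : y ^ m = algebraMap F L f) : ∃ z : F, z ≠ 0 ∧ g f = f ^ c * z ^ m := by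
  have hm0 := ne_zero_of_cast hm
  haveI : IsGalois F L := isGalois_radicals (k := C) hY fun y hyY => by
    obtain ⟨f, h1, -⟩ := hy y hyY
    exact ⟨m, f, cast_ne_zero hm, h1⟩
  haveI : FiniteDimensional C⟮algebraMap F L T⟯ L := finite_adjoin_map
  have hfree := free (T := T) hm hY fun y hyY => by
    obtain ⟨f, h1, -, h2⟩ := hy y hyY
    exact ⟨f, h1, h2⟩
  obtain ⟨hFL, hres, S', hS', hS''⟩ := cov' C F L T hF S hS
    (isUnr_radicals hY fun y hyY => by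
      obtain ⟨f, h1, h2, -⟩ := hy y hyY
      exact ⟨m, f, cast_ne_zero hm, h1, h2⟩)
    (deg_ne hm hY fun y hyY => by
      obtain ⟨f, h1, -⟩ := hy y hyY
      exact ⟨f, h1⟩)
    (fun v => ⟨1, fun τ => by
      rw [Subgroup.zpowers_one_eq_bot, Subgroup.mem_bot]
      exact ⟨hfree τ v, by rintro rfl y; rfl⟩⟩)
  have hsu : ∀ (v : WW C (algebraMap F L T)) (y : L), v.1 y ≤ 1 →
      ∃ y₀ : F, v.1 (y - algebraMap F L y₀) < 1 := fun v y hv => hres v y hv fun τ hτ => by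
    rw [hfree τ v hτ]; simp
  have semi : ∀ G : L ≃+* L, (∀ x, G (algebraMap F L x) = algebraMap F L (g x)) → Semi C G s :=
    fun G hG => ⟨fun a => by
      rw [IsScalarTower.algebraMap_apply C F L, hG, h.1, ← IsScalarTower.algebraMap_apply], h.2⟩
  have stb : ∀ G : L ≃+* L, (∀ x, G (algebraMap F L x) = algebraMap F L (g x)) →
      Stb C G (algebraMap F L T) := fun G hG => (stb_of_fix h hfix).up hG
  obtain ⟨v₀⟩ := hFL.nonempty
  obtain ⟨v₁, hv₁⟩ := exists_w' (semi G hGg) (stb G hGg) v₀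
  obtain ⟨τ₀, hτ₀⟩ := P025H992.exists_cj (K := F) v₀.1 v₁.1 (P025H992.nv_ext fun x => by
    obtain ⟨x, rfl⟩ := g.surjective x
    rw [P025H992.resK_apply, P025H992.resK_apply, ← hGg x, hv₁, hGg]
    exact hfix ⟨v₀.1.comap F, v₀.2.comap⟩ x)
  let G' : L ≃+* L := G.trans (τ₀ : L ≃+* L)
  have hG' : ∀ x, G' (algebraMap F L x) = algebraMap F L (g x) := fun x => by
    change τ₀ (G _) = _
    rw [hGg, τ₀.commutes]
  have hex : ∀ b ∈ S', ∃ b₁ : Br C (algebraMap F L T), Tw (G' : L →+* L) b b₁ := fun b hbS => by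
    obtain ⟨b₀, hb₀, h1⟩ := (hS'' b).1 hbS
    refine exists_tw' (semi G' hG') (stb G' hG') b ?_
    have h2 : G'.symm (algebraMap F L T) = algebraMap F L (g.symm T) := by
      rw [RingEquiv.symm_apply_eq, hG', g.apply_symm_apply]
    have h3 : b₀.w.1 (g.symm T) ≤ 1 := by
      rw [← hfix, g.apply_symm_apply]; exact b₀.w.2.apply_T.le
    rw [h2]
    refine (h1.2 _ h3).2 (((hb b₀ hb₀).2 _ h3).1 ?_)
    change b₀.w.1.red (g (g.symm T)) ∈ _
    rw [g.apply_symm_apply]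
    exact b₀.fin
  have hv₀ : ∀ y, v₀.1 (G' y) = v₀.1 y := fun y => by
    rw [← hv₁ y, hτ₀]; rfl
  have hov : ∀ {b₀ : Br C T} {b b₁ : Br C (algebraMap F L T)}, b₀ ∈ S →
      Tw (algebraMap F L) b₀ b → Tw (G' : L →+* L) b b₁ → Tw (algebraMap F L) b₀ b₁ :=
    fun hb₀ h1 h2 => (((hb _ hb₀).symm.comp h1).comp h2).congr fun x => by
      change _ = G' (algebraMap F L (g.symm x))
      rw [hG', g.apply_symm_apply]
  have hall : ∀ (v : WW C (algebraMap F L T)) y, v.1 (G' y) = v.1 y := by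
    rcases cong' C L _ hFL S' hS' {v | ∀ y, v.1 (G' y) = v.1 y} (fun b hbS b' hbS' hgl hw => by
      by_cases e : b' = b
      · rw [e]; exact hw
      obtain ⟨b₀, hb₀, h1⟩ := (hS'' b).1 hbS
      obtain ⟨b₀', hb₀', h1'⟩ := (hS'' b').1 hbS'
      obtain ⟨b₁, h2⟩ := hex b hbS
      obtain ⟨b₂, h2'⟩ := hex b' hbS'
      have e1 : b = b₁ := h1.inj_right (hov hb₀ h1 h2)
        (Subtype.ext (P025H992.nv_ext fun y => by
          obtain ⟨y, rfl⟩ := G'.surjective y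
          exact (hw y).trans (h2.1 y).symm)) (hsu _)
      subst e1
      have e2 : b' = b₂ := (acl' C L _ hFL S' hS').1 b hbS b' hbS' b₂
        ((hS'' b₂).2 ⟨b₀', hb₀', hov hb₀' h1' h2'⟩) e
        (by rintro rfl; exact e (h2'.inj_left h2)) hgl (glue_tw hFL (semi G' hG') (stb G' hG')
          (fun c hc => hex c (mem_of_glue hFL hS' hbS hc)) h2 h2' hgl)
      subst e2
      exact h2'.1) with h1 | h1
    · have : v₀ ∈ {v : WW C (algebraMap F L T) | ∀ y, v.1 (G' y) = v.1 y} := hv₀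
      rw [h1] at this
      exact this.elim
    · intro v
      have : v ∈ {v : WW C (algebraMap F L T) | ∀ y, v.1 (G' y) = v.1 y} := h1 ▸ Set.mem_univ _
      exact this
  have hcomm : ∀ (τ : L ≃ₐ[F] L) y, τ (G' y) = G' (τ y) := fun τ y => by
    let ρ : L ≃ₐ[F] L := AlgEquiv.ofRingEquiv
      (f := ((G'.symm.trans (τ : L ≃+* L)).trans G').trans (τ.symm : L ≃+* L)) fun x => by
        obtain ⟨x, rfl⟩ := g.surjective x
        change τ.symm (G' (τ (G'.symm _))) = _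
        rw [← hG' x, G'.symm_apply_apply, τ.commutes, hG', τ.symm.commutes]
    have h1 : ρ = 1 := hfree ρ v₀ fun y => by
      obtain ⟨v₂, hv₂⟩ := (Semi.of_alg (τ.restrictScalars C)).exists_w
        (T := algebraMap F L T) (τ.commutes T) v₀
      have h2 : ∀ y, v₂.1 (τ y) = v₀.1 y := hv₂
      change v₀.1 (τ.symm (G' (τ (G'.symm y)))) = _
      rw [← h2, τ.apply_symm_apply, hall, h2, ← hv₀, G'.apply_symm_apply]
    have h2 : τ.symm (G' (τ (G'.symm (G' y)))) = G' y := AlgEquiv.congr_fun h1 (G' y)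
    rw [G'.symm_apply_apply] at h2
    rw [← h2, τ.apply_symm_apply]
  obtain ⟨z, hz⟩ := (IsGalois.mem_range_algebraMap_iff_fixed (F := F) (G' y / y ^ c)).2 fun τ => by
    obtain ⟨μ, hμ, h1⟩ := exists_mu (C := C) hm0 τ hy0 hyf
    have h2 : algebraMap C L μ ≠ 0 := by
      rw [Ne, map_eq_zero]; rintro rfl; rw [zero_pow hm0] at hμ; exact zero_ne_one hμ
    rw [map_div₀, map_pow, hcomm, h1, map_mul, (semi G' hG').1, hs μ hμ, map_pow, mul_pow,
      mul_div_mul_left _ _ (pow_ne_zero c h2)]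
  have h3 : G' y ≠ 0 := (map_ne_zero G').2 hy0
  refine ⟨z, fun h0 => ?_, (algebraMap F L).injective ?_⟩
  · rw [h0, map_zero] at hz
    exact div_ne_zero h3 (pow_ne_zero c hy0) hz.symm
  · rw [← hG', ← hyf, map_mul, map_pow, map_pow, map_pow, hz, ← hyf, div_pow, ← pow_mul, ← pow_mul,
      mul_comm m c, mul_div_cancel₀ _ (pow_ne_zero _ hy0)]

end core

/-- an automorphism fixing the components and the nodal branches acts on the toric part by the
cyclotomic character -/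
theorem node [CharZero C] (hF : Full C T) {S : Finset (Br C T)} (hS : Nodal C T S) {m c : ℕ}
    {g : F ≃+* F} {s : C ≃+* C} (hm : (m : kC C) ≠ 0) (h : Semi C g s)
    (hfix : ∀ (w : WW C T) y, w.1 (g y) = w.1 y) (hb : ∀ b ∈ S, Tw (g : F →+* F) b b)
    (hs : ∀ μ : C, μ ^ m = 1 → s μ = μ ^ c) {f : F} (hf : ∀ P : Plk C F, (m : ℤ) ∣ ord P f)
    (htr : ∀ w : WW C T, Triv m w.1 f) : ∃ z : F, z ≠ 0 ∧ g f = f ^ c * z ^ m := by
  have hm0 := ne_zero_of_cast hm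
  let Ω := AlgebraicClosure F
  let Y : Set Ω := {y | ∃ f : F, y ^ m = algebraMap F Ω f ∧ (∀ P : Plk C F, (m : ℤ) ∣ ord P f) ∧
    ∀ w : WW C T, w.1 (f - 1) < 1}
  have hne : ∀ f : F, (∀ w : WW C T, w.1 (f - 1) < 1) → f ≠ 0 := fun f h1 h0 => by
    have := (eq_one_of_sub (h1 hF.nonempty.some)).2
    rw [h0, NV.red_zero] at this
    exact zero_ne_one this
  let L := IntermediateField.adjoin F Y
  haveI : FiniteDimensional F L := fin_roots (C := C) (cast_ne_zero hm) fun y ⟨f, h1, h2, h3⟩ =>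
    ⟨f, hne f h3, h1, h2⟩
  haveI : CFF C L := cff_of_finite (K := F)
  let H : Ω ≃+* Ω := IsAlgClosure.equivOfEquiv Ω Ω g
  have hH : ∀ x, H (algebraMap F Ω x) = algebraMap F Ω (g x) :=
    IsAlgClosure.equivOfEquiv_algebraMap Ω Ω g
  have hH' : ∀ x, H.symm (algebraMap F Ω x) = algebraMap F Ω (g.symm x) :=
    IsAlgClosure.equivOfEquiv_symm_algebraMap Ω Ω g
  have hY : ∀ y ∈ Y, H y ∈ Y := fun y ⟨f, h1, h2, h3⟩ =>
    ⟨g f, by rw [← map_pow, h1, hH], h.dvd_ord h2, fun w => by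
      rw [← map_one g, ← map_sub, hfix]; exact h3 w⟩
  have hY' : ∀ y ∈ Y, H.symm y ∈ Y := fun y ⟨f, h1, h2, h3⟩ =>
    ⟨g.symm f, by rw [← map_pow, h1, hH'], h.symm.dvd_ord h2, fun w => by
      rw [← hfix, map_sub, map_one, g.apply_symm_apply]; exact h3 w⟩
  let G : L ≃+* L :=
    { toFun := fun x => ⟨H x, map_mem H g hH hY x.2⟩
      invFun := fun x => ⟨H.symm x, map_mem H.symm g.symm hH' hY' x.2⟩
      left_inv := fun x => Subtype.ext (H.symm_apply_apply x)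
      right_inv := fun x => Subtype.ext (H.apply_symm_apply x)
      map_mul' := fun x y => Subtype.ext (map_mul H x.1 y.1)
      map_add' := fun x y => Subtype.ext (map_add H x.1 y.1) }
  obtain ⟨z₀, hz₀, h1⟩ := exists_norm hm0 htr hF.nonempty
  have hf1 := hne _ h1
  have hf0 : f ≠ 0 := left_ne_zero_of_mul hf1
  obtain ⟨y, hy⟩ := IsAlgClosed.exists_pow_nat_eq (algebraMap F Ω (f * z₀ ^ m))
    (Nat.pos_of_ne_zero hm0)
  have hyY : y ∈ Y := ⟨_, hy, fun P => by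
    rw [ord_mul P hf0 (pow_ne_zero m hz₀), ord_pow]
    exact dvd_add (hf P) (dvd_mul_right _ _), h1⟩
  obtain ⟨z, hz, h2⟩ := core (L := L) hF hS hm h hfix hb hs
    (Y := {x : L | (x : Ω) ∈ Y}) (lift_injective L (by
      rw [lift_adjoin, lift_top]
      congr 1
      ext x
      exact ⟨by rintro ⟨x, hx, rfl⟩; exact hx, fun hx => ⟨⟨x, subset_adjoin _ _ hx⟩, hx, rfl⟩⟩))
    (fun x ⟨f, h1, h2, h3⟩ => ⟨f, Subtype.ext h1, h2, h3⟩) G (fun x => Subtype.ext (hH x))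
    (y := ⟨y, subset_adjoin _ _ hyY⟩) (f := f * z₀ ^ m) (fun h0 => by
      have h3 : y = 0 := congrArg Subtype.val h0
      rw [h3, zero_pow hm0, eq_comm, map_eq_zero] at hy
      exact hf1 hy) (Subtype.ext hy)
  have h3 : g z₀ ≠ 0 := (map_ne_zero g).2 hz₀
  refine ⟨z₀ ^ c * z / g z₀, div_ne_zero (mul_ne_zero (pow_ne_zero c hz₀) hz) h3, ?_⟩
  rw [map_mul, map_pow] at h2
  rw [div_pow, ← mul_div_assoc, eq_div_iff (pow_ne_zero m h3), h2]
  ring


/-- inertia is unipotent -/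
theorem uni [CharZero C] (hF : Full C T) {S : Finset (Br C T)} (hS : Nodal C T S) {m : ℕ}
    {g g' : F ≃+* F} {s s' : C ≃+* C} (hm : (m : kC C) ≠ 0) (h : Semi C g s) (h' : Semi C g' s')
    (hs : ∀ μ : C, μ ^ m = 1 → s μ = μ)
    (h1 : ∀ (w : WW C T) y, w.1 (g y) = w.1 y)
    (h2 : ∀ (w : WW C T) y, w.1 y ≤ 1 → w.1 (g y - y) < 1)
    (h2' : ∀ (w : WW C T) y, w.1 y ≤ 1 → w.1 (g' y - y) < 1) {f : F} (hf0 : f ≠ 0)
    (hf : ∀ P : Plk C F, (m : ℤ) ∣ ord P f) :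
    ∃ z : F, z ≠ 0 ∧ g (g' f / f) = g' f / f * z ^ m := by
  obtain ⟨z, hz, e⟩ := node hF hS (c := 1) hm h h1 (fun b _ => I1b.tw_self b (h1 _) (h2 _))
    (fun μ hμ => by rw [hs μ hμ, pow_one])
    (I1b.dvd_div ((map_ne_zero g').2 hf0) hf0 (h'.dvd_ord hf) hf)
    fun w => I1b.triv_div h' w (h2' w) (ne_zero_of_cast hm) hf0
  exact ⟨z, hz, by rwa [pow_one] at e⟩

section igu

open I1b

/-- `σ` acts like an inertia element: trivially at `w 0`, as `d` at `w 1` -/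
structure Inr' (C : Type) [NontriviallyNormedField C] [IsUltrametricDist C] [IsAlgClosed C]
    {K₀ K : Type} [Field K₀] [Field K] [Algebra C K] [Algebra K₀ K]
    (w : Fin 2 → NV C K) (σ : K ≃+* K) (d : K ≃ₐ[K₀] K) : Prop where
  semi : ∃ c : C ≃+* C, Semi C σ c
  com : ∀ (g : K ≃ₐ[K₀] K) y, σ (g y) = g (σ y)
  n0 : ∀ y, w 0 (σ y) = w 0 y
  t0 : ∀ y, w 0 y ≤ 1 → w 0 (σ y - y) < 1
  n1 : ∀ y, w 1 (σ y) = w 1 (d y)
  t1 : ∀ y, w 1 (d y) ≤ 1 → w 1 (σ y - d y) < 1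

variable {K₀ K : Type} [Field K₀] [Algebra C K₀] [CFF C K₀] [Field K] [Algebra C K] [CFF C K]
  [Algebra K₀ K] [IsScalarTower C K₀ K] [FiniteDimensional K₀ K] [IsGalois K₀ K] {T : K₀}
  [FiniteDimensional C⟮T⟯ K₀] {w : Fin 2 → NV C K} {σ : K ≃+* K} {d : K ≃ₐ[K₀] K}

theorem side0' (h : Inr' C w σ d) {u : NV C K}
    (hu : ∀ y, u (algebraMap K₀ K y) = w 0 (algebraMap K₀ K y)) :
    (∀ y, u (σ y) = u y) ∧ ∀ y, u y ≤ 1 → u (σ y - y) < 1 := by
  obtain ⟨g, hg⟩ := exists_conj hu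
  refine ⟨fun y => by rw [hg, hg, ← h.com, h.n0], fun y hy => ?_⟩
  rw [hg, map_sub, ← h.com]
  exact h.t0 _ (by rw [← hg]; exact hy)

theorem side1' (hc : ∀ (g g' : K ≃ₐ[K₀] K) y, g (g' y) = g' (g y)) (h : Inr' C w σ d) {u : NV C K}
    (hu : ∀ y, u (algebraMap K₀ K y) = w 1 (algebraMap K₀ K y)) :
    (∀ y, u (gam σ d y) = u y) ∧ ∀ y, u y ≤ 1 → u (gam σ d y - y) < 1 := by
  obtain ⟨g, hg⟩ := exists_conj hu
  refine ⟨fun y => ?_, fun y hy => ?_⟩
  · obtain ⟨y, rfl⟩ := d.surjective y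
    rw [gam_s, hg, hg, ← h.com, h.n1, hc]
  · obtain ⟨y, rfl⟩ := d.surjective y
    rw [gam_s, hg, map_sub, ← h.com, hc g d]
    exact h.t1 _ (by rw [hc, ← hg]; exact hy)

variable [FiniteDimensional C⟮algebraMap K₀ K T⟯ K]

/-- the image of a branch under an inertia element -/
theorem ex_tw' (hc : ∀ (g g' : K ≃ₐ[K₀] K) y, g (g' y) = g' (g y)) {v : Fin 2 → WW C T}
    (hall : ∀ u, ∃ i, u = v i) (hw : ∀ i y, w i (algebraMap K₀ K y) = (v i).1 y)
    (h : Inr' C w σ d) (c : Br C (algebraMap K₀ K T)) :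
    ∃ c' : Br C (algebraMap K₀ K T), Tw (σ : K →+* K) c c' := by
  obtain ⟨i, hi⟩ := hall ⟨c.w.1.comap K₀, c.w.2.comap⟩
  have h1 : ∀ y, c.w.1 (algebraMap K₀ K y) = w i (algebraMap K₀ K y) := fun y => by
    rw [hw, ← hi]; rfl
  fin_cases i
  · exact ⟨c, tw_self c (side0' h h1).1 (side0' h h1).2⟩
  · obtain ⟨c', r⟩ := (Lift.semi (C := C) d).exists_tw (d.commutes T) c
    have p := side1' hc h (u := c'.w.1) fun y => by
      rw [← d.commutes y]
      exact (r.1 _).trans ((h1 y).trans (congrArg (w 1) (d.commutes y).symm))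
    exact ⟨c', (r.comp (tw_self c' p.1 p.2)).congr fun y => (gam_s (s := d) y).symm⟩

theorem Inr'.stb (hc : ∀ (g g' : K ≃ₐ[K₀] K) y, g (g' y) = g' (g y)) {v : Fin 2 → WW C T}
    (hall : ∀ u, ∃ i, u = v i) (hw : ∀ i y, w i (algebraMap K₀ K y) = (v i).1 y)
    (h : Inr' C w σ d) : Stb C σ (algebraMap K₀ K T) := by
  obtain ⟨c, hs⟩ := h.semi
  have hd := Lift.semi (C := C) d
  have key : ∀ u : WW C (algebraMap K₀ K T), u.1.OverG (σ (algebraMap K₀ K T)) ∧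
      u.1.OverG (σ.symm (algebraMap K₀ K T)) := fun u => by
    obtain ⟨i, hi⟩ := hall ⟨u.1.comap K₀, u.2.comap⟩
    have h1 : ∀ y, u.1 (algebraMap K₀ K y) = w i (algebraMap K₀ K y) := fun y => by
      rw [hw, ← hi]; rfl
    fin_cases i
    · have p := (side0' h h1).1
      exact ⟨(overG_pull hs p).2 u.2, (overG_pull hs p).1 (by rw [σ.apply_symm_apply]; exact u.2)⟩
    · have p := (side1' hc h h1).1
      have hs' : Semi C (gam σ d) _ := hd.symm.trans hs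
      have e : gam σ d (algebraMap K₀ K T) = σ (algebraMap K₀ K T) := by
        rw [← gam_s (σ := σ) (s := d) (algebraMap K₀ K T), d.commutes]
      have e' : gam σ d (σ.symm (algebraMap K₀ K T)) = algebraMap K₀ K T := by
        change σ (d.symm (σ.symm _)) = _
        rw [h.com, σ.apply_symm_apply, d.symm.commutes]
      exact ⟨e ▸ (overG_pull hs' p).2 u.2, (overG_pull hs' p).1 (by rw [e']; exact u.2)⟩
  refine fun u => ⟨fun hu => (key ⟨u, hu⟩).1, fun hu => ?_⟩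
  have h1 := (key ⟨_, pullNV_overG (σ : K →+* K) hs.1 hs.2 hu⟩).2
  have h2 := (overG_pull (T := σ.symm (algebraMap K₀ K T)) hs
    (w := pullNV (σ : K →+* K) hs.1 hs.2 u) (w' := u) fun _ => rfl).2 h1
  rwa [σ.apply_symm_apply] at h2

/-- the diamond fixes the nodes -/
theorem fixes' (hc : ∀ (g g' : K ≃ₐ[K₀] K) y, g (g' y) = g' (g y))
    {v : Fin 2 → WW C T} {S : Finset (Br C T)} (hS : Nodal C T S) (hall : ∀ u, ∃ i, u = v i)
    (hsep : ∀ b b' : Br C T, b.w = b'.w → Glue b b' → b = b')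
    (hw : ∀ i y, w i (algebraMap K₀ K y) = (v i).1 y) (h : Inr' C w σ d)
    (hF : Full C (algebraMap K₀ K T)) {S' : Finset (Br C (algebraMap K₀ K T))}
    (hS' : Nodal C _ S') (hm : ∀ b', b' ∈ S' ↔ ∃ b ∈ S, Tw (algebraMap K₀ K) b b') :
    ∀ b' ∈ S', Tw ((d : K ≃+* K) : K →+* K) b' b' := by
  obtain ⟨c, hsemi⟩ := h.semi
  have huniq := (acl' C K _ hF S' hS').1
  have key : ∀ (b₀ b₁ : Br C T) (c₀ c₁ : Br C (algebraMap K₀ K T)), b₀ ∈ S → b₁ ∈ S →
      b₀.w = v 0 → b₁.w = v 1 → b₀.w ≠ b₁.w → Tw (algebraMap K₀ K) b₀ c₀ →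
      Tw (algebraMap K₀ K) b₁ c₁ → Glue c₀ c₁ →
      Tw ((d : K ≃+* K) : K →+* K) c₀ c₀ ∧ Tw ((d : K ≃+* K) : K →+* K) c₁ c₁ := by
    intro b₀ b₁ c₀ c₁ hb₀ hb₁ e₀ e₁ hne t₀ t₁ hg
    have hne' : ∀ {d₀ d₁ : Br C (algebraMap K₀ K T)}, Tw (algebraMap K₀ K) b₀ d₀ →
        Tw (algebraMap K₀ K) b₁ d₁ → d₁ ≠ d₀ := fun {d₀ d₁} u₀ u₁ e => by
      subst e
      exact hne (congrArg Br.w (u₀.inj_left u₁))
    obtain ⟨d₁, u₁, r₁⟩ := ex_tw d t₁
    obtain ⟨d₀, u₀, r₀⟩ := ex_tw d t₀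
    have p₀ := side0' h (u := c₀.w.1) fun y => by rw [t₀.1, e₀, hw]
    have p₁ := side1' hc h (u := d₁.w.1) fun y => by rw [u₁.1, e₁, hw]
    have q₁ : Tw (σ : K →+* K) c₁ d₁ :=
      (r₁.comp (tw_self d₁ p₁.1 p₁.2)).congr fun y => (gam_s (s := d) y).symm
    have m₀ := (hm c₀).2 ⟨b₀, hb₀, t₀⟩
    have m₁ := (hm c₁).2 ⟨b₁, hb₁, t₁⟩
    have f₁ : c₁ = d₁ := huniq c₀ m₀ c₁ m₁ d₁ ((hm d₁).2 ⟨b₁, hb₁, u₁⟩) (hne' t₀ t₁) (hne' t₀ u₁)
      hg (glue_tw hF hsemi (h.stb hc hall hw) (fun c _ => ex_tw' hc hall hw h c)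
        (tw_self c₀ p₀.1 p₀.2) q₁ hg)
    subst f₁
    have f₀ : c₀ = d₀ := huniq c₁ m₁ c₀ m₀ d₀ ((hm d₀).2 ⟨b₀, hb₀, u₀⟩) (hne' t₀ t₁).symm
      (hne' u₀ t₁).symm hg.symm ((Lift.semi (C := C) d).glue (d.commutes T) r₁ r₀ hg.symm)
    subst f₀
    exact ⟨r₀, r₁⟩
  intro b' hb'
  obtain ⟨b, hb, t⟩ := (hm b').1 hb'
  obtain ⟨b₂, hb₂, hne, hg⟩ := hS.2 b hb
  obtain ⟨b₂', t₂, hg'⟩ := lift' C K₀ K T b b₂ hg b' t
  have hw' : b.w ≠ b₂.w := fun e => hne (hsep b b₂ e hg).symm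
  have h01 : ∀ u, u = v 0 ∨ u = v 1 := fun u => by
    obtain ⟨i, rfl⟩ := hall u
    fin_cases i
    exacts [Or.inl rfl, Or.inr rfl]
  by_cases h1 : b.w = v 0
  · exact (key b b₂ b' b₂' hb hb₂ h1 ((h01 b₂.w).resolve_left (h1 ▸ hw'.symm)) hw' t t₂ hg').1
  · have h2 := (h01 b.w).resolve_left h1
    exact (key b₂ b b₂' b' hb₂ hb ((h01 b₂.w).resolve_right (h2 ▸ hw'.symm)) h2 hw'.symm t₂ t
      hg'.symm).2

omit [FiniteDimensional C⟮algebraMap K₀ K T⟯ K] in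
theorem comm_of_cyc (hcy : IsCyclic (K ≃ₐ[K₀] K)) (g g' : K ≃ₐ[K₀] K) (y : K) :
    g (g' y) = g' (g y) := by
  obtain ⟨d, hd⟩ := IsCyclic.exists_generator (α := K ≃ₐ[K₀] K)
  obtain ⟨a, rfl⟩ := hd g
  obtain ⟨b, rfl⟩ := hd g'
  rw [← AlgEquiv.mul_apply, ← AlgEquiv.mul_apply, (Commute.refl d).zpow_zpow a b |>.eq]

omit [FiniteDimensional C⟮algebraMap K₀ K T⟯ K] in
/-- inertia on a tame cyclic cover of a nodal curve with two components -/
theorem igu [CharZero C] {v : Fin 2 → WW C T} {S : Finset (Br C T)} {m : ℕ} {σ₀ : K ≃+* K}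
    {d₀ : K ≃ₐ[K₀] K} (hd : ((finrank K₀ K : ℕ) : kC C) ≠ 0) (hu : IsUnr C K₀ K)
    (hcy : IsCyclic (K ≃ₐ[K₀] K)) (hF : Full C T) (hS : Nodal C T S) (hall : ∀ w, ∃ i, w = v i)
    (hsep : ∀ b b' : Br C T, b.w = b'.w → Glue b b' → b = b')
    (hw : ∀ i y, w i (algebraMap K₀ K y) = (v i).1 y) (hm : (m : kC C) ≠ 0)
    (h : Inr' C w σ d) (h₀ : Inr' C w σ₀ d₀) {f : K} (hf0 : f ≠ 0)
    (hf : ∀ P : Plk C K, (m : ℤ) ∣ ord P f) {A B : K} (hA' : A = σ f / f) (hB : B = σ A / d A) :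
    ∃ z : K, z ≠ 0 ∧ d₀ B = B * z ^ m := by
  have : FiniteDimensional C⟮algebraMap K₀ K T⟯ K := finite_adjoin_map
  have hm0 : m ≠ 0 := by rintro rfl; simp at hm
  have hc := comm_of_cyc hcy
  obtain ⟨hF', -, S', hS', hm'⟩ := cov' C K₀ K T hF S hS hu hd fun u => cyc hcy u.1
  obtain ⟨c, hsemi⟩ := h.semi
  have hA0 : A ≠ 0 := by rw [hA']; exact div_ne_zero ((map_ne_zero σ).2 hf0) hf0
  have hAo : ∀ P : Plk C K, (m : ℤ) ∣ ord P A := by
    rw [hA']; exact dvd_div ((map_ne_zero σ).2 hf0) hf0 (hsemi.dvd_ord hf) hf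
  have t0 : ∀ u : WW C (algebraMap K₀ K T),
      (∀ y, u.1 (algebraMap K₀ K y) = w 0 (algebraMap K₀ K y)) → Triv m u.1 A := fun u hu => by
    rw [hA']; exact triv_div hsemi u (side0' h hu).2 hm0 hf0
  obtain ⟨z, hz, e⟩ := node' C K _ hF' S' hS' m 1 (d₀ : K ≃+* K) (RingEquiv.refl C) hm
    (Lift.semi d₀) (d₀.commutes T) (fixes' hc hS hall hsep hw h₀ hF' hS' hm')
    (fun μ _ => (pow_one μ).symm) B (by
      rw [hB]
      exact dvd_div ((map_ne_zero σ).2 hA0) ((map_ne_zero d).2 hA0) (hsemi.dvd_ord hAo)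
        ((Lift.semi (C := C) d).dvd_ord hAo)) fun u => by
      obtain ⟨i, hi⟩ := hall ⟨u.1.comap K₀, u.2.comap⟩
      have h1 : ∀ y, u.1 (algebraMap K₀ K y) = w i (algebraMap K₀ K y) := fun y => by
        rw [hw, ← hi]; rfl
      rw [hB]
      fin_cases i
      · obtain ⟨u', hu'⟩ := (Lift.semi (C := C) d).symm.exists_w (symm_fix (d.commutes T)) u
        have h2 : ∀ y, u.1 (d y) = u'.1 y := fun y => by
          rw [← hu']; exact congrArg u'.1 (d.symm_apply_apply y)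
        rw [div_eq_mul_inv]
        exact I2a.triv_mul (I2a.triv_map σ (side0' h h1).1 (t0 u h1))
          (I2a.triv_inv (I2a.triv_map d h2 (t0 u' fun y => by rw [← h2, d.commutes]; exact h1 y)))
      · rw [← gam_s (s := d) A]
        exact triv_div (g := gam σ d) ((Lift.semi (C := C) d).symm.trans hsemi) u
          (side1' hc h h1).2 hm0 ((map_ne_zero d).2 hA0)
  exact ⟨z, hz, by rw [pow_one] at e; exact e⟩

end igu

end Vale.Agent.P022K.FI.X0
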