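import Vale.Agent.P027M.I.All1
import Vale.Agent.P022K.FI.Zeta

/-!
# P022K FI, row X0, file A: two parameters with the same components

`nocom`: functions whose reductions have no common pole have no common pole.  `kill`: poles can be
removed.  `Nr g T`: `g T` and `T` have reductions with the same poles; then `g` transports
components, branches and gluing.
-/

set_option linter.unusedSectionVars false
set_option linter.style.haveILetI false

noncomputable section

open IntermediateField Vale.Agent.P019P P025H746 P025H492 Module Polynomial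
open Vale.Agent.P027M.I

namespace Vale.Agent.P022K.FI.X1

section cff

variable {k K : Type*} [Field k] [Field K] [Algebra k K] [CFF k K] {P : Plk k K} {x y : K}

theorem mem_of_ord (h : 0 ≤ ord P x) : x ∈ P.1 := (mem_iff_ord P x).2 (Or.inr h)

theorem ord_neg_of (h : x ∉ P.1) : ord P x < 0 := not_le.1 fun h1 => h (mem_of_ord h1)

theorem pol_add_le (x y : K) (P : Plk k K) :
    pol k (x + y) P ≤ max (pol k x P) (pol k y P) := by
  have h1 : x ∈ Mge P (-max (pol k x P) (pol k y P)) := Or.inr (by simp only [pol_apply]; omega)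
  have h2 : y ∈ Mge P (-max (pol k x P) (pol k y P)) := Or.inr (by simp only [pol_apply]; omega)
  rcases add_mem h1 h2 with h | h
  · rw [h]
    simp only [pol_apply, ord_zero]
    omega
  · simp only [pol_apply] at h ⊢
    omega

theorem ord_add_pole (hx : x ∉ P.1) (hy : y ∈ P.1) : ord P (x + y) = ord P x := by
  have h1 := ord_neg_of hx
  refine (ord_add_of_lt (z := x) (fun e => hx (by rw [e]; exact zero_mem _)) ?_).2
  exact Mge_mono P (by omega) (mem_Mge0.2 hy)

theorem pol_add_eq (h : ∀ P : Plk k K, x ∈ P.1 ∨ y ∈ P.1) : pol k (x + y) = pol k x + pol k y := by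
  ext P
  simp only [Finsupp.add_apply, pol_apply]
  by_cases hx : x ∈ P.1 <;> by_cases hy : y ∈ P.1
  · have h1 := ord_nonneg_of_mem P hx
    have h2 := ord_nonneg_of_mem P hy
    have h3 := ord_nonneg_of_mem P (add_mem hx hy)
    omega
  · have h1 := ord_nonneg_of_mem P hx
    rw [add_comm x y, ord_add_pole hy hx]
    omega
  · have h1 := ord_nonneg_of_mem P hy
    rw [ord_add_pole hx hy]
    omega
  · exact ((h P).elim hx hy).elim

theorem dg_pol_inv (x : K) : dg (pol k x⁻¹) = dg (pol k x) := by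
  have h := dg_dv (k := k) x
  rw [dv_eq_pol_sub, map_sub] at h
  omega

theorem pol_const (a : k) : pol k (algebraMap k K a) = 0 := by
  ext P
  rw [pol_apply, ord_const]
  rfl

theorem pol_sub_const (x : K) (c : k) : pol k (x - algebraMap k K c) = pol k x := by
  rw [sub_eq_add_neg, ← map_neg, pol_add_eq fun P => Or.inr (P.2.1 _), pol_const, add_zero]

theorem dg_pol_nonneg (x : K) : 0 ≤ dg (pol k x) := by
  have := dg_mono (pol_nonneg (k := k) x)
  rwa [map_zero] at this

theorem dg_pol_pos (hx : ∀ a : k, x ≠ algebraMap k K a) : 0 < dg (pol k x) := by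
  rw [dg_pol hx]
  haveI := (finite_of_notMem hx).2
  exact_mod_cast Module.finrank_pos (R := k⟮x⟯) (M := K)

theorem nc_of_pos (h : 0 < dg (pol k x)) (a : k) : x ≠ algebraMap k K a := by
  rintro rfl
  rw [pol_const, map_zero] at h
  exact lt_irrefl _ h

theorem exists_pole (hx : ∀ a : k, x ≠ algebraMap k K a) : ∃ P : Plk k K, x ∉ P.1 := by
  by_contra h
  push Not at h
  have h1 := dg_pol_pos hx
  have h2 : pol k x = 0 := by
    ext P
    have := ord_nonneg_of_mem P (h P)
    rw [pol_apply, Finsupp.zero_apply]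
    omega
  rw [h2, map_zero] at h1
  exact lt_irrefl _ h1

theorem poles_finite (x : K) : {P : Plk k K | x ∉ P.1}.Finite :=
  (pol k x).support.finite_toSet.subset fun P hP => by
    have := ord_neg_of (P := P) hP
    rw [Finset.mem_coe, Finsupp.mem_support_iff, pol_apply]
    omega

theorem inv_mem_iff' (hx : x ≠ 0) : x⁻¹ ∈ P.1 ↔ x ∉ Mge P 1 := by
  rw [mem_Mge_one_iff, or_iff_right hx, not_not]

/-- strong approximation -/
theorem strong (P₀ : Plk k K) (S : Finset (Plk k K)) (hS : P₀ ∉ S) (β : Plk k K → K)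
    (n : Plk k K → ℤ) :
    ∃ z : K, (∀ P ∈ S, z - β P ∈ Mge P (n P)) ∧ ∀ P, P ∉ S → P ≠ P₀ → z ∈ P.1 := by
  classical
  obtain ⟨g, -, c, hc⟩ := exists_riem k K
  let E : Plk k K →₀ ℤ := Finsupp.onFinset S (fun P => if P ∈ S then -n P else 0)
    (fun P h => by by_contra h'; exact h (if_neg h'))
  let b : Plk k K →₀ K := Finsupp.onFinset S (fun P => if P ∈ S then β P else 0)
    (fun P h => by by_contra h'; exact h (if_neg h'))
  have h1 : KD (Finsupp.single P₀ (c - dg E) + E) = ⊤ :=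
    KD_eq_top hc (by rw [map_add, dg_sgl]; omega)
  have h2 : b ∈ KD (Finsupp.single P₀ (c - dg E) + E) := by rw [h1]; trivial
  obtain ⟨z, hz⟩ := h2
  refine ⟨z, fun P hP => ?_, fun P hP hP0 => mem_Mge0.1 ?_⟩
  · have h3 := neg_mem (hz P)
    have h4 : P ≠ P₀ := fun e => hS (e ▸ hP)
    rw [Finsupp.add_apply, Finsupp.single_eq_of_ne h4] at h3
    simpa [E, b, hP] using h3
  · have h3 := neg_mem (hz P)
    rw [Finsupp.add_apply, Finsupp.single_eq_of_ne hP0] at h3
    simpa [E, b, hP] using h3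

/-- degrees along a semilinear isomorphism -/
theorem dg_equiv {L : Type*} [Field L] [Algebra k L] [CFF k L] (f : K →+* L)
    (hs : Function.Surjective f)
    (hf : f '' Set.range (algebraMap k K) = Set.range (algebraMap k L))
    (hx : ∀ a : k, x ≠ algebraMap k K a) : dg (pol k (f x)) = dg (pol k x) := by
  have hx' : ∀ a : k, f x ≠ algebraMap k L a := fun a e => by
    have h1 : f x ∈ f '' Set.range (algebraMap k K) := hf ▸ ⟨a, e.symm⟩
    obtain ⟨_, ⟨b, rfl⟩, h2⟩ := h1
    exact hx b (f.injective h2).symm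
  have h1 : f.fieldRange = ⊤ := RingHom.fieldRange_eq_top_iff.2 hs
  have h2 : finrank (⊤ : Subfield L) L = 1 :=
    Algebra.finrank_eq_one_iff_bijective_algebraMap.2 ⟨Subtype.val_injective, fun y => ⟨⟨y, trivial⟩, rfl⟩⟩
  rw [dg_pol hx, dg_pol hx', finrank_map f hf x, h1, h2, mul_one]

end cff

variable {C : Type} [NontriviallyNormedField C] [IsUltrametricDist C] [IsAlgClosed C]
variable {F : Type} [Field F] [Algebra C F] [CFF C F]

theorem nv_inv {w : NV C F} {x : F} (h : w x = 1) : w x⁻¹ = 1 := by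
  have : w x⁻¹ = (w x)⁻¹ := map_inv₀ w.av x
  rw [this, h, inv_one]

theorem nv_const (w : NV C F) {c : C} (hc : ‖c‖ ≤ 1) : w (algebraMap C F c) ≤ 1 := by
  rw [w.ext']; exact hc

theorem nv_eq_one {w : NV C F} {x : F} (h : w x ≤ 1) (h0 : w.red x ≠ 0) : w x = 1 :=
  h.eq_or_lt.resolve_right fun h1 => h0 (NV.red_of_lt h1)

section fam

variable {ι : Type} [Fintype ι] (w : ι → NV C F) [∀ i, CFF (kC C) (kap (w i))] {X Y : F}

/-- the degrees of the reductions of `X` at the `w i` add up to the degree of `X` -/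
structure Fl (X : F) : Prop where
  le : ∀ i, w i X ≤ 1
  nc : ∀ i a, (w i).red X ≠ algebraMap (kC C) (kap (w i)) a
  deg : dg (pol C X) ≤ ∑ i, dg (pol (kC C) ((w i).red X))

variable {w}

theorem Fl.ov (h : Fl w X) (i : ι) : (w i).OverG X :=
  N0a.overG_of (h.le i) (finite_of_notMem (h.nc i)).1

theorem sum_le (hi : Function.Injective w) (h1 : ∀ i, w i X ≤ 1)
    (h2 : ∀ i a, (w i).red X ≠ algebraMap (kC C) (kap (w i)) a) :
    ∑ i, dg (pol (kC C) ((w i).red X)) ≤ dg (pol C X) := by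
  rcases isEmpty_or_nonempty ι with h | ⟨⟨i₀⟩⟩
  · rw [Finset.univ_eq_empty, Finset.sum_empty]
    exact dg_pol_nonneg X
  have ho : ∀ i, (w i).OverG X := fun i => N0a.overG_of (h1 i) (finite_of_notMem (h2 i)).1
  have hn := nc_of_transc (ho i₀).transc
  haveI := (finite_of_notMem hn).2
  rw [dg_pol hn, Finset.sum_congr rfl fun i _ => dg_pol (h2 i)]
  exact_mod_cast sum_finrank_le w hi ho

theorem Fl.mob (h : Fl w X) {c : C} (hc : ‖c‖ ≤ 1) :
    Fl w (X - algebraMap C F c)⁻¹ ∧ ∀ i, (w i).red (X - algebraMap C F c)⁻¹ =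
      ((w i).red X - algebraMap (kC C) (kap (w i)) (cred c))⁻¹ := by
  have h1 : ∀ i, (w i).red (X - algebraMap C F c) =
      (w i).red X - algebraMap (kC C) (kap (w i)) (cred c) := fun i => by
    rw [NV.red_sub (h.le i) (nv_const _ hc), NV.red_algebraMap hc]
  have h2 : ∀ i, w i (X - algebraMap C F c) = 1 := fun i =>
    nv_eq_one (NV.sub_le (h.le i) (nv_const _ hc)) (by rw [h1]; exact sub_ne_zero.2 (h.nc i _))
  have h3 : ∀ i, (w i).red (X - algebraMap C F c)⁻¹ =
      ((w i).red X - algebraMap (kC C) (kap (w i)) (cred c))⁻¹ := fun i => by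
    rw [NV.red_inv (h2 i), h1]
  refine ⟨⟨fun i => (nv_inv (h2 i)).le, fun i => nc_of_pos ?_, ?_⟩, h3⟩
  · rw [h3, dg_pol_inv, pol_sub_const]
    exact dg_pol_pos (h.nc i)
  · simp only [h3, dg_pol_inv, pol_sub_const]
    exact h.deg

/-- no common pole in the reduction, no common pole -/
theorem nocom (hi : Function.Injective w) (hX : Fl w X) (hY : Fl w Y)
    (h : ∀ i (x : Plk (kC C) (kap (w i))), (w i).red X ∈ x.1 ∨ (w i).red Y ∈ x.1) (P : Plk C F) :
    X ∈ P.1 ∨ Y ∈ P.1 := by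
  by_contra hc
  rw [not_or] at hc
  have h1 : ∀ i, dg (pol (kC C) ((w i).red (X + Y))) =
      dg (pol (kC C) ((w i).red X)) + dg (pol (kC C) ((w i).red Y)) := fun i => by
    rw [NV.red_add (hX.le i) (hY.le i), pol_add_eq (h i), map_add]
  have h2 := sum_le hi (X := X + Y) (fun i => NV.add_le (hX.le i) (hY.le i)) fun i =>
    nc_of_pos (by
      have := dg_pol_pos (hX.nc i)
      have := dg_pol_pos (hY.nc i)
      rw [h1]
      omega)
  have h3 : pol C (X + Y) + Finsupp.single P 1 ≤ pol C X + pol C Y := fun Q => by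
    have a1 := pol_add_le X Y Q
    have a2 : (0 : ℤ) ≤ pol C X Q := pol_nonneg X Q
    have a3 : (0 : ℤ) ≤ pol C Y Q := pol_nonneg Y Q
    simp only [Finsupp.add_apply]
    by_cases e : Q = P
    · subst e
      have a4 := ord_neg_of hc.1
      have a5 := ord_neg_of hc.2
      simp only [pol_apply, Finsupp.single_eq_same] at *
      omega
    · rw [Finsupp.single_eq_of_ne e]
      omega
  have h4 := dg_mono h3
  have h5 := hX.deg
  have h6 := hY.deg
  simp only [h1, Finset.sum_add_distrib] at h2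
  rw [map_add, map_add, dg_sgl] at h4
  omega

variable (w) in
/-- `h` has poles only where `X` has, and reduces to the polynomial `s` in `X` -/
def Po (X h : F) (s : (kC C)[X]) : Prop :=
  (∀ i, w i h ≤ 1 ∧ (w i).red h = aeval ((w i).red X) s) ∧ ∀ Q : Plk C F, X ∈ Q.1 → h ∈ Q.1

theorem Po.one : Po w X 1 1 := ⟨fun i => ⟨(Node.nv_one _).le, by simp⟩, fun _ _ => one_mem _⟩

theorem Po.mul {h h' : F} {s s' : (kC C)[X]} (a : Po w X h s) (b : Po w X h' s') :
    Po w X (h * h') (s * s') :=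
  ⟨fun i => ⟨NV.mul_le_one (a.1 i).1 (b.1 i).1, by
    rw [NV.red_mul (a.1 i).1 (b.1 i).1, (a.1 i).2, (b.1 i).2, map_mul]⟩,
    fun Q hQ => mul_mem (a.2 Q hQ) (b.2 Q hQ)⟩

theorem Po.pow {h : F} {s : (kC C)[X]} (a : Po w X h s) (n : ℕ) : Po w X (h ^ n) (s ^ n) := by
  induction n with
  | zero => simpa using Po.one
  | succ n ih => rw [pow_succ, pow_succ]; exact ih.mul a

variable (w) in
/-- `Y` has a pole over the value `c` of `X` in the reduction -/
def Bad (X Y : F) (c : kC C) : Prop := ∃ (i : ι) (x : Plk (kC C) (kap (w i))),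
  (w i).red X - algebraMap (kC C) (kap (w i)) c ∈ Mge x 1 ∧ (w i).red Y ∉ x.1

theorem kill1 (hi : Function.Injective w) (hX : Fl w X) (hY : Fl w Y) {P : Plk C F} (h1 : X ∈ P.1)
    (h2 : Y ∉ P.1) : ∃ h s, Po w X h s ∧ h ∈ Mge P 1 ∧ s ≠ 0 ∧ ∀ c, s.eval c = 0 → Bad w X Y c := by
  have h3 := sub_vl h1
  set c := vl P X
  by_cases hc : ‖c‖ ≤ 1
  · refine ⟨X - algebraMap C F c, Polynomial.X - Polynomial.C (cred c),
      ⟨fun i => ⟨NV.sub_le (hX.le i) (nv_const _ hc), ?_⟩, fun Q hQ => sub_mem hQ (Q.2.1 c)⟩, h3,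
      X_sub_C_ne_zero _, fun a ha => ?_⟩
    · rw [NV.red_sub (hX.le i) (nv_const _ hc), NV.red_algebraMap hc]
      simp
    · have e : a = cred c := by simpa [sub_eq_zero] using ha
      subst e
      by_contra hb
      obtain ⟨h4, h5⟩ := hX.mob hc
      refine (nocom hi h4 hY (fun i x => ?_) P).elim (fun h6 => ?_) h2
      · by_contra h6
        rw [not_or, h5, inv_mem_iff' (sub_ne_zero.2 (hX.nc i _)), not_not] at h6
        exact hb ⟨i, x, h6⟩
      · by_cases h0 : X - algebraMap C F c = 0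
        · rcases isEmpty_or_nonempty ι with h | ⟨⟨i⟩⟩
          · have h7 := hY.deg
            rw [Finset.univ_eq_empty, Finset.sum_empty] at h7
            have h8 := dg_mono (show Finsupp.single P 1 ≤ pol C Y from fun Q => by
              by_cases e : Q = P
              · subst e
                have := ord_neg_of h2
                rw [Finsupp.single_eq_same, pol_apply]
                omega
              · rw [Finsupp.single_eq_of_ne e]
                exact pol_nonneg Y Q)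
            rw [dg_sgl] at h8
            omega
          · exact nc_of_transc (hX.ov i).transc c (sub_eq_zero.1 h0)
        · exact (inv_mem_iff' h0).1 h6 h3
  · have hc' : 1 < ‖c‖ := not_le.1 hc
    have c0 : c ≠ 0 := by rintro h; rw [h, norm_zero] at hc'; linarith
    have h4 : ∀ i, w i (algebraMap C F c⁻¹ * X) < 1 := fun i => by
      rw [map_mul, (w i).ext', norm_inv]
      exact mul_lt_one_of_nonneg_of_lt_one_left (by positivity) (inv_lt_one_of_one_lt₀ hc') (hX.le i)
    refine ⟨1 - algebraMap C F c⁻¹ * X, 1, ⟨fun i => ⟨NV.sub_le (Node.nv_one _).le (h4 i).le, ?_⟩,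
      fun Q hQ => sub_mem (one_mem _) (mul_mem (Q.2.1 _) hQ)⟩, ?_, one_ne_zero, fun a ha => ?_⟩
    · rw [NV.red_sub (Node.nv_one _).le (h4 i).le, NV.red_of_lt (h4 i)]
      simp
    · have h5 := (Mge P 1).smul_mem (-c⁻¹) h3
      convert h5 using 1
      rw [Algebra.smul_def, mul_sub, ← map_mul, neg_mul, inv_mul_cancel₀ c0, map_neg, map_neg,
        map_one]
      ring
    · simp at ha

/-- the poles of `f` at places where `X` is finite can be removed -/
theorem kill (hi : Function.Injective w) (hX : Fl w X) (hY : Fl w Y) {f : F}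
    (hf : ∀ Q : Plk C F, Y ∈ Q.1 → f ∈ Q.1) : ∃ h s, Po w X h s ∧ s ≠ 0 ∧
      (∀ c, s.eval c = 0 → Bad w X Y c) ∧ ∀ Q : Plk C F, X ∈ Q.1 → h * f ∈ Q.1 := by
  classical
  have key : ∀ S : Finset (Plk C F), ∃ h s, Po w X h s ∧ s ≠ 0 ∧
      (∀ c, s.eval c = 0 → Bad w X Y c) ∧ ∀ Q ∈ S, X ∈ Q.1 → h * f ∈ Q.1 := by
    intro S
    induction S using Finset.induction_on with
    | empty => exact ⟨1, 1, Po.one, one_ne_zero, fun c hc => by simp at hc, fun Q hQ => by simp at hQ⟩
    | insert P S _ ih =>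
      obtain ⟨h, s, a1, a2, a3, a4⟩ := ih
      by_cases h1 : X ∈ P.1 ∧ Y ∉ P.1
      · obtain ⟨h', s', b1, b2, b3, b4⟩ := kill1 hi hX hY h1.1 h1.2
        refine ⟨h' ^ (ord P f).natAbs * h, s' ^ (ord P f).natAbs * s, (b1.pow _).mul a1,
          mul_ne_zero (pow_ne_zero _ b3) a2, fun c hc => ?_, fun Q hQ hXQ => ?_⟩
        · rw [eval_mul, eval_pow, mul_eq_zero] at hc
          exact hc.elim (fun e => b4 c (pow_eq_zero_iff'.1 e).1) (a3 c)
        · rcases Finset.mem_insert.1 hQ with rfl | hQ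
          · have c1 : h' ^ (ord Q f).natAbs ∈ Mge Q (ord Q f).natAbs := by
              rcases b2 with e | e
              · rcases Nat.eq_zero_or_pos (ord Q f).natAbs with e' | e'
                · rw [e', pow_zero]
                  exact Or.inr (by rw [ord_one]; rfl)
                · exact Or.inl (by rw [e, zero_pow e'.ne'])
              · exact Or.inr (by rw [ord_pow]; nlinarith [Int.natCast_nonneg (ord Q f).natAbs])
            have c2 := mul_mem_Mge (mul_mem_Mge c1 (mem_Mge0.2 (a1.2 Q hXQ)))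
              (show f ∈ Mge Q (ord Q f) from Or.inr le_rfl)
            exact mem_Mge0.1 (Mge_mono Q (by omega) c2)
          · rw [mul_assoc]
            exact mul_mem (pow_mem (b1.2 Q hXQ) _) (a4 Q hQ hXQ)
      · refine ⟨h, s, a1, a2, a3, fun Q hQ hXQ => ?_⟩
        rcases Finset.mem_insert.1 hQ with rfl | hQ
        · exact mul_mem (a1.2 Q hXQ) (hf Q (by by_contra e; exact h1 ⟨hXQ, e⟩))
        · exact a4 Q hQ hXQ
  obtain ⟨h, s, a1, a2, a3, a4⟩ := key (poles_finite (k := C) f).toFinset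
  refine ⟨h, s, a1, a2, a3, fun Q hQ => ?_⟩
  by_cases e : f ∈ Q.1
  · exact mul_mem (a1.2 Q hQ) e
  · exact a4 Q ((Set.Finite.mem_toFinset _).2 e) hQ

/-- the same poles in the reduction, the same reductions of regular functions -/
theorem kill0 (hi : Function.Injective w) (hX : Fl w X) (hY : Fl w Y)
    (h : ∀ i (x : Plk (kC C) (kap (w i))), (w i).red X ∈ x.1 → (w i).red Y ∈ x.1) {f : F}
    (hf : ∀ Q : Plk C F, Y ∈ Q.1 → f ∈ Q.1) (hf1 : ∀ i, w i f ≤ 1) :
    ∃ f₁, (∀ Q : Plk C F, X ∈ Q.1 → f₁ ∈ Q.1) ∧ ∀ i, w i f₁ ≤ 1 ∧ (w i).red f₁ = (w i).red f := by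
  obtain ⟨h', s, a1, a2, a3, a4⟩ := kill hi hX hY hf
  have h1 : s.degree = 0 := by
    by_contra e
    obtain ⟨c, hc⟩ := IsAlgClosed.exists_root s e
    obtain ⟨i, x, b1, b2⟩ := a3 c hc
    exact b2 (h i x (mem_of_ord (ord_nonneg_of_sub b1)))
  obtain ⟨a, rfl⟩ : ∃ a, s = Polynomial.C a := ⟨_, eq_C_of_degree_eq_zero h1⟩
  have a0 : a ≠ 0 := by rintro rfl; simp at a2
  obtain ⟨c, hc, hc'⟩ := cred_surj a⁻¹
  refine ⟨algebraMap C F c * (h' * f), fun Q hQ => mul_mem (Q.2.1 c) (a4 Q hQ), fun i => ?_⟩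
  have b1 := NV.mul_le_one (a1.1 i).1 (hf1 i)
  refine ⟨NV.mul_le_one (nv_const _ hc) b1, ?_⟩
  rw [NV.red_mul (nv_const _ hc) b1, NV.red_mul (a1.1 i).1 (hf1 i), (a1.1 i).2,
    NV.red_algebraMap hc, hc', aeval_C, ← mul_assoc, ← map_mul, inv_mul_cancel₀ a0, map_one, one_mul]

end fam

theorem fl_of_full {T : F} [FiniteDimensional C⟮T⟯ F] (h : Full C T) :
    Fl (fun w : WW C T => w.1) T :=
  ⟨fun w => w.2.apply_T.le, fun w => w.2.red_ne, by
    rw [dg_pol (nc_of_transc h.transc), Finset.sum_congr rfl fun (w : WW C T) _ => dg_pol w.2.red_ne,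
      ← h]
    push_cast
    rfl⟩

section nr

variable {T : F} {g : F ≃+* F} {s : C ≃+* C}

variable (C) in
/-- the reductions of `g T` and of `T` have the same poles -/
def Nr (g : F ≃+* F) (T : F) : Prop := ∀ w : WW C T, w.1 (g T) ≤ 1 ∧
  ∀ x : ValuationSubring (kap w.1), (∀ a : kC C, algebraMap (kC C) (kap w.1) a ∈ x) →
    (w.1.red (g T) ∈ x ↔ w.1.red T ∈ x)

theorem nr_of_lt (h : ∀ w : WW C T, w.1 (g T - T) < 1) : Nr C g T := fun w => by
  have h1 : w.1 (g T) ≤ 1 := by
    have := NV.add_le (h w).le w.2.apply_T.le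
    rwa [sub_add_cancel] at this
  exact ⟨h1, fun x _ => by rw [(red_eq_iff h1 w.2.apply_T.le).2 (h w)]⟩

theorem nr_of_fix (h : g T = T) : Nr C g T := nr_of_lt fun w => by simp [h]

theorem Nr.up {L : Type} [Field L] [Algebra C L] [Algebra F L] [IsScalarTower C F L]
    (h : Nr C g T) {G : L ≃+* L} (hG : ∀ x, G (algebraMap F L x) = algebraMap F L (g x)) :
    Nr C G (algebraMap F L T) := fun v => by
  obtain ⟨h1, h2⟩ := h ⟨v.1.comap F, v.2.comap⟩
  have e : ∀ y, v.1 (algebraMap F L y) = (v.1.comap F) y := fun _ => rfl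
  refine ⟨by rw [hG]; exact h1, fun x hx => ?_⟩
  rw [hG, ← rm_red (algebraMap F L) e, ← rm_red (algebraMap F L) e]
  exact h2 (x.comap (rm (algebraMap F L) e)) fun a => by
    rw [ValuationSubring.mem_comap, Pole.rm_const' _ e fun c =>
      (IsScalarTower.algebraMap_apply C F L c).symm]
    exact hx a

variable [FiniteDimensional C⟮T⟯ F]

theorem Nr.nc (h : Nr C g T) (w : WW C T) (a : kC C) :
    w.1.red (g T) ≠ algebraMap (kC C) (kap w.1) a := fun e => by
  obtain ⟨x, hx⟩ := exists_pole w.2.red_ne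
  exact hx (((h w).2 x.1 x.2.1).1 (e ▸ x.2.1 a))

theorem Nr.ov (h : Nr C g T) (w : WW C T) : w.1.OverG (g T) :=
  N0a.overG_of (h w).1 (finite_of_notMem (h.nc w)).1

/-- the pull back of a component -/
def Nr.pull (h : Nr C g T) (hs : Semi C g s) (w : WW C T) : WW C T :=
  ⟨pullNV (g : F →+* F) hs.1 hs.2 w.1, pullNV_overG _ _ _ (h.ov w)⟩

theorem Nr.pull_bij (h : Nr C g T) (hs : Semi C g s) : Function.Bijective (h.pull hs) :=
  Finite.injective_iff_bijective.1 fun w w' e => Subtype.ext (P025H992.nv_ext fun y => by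
    obtain ⟨y, rfl⟩ := g.surjective y
    exact congrArg (fun v : WW C T => v.1 y) e)

theorem Nr.exists_w (h : Nr C g T) (hs : Semi C g s) (w : WW C T) :
    ∃ w' : WW C T, ∀ y, w'.1 (g y) = w.1 y := by
  obtain ⟨w', rfl⟩ := (h.pull_bij hs).2 w
  exact ⟨w', fun _ => rfl⟩

theorem Nr.exists_tw (h : Nr C g T) (hs : Semi C g s) (b : Br C T) :
    ∃ b' : Br C T, Tw (g : F →+* F) b b' := by
  obtain ⟨w', hw'⟩ := h.exists_w hs b.w
  obtain ⟨⟨w₁, x₁, h₁⟩, e, hb⟩ := P027M.I.exists_tw (T' := g T) (g : F →+* F) hs.1 hs.2 b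
    ⟨w'.1, h.ov w'⟩ hw' (fun y' _ => ⟨g.symm y', by simp⟩) ⟨T, b.w.2.apply_T.le, b.fin, by simp⟩
  dsimp only at e
  subst e
  exact ⟨⟨w', x₁, ((h w').2 x₁.1 x₁.2.1).1 h₁⟩, hb⟩

theorem range_const (hs : Semi C g s) :
    (g : F →+* F) '' Set.range (algebraMap C F) = Set.range (algebraMap C F) := by
  ext y
  constructor
  · rintro ⟨_, ⟨c, rfl⟩, rfl⟩
    exact ⟨s c, (hs.1 c).symm⟩
  · rintro ⟨c, rfl⟩
    exact ⟨_, ⟨s.symm c, rfl⟩, by rw [RingHom.coe_coe, hs.1, s.apply_symm_apply]⟩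

theorem Nr.fl (h : Nr C g T) (hs : Semi C g s) (hF : Full C T) :
    Fl (fun w : WW C T => w.1) (g T) := by
  refine ⟨fun w => (h w).1, h.nc, ?_⟩
  have h1 : ∀ w : WW C T, dg (pol (kC C) (w.1.red (g T))) =
      dg (pol (kC C) ((h.pull hs w).1.red T)) := fun w => by
    have e : ∀ y, w.1 ((g : F →+* F) y) = (h.pull hs w).1 y := fun _ => rfl
    have e1 := rm_red (g : F →+* F) e T
    rw [RingHom.coe_coe] at e1
    rw [← e1]
    refine dg_equiv _ (rm_surj _ e fun y' _ => ⟨g.symm y', by simp⟩) ?_ (h.pull hs w).2.red_ne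
    ext y
    constructor
    · rintro ⟨_, ⟨a, rfl⟩, rfl⟩
      obtain ⟨c, hc, rfl⟩ := cred_surj a
      exact ⟨_, (rm_const _ e hs.1 hs.2 hc).symm⟩
    · rintro ⟨a, rfl⟩
      obtain ⟨c, hc, rfl⟩ := exists_cred_eq hs.2 a
      exact ⟨_, ⟨_, rfl⟩, rm_const _ e hs.1 hs.2 hc⟩
  have h2 := dg_equiv (k := C) (g : F →+* F) g.surjective (range_const hs) (nc_of_transc hF.transc)
  rw [RingHom.coe_coe] at h2
  rw [h2, Finset.sum_congr rfl fun w _ => h1 w,
    (h.pull_bij hs).sum_comp fun w : WW C T => dg (pol (kC C) (w.1.red T))]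
  exact (fl_of_full hF).deg

theorem Nr.glue (h : Nr C g T) (hs : Semi C g s) (hF : Full C T) {b₁ b₁' b₂ b₂' : Br C T}
    (h₁ : Tw (g : F →+* F) b₁ b₁') (h₂ : Tw (g : F →+* F) b₂ b₂') (hg : Glue b₁ b₂) :
    Glue b₁' b₂' := by
  rw [glue_iff_zero] at hg ⊢
  intro f hf
  obtain ⟨f₁, a1, a2⟩ := kill0 Subtype.val_injective (h.fl hs hF) (fl_of_full hF)
    (fun w x hx => ((h w).2 x.1 x.2.1).1 hx) hf.2 hf.1
  obtain ⟨f₁, rfl⟩ := g.surjective f₁
  have hf' : BB C T f₁ := ⟨fun w => by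
    obtain ⟨w', hw'⟩ := h.exists_w hs w
    rw [← hw']
    exact (a2 w').1, fun P hP => by
    have h1 := a1 (plEquiv g s hs.1 P) (by
      rw [AuxFAct.mem_plEquiv, g.symm_apply_apply]; exact hP)
    rwa [AuxFAct.mem_plEquiv, g.symm_apply_apply] at h1⟩
  have e : redv C T f = redv C T (g f₁) := funext fun w => (a2 w).2.symm
  rw [e]
  exact (h₁.ev_zero (hf'.1 _) (hf'.red_mem _)).trans ((hg f₁ hf').trans
    (h₂.ev_zero (hf'.1 _) (hf'.red_mem _)).symm)

end nr

end Vale.Agent.P022K.FI.X1
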