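import Vale.Agent.P022K.FI.X1A

/-!
# P022K FI, row X0, file B: inertia on a tame cyclic cover of a nodal curve with two components

`node` is the row `NODE` of `P027M.I` with `Nr g T` in the place of `g T = T`.  `twi`: if `σ` is
trivial on one component and acts as the deck transformation `s` on the other one, then
`(σ - s) (σ - 1) = 0` on Kummer classes.
-/

set_option linter.unusedSectionVars false
set_option linter.style.haveILetI false

noncomputable section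

open IntermediateField Vale.Agent.P019P P025H746 P025H492 Module
open Vale.Agent.P027M.I Vale.Agent.P027M.I.Node

namespace Vale.Agent.P022K.FI.X1

variable {C : Type} [NontriviallyNormedField C] [IsUltrametricDist C] [IsAlgClosed C]

section node

variable {F : Type} [Field F] [Algebra C F] {T : F} [FiniteDimensional C⟮T⟯ F] [CFF C F]

theorem all_fixed (hF : Full C T) {S : Finset (Br C T)} (hS : Nodal C T S)
    {g : F ≃+* F} {s : C ≃+* C} (h : Semi C g s) (hT : Nr C g T)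
    (hb : ∀ b ∈ S, Tw (g : F →+* F) b b) (w : WW C T) (y : F) : w.1 (g y) = w.1 y := by
  rcases cong' C F T hF S hS {w | ∀ y, w.1 (g y) = w.1 y} (fun _ _ b' hb' _ _ => (hb b' hb').1) with
    h1 | h1
  · have h2 : ∀ b, b ∉ S := fun b hbS => by
      have : b.w ∈ {w : WW C T | ∀ y, w.1 (g y) = w.1 y} := (hb b hbS).1
      rw [h1] at this
      exact this
    rcases cong' C F T hF S hS {w} (fun b hbS => absurd hbS (h2 b)) with h3 | h3
    · exact absurd h3 (Set.singleton_ne_empty w)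
    · obtain ⟨w', hw'⟩ := hT.exists_w h w
      have : w' ∈ ({w} : Set (WW C T)) := h3 ▸ Set.mem_univ _
      rw [Set.mem_singleton_iff] at this
      rw [← hw' y, this]
  · have : w ∈ {w : WW C T | ∀ y, w.1 (g y) = w.1 y} := h1 ▸ Set.mem_univ _
    exact this y

section core

variable {L : Type} [Field L] [Algebra C L] [Algebra F L] [IsScalarTower C F L]

theorem core [CharZero C] [CFF C L] [FiniteDimensional F L] 
    (hF : Full C T) {S : Finset (Br C T)} (hS : Nodal C T S) {m c : ℕ} {g : F ≃+* F} {s : C ≃+* C}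
    (hm : (m : kC C) ≠ 0) (h : Semi C g s) (hT : Nr C g T) (hb : ∀ b ∈ S, Tw (g : F →+* F) b b)
    (hs : ∀ μ : C, μ ^ m = 1 → s μ = μ ^ c) {Y : Set L} (hY : IntermediateField.adjoin F Y = ⊤)
    (hy : ∀ y ∈ Y, ∃ f : F, y ^ m = algebraMap F L f ∧ (∀ P : Plk C F, (m : ℤ) ∣ ord P f) ∧
      ∀ w : WW C T, w.1 (f - 1) < 1)
    (G : L ≃+* L) (hGg : ∀ x, G (algebraMap F L x) = algebraMap F L (g x)) {y : L} {f : F}
    (hy0 : y ≠ 0) (hyf : y ^ m = algebraMap F L f) : ∃ z : F, z ≠ 0 ∧ g f = f ^ c * z ^ m := by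
  have hm0 := ne_zero_of_cast hm
  haveI : IsGalois F L := isGalois_radicals (k := C) hY fun y hyY => by
    obtain ⟨f, h1, -⟩ := hy y hyY
    exact ⟨m, f, cast_ne_zero hm, h1⟩
  haveI : FiniteDimensional C⟮algebraMap F L T⟯ L := finite_adjoin_map
  have hfree := free (T := T) hm hY fun y hyY => by
    obtain ⟨f, h1, -, h2⟩ := hy y hyY
    exact ⟨f, h1, h2⟩
  obtain ⟨hFL, hres, S', hS', hS''⟩ := cov' C F L T hF S hS
    (isUnr_radicals hY fun y hyY => by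
      obtain ⟨f, h1, h2, -⟩ := hy y hyY
      exact ⟨m, f, cast_ne_zero hm, h1, h2⟩)
    (deg_ne hm hY fun y hyY => by
      obtain ⟨f, h1, -⟩ := hy y hyY
      exact ⟨f, h1⟩)
    (fun v => ⟨1, fun τ => by
      rw [Subgroup.zpowers_one_eq_bot, Subgroup.mem_bot]
      exact ⟨hfree τ v, by rintro rfl y; rfl⟩⟩)
  have hsu : ∀ (v : WW C (algebraMap F L T)) (y : L), v.1 y ≤ 1 →
      ∃ y₀ : F, v.1 (y - algebraMap F L y₀) < 1 := fun v y hv => hres v y hv fun τ hτ => by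
    rw [hfree τ v hτ]; simp
  have semi : ∀ G : L ≃+* L, (∀ x, G (algebraMap F L x) = algebraMap F L (g x)) → Semi C G s :=
    fun G hG => ⟨fun a => by
      rw [IsScalarTower.algebraMap_apply C F L, hG, h.1, ← IsScalarTower.algebraMap_apply], h.2⟩
  obtain ⟨v₀⟩ := hFL.nonempty
  obtain ⟨v₁, hv₁⟩ := (hT.up hGg).exists_w (semi G hGg) v₀
  obtain ⟨τ₀, hτ₀⟩ := P025H992.exists_cj (K := F) v₀.1 v₁.1 (P025H992.nv_ext fun x => by
    obtain ⟨x, rfl⟩ := g.surjective x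
    rw [P025H992.resK_apply, P025H992.resK_apply, ← hGg x, hv₁, hGg]
    exact all_fixed hF hS h hT hb ⟨v₀.1.comap F, v₀.2.comap⟩ x)
  let G' : L ≃+* L := G.trans (τ₀ : L ≃+* L)
  have hG' : ∀ x, G' (algebraMap F L x) = algebraMap F L (g x) := fun x => by
    change τ₀ (G _) = _
    rw [hGg, τ₀.commutes]
  have hT' : Nr C G' (algebraMap F L T) := hT.up hG'
  have hv₀ : ∀ y, v₀.1 (G' y) = v₀.1 y := fun y => by
    rw [← hv₁ y, hτ₀]; rfl
  have hov : ∀ {b₀ : Br C T} {b b₁ : Br C (algebraMap F L T)}, b₀ ∈ S →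
      Tw (algebraMap F L) b₀ b → Tw (G' : L →+* L) b b₁ → Tw (algebraMap F L) b₀ b₁ :=
    fun hb₀ h1 h2 => (((hb _ hb₀).symm.comp h1).comp h2).congr fun x => by
      change _ = G' (algebraMap F L (g.symm x))
      rw [hG', g.apply_symm_apply]
  have hall : ∀ (v : WW C (algebraMap F L T)) y, v.1 (G' y) = v.1 y := by
    rcases cong' C L _ hFL S' hS' {v | ∀ y, v.1 (G' y) = v.1 y} (fun b hbS b' hbS' hgl hw => by
      by_cases e : b' = b
      · rw [e]; exact hw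
      obtain ⟨b₀, hb₀, h1⟩ := (hS'' b).1 hbS
      obtain ⟨b₀', hb₀', h1'⟩ := (hS'' b').1 hbS'
      obtain ⟨b₁, h2⟩ := hT'.exists_tw (semi G' hG') b
      obtain ⟨b₂, h2'⟩ := hT'.exists_tw (semi G' hG') b'
      have e1 : b = b₁ := h1.inj_right (hov hb₀ h1 h2)
        (Subtype.ext (P025H992.nv_ext fun y => by
          obtain ⟨y, rfl⟩ := G'.surjective y
          exact (hw y).trans (h2.1 y).symm)) (hsu _)
      subst e1
      have e2 : b' = b₂ := (acl' C L _ hFL S' hS').1 b hbS b' hbS' b₂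
        ((hS'' b₂).2 ⟨b₀', hb₀', hov hb₀' h1' h2'⟩) e
        (by rintro rfl; exact e (h2'.inj_left h2)) hgl (hT'.glue (semi G' hG') hFL h2 h2' hgl)
      subst e2
      exact h2'.1) with h1 | h1
    · have : v₀ ∈ {v : WW C (algebraMap F L T) | ∀ y, v.1 (G' y) = v.1 y} := hv₀
      rw [h1] at this
      exact this.elim
    · intro v
      have : v ∈ {v : WW C (algebraMap F L T) | ∀ y, v.1 (G' y) = v.1 y} := h1 ▸ Set.mem_univ _
      exact this
  have hcomm : ∀ (τ : L ≃ₐ[F] L) y, τ (G' y) = G' (τ y) := fun τ y => by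
    let ρ : L ≃ₐ[F] L := AlgEquiv.ofRingEquiv
      (f := ((G'.symm.trans (τ : L ≃+* L)).trans G').trans (τ.symm : L ≃+* L)) fun x => by
        obtain ⟨x, rfl⟩ := g.surjective x
        change τ.symm (G' (τ (G'.symm _))) = _
        rw [← hG' x, G'.symm_apply_apply, τ.commutes, hG', τ.symm.commutes]
    have h1 : ρ = 1 := hfree ρ v₀ fun y => by
      obtain ⟨v₂, hv₂⟩ := (Semi.of_alg (τ.restrictScalars C)).exists_w
        (T := algebraMap F L T) (τ.commutes T) v₀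
      have h2 : ∀ y, v₂.1 (τ y) = v₀.1 y := hv₂
      change v₀.1 (τ.symm (G' (τ (G'.symm y)))) = _
      rw [← h2, τ.apply_symm_apply, hall, h2, ← hv₀, G'.apply_symm_apply]
    have h2 : τ.symm (G' (τ (G'.symm (G' y)))) = G' y := AlgEquiv.congr_fun h1 (G' y)
    rw [G'.symm_apply_apply] at h2
    rw [← h2, τ.apply_symm_apply]
  obtain ⟨z, hz⟩ := (IsGalois.mem_range_algebraMap_iff_fixed (F := F) (G' y / y ^ c)).2 fun τ => by
    obtain ⟨μ, hμ, h1⟩ := exists_mu (C := C) hm0 τ hy0 hyf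
    have h2 : algebraMap C L μ ≠ 0 := by
      rw [Ne, map_eq_zero]; rintro rfl; rw [zero_pow hm0] at hμ; exact zero_ne_one hμ
    rw [map_div₀, map_pow, hcomm, h1, map_mul, (semi G' hG').1, hs μ hμ, map_pow, mul_pow,
      mul_div_mul_left _ _ (pow_ne_zero c h2)]
  have h3 : G' y ≠ 0 := (map_ne_zero G').2 hy0
  refine ⟨z, fun h0 => ?_, (algebraMap F L).injective ?_⟩
  · rw [h0, map_zero] at hz
    exact div_ne_zero h3 (pow_ne_zero c hy0) hz.symm
  · rw [← hG', ← hyf, map_mul, map_pow, map_pow, map_pow, hz, ← hyf, div_pow, ← pow_mul, ← pow_mul,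
      mul_comm m c, mul_div_cancel₀ _ (pow_ne_zero _ hy0)]

end core

theorem node [CharZero C] (hF : Full C T) {S : Finset (Br C T)} (hS : Nodal C T S) {m c : ℕ}
    {g : F ≃+* F} {s : C ≃+* C} (hm : (m : kC C) ≠ 0) (h : Semi C g s) (hT : Nr C g T)
    (hb : ∀ b ∈ S, Tw (g : F →+* F) b b) (hs : ∀ μ : C, μ ^ m = 1 → s μ = μ ^ c) (f : F)
    (hf : ∀ P : Plk C F, (m : ℤ) ∣ ord P f) (htr : ∀ w : WW C T, Triv m w.1 f) :
    ∃ z : F, z ≠ 0 ∧ g f = f ^ c * z ^ m := by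
  have hm0 := ne_zero_of_cast hm
  have hfix := all_fixed hF hS h hT hb
  let Ω := AlgebraicClosure F
  let Y : Set Ω := {y | ∃ f : F, y ^ m = algebraMap F Ω f ∧ (∀ P : Plk C F, (m : ℤ) ∣ ord P f) ∧
    ∀ w : WW C T, w.1 (f - 1) < 1}
  have hne : ∀ f : F, (∀ w : WW C T, w.1 (f - 1) < 1) → f ≠ 0 := fun f h1 h0 => by
    have := (eq_one_of_sub (h1 hF.nonempty.some)).2
    rw [h0, NV.red_zero] at this
    exact zero_ne_one this
  let L := IntermediateField.adjoin F Y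
  haveI : FiniteDimensional F L := fin_roots (C := C) (cast_ne_zero hm) fun y ⟨f, h1, h2, h3⟩ =>
    ⟨f, hne f h3, h1, h2⟩
  haveI : CFF C L := cff_of_finite (K := F)
  let H : Ω ≃+* Ω := IsAlgClosure.equivOfEquiv Ω Ω g
  have hH : ∀ x, H (algebraMap F Ω x) = algebraMap F Ω (g x) :=
    IsAlgClosure.equivOfEquiv_algebraMap Ω Ω g
  have hH' : ∀ x, H.symm (algebraMap F Ω x) = algebraMap F Ω (g.symm x) :=
    IsAlgClosure.equivOfEquiv_symm_algebraMap Ω Ω g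
  have hY : ∀ y ∈ Y, H y ∈ Y := fun y ⟨f, h1, h2, h3⟩ =>
    ⟨g f, by rw [← map_pow, h1, hH], h.dvd_ord h2, fun w => by
      rw [← map_one g, ← map_sub, hfix]; exact h3 w⟩
  have hY' : ∀ y ∈ Y, H.symm y ∈ Y := fun y ⟨f, h1, h2, h3⟩ =>
    ⟨g.symm f, by rw [← map_pow, h1, hH'], h.symm.dvd_ord h2, fun w => by
      rw [← hfix, map_sub, map_one, g.apply_symm_apply]; exact h3 w⟩
  let G : L ≃+* L :=
    { toFun := fun x => ⟨H x, map_mem H g hH hY x.2⟩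
      invFun := fun x => ⟨H.symm x, map_mem H.symm g.symm hH' hY' x.2⟩
      left_inv := fun x => Subtype.ext (H.symm_apply_apply x)
      right_inv := fun x => Subtype.ext (H.apply_symm_apply x)
      map_mul' := fun x y => Subtype.ext (map_mul H x.1 y.1)
      map_add' := fun x y => Subtype.ext (map_add H x.1 y.1) }
  obtain ⟨z₀, hz₀, h1⟩ := exists_norm hm0 htr hF.nonempty
  have hf1 := hne _ h1
  have hf0 : f ≠ 0 := left_ne_zero_of_mul hf1
  obtain ⟨y, hy⟩ := IsAlgClosed.exists_pow_nat_eq (algebraMap F Ω (f * z₀ ^ m))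
    (Nat.pos_of_ne_zero hm0)
  have hyY : y ∈ Y := ⟨_, hy, fun P => by
    rw [ord_mul P hf0 (pow_ne_zero m hz₀), ord_pow]
    exact dvd_add (hf P) (dvd_mul_right _ _), h1⟩
  obtain ⟨z, hz, h2⟩ := core (L := L) hF hS hm h hT hb hs
    (Y := {x : L | (x : Ω) ∈ Y}) (lift_injective L (by
      rw [lift_adjoin, lift_top]
      congr 1
      ext x
      exact ⟨by rintro ⟨x, hx, rfl⟩; exact hx, fun hx => ⟨⟨x, subset_adjoin _ _ hx⟩, hx, rfl⟩⟩))
    (fun x ⟨f, h1, h2, h3⟩ => ⟨f, Subtype.ext h1, h2, h3⟩) G (fun x => Subtype.ext (hH x))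
    (y := ⟨y, subset_adjoin _ _ hyY⟩) (f := f * z₀ ^ m) (fun h0 => by
      have h3 : y = 0 := congrArg Subtype.val h0
      rw [h3, zero_pow hm0, eq_comm, map_eq_zero] at hy
      exact hf1 hy) (Subtype.ext hy)
  have h3 : g z₀ ≠ 0 := (map_ne_zero g).2 hz₀
  refine ⟨z₀ ^ c * z / g z₀, div_ne_zero (mul_ne_zero (pow_ne_zero c hz₀) hz) h3, ?_⟩
  rw [map_mul, map_pow] at h2
  rw [div_pow, ← mul_div_assoc, eq_div_iff (pow_ne_zero m h3), h2]
  ring

end node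

section twi

variable {K₀ K : Type} [Field K₀] [Algebra C K₀] [CFF C K₀] [Field K] [Algebra C K] [CFF C K]
  [Algebra K₀ K] [IsScalarTower C K₀ K] [FiniteDimensional K₀ K] [IsGalois K₀ K]

variable (C) in
/-- `σ` acts like an inertia element: trivially at `w 0`, as `s` at `w 1` -/
structure Inr (w : Fin 2 → NV C K) (σ : K ≃+* K) (s : K ≃ₐ[K₀] K) : Prop where
  semi : ∃ c : C ≃+* C, Semi C σ c
  com : ∀ (g : K ≃ₐ[K₀] K) y, σ (g y) = g (σ y)
  n0 : ∀ y, w 0 (σ y) = w 0 y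
  t0 : ∀ y, w 0 y ≤ 1 → w 0 (σ y - y) < 1
  n1 : ∀ y, w 1 (σ y) = w 1 (s y)
  t1 : ∀ y, w 1 (s y) ≤ 1 → w 1 (σ y - s y) < 1

variable {w : Fin 2 → NV C K} {σ : K ≃+* K} {s : K ≃ₐ[K₀] K}

open I1b

theorem side0 (h : Inr C w σ s) {u : NV C K}
    (hu : ∀ y, u (algebraMap K₀ K y) = w 0 (algebraMap K₀ K y)) :
    (∀ y, u (σ y) = u y) ∧ ∀ y, u y ≤ 1 → u (σ y - y) < 1 := by
  obtain ⟨g, hg⟩ := exists_conj hu
  refine ⟨fun y => by rw [hg, hg, ← h.com, h.n0], fun y hy => ?_⟩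
  rw [hg, map_sub, ← h.com]
  exact h.t0 _ (by rw [← hg]; exact hy)

theorem side1 (hc : ∀ (g g' : K ≃ₐ[K₀] K) y, g (g' y) = g' (g y)) (h : Inr C w σ s) {u : NV C K}
    (hu : ∀ y, u (algebraMap K₀ K y) = w 1 (algebraMap K₀ K y)) :
    (∀ y, u (gam σ s y) = u y) ∧ ∀ y, u y ≤ 1 → u (gam σ s y - y) < 1 := by
  obtain ⟨g, hg⟩ := exists_conj hu
  refine ⟨fun y => ?_, fun y hy => ?_⟩
  · obtain ⟨y, rfl⟩ := s.surjective y
    rw [gam_s, hg, hg, ← h.com, h.n1, hc]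
  · obtain ⟨y, rfl⟩ := s.surjective y
    rw [gam_s, hg, map_sub, ← h.com, hc g s]
    exact h.t1 _ (by rw [hc, ← hg]; exact hy)

variable {T : K₀} [FiniteDimensional C⟮T⟯ K₀] [FiniteDimensional C⟮algebraMap K₀ K T⟯ K]
  {v : Fin 2 → WW C T} {S : Finset (Br C T)}

theorem sides (hall : ∀ u, ∃ i, u = v i) (hw : ∀ i y, w i (algebraMap K₀ K y) = (v i).1 y)
    (u : WW C (algebraMap K₀ K T)) :
    (∀ y, u.1 (algebraMap K₀ K y) = w 0 (algebraMap K₀ K y)) ∨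
      ∀ y, u.1 (algebraMap K₀ K y) = w 1 (algebraMap K₀ K y) := by
  obtain ⟨i, hi⟩ := hall ⟨u.1.comap K₀, u.2.comap⟩
  have h1 : ∀ y, u.1 (algebraMap K₀ K y) = w i (algebraMap K₀ K y) := fun y => by
    rw [hw, ← hi]; rfl
  fin_cases i
  exacts [Or.inl h1, Or.inr h1]

theorem Inr.nr (hc : ∀ (g g' : K ≃ₐ[K₀] K) y, g (g' y) = g' (g y)) (h : Inr C w σ s)
    (hall : ∀ u, ∃ i, u = v i) (hw : ∀ i y, w i (algebraMap K₀ K y) = (v i).1 y) :
    Nr C σ (algebraMap K₀ K T) := nr_of_lt fun u => by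
  rcases sides hall hw u with h1 | h1
  · exact (side0 h h1).2 _ u.2.apply_T.le
  · have h2 := (side1 hc h h1).2 _ u.2.apply_T.le
    have h3 : gam σ s (algebraMap K₀ K T) = σ (algebraMap K₀ K T) :=
      (congrArg (gam σ s) (s.commutes T).symm).trans (gam_s _)
    rwa [h3] at h2

/-- the deck transformation and `σ` fix the nodes -/
theorem fixes (hc : ∀ (g g' : K ≃ₐ[K₀] K) y, g (g' y) = g' (g y))
    (hS : Nodal C T S) (hall : ∀ u, ∃ i, u = v i)
    (hsep : ∀ b b' : Br C T, b.w = b'.w → Glue b b' → b = b')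
    (hw : ∀ i y, w i (algebraMap K₀ K y) = (v i).1 y) (h : Inr C w σ s)
    (hF : Full C (algebraMap K₀ K T)) {S' : Finset (Br C (algebraMap K₀ K T))}
    (hS' : Nodal C _ S') (hm : ∀ b', b' ∈ S' ↔ ∃ b ∈ S, Tw (algebraMap K₀ K) b b') :
    ∀ b' ∈ S', Tw ((s : K ≃+* K) : K →+* K) b' b' ∧ Tw (σ : K →+* K) b' b' := by
  obtain ⟨c, hsemi⟩ := h.semi
  have huniq := (acl' C K _ hF S' hS').1
  have key : ∀ (b₀ b₁ : Br C T) (c₀ c₁ : Br C (algebraMap K₀ K T)), b₀ ∈ S → b₁ ∈ S →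
      b₀.w = v 0 → b₁.w = v 1 → b₀.w ≠ b₁.w → Tw (algebraMap K₀ K) b₀ c₀ →
      Tw (algebraMap K₀ K) b₁ c₁ → Glue c₀ c₁ →
      (Tw ((s : K ≃+* K) : K →+* K) c₀ c₀ ∧ Tw (σ : K →+* K) c₀ c₀) ∧
        Tw ((s : K ≃+* K) : K →+* K) c₁ c₁ ∧ Tw (σ : K →+* K) c₁ c₁ := by
    intro b₀ b₁ c₀ c₁ hb₀ hb₁ e₀ e₁ hne t₀ t₁ hg
    have hne' : ∀ {d₀ d₁ : Br C (algebraMap K₀ K T)}, Tw (algebraMap K₀ K) b₀ d₀ →
        Tw (algebraMap K₀ K) b₁ d₁ → d₁ ≠ d₀ := fun {d₀ d₁} u₀ u₁ e => by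
      subst e
      exact hne (congrArg Br.w (u₀.inj_left u₁))
    obtain ⟨d₁, u₁, r₁⟩ := ex_tw s t₁
    obtain ⟨d₀, u₀, r₀⟩ := ex_tw s t₀
    have p₀ := side0 h (u := c₀.w.1) fun y => by rw [t₀.1, e₀, hw]
    have p₁ := side1 hc h (u := d₁.w.1) fun y => by rw [u₁.1, e₁, hw]
    have q₁ : Tw (σ : K →+* K) c₁ d₁ :=
      (r₁.comp (tw_self d₁ p₁.1 p₁.2)).congr fun y => (gam_s (s := s) y).symm
    have m₀ := (hm c₀).2 ⟨b₀, hb₀, t₀⟩
    have m₁ := (hm c₁).2 ⟨b₁, hb₁, t₁⟩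
    have f₁ : c₁ = d₁ := huniq c₀ m₀ c₁ m₁ d₁ ((hm d₁).2 ⟨b₁, hb₁, u₁⟩) (hne' t₀ t₁) (hne' t₀ u₁)
      hg ((h.nr hc hall hw).glue hsemi hF (tw_self c₀ p₀.1 p₀.2) q₁ hg)
    subst f₁
    have f₀ : c₀ = d₀ := huniq c₁ m₁ c₀ m₀ d₀ ((hm d₀).2 ⟨b₀, hb₀, u₀⟩) (hne' t₀ t₁).symm
      (hne' u₀ t₁).symm hg.symm ((Lift.semi (C := C) s).glue (s.commutes T) r₁ r₀ hg.symm)
    subst f₀
    exact ⟨⟨r₀, tw_self c₀ p₀.1 p₀.2⟩, r₁, q₁⟩
  intro b' hb'
  obtain ⟨b, hb, t⟩ := (hm b').1 hb'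
  obtain ⟨b₂, hb₂, hne, hg⟩ := hS.2 b hb
  obtain ⟨b₂', t₂, hg'⟩ := lift' C K₀ K T b b₂ hg b' t
  have hw' : b.w ≠ b₂.w := fun e => hne (hsep b b₂ e hg).symm
  have h01 : ∀ u, u = v 0 ∨ u = v 1 := fun u => by
    obtain ⟨i, rfl⟩ := hall u
    fin_cases i
    exacts [Or.inl rfl, Or.inr rfl]
  by_cases h1 : b.w = v 0
  · exact (key b b₂ b' b₂' hb hb₂ h1 ((h01 b₂.w).resolve_left (h1 ▸ hw'.symm)) hw' t t₂ hg').1
  · have h2 := (h01 b.w).resolve_left h1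
    exact (key b₂ b b₂' b' hb₂ hb ((h01 b₂.w).resolve_right (h2 ▸ hw'.symm)) h2 hw'.symm t₂ t
      hg'.symm).2

theorem triv_one {m : ℕ} (u : NV C K) : Triv m u 1 := ⟨1, by simp⟩

theorem triv_prod {m : ℕ} {u : NV C K} {ι : Type*} (I : Finset ι) (f : ι → K)
    (h : ∀ i ∈ I, Triv m u (f i)) : Triv m u (∏ i ∈ I, f i) :=
  Finset.prod_induction f (Triv m u) (fun _ _ => I2a.triv_mul) (triv_one u) h

theorem dvd_prod {m : ℕ} {ι : Type*} (I : Finset ι) (f : ι → K) (h0 : ∀ i, f i ≠ 0)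
    (h : ∀ i (P : Plk C K), (m : ℤ) ∣ ord P (f i)) (P : Plk C K) :
    (m : ℤ) ∣ ord P (∏ i ∈ I, f i) := by
  classical
  induction I using Finset.induction_on with
  | empty => rw [Finset.prod_empty, ord_one]; exact dvd_zero _
  | insert a I ha ih =>
    rw [Finset.prod_insert ha, ord_mul P (h0 a) (Finset.prod_ne_zero_iff.2 fun i _ => h0 i)]
    exact dvd_add (h a P) ih

theorem root_fix (h : Inr C w σ s) {c : C ≃+* C} (hc : Semi C σ c) {m : ℕ} (hm : (m : kC C) ≠ 0)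
    (μ : C) (hμ : μ ^ m = 1) : c μ = μ ^ 1 := by
  have hm0 := ne_zero_of_cast hm
  have h1 := norm_root hm0 hμ
  have h0 : μ ≠ 0 := by rintro rfl; simp at h1
  have h2 := h.t0 (algebraMap C K μ) (by rw [(w 0).ext', h1])
  rw [hc.1, ← map_sub, (w 0).ext'] at h2
  have h3 : (c μ / μ) ^ m = 1 := by rw [div_pow, ← map_pow, hμ, map_one, div_one]
  have h4 : ‖c μ / μ - 1‖ < 1 := by rwa [div_sub_one h0, norm_div, h1, div_one]
  have h5 : cred (c μ / μ) = 1 := by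
    have h6 := cred_add h4.le (norm_one (α := C)).le
    rwa [sub_add_cancel, (cred_eq_zero h4.le).2 h4, zero_add, cred_one] at h6
  rw [pow_one, ← div_eq_one_iff_eq h0]
  exact root_eq_one hm h3 h5

omit [FiniteDimensional C⟮algebraMap K₀ K T⟯ K] in
theorem twi0 [CharZero C] (hd : ((finrank K₀ K : ℕ) : kC C) ≠ 0) (hu : IsUnr C K₀ K)
    (hcy : IsCyclic (K ≃ₐ[K₀] K)) (hF : Full C T) (hS : Nodal C T S) (hall : ∀ u, ∃ i, u = v i)
    (hsep : ∀ b b' : Br C T, b.w = b'.w → Glue b b' → b = b')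
    (hw : ∀ i y, w i (algebraMap K₀ K y) = (v i).1 y) (h : Inr C w σ s) {m : ℕ}
    (hm : (m : kC C) ≠ 0) {f : K} (hf0 : f ≠ 0) (hf : ∀ P : Plk C K, (m : ℤ) ∣ ord P f) :
    ∃ z : K, (σ (σ f / f) / s (σ f / f)) ^ finrank K₀ K = z ^ m := by
  have : FiniteDimensional C⟮algebraMap K₀ K T⟯ K := finite_adjoin_map
  have hm0 := ne_zero_of_cast hm
  have hc : ∀ (g g' : K ≃ₐ[K₀] K) y, g (g' y) = g' (g y) := fun g g' y => by
    obtain ⟨d, hd⟩ := IsCyclic.exists_generator (α := K ≃ₐ[K₀] K)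
    obtain ⟨a, rfl⟩ := hd g
    obtain ⟨b, rfl⟩ := hd g'
    rw [← AlgEquiv.mul_apply, ← AlgEquiv.mul_apply, (Commute.refl d).zpow_zpow a b |>.eq]
  obtain ⟨hF', -, S', hS', hm'⟩ := cov' C K₀ K T hF S hS hu hd fun u => cyc hcy u.1
  obtain ⟨c, hsemi⟩ := h.semi
  have hfix := fixes hc hS hall hsep hw h hF' hS' hm'
  obtain ⟨A, hA'⟩ : ∃ A, A = σ f / f := ⟨_, rfl⟩
  rw [← hA']
  obtain ⟨B, hB⟩ : ∃ B, B = σ A / s A := ⟨_, rfl⟩
  rw [← hB]
  have hA0 : A ≠ 0 := by rw [hA']; exact div_ne_zero ((map_ne_zero σ).2 hf0) hf0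
  have hB0 : B ≠ 0 := by
    rw [hB]; exact div_ne_zero ((map_ne_zero σ).2 hA0) ((map_ne_zero s).2 hA0)
  have hAo : ∀ P : Plk C K, (m : ℤ) ∣ ord P A := by
    rw [hA']; exact dvd_div ((map_ne_zero σ).2 hf0) hf0 (hsemi.dvd_ord hf) hf
  have t0 : ∀ u : WW C (algebraMap K₀ K T),
      (∀ y, u.1 (algebraMap K₀ K y) = w 0 (algebraMap K₀ K y)) → ∀ g : K ≃ₐ[K₀] K,
      Triv m u.1 (g A) := fun u hu g => by
    obtain ⟨u', hu'⟩ := (Lift.semi (C := C) g).symm.exists_w (symm_fix (g.commutes T)) u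
    have h2 : ∀ y, u.1 (g y) = u'.1 y := fun y => by
      rw [← hu']; exact congrArg u'.1 (g.symm_apply_apply y)
    refine I2a.triv_map g h2 ?_
    rw [hA']
    exact triv_div hsemi u' (side0 h fun y => by rw [← h2, g.commutes]; exact hu y).2 hm0 hf0
  obtain ⟨z, hz, e⟩ := node hF' hS' (c := 1) hm (Lift.semi s) (nr_of_fix (s.commutes T))
    (fun b hb => (hfix b hb).1) (fun μ _ => (pow_one μ).symm) B (by
      rw [hB]
      exact dvd_div ((map_ne_zero σ).2 hA0) ((map_ne_zero s).2 hA0) (hsemi.dvd_ord hAo)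
        ((Lift.semi (C := C) s).dvd_ord hAo)) fun u => by
      rw [hB]
      rcases sides hall hw u with h1 | h1
      · rw [div_eq_mul_inv]
        exact I2a.triv_mul (I2a.triv_map σ (side0 h h1).1 (t0 u h1 1)) (I2a.triv_inv (t0 u h1 s))
      · rw [← gam_s (s := s) A]
        exact triv_div (g := gam σ s) ((Lift.semi (C := C) s).symm.trans hsemi) u
          (side1 hc h h1).2 hm0 ((map_ne_zero s).2 hA0)
  replace e : s B = B * z ^ m := by rw [pow_one] at e; exact e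
  set r := finrank K₀ K
  have hr : s ^ r = 1 := by
    rw [show r = Nat.card (K ≃ₐ[K₀] K) from (IsGalois.card_aut_eq_finrank K₀ K).symm]
    exact pow_card_eq_one'
  let N : K →* K := ∏ j ∈ Finset.range r, ((s ^ j : K ≃ₐ[K₀] K) : K →* K)
  have hN : ∀ x, N x = ∏ j ∈ Finset.range r, (s ^ j) x := fun x => by
    simp only [N, MonoidHom.finsetProd_apply]
    rfl
  have hN0 : ∀ x, x ≠ 0 → N x ≠ 0 := fun x hx => by
    rw [hN]
    exact Finset.prod_ne_zero_iff.2 fun j _ => (map_ne_zero _).2 hx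
  have hNd : ∀ x y, y ≠ 0 → N (x / y) = N x / N y := fun x y hy => by
    rw [eq_div_iff (hN0 y hy), ← map_mul, div_mul_cancel₀ _ hy]
  have hNσ : ∀ x, N (σ x) = σ (N x) := fun x => by
    rw [hN, hN, map_prod]
    exact Finset.prod_congr rfl fun j _ => (h.com _ x).symm
  have hNs : ∀ x, x ≠ 0 → N (s x) = N x ∧ s (N x) = N x := fun x hx => by
    have h1 : N (s x) = N x := by
      have h2 := Finset.prod_range_succ (fun j => (s ^ j) x) r
      rw [Finset.prod_range_succ', hr, pow_zero] at h2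
      rw [hN, hN]
      exact mul_right_cancel₀ ((map_ne_zero (1 : K ≃ₐ[K₀] K)).2 hx) h2
    refine ⟨h1, Eq.trans ?_ h1⟩
    rw [hN, hN, map_prod]
    exact Finset.prod_congr rfl fun j _ => hc _ _ _
  obtain ⟨z₁, hz₁, e₁⟩ := node hF' hS' (c := 1) hm hsemi (h.nr hc hall hw)
    (fun b hb => (hfix b hb).2) (root_fix h hsemi hm) (N A) (by
      rw [hN]
      exact dvd_prod _ _ (fun j => (map_ne_zero _).2 hA0) fun j =>
        (Lift.semi (C := C) (s ^ j)).dvd_ord hAo) fun u => by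
      rcases sides hall hw u with h1 | h1
      · rw [hN]
        exact triv_prod _ _ fun j _ => t0 u h1 _
      · rw [hA', hNd _ _ hf0, hNσ, ← gam_s (s := s) (N f), (hNs f hf0).2]
        exact triv_div (g := gam σ s) ((Lift.semi (C := C) s).symm.trans hsemi) u
          (side1 hc h h1).2 hm0 (hN0 f hf0)
  have e₂ : N B = z₁ ^ m := by
    rw [hB, hNd _ _ ((map_ne_zero s).2 hA0), hNσ, (hNs A hA0).1, e₁, pow_one,
      mul_div_cancel_left₀ _ (hN0 A hA0)]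
  have e₃ : ∀ j : ℕ, ∃ y : K, y ≠ 0 ∧ (s ^ j) B = B * y ^ m := fun j => by
    induction j with
    | zero => exact ⟨1, one_ne_zero, by simp⟩
    | succ j ih =>
      obtain ⟨y, hy, h1⟩ := ih
      refine ⟨z * s y, mul_ne_zero hz ((map_ne_zero s).2 hy), ?_⟩
      rw [pow_succ', AlgEquiv.mul_apply, h1, map_mul, map_pow, e]
      ring
  choose y hy0 hy using e₃
  have h1 : (∏ j ∈ Finset.range r, y j) ≠ 0 := Finset.prod_ne_zero_iff.2 fun j _ => hy0 j
  refine ⟨z₁ / ∏ j ∈ Finset.range r, y j, ?_⟩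
  rw [div_pow, ← e₂, hN, eq_div_iff (pow_ne_zero _ h1)]
  simp only [hy, Finset.prod_mul_distrib, Finset.prod_const, Finset.card_range, Finset.prod_pow]

omit [FiniteDimensional C⟮algebraMap K₀ K T⟯ K] in
/-- **inertia on a tame cyclic cover**: `(σ - s) (σ - 1) = 0` on Kummer classes -/
theorem twi [CharZero C] (hd : ((finrank K₀ K : ℕ) : kC C) ≠ 0) (hu : IsUnr C K₀ K)
    (hcy : IsCyclic (K ≃ₐ[K₀] K)) (hF : Full C T) (hS : Nodal C T S) (hall : ∀ u, ∃ i, u = v i)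
    (hsep : ∀ b b' : Br C T, b.w = b'.w → Glue b b' → b = b')
    (hw : ∀ i y, w i (algebraMap K₀ K y) = (v i).1 y) (h : Inr C w σ s) {m : ℕ}
    (hm : (m : kC C) ≠ 0) {f : K} (hf0 : f ≠ 0) (hf : ∀ P : Plk C K, (m : ℤ) ∣ ord P f) :
    ∃ z : K, z ≠ 0 ∧ σ (σ f) * s f = σ f * s (σ f) * z ^ m := by
  have hm0 := ne_zero_of_cast hm
  set r := finrank K₀ K
  have hr0 := ne_zero_of_cast hd
  choose n hn using hf
  let D : Plk C K →₀ ℤ := Finsupp.onFinset (dv C f).support n fun P h1 => by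
    rw [Finsupp.mem_support_iff, dv_apply, hn]
    exact mul_ne_zero (by exact_mod_cast hm0) h1
  have hD : dv C f = m • D := by
    ext P
    rw [dv_apply, hn, Finsupp.smul_apply, nsmul_eq_mul]
    rfl
  have hD0 : dg D = 0 := by
    have h1 := dg_dv (k := C) f
    rw [hD, map_nsmul, nsmul_eq_mul] at h1
    exact (mul_eq_zero.1 h1).resolve_left (by exact_mod_cast hm0)
  obtain ⟨E, -, a, ha, hE⟩ := P025H816.pic0_div (cast_ne_zero hd) D hD0
  have hf1 : f / a ^ m ≠ 0 := div_ne_zero hf0 (pow_ne_zero _ ha)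
  obtain ⟨z, hz⟩ := twi0 hd hu hcy hF hS hall hsep hw h (m := m * r)
    (by rw [Nat.cast_mul]; exact mul_ne_zero hm hd) hf1 fun P => by
      have h1 := congrArg (fun D : Plk C K →₀ ℤ => D P) hE
      have h2 : D P = n P := rfl
      simp only [Finsupp.sub_apply, Finsupp.smul_apply, nsmul_eq_mul, dv_apply] at h1
      rw [div_eq_mul_inv, ord_mul P hf0 (inv_ne_zero (pow_ne_zero _ ha)), ord_inv, ord_pow, hn,
        ← h1, h2]
      exact ⟨E P, by push_cast; ring⟩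
  obtain ⟨B, hB⟩ : ∃ B, B = σ (σ (f / a ^ m) / (f / a ^ m)) / s (σ (f / a ^ m) / (f / a ^ m)) :=
    ⟨_, rfl⟩
  have a1 : σ f ≠ 0 := (map_ne_zero σ).2 hf0
  have a2 : σ a ≠ 0 := (map_ne_zero σ).2 ha
  have a3 : σ (σ f) ≠ 0 := (map_ne_zero σ).2 a1
  have a4 : σ (σ a) ≠ 0 := (map_ne_zero σ).2 a2
  have a5 : s f ≠ 0 := (map_ne_zero s).2 hf0
  have a6 : s a ≠ 0 := (map_ne_zero s).2 ha
  have a7 : s (σ f) ≠ 0 := (map_ne_zero s).2 a1
  have a8 : s (σ a) ≠ 0 := (map_ne_zero s).2 a2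
  have hB' : B = σ (σ f) * s f / (σ f * s (σ f)) * (σ a * s (σ a) / (σ (σ a) * s a)) ^ m := by
    rw [hB]
    simp only [map_div₀, map_pow, div_pow, mul_pow]
    field_simp
  have hB0 : B ≠ 0 := by
    rw [hB']
    exact mul_ne_zero (div_ne_zero (mul_ne_zero a3 a5) (mul_ne_zero a1 a7))
      (pow_ne_zero _ (div_ne_zero (mul_ne_zero a2 a8) (mul_ne_zero a4 a6)))
  rw [← hB] at hz
  have z0 : z ≠ 0 := by
    rintro rfl
    rw [zero_pow (mul_ne_zero hm0 hr0)] at hz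
    exact pow_ne_zero _ hB0 hz
  obtain ⟨μ, hμ, -⟩ := root_const (k := C) hr0 (u := B / z ^ m)
    (by rw [div_pow, hz, ← pow_mul, div_self (pow_ne_zero _ z0)])
  obtain ⟨ν, rfl⟩ := IsAlgClosed.exists_pow_nat_eq μ (Nat.pos_of_ne_zero hm0)
  have e : B = (algebraMap C K ν * z) ^ m := by
    rw [mul_pow, ← map_pow, hμ, div_mul_cancel₀ _ (pow_ne_zero _ z0)]
  have y0 : algebraMap C K ν * z ≠ 0 := fun h0 => hB0 (by rw [e, h0, zero_pow hm0])
  refine ⟨algebraMap C K ν * z * (σ (σ a) * s a / (σ a * s (σ a))),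
    mul_ne_zero y0 (div_ne_zero (mul_ne_zero a4 a6) (mul_ne_zero a2 a8)), ?_⟩
  rw [mul_pow, ← e, hB']
  simp only [div_pow, mul_pow]
  field_simp

end twi

end Vale.Agent.P022K.FI.X1
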