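import Vale.Agent.P022K.FI.X1R

/-!
# P022K FI, row X0, file G: level `Iw1` over level `Iw0` is cyclic, tame and unramified
-/

set_option autoImplicit false
set_option linter.unusedSectionVars false
set_option linter.style.haveILetI false

open IntermediateField Module
open scoped MatrixGroups

noncomputable section

namespace Vale.Agent.P022K.FI.X1

open Vale.Agent.P022K.Sh Vale.Agent.P022.H218.L3 Vale.Agent.P019P P025H746 P025H492 Hk

namespace Gk

theorem cyc_of {A H C : Type} [Group A] [Group H] [Group C] [IsCyclic C] (r : A →* C) (g : A →* H)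
    (hg : Function.Surjective g) (hk : ∀ a, r a = 1 → g a = 1) :
    IsCyclic H ∧ Nat.card H ∣ Nat.card C := by
  let f : r.range →* H := (QuotientGroup.lift r.ker g hk).comp
    (QuotientGroup.quotientKerEquivRange r).symm.toMonoidHom
  have hf : Function.Surjective f := fun y => by
    obtain ⟨a, rfl⟩ := hg y
    refine ⟨QuotientGroup.quotientKerEquivRange r a, ?_⟩
    show QuotientGroup.lift r.ker g hk ((QuotientGroup.quotientKerEquivRange r).symm _) = _
    rw [MulEquiv.symm_apply_apply]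
    rfl
  exact ⟨isCyclic_of_surjective f hf, (Subgroup.card_dvd_of_surjective f hf).trans
    (Subgroup.card_subgroup_dvd_card _)⟩

theorem gal_of {A E L : Type} [Group A] [Field E] [Field L] [Algebra E L] [FiniteDimensional E L]
    (g : A →* (L ≃ₐ[E] L)) (h : ∀ y, (∀ a, g a y = y) → ∃ z, algebraMap E L z = y) :
    IsGalois E L ∧ Function.Surjective g := by
  have h1 : fixedField g.range = ⊥ := eq_bot_iff.2 fun y hy =>
    IntermediateField.mem_bot.2 (h y fun a => hy ⟨_, a, rfl⟩)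
  refine ⟨IsGalois.of_fixedField_eq_bot _ _ (eq_bot_iff.2 (h1 ▸ fixedField_le le_top)), ?_⟩
  rw [← MonoidHom.range_eq_top, ← fixingSubgroup_fixedField g.range, h1, fixingSubgroup_bot]

variable {G0 G : Type} [Group G0] [Group G] {T : Tw G0 G} {U U' : Subgroup G} [hl : Fact (U ≤ U')]
  (hn : ∀ k ∈ U', ∀ u ∈ U, k⁻¹ * u * k ∈ U) (x : G)

include hn

theorem act_mem (γ : T.Gam U' x) (f : Kf T U x) : T.act γ (Kf.val f) ∈ KX T U x :=
  T.mem_KF.2 fun δ hδ => by
    have : (γ : G0)⁻¹ * δ * γ ∈ T.Gam U x := by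
      rw [Tw.mem_Gam]
      convert hn _ (T.mem_Gam.1 γ.2) _ (T.mem_Gam.1 hδ) using 1
      simp only [map_mul, map_inv]
      group
    conv_rhs => rw [← T.mem_KF.1 (Kf.val_mem f) _ this, ← Tw.act_mul]
    rw [← Tw.act_mul]
    congr 2
    group

/-- the action on the function field of the smaller level -/
def ac : T.Gam U' x →* (Kf T U x ≃ₐ[Kf T U' x] Kf T U x) where
  toFun γ :=
    { toFun := fun f => ⟨_, act_mem hn x γ f⟩
      invFun := fun f => ⟨_, act_mem hn x γ⁻¹ f⟩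
      left_inv := fun f => Kf.val_inj (by
        show T.act (γ : G0)⁻¹ (T.act γ (Kf.val f)) = _
        rw [← Tw.act_mul, inv_mul_cancel, Tw.act_one])
      right_inv := fun f => Kf.val_inj (by
        show T.act γ (T.act (γ : G0)⁻¹ (Kf.val f)) = _
        rw [← Tw.act_mul, mul_inv_cancel, Tw.act_one])
      map_mul' := fun f g => Kf.val_inj (map_mul (T.act γ) (Kf.val f) (Kf.val g))
      map_add' := fun f g => Kf.val_inj (map_add (T.act γ) (Kf.val f) (Kf.val g))
      commutes' := fun y => Kf.val_inj (T.mem_KF.1 (Kf.val_mem y) _ γ.2) }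
  map_one' := AlgEquiv.ext fun f => Kf.val_inj (Tw.act_one (Kf.val f))
  map_mul' γ δ := AlgEquiv.ext fun f => Kf.val_inj (Tw.act_mul (γ : G0) δ (Kf.val f))

theorem ac_val (γ : T.Gam U' x) (f : Kf T U x) : Kf.val (ac hn x γ f) = T.act γ (Kf.val f) := rfl

omit hn in
theorem unr {p : ℕ} [Fact p.Prime] (ι : ℂ ≃+* CS p) (hT : T.Ok) (hU : U ∈ T.Lev) (hU' : U' ∈ T.Lev)
    (h : T.Neat U') [CFF ℂ (KX T U x)] [CFF ℂ (KX T U' x)]
    [Algebra.IsAlgebraic (Kf T U' x) (Kf T U x)] : IsUnr (Cx ι) (Kf T U' x) (Kf T U x) := by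
  intro P
  obtain ⟨_, pt, h1⟩ := T.cf _ (hT.fu U hU x)
  obtain ⟨τ, rfl⟩ := h1.onto P
  obtain ⟨y, hy, e⟩ := Br.fu_one (hT.fu U' hU' x) (h x) τ
  have y0 : y ≠ 0 := by
    rintro rfl
    rw [F0.Cf.od_zero] at e
    exact zero_ne_one e
  refine ram_eq_one_of_exists (z := ⟨y, hy⟩) ?_
  exact (mord_iff.1 (h1.ord (Lv.neat_le h hl.out x) τ ⟨y, Br.KX_mono hl.out x hy⟩
    fun e => y0 (congrArg Subtype.val e))).2.symm.trans e

end Gk

variable {G0 G : Type} [Group G0] [Group G] {T : Tw G0 G}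
  {O K : Type} [CommRing O] [IsDomain O] [IsDiscreteValuationRing O] [Field K] [Algebra O K]
  {w : T.Lc O K} {p : ℕ} [Fact p.Prime]

namespace Gk

variable {B : Subgroup G} (hB : B ∈ T.Lev)

include hB

theorem nor : ∀ k ∈ w.set (Iw0 O K) B, ∀ u ∈ w.set (Iw1 O K) B,
    k⁻¹ * u * k ∈ w.set (Iw1 O K) B := fun k hk u hu => by
  obtain ⟨c, hc⟩ := lev_dO hB hk
  convert mul_mem (mul_mem (inv_mem hc) (set_conj hB (fun v hv => Iw1_norm (dO_Iw0 c) hv) hu)) hc
    using 1
  group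

variable (w) in
/-- elements of the group of the component with their diamond -/
def Pr (x : G) : Subgroup (T.Gam (w.set (Iw0 O K) B) x × Oˣ) where
  carrier := {a | (w.ι (dO K a.2))⁻¹ * (x⁻¹ * T.j a.1 * x) ∈ w.set (Iw1 O K) B}
  mul_mem' {a b} ha hb := by
    show _ ∈ w.set (Iw1 O K) B
    convert mul_mem (nor hB _ (iota_mem' hB (dO_Iw0 b.2)) _ ha) hb using 1
    simp only [Prod.snd_mul, Prod.fst_mul, dO_mul, map_mul, Subgroup.coe_mul]
    group
  one_mem' := by
    show _ ∈ w.set (Iw1 O K) B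
    simp [dO_one]
  inv_mem' {a} ha := by
    show _ ∈ w.set (Iw1 O K) B
    convert nor hB _ (iota_mem' hB (dO_Iw0 a.2⁻¹)) _ (inv_mem ha) using 1
    simp only [Prod.snd_inv, Prod.fst_inv, dO_inv, map_inv, Subgroup.coe_inv]
    group

end Gk

open Gk in
/-- **GALK** -/
theorem galk (D : Emb w p) : GALK D := by
  intro hT B hB h0 h1 hn x _ _
  haveI := w.fin
  haveI fd : FiniteDimensional (K0 w B x) (K1 w B x) :=
    finite_of_transcendental (k := Cx D.ι) (CFF.ex (k := Cx D.ι) (F := K0 w B x)).choose_spec.1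
  let g := (ac (T := T) (nor (w := w) hB) x).comp ((MonoidHom.fst _ _).comp (Pr w hB x).subtype)
  have hg : ∀ a f, Kf.val (g a f) = T.act a.1.1 (Kf.val f) := fun _ _ => rfl
  obtain ⟨gal, sur⟩ := gal_of g fun y hy => ⟨⟨Kf.val y, T.mem_KF.2 fun γ hγ => by
    obtain ⟨c, hc⟩ := lev_dO hB (T.mem_Gam.1 hγ)
    exact (hg ⟨(⟨γ, hγ⟩, c), hc⟩ y).symm.trans (congrArg _ (hy _))⟩, Kf.val_inj rfl⟩
  obtain ⟨cyc, dvd⟩ := cyc_of ((Units.map (IsLocalRing.residue O).toMonoidHom).comp
    ((MonoidHom.snd _ _).comp (Pr w hB x).subtype)) g sur fun a ha => AlgEquiv.ext fun f =>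
      Kf.val_inj ((hg a f).trans (T.mem_KF.1 (Kf.val_mem f) _ (T.mem_Gam.2 (by
        have h2 : dO K a.1.2 ∈ Iw1 O K := dO_Iw1 ((IsLocalRing.residue_eq_zero_iff _).1 (by
          rw [map_sub, map_one, sub_eq_zero]
          exact congrArg Units.val ha))
        simpa using mul_mem (iota_mem' hB h2) a.2))))
  refine ⟨fd, gal, cyc, D.cast_ne _ ?_, unr x D.ι hT h1 h0 hn, fun s => ?_⟩
  · rw [IsGalois.card_aut_eq_finrank, Nat.card_units] at dvd
    exact Nat.Coprime.coprime_dvd_left dvd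
      ((Nat.coprime_self_sub_left Nat.card_pos).2 (Nat.coprime_one_left _))
  · obtain ⟨a, rfl⟩ := sur s
    refine ⟨a.1.2, fun φ hφ f e => ?_⟩
    rw [hg, e, ← hφ.1, ← hφ.2 (x * _) _ a.2]
    congr 1
    group

end Vale.Agent.P022K.FI.X1
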