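import Vale.Agent.P022K.FI.X1R

/-!
# P022K FI, row X0, file I: the ordinary valuation at level `Iw0`
-/

set_option autoImplicit false
set_option linter.unusedSectionVars false
set_option linter.style.haveILetI false

open UpperHalfPlane IsLocalRing
open scoped MatrixGroups

noncomputable section

namespace Vale.Agent.P022K.FI.X1

open Vale.Agent.P022K.Sh Vale.Agent.P022.H218.L3 Vale.Agent.P019P P025H746 Hk Vale.Agent.P027M

section cg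

variable {C L : Type} [NontriviallyNormedField C] [IsUltrametricDist C] [IsAlgClosed C]
  [Field L] [Algebra C L]

/-- integral elements with the same reduction -/
def Cg (v : NV C L) (a b : L) : Prop := v a ≤ 1 ∧ v b ≤ 1 ∧ v.red a = v.red b

variable {v : NV C L} {a b c d : L}

theorem Cg.of (hb : v b ≤ 1) (h : v (a - b) < 1) : Cg v a b :=
  have ha : v a ≤ 1 := by simpa using NV.add_le h.le hb
  ⟨ha, hb, (I.red_eq_iff ha hb).2 h⟩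

theorem Cg.lt (h : Cg v a b) : v (a - b) < 1 := (I.red_eq_iff h.1 h.2.1).1 h.2.2

theorem Cg.refl (h : v a ≤ 1) : Cg v a a := ⟨h, h, rfl⟩

theorem Cg.symm (h : Cg v a b) : Cg v b a := ⟨h.2.1, h.1, h.2.2.symm⟩

theorem Cg.trans (h : Cg v a b) (h' : Cg v b c) : Cg v a c := ⟨h.1, h'.2.1, h.2.2.trans h'.2.2⟩

theorem Cg.add (h : Cg v a b) (h' : Cg v c d) : Cg v (a + c) (b + d) :=
  ⟨NV.add_le h.1 h'.1, NV.add_le h.2.1 h'.2.1, by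
    rw [NV.red_add h.1 h'.1, NV.red_add h.2.1 h'.2.1, h.2.2, h'.2.2]⟩

theorem Cg.mul (h : Cg v a b) (h' : Cg v c d) : Cg v (a * c) (b * d) :=
  ⟨NV.mul_le_one h.1 h'.1, NV.mul_le_one h.2.1 h'.2.1, by
    rw [NV.red_mul h.1 h'.1, NV.red_mul h.2.1 h'.2.1, h.2.2, h'.2.2]⟩

theorem Cg.one (h : Cg v a b) (hb : v b = 1) : v a = 1 :=
  Gs.w_eq_one h.1 (h.2.2 ▸ NV.red_ne_zero hb)

theorem Cg.div (h : Cg v (a * c) (b * d)) (h' : Cg v c d) (hd : v d = 1) : Cg v a b := by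
  have ha : v a ≤ 1 := by simpa [h'.one hd] using h.1
  have hb : v b ≤ 1 := by simpa [hd] using h.2.1
  refine ⟨ha, hb, mul_right_cancel₀ (NV.red_ne_zero hd) ?_⟩
  rw [← NV.red_mul hb hd.le, ← h.2.2, NV.red_mul ha h'.1, h'.2.2]

theorem Cg.prod {I : Type} [Fintype I] {f : I → L} (h : ∀ i, Cg v (f i) a) :
    Cg v (∏ i, f i) (a ^ Nat.card I) := by
  rw [Nat.card_eq_fintype_card, ← Finset.card_univ, ← Finset.prod_const]
  obtain ⟨h1, h2⟩ := Gs.red_prod Finset.univ fun i _ => (h i).1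
  obtain ⟨h3, h4⟩ := Gs.red_prod Finset.univ fun i _ => (h i).2.1
  exact ⟨h1, h3, h2.trans ((Finset.prod_congr rfl fun i _ => (h i).2.2).trans h4.symm)⟩

theorem Cg.pow (h : Cg v a b) (n : ℕ) : Cg v (a ^ n) (b ^ n) := by
  induction n with
  | zero => simpa using Cg.refl (a := 1) (by simp)
  | succ n ih => rw [pow_succ, pow_succ]; exact ih.mul h

theorem Cg.sub_one (h : Cg v a b) (h' : Cg v c d) (e : v (b - d) = 1) : v (a - c) = 1 :=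
  Gs.w_eq_one (NV.sub_le h.1 h'.1) (by
    rw [NV.red_sub h.1 h'.1, h.2.2, h'.2.2, ← NV.red_sub h.2.1 h'.2.1]
    exact NV.red_ne_zero e)

end cg

variable {G0 G : Type} [Group G0] [Group G] {T : Tw G0 G}
  {O K : Type} [CommRing O] [IsDomain O] [IsDiscreteValuationRing O] [Field K] [Algebra O K]
  {w : T.Lc O K} {p : ℕ} [Fact p.Prime] {D : Emb w p} {U : Subgroup G} {τ : ℍ} {x : G}
  {v : NV (Cx D.ι) (LW T)} {σ : ℂ ≃+* ℂ} {θ : (G → Mer) → G → Mer}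

theorem o_dg (o : Ord w D.e τ x) (μ : Kˣ) : Ord w D.e τ (x * w.ι (Sh.dg μ)) :=
  o.right (by rw [w.πι, Gn.dg_eq])

theorem o_dO (o : Ord w D.e τ x) (c : Oˣ) : Ord w D.e τ (x * w.ι (dO K c)) := o_dg o _

theorem one_lt_qq (w : T.Lc O K) : 1 < qq O :=
  haveI := w.fin
  Finite.one_lt_card

/-- the congruence form of the interpolation lemma -/
theorem lagE {hT : T.Ok} {V V' : Subgroup G} (hV : V ∈ T.Lev) (hV' : V' ∈ T.Lev)
    (E : SR hT →+* LW T) (base : ∀ a, Inv V' a.1 → v (Ev x a) ≤ 1 → Cg v (E a) (Ev x a))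
    {N : SR hT} (hN : Inv V N.1) (pN : Cg v (E N) (Ev x N))
    (n1 : ∀ k ∈ V', v (Ev (x * k) N) ≤ 1)
    (n2 : ∀ k ∈ V', k ∉ V → v (Ev x N - Ev (x * k) N) = 1) {φ : SR hT} (hφ : Inv V φ.1)
    (h1 : v (Ev x φ) ≤ 1) : Cg v (E φ) (Ev x φ) :=
  lag v x hV hV' (fun a => Cg v (E a) (Ev x a))
    (fun a b ha hb => by simpa only [map_add] using ha.add hb)
    (fun a b ha hb => by simpa only [map_mul] using ha.mul hb)
    (fun a d hd h e => Cg.div (by simpa only [map_mul] using h) hd e) base hN pN n1 n2 hφ h1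

variable [∀ x, CFF ℂ (KX T U x)] (h : Ctx D U)

/-- a function of level `U` -/
def toR (φ : SR h.ok) (hφ : Inv U φ.1) : T.RU U := ⟨φ.1, sr_mem φ hφ⟩

theorem v_Ev (l : Loc D U v τ x) {φ : SR h.ok} (hφ : Inv U φ.1) :
    v (Ev x φ) = h.nv x (toR h φ hφ) := h.v_evL l (toR h φ hφ)

theorem red_Ev (l : Loc D U v τ x) {φ : SR h.ok} (hφ : Inv U φ.1) :
    v.red (Ev x φ) = h.emb l (h.red x (toR h φ hφ)) := (h.emb_red l (toR h φ hφ)).symm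

theorem unip (l : Loc D U v τ x) (φ : SR h.ok) (b : O) (h1 : v (Ev x φ) ≤ 1) :
    Cg v (Ev (x * w.ι (nn K b)) φ) (Ev x φ) :=
  Cg.of h1 (φ.2.elim fun V hV => l.ine V hV.1 φ.1 hV.2 b _ _ rfl rfl h1)

theorem ine0 (l : Loc D U v τ x) (s : T.Sl σ θ) (i : h.Ine (thU s h.lev)) {φ : SR h.ok}
    (hφ : Inv U φ.1) (h1 : v (Ev x φ) ≤ 1) : Cg v (Ev x (Th s φ)) (Ev x φ) := by
  obtain ⟨h2, h3⟩ := (i x).2 (toR h φ hφ)
  have h4 := Th_inv s h.lev hφ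
  refine ⟨?_, h1, ?_⟩
  · rw [v_Ev h l h4]
    exact h2.trans_le (v_Ev h l hφ ▸ h1)
  · rw [red_Ev h l h4, red_Ev h l hφ]
    exact congrArg (h.emb l) h3.symm

include h

theorem KK_mem {g : GL (Fin 2) K} (hg : g ∈ KK O K ⊔ Zl K) : w.ι g ∈ U :=
  set_eq h.lev h.mx ▸ iota_mem h.lev hg

theorem lev_of {V : Subgroup (GL (Fin 2) K)} (hV : V ≤ KK O K) : w.set V U ≤ U :=
  (set_mono h.lev hV).trans (set_eq h.lev h.mx).le

theorem Ev_PP {ψ : SR h.ok} (hψ : Inv U ψ.1) (x : G) :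
    Ev x (Rt (w.ι (PP w)) ψ) = Ev (x * st w) ψ := by
  rw [Ev_Rt, PP_eq, map_mul, ← mul_assoc, Ev_mul hψ _ (h.mx.1 _ (inv_mem ss_mem))]

theorem Ev_st {ψ : SR h.ok} (hψ : Inv U ψ.1) (x : G) :
    Ev (x * w.ι (Sh.dg w.ϖ) * st w) ψ = Ev x ψ := by
  rw [mul_assoc, ← map_mul, Ev_mul hψ _ (KK_mem h (Subgroup.mem_sup_right (mem_Zl.2 ⟨w.ϖ, by
    rw [Gn.dg_eq, tt, d2_mul, mul_one, one_mul]⟩)))]

theorem PP_inv {ψ : SR h.ok} (hψ : Inv U ψ.1) :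
    Inv (w.set (Iw0 O K) U) (Rt (w.ι (PP w)) ψ).1 := inv_Rt.2 fun k hk => by
  rw [Rt_Rt]
  refine (Rt_eq hψ ?_).symm
  rw [← mul_assoc]
  exact lev_of h Iw0_le (set_conj h.lev (fun _ hv => PP_Iw0 w hv) hk)

variable (l : Vl D U v τ) (o : Ord w D.e τ x)

include l o

theorem sep : ∃ ψ : SR h.ok, ∃ hψ : Inv U ψ.1, (∀ y, h.nv y (toR h ψ hψ) ≤ 1) ∧
    v (Ev (x * st w * st w) ψ - Ev x ψ) = 1 := by
  obtain ⟨R, -⟩ := h.ex_rd x τ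
  obtain ⟨t, -, ht⟩ := exists_unif R
  obtain ⟨ψ, h1, h2⟩ := h.red_surj x t
  obtain ⟨β, hβ⟩ := h.ex_frob l o
  obtain ⟨β', hβ'⟩ := h.ex_frob l o.step
  have a1 : v (Ev x (mkS h.ok h.lev ψ)) ≤ 1 := (v_Ev h (l _ o) ψ.2.2).trans_le (h1 _)
  have a2 : v (Ev (x * st w * st w) (mkS h.ok h.lev ψ)) ≤ 1 :=
    (v_Ev h (l _ o.step.step) ψ.2.2).trans_le (h1 _)
  refine ⟨mkS h.ok h.lev ψ, ψ.2.2, h1, (NV.sub_le a2 a1).eq_of_not_lt fun e => ?_⟩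
  have h3 := (I.red_eq_iff a2 a1).2 e
  rw [red_Ev h (l _ o.step.step) ψ.2.2, red_Ev h (l _ o) ψ.2.2,
    ← β'.apply_symm_apply (h.red _ _), hβ', ← β.apply_symm_apply (β'.symm _), hβ, ← map_pow,
    ← map_pow] at h3
  have h4 := (h.emb (l x o)).injective h3
  have h5 : ord R _ = 1 := (congrArg (ord R) (h4.trans h2)).trans ht
  rw [ord_pow] at h5
  have h6 := Int.isUnit_iff_natAbs_eq.1 (isUnit_of_dvd_one ⟨_, h5.symm⟩)
  exact (one_lt_qq w).ne' h6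

/-- a function of level `Iw0` which separates `x` from its conjugates -/
theorem sepN : ∃ ψ : SR h.ok, Inv U ψ.1 ∧ v (Ev (x * st w) ψ) ≤ 1 ∧
    (∀ k ∈ U, v (Ev (x * k) (Rt (w.ι (PP w)) ψ)) ≤ 1) ∧ ∀ k ∈ U, k ∉ w.set (Iw0 O K) U →
      v (Ev x (Rt (w.ι (PP w)) ψ) - Ev (x * k) (Rt (w.ι (PP w)) ψ)) = 1 := by
  obtain ⟨ψ, hψ, h1, h2⟩ := sep h l (o_dg o w.ϖ)
  have a1 : v (Ev (x * st w) ψ) ≤ 1 := (v_Ev h (l _ o.step) hψ).trans_le (h1 _)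
  have a2 : ∀ k ∈ U, k ∉ w.set (Iw0 O K) U →
      Cg v (Ev (x * k) (Rt (w.ι (PP w)) ψ)) (Ev (x * w.ι (Sh.dg w.ϖ)) ψ) := fun k hk hk' => by
    obtain ⟨b, hb⟩ := (lev_bruhat h.lev ((set_eq h.lev h.mx).ge hk)).resolve_left hk'
    rw [← Ev_eq (PP_inv h hψ) x hb, Ev_Rt, mul_assoc, ← map_mul, mul_assoc, ss_PP, map_mul,
      ← mul_assoc]
    exact unip h (l x o) (Rt _ ψ) b ((v_Ev h (l _ (o_dg o w.ϖ)) hψ).trans_le (h1 _))
  refine ⟨ψ, hψ, a1, fun k hk => ?_, fun k hk hk' => ?_⟩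
  · by_cases hk' : k ∈ w.set (Iw0 O K) U
    · rwa [Ev_mul (PP_inv h hψ) x hk', Ev_PP h hψ]
    · exact (a2 k hk hk').1
  · rw [Ev_PP h hψ]
    refine (Cg.refl a1).sub_one (a2 k hk hk') ?_
    rw [← h2, ← Ev_PP h hψ, ← Ev_PP h hψ (_ * st w)]
    congr 2
    change Ev (x * w.ι (PP w)) ψ = Ev (x * w.ι (Sh.dg w.ϖ) * st w * w.ι (PP w)) ψ
    rw [mul_assoc x, mul_assoc x]
    refine Ev_eq hψ x ?_
    rw [st, ← map_mul, ← map_mul, ← map_inv, ← map_mul]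
    refine KK_mem h (Subgroup.mem_sup_right ?_)
    rw [← mul_assoc, Gn.zl_conj (mem_Zl.2 ⟨w.ϖ, by rw [Gn.dg_eq, tt, d2_mul, mul_one, one_mul]⟩)]
    exact mem_Zl.2 ⟨w.ϖ, by rw [Gn.dg_eq, tt, d2_mul, mul_one, one_mul]⟩

/-- the residue field does not grow from level `U` to level `Iw0` -/
theorem den (hI : w.set (Iw0 O K) U ∈ T.Lev) {φ : SR h.ok} (hφ : Inv (w.set (Iw0 O K) U) φ.1)
    (h1 : v (Ev x φ) ≤ 1) : ∃ ψ : SR h.ok, Inv U ψ.1 ∧ Cg v (Ev x φ) (Ev x ψ) := by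
  obtain ⟨ψ, hψ, a1, a2, a3⟩ := sepN h l o
  obtain ⟨β, hβ⟩ := h.ex_frob l o
  obtain ⟨-, z, hz⟩ := lag v x hI h.lev
    (fun a => v (Ev x a) ≤ 1 ∧ v.red (Ev x a) ∈ (h.emb (l x o)).fieldRange)
    (fun a b ha hb => by
      rw [map_add, NV.red_add ha.1 hb.1]
      exact ⟨NV.add_le ha.1 hb.1, add_mem ha.2 hb.2⟩)
    (fun a b ha hb => by
      rw [map_mul, NV.red_mul ha.1 hb.1]
      exact ⟨NV.mul_le_one ha.1 hb.1, mul_mem ha.2 hb.2⟩)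
    (fun a d hd hb e => by
      have ha : v (Ev x a) ≤ 1 := by simpa [e] using hb.1
      rw [map_mul, NV.red_mul ha hd.1] at hb
      exact ⟨ha, by simpa [NV.red_ne_zero e] using div_mem hb.2 hd.2⟩)
    (fun a ha e => ⟨e, _, (red_Ev h (l x o) ha).symm⟩) (PP_inv h hψ) (by
      rw [Ev_PP h hψ, red_Ev h (l _ o.step) hψ, ← β.apply_symm_apply (h.red _ _), hβ, ← map_pow]
      exact ⟨a1, _, rfl⟩) a2 a3 hφ h1
  obtain ⟨χ, h2, rfl⟩ := h.red_surj x z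
  exact ⟨mkS h.ok h.lev χ, χ.2.2, h1, (v_Ev h (l x o) χ.2.2).trans_le (h2 x),
    hz.symm.trans (red_Ev h (l x o) (φ := mkS h.ok h.lev χ) χ.2.2).symm⟩

/-- inertia acts trivially at level `Iw0` -/
theorem ine1 (hI : w.set (Iw0 O K) U ∈ T.Lev) (s : T.Sl σ θ) (i : h.Ine (thU s h.lev))
    {φ : SR h.ok} (hφ : Inv (w.set (Iw0 O K) U) φ.1) (h1 : v (Ev x φ) ≤ 1) :
    Cg v (Ev x (Th s φ)) (Ev x φ) := by
  obtain ⟨ψ, hψ, a1, a2, a3⟩ := sepN h l o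
  refine lagE hI h.lev ((Ev x).comp (Th s)) (fun a ha e => ine0 h (l x o) s i ha e) (PP_inv h hψ)
    ?_ a2 a3 hφ h1
  rw [RingHom.comp_apply, Th_Rt, Ev_PP h hψ, Ev_PP h (Th_inv s h.lev hψ)]
  exact ine0 h (l _ o.step) s i hψ a1

end Vale.Agent.P022K.FI.X1
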