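import Vale.Agent.P022K.FI.X1I

/-!
# P022K FI, row X0, file J: inertia at level `Iw1`, for the ordinary valuation
-/

set_option autoImplicit false
set_option linter.unusedSectionVars false
set_option linter.style.haveILetI false

open UpperHalfPlane IsLocalRing
open scoped MatrixGroups

noncomputable section

namespace Vale.Agent.P022K.FI.X1

open Vale.Agent.P022K.Sh Vale.Agent.P022.H218.L3 Vale.Agent.P019P P025H746 Hk Vale.Agent.P027M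

variable {G0 G : Type} [Group G0] [Group G] {T : Tw G0 G}
  {O K : Type} [CommRing O] [IsDomain O] [IsDiscreteValuationRing O] [Field K] [Algebra O K]
  {w : T.Lc O K} {p : ℕ} [Fact p.Prime] {D : Emb w p} {U : Subgroup G} {τ : ℍ} {x : G}
  {v : NV (Cx D.ι) (LW T)} {σ : ℂ ≃+* ℂ} {θ : (G → Mer) → G → Mer}

theorem Km_Iw1 : Km O K 1 ≤ Iw1 O K := by
  rintro _ ⟨k, hk, rfl⟩
  have e : ∀ i j, k i j - (1 : Matrix (Fin 2) (Fin 2) O) i j ∈ maximalIdeal O := fun i j => by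
    rw [← pow_one (maximalIdeal O), ← Ideal.Quotient.eq]
    refine (congrArg (fun g : GL (Fin 2) (O ⧸ maximalIdeal O ^ 1) => g i j)
      (MonoidHom.mem_ker.1 hk)).trans ?_
    simp only [Units.val_one, Matrix.one_apply]
    split_ifs <;> simp
  exact gK_Iw1 (by simpa using e 1 0) (by simpa using sub_mem (e 0 0) (e 1 1))

theorem lev_set (hT : T.Ok) (hU : U ∈ T.Lev) {V : Subgroup (GL (Fin 2) K)} (h1 : Iw1 O K ≤ V)
    (h2 : V ≤ KK O K) : w.set V U ∈ T.Lev :=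
  hT.up _ (w.lev U hU 1) _ (set_mono hU (Km_Iw1.trans h1)) fun e =>
    hT.fi _ (w.lev U hU 1) _ (Lv.set_KK hU)
      (Subgroup.relIndex_eq_zero_of_le_right (set_mono hU h2) e)

theorem nrm_le (b : O) : ‖D.ι (D.e (algebraMap O K b))‖ ≤ 1 := (D.int _).2 ⟨b, rfl⟩

theorem nrm_unit {b : O} (hb : IsUnit b) : ‖D.ι (D.e (algebraMap O K b))‖ = 1 := by
  obtain ⟨u, rfl⟩ := hb
  refine (nrm_le _).eq_of_not_lt fun h => ?_
  have h3 := congrArg (fun a => ‖D.ι (D.e (algebraMap O K a))‖) u.mul_inv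
  simp only [map_mul, norm_mul, map_one, norm_one] at h3
  exact (mul_lt_one_of_nonneg_of_lt_one_left (norm_nonneg _) h (nrm_le _)).ne h3

variable (D) in
/-- constants -/
def cs (a : ℂ) : LW T := algebraMap (Cx D.ι) (LW T) (Cx.of D.ι a)

theorem v_cs (a : ℂ) : v (cs D a) = ‖D.ι a‖ := v.ext' _

theorem cs_mul (a b : ℂ) : cs D (a * b) = cs D a * cs D b := map_mul (algebraMap ℂ (LW T)) a b

theorem cs_sub (a b : ℂ) : cs D (a - b) = cs D a - cs D b := map_sub (algebraMap ℂ (LW T)) a b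

theorem cs_one : cs D 1 = 1 := map_one (algebraMap ℂ (LW T))

variable {hT : T.Ok}

theorem Ev_cs (a : ℂ) : Ev x (algebraMap ℂ (SR hT) a) = cs D a := rfl

theorem inv_mul {V : Subgroup G} {φ ψ : SR hT} (h : Inv V φ.1) (h' : Inv V ψ.1) :
    Inv V (φ * ψ).1 := inv_Rt.2 fun u hu => by rw [map_mul, inv_Rt.1 h u hu, inv_Rt.1 h' u hu]

theorem inv_sub {V : Subgroup G} {φ ψ : SR hT} (h : Inv V φ.1) (h' : Inv V ψ.1) :
    Inv V (φ - ψ).1 := inv_Rt.2 fun u hu => by rw [map_sub, inv_Rt.1 h u hu, inv_Rt.1 h' u hu]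

/-- congruences give equal norms -/
theorem nrm {V : Subgroup G} (E : SR hT →+* LW T)
    (hE : ∀ a, v (E (algebraMap ℂ (SR hT) a)) = ‖D.ι a‖)
    (H : ∀ φ, Inv V φ.1 → v (Ev x φ) ≤ 1 → Cg v (E φ) (Ev x φ)) {φ : SR hT} (hφ : Inv V φ.1) :
    v (E φ) = v (Ev x φ) := by
  have key : ∀ r, 0 < r → v (Ev x φ) ≤ r → v (E φ) ≤ r ∧ (v (Ev x φ) = r → v (E φ) = r) ∧
      (v (E φ) = r → v (Ev x φ) = r) := fun r h0 hr => by
    obtain ⟨a, ha⟩ : ∃ a : ℂ, ‖D.ι a‖ = r⁻¹ := Cx.exists_norm_eq D.ι r⁻¹ (inv_pos.2 h0).le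
    have e1 : v (Ev x (algebraMap ℂ (SR hT) a * φ)) = r⁻¹ * v (Ev x φ) := by
      rw [map_mul, map_mul, v_cst, ha]
    have e2 : v (E (algebraMap ℂ (SR hT) a * φ)) = r⁻¹ * v (E φ) := by
      rw [map_mul, map_mul, hE, ha]
    have := H _ (inv_mul (fun _ _ _ => rfl) hφ) (e1.trans_le ((inv_mul_le_one₀ h0).2 hr))
    refine ⟨(inv_mul_le_one₀ h0).1 (e2 ▸ this.1), fun e => ?_, fun e => ?_⟩
    · exact ((inv_mul_eq_one₀ h0.ne').1 (e2.symm.trans (this.one (by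
        rw [e1, e, inv_mul_cancel₀ h0.ne'])))).symm
    · exact ((inv_mul_eq_one₀ h0.ne').1 (e1.symm.trans (this.symm.one (by
        rw [e2, e, inv_mul_cancel₀ h0.ne'])))).symm
  rcases lt_trichotomy (v (E φ)) (v (Ev x φ)) with h | h | h
  · exact (key _ ((v.av.nonneg _).trans_lt h) le_rfl).2.1 rfl
  · exact h
  · exact ((key _ ((v.av.nonneg _).trans_lt h) h.le).2.2 rfl).symm

variable (w) in
/-- the difference of the values at two lower neighbours -/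
def df (b b' : O) (ψ : SR hT) : SR hT :=
  Rt (w.ι (nn K b * Sh.dg w.ϖ)) ψ - Rt (w.ι (nn K b' * Sh.dg w.ϖ)) ψ

variable (w) in
/-- the norm along the unipotent elements -/
def NN [Fintype (ResidueField O)] (u : SR hT) : SR hT :=
  ∏ b : ResidueField O, Rt (w.ι (nn K b.out)) u

theorem Th_df (s : T.Sl σ θ) (b b' : O) (ψ : SR hT) : Th s (df w b b' ψ) = df w b b' (Th s ψ) := by
  rw [df, df, map_sub, Th_Rt, Th_Rt]

theorem df_sub (b b' : O) (φ ψ : SR hT) : df w b b' (φ - ψ) = df w b b' φ - df w b b' ψ := by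
  simp only [df, map_sub]
  ring

theorem df_cst (b b' : O) (a : ℂ) (ψ : SR hT) :
    df w b b' (algebraMap ℂ (SR hT) a * ψ) = algebraMap ℂ (SR hT) a * df w b b' ψ := by
  simp only [df, map_mul, mul_sub]
  rfl

theorem Rt_df (a b b' : O) (ψ : SR hT) :
    Rt (w.ι (nn K a)) (df w b b' ψ) = df w (a + b) (a + b') ψ := by
  simp only [df, map_sub, Rt_Rt, nn_add, map_mul, mul_assoc]

theorem Th_NN [Fintype (ResidueField O)] (s : T.Sl σ θ) (u : SR hT) :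
    Th s (NN w u) = NN w (Th s u) := by
  simp only [NN, map_prod, Th_Rt]

/-- the content of `Tam` -/
theorem Tam.ex (hU : U ∈ T.Lev) (t : Tam D U v x) : ∃ ρ : ℝ, 0 < ρ ∧
    ρ ^ (qq O - 1) = ‖D.ι (D.e w.ϖ)‖ ∧ (∀ ψ : SR hT, Inv U ψ.1 → ∀ c : Oˣ,
      v (Ev (x * w.ι (Sh.dg w.ϖ)) ψ) ≤ 1 → v (Ev x (df w c 0 ψ)) ≤ ρ ∧
        v (Ev x (df w c 0 ψ) - cs D (D.e (algebraMap O K c)) * Ev x (df w 1 0 ψ)) < ρ) ∧
    ∃ ψ : SR hT, Inv U ψ.1 ∧ v (Ev (x * w.ι (Sh.dg w.ϖ)) ψ) ≤ 1 ∧ v (Ev x (df w 1 0 ψ)) = ρ := by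
  obtain ⟨ρ, h1, h2, h3, ψ, hψ, f, f₁, e, e₁, h4, h5⟩ := t
  refine ⟨ρ, h1, h2, fun φ hφ c h => ?_, mkS hT hU ⟨ψ, hψ⟩, hψ.2, ?_, ?_⟩
  · simp only [df, map_sub, nn_zero, one_mul, nn_one, Ev_Rt]
    exact h3 _ (sr_mem φ hφ) c _ _ _ rfl rfl rfl h
  · exact (congrArg v (Subtype.ext e.symm)).trans_le h4
  · simp only [df, map_sub, nn_zero, one_mul, nn_one, Ev_Rt]
    exact (congrArg₂ (fun a b => v (a - b)) (Subtype.ext e₁.symm) (Subtype.ext e.symm)).trans h5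

variable [∀ x, CFF ℂ (KX T U x)] (h : Ctx D U)

theorem Ev_df {ψ : SR h.ok} (hψ : Inv U ψ.1) (x : G) (e : Oˣ) :
    Ev (x * w.ι (dO K e)) (df w 1 0 ψ) = Ev x (df w e 0 ψ) := by
  have key : ∀ b : O, Ev (x * w.ι (dO K e)) (Rt (w.ι (nn K b * Sh.dg w.ϖ)) ψ) =
      Ev x (Rt (w.ι (nn K (e * b) * Sh.dg w.ϖ)) ψ) := fun b => by
    rw [Ev_Rt, Ev_Rt, mul_assoc, ← map_mul, ← mul_assoc, dO_nn, mul_assoc, dO_dg, ← mul_assoc,
      map_mul, ← mul_assoc, Ev_mul hψ _ (h.mx.1 _ (Iw0_le (dO_Iw0 e)))]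
  rw [df, df, map_sub, map_sub, key, key, mul_one, mul_zero]

theorem NN_inv [Fintype (ResidueField O)] {ψ : SR h.ok} (hψ : Inv U ψ.1) (a : ℂ) :
    Inv (w.set (Iw1 O K) U) (NN w (algebraMap ℂ (SR h.ok) a * df w 1 0 ψ)).1 :=
  inv_Rt.2 fun k hk => by
    obtain ⟨b₀, hb⟩ := lev_shift h.lev hk
    have key : ∀ b b' : O, b' - (b + b₀) ∈ maximalIdeal O →
        Rt k (Rt (w.ι (nn K b * Sh.dg w.ϖ)) ψ) = Rt (w.ι (nn K b' * Sh.dg w.ϖ)) ψ :=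
      fun b b' e => (Rt_Rt _ _ _).trans (Rt_eq hψ ((set_eq h.lev h.mx).le (hb b b' e))).symm
    simp only [NN, map_prod, ← df_cst, Rt_df]
    refine Fintype.prod_equiv (Equiv.addRight (residue O b₀)) _ _ fun b => ?_
    have e : (b + residue O b₀).out - (b.out + b₀) ∈ maximalIdeal O := by
      rw [← residue_eq_zero_iff, map_sub, map_add]
      exact sub_eq_zero.2 ((Quotient.out_eq _).trans (congrArg (· + _) (Quotient.out_eq b).symm))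
    rw [df_cst, df_cst, map_mul, df, df, map_sub,
      key _ ((b + residue O b₀).out + 1) (by convert e using 1; ring),
      key _ ((b + residue O b₀).out + 0) (by convert e using 1; ring)]
    rfl

theorem NN_cg [Fintype (ResidueField O)] (l : Loc D U v τ x) {u : SR h.ok} {a : LW T}
    (e : Cg v (Ev x u) a) : Cg v (Ev x (NN w u)) (a ^ qq O) := by
  rw [NN, map_prod]
  exact (Cg.prod fun b => unip h l u _ e.1).trans (e.pow _)

/-- **inertia at level `Iw1`** -/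
theorem ine2 (l : Vl D U v τ) (o : Ord w D.e τ x) (t : Tam D U v x) (s : T.Sl σ θ)
    (i : h.Ine (thU s h.lev)) (hσ : ∀ c, ‖D.ι (σ c)‖ = ‖D.ι c‖) {a : ℂ} {c : Oˣ}
    (ha : ‖D.ι a‖ ^ (qq O - 1) = ‖D.ι (D.e w.ϖ)‖)
    (hc : ‖D.ι (a - D.e (algebraMap O K c) * σ a)‖ < ‖D.ι a‖) {φ : SR h.ok}
    (hφ : Inv (w.set (Iw1 O K) U) φ.1) (h1 : v (Ev x φ) ≤ 1) :
    Cg v (Ev (x * w.ι (dO K c⁻¹)) (Th s φ)) (Ev x φ) := by
  haveI := w.fin
  letI := Fintype.ofFinite (ResidueField O)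
  have hI := lev_set (w := w) h.ok h.lev Iw1_le Iw0_le
  have hU := lev_set (w := w) h.ok h.lev le_rfl (Iw1_le.trans Iw0_le)
  obtain ⟨ρ, r0, r1, t1, ψ, hψ, t2, t3⟩ := t.ex (hT := h.ok) h.lev
  obtain rfl : ‖D.ι a‖ = ρ := (pow_left_inj₀ (norm_nonneg _) r0.le
    (Nat.sub_ne_zero_of_lt (one_lt_qq w))).1 (ha.trans r1.symm)
  have sc : ∀ {b : ℂ} {y z : LW T}, ‖D.ι b‖ = ‖D.ι a‖⁻¹ → v z ≤ ‖D.ι a‖ →
      v (y - z) < ‖D.ι a‖ → Cg v (cs D b * y) (cs D b * z) := fun hb h2 h3 => Cg.of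
    (by rwa [map_mul, v_cs, hb, inv_mul_le_one₀ r0])
    (by rwa [← mul_sub, map_mul, v_cs, hb, inv_mul_lt_one₀ r0])
  have na : ‖D.ι a⁻¹‖ = ‖D.ι a‖⁻¹ := by rw [map_inv₀, norm_inv]
  have val : ∀ (b : ℂ) (χ : SR h.ok) (e : Oˣ), Inv U χ.1 → ‖D.ι b‖ = ‖D.ι a‖⁻¹ →
      v (Ev (x * w.ι (Sh.dg w.ϖ)) χ) ≤ 1 →
      Cg v (Ev (x * w.ι (dO K e)) (algebraMap ℂ (SR h.ok) b * df w 1 0 χ))
        (cs D b * (cs D (D.e (algebraMap O K e)) * Ev x (df w 1 0 χ))) := fun b χ e hχ hb h2 => by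
    rw [map_mul, Ev_df h hχ]
    refine sc hb ?_ (t1 χ hχ e h2).2
    rw [map_mul, v_cs, nrm_unit e.isUnit, one_mul]
    exact (t1 χ hχ 1 h2).1
  have u1 : v (cs D a⁻¹ * Ev x (df w 1 0 ψ)) = 1 := by
    rw [map_mul, v_cs, na, t3, inv_mul_cancel₀ r0.ne']
  have N0 := NN_cg h (l x o) (u := algebraMap ℂ (SR h.ok) a⁻¹ * df w 1 0 ψ)
    (a := cs D a⁻¹ * Ev x (df w 1 0 ψ)) (by rw [map_mul]; exact Cg.refl u1.le)
  have N1 : ∀ k ∈ w.set (Iw0 O K) U, ∃ e : Oˣ, (w.ι (dO K e))⁻¹ * k ∈ w.set (Iw1 O K) U ∧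
      Cg v (Ev (x * k) (NN w (algebraMap ℂ (SR h.ok) a⁻¹ * df w 1 0 ψ)))
        ((cs D a⁻¹ * (cs D (D.e (algebraMap O K e)) * Ev x (df w 1 0 ψ))) ^ qq O) := fun k hk => by
    obtain ⟨e, he⟩ := lev_dO h.lev hk
    refine ⟨e, he, ?_⟩
    rw [← Ev_eq (NN_inv h hψ a⁻¹) x he]
    exact NN_cg h (l _ (o_dO o e)) (val _ ψ e hψ na t2)
  refine lagE hU hI ((Ev (x * w.ι (dO K c⁻¹))).comp (Th s)) (fun b hb e => ?_)
    (NN_inv h hψ a⁻¹) ?_ (fun k hk => (N1 k hk).elim fun e he => he.2.1) (fun k hk hk' => ?_) hφ h1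
  · rw [RingHom.comp_apply, Ev_mul (Th_inv s hI hb) x (iota_mem' h.lev (dO_Iw0 _))]
    exact ine1 h l o hI s i hb e
  · have j0 := ine0 h (l _ (o_dg o w.ϖ)) s i hψ t2
    have hθ := Th_inv s h.lev hψ
    have nσ : ‖D.ι (σ a⁻¹)‖ = ‖D.ι a‖⁻¹ := (hσ _).trans na
    rw [RingHom.comp_apply, Th_NN, map_mul, Th_cst, Th_df]
    refine (NN_cg h (l _ (o_dO o c⁻¹)) ((val _ _ c⁻¹ hθ nσ j0.1).trans ?_)).trans N0.symm
    have j1 : v (Ev x (df w 1 0 (Th s ψ)) - Ev x (df w 1 0 ψ)) < ‖D.ι a‖ := by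
      obtain ⟨r, r2, r3⟩ := exists_between j0.lt
      have r4 : 0 < r := (v.av.nonneg _).trans_lt r2
      obtain ⟨b, hb⟩ : ∃ b : ℂ, ‖D.ι b‖ = r⁻¹ := Cx.exists_norm_eq D.ι r⁻¹ (inv_pos.2 r4).le
      have := (t1 (algebraMap ℂ (SR h.ok) b * (Th s ψ - ψ))
        (inv_mul (fun _ _ _ => rfl) (inv_sub hθ hψ)) 1 (by
          rw [map_mul, map_mul, v_cst, hb, map_sub, inv_mul_le_one₀ r4]
          exact r2.le)).1
      rw [df_cst, map_mul, map_mul, v_cst, hb, inv_mul_le_iff₀ r4, df_sub, map_sub] at this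
      exact this.trans_lt (mul_lt_of_lt_one_left r0 r3)
    have nc := nrm_unit (D := D) c⁻¹.isUnit
    have a0 : a ≠ 0 := fun e => r0.ne' (by rw [e, map_zero, norm_zero])
    have c0 : D.e (algebraMap O K c) * D.e (algebraMap O K (c⁻¹ : Oˣ)) = 1 := by
      rw [← map_mul, ← map_mul, c.mul_inv, map_one, map_one]
    rw [← mul_assoc, ← cs_mul]
    refine (sc (by rw [map_mul, norm_mul, nσ, nc, mul_one]) t3.le j1).trans (Cg.of u1.le ?_)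
    rw [← sub_mul, ← cs_sub, map_mul, v_cs, t3,
      show σ a⁻¹ * D.e (algebraMap O K (c⁻¹ : Oˣ)) - a⁻¹ = (a - D.e (algebraMap O K c) * σ a) *
        (σ a⁻¹ * D.e (algebraMap O K (c⁻¹ : Oˣ)) * a⁻¹) from by
        have := (map_ne_zero σ).2 a0
        rw [map_inv₀]
        field_simp
        linear_combination (σ a) * c0,
      map_mul, map_mul, map_mul, norm_mul, norm_mul, norm_mul, nσ, nc, na, mul_one, mul_assoc,
      inv_mul_cancel_right₀ r0.ne', mul_inv_lt_iff₀ r0, one_mul]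
    exact hc
  · obtain ⟨e, he, h2⟩ := N1 k hk
    refine N0.sub_one h2 (Gs.w_eq_one (NV.sub_le N0.2.1 h2.2.1) fun h3 => hk' ?_)
    have h4 := (val _ ψ e hψ na t2).2.1
    rw [NV.red_sub N0.2.1 h2.2.1, sub_eq_zero, NV.red_pow u1.le, NV.red_pow h4] at h3
    have h5 := (I.red_eq_iff h4 u1.le).1 (D.pow_inj _ h3).symm
    rw [mul_left_comm, ← sub_one_mul, map_mul, u1, mul_one, ← cs_one (D := D), ← cs_sub, v_cs,
      ← map_one D.e, ← map_sub, ← map_one (algebraMap O K), ← map_sub] at h5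
    simpa using mul_mem (iota_mem' h.lev (dO_Iw1 ((mem_maximalIdeal _).2 fun hu =>
      h5.ne (nrm_unit hu)))) he

end Vale.Agent.P022K.FI.X1
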