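import Vale.Agent.P022K.FI.X1R

/-!
# P022K FI, row X0, file K: from functions to classes at level `Iw1`
-/

set_option autoImplicit false

noncomputable section

namespace Vale.Agent.P022K.FI.X1

open Vale.Agent.P022K.Sh

variable {G0 G : Type} [Group G0] [Group G] {T : Tw G0 G}
  {O K : Type} [CommRing O] [IsDomain O] [IsDiscreteValuationRing O] [Field K] [Algebra O K]

theorem rep_nor {U : Subgroup G} {δ : G} (h : ∀ u ∈ U, δ⁻¹ * u * δ ∈ U) :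
    Rep (dc U δ U) U (Finset.univ : Finset Unit) fun _ => δ :=
  ⟨dc_right, fun _ _ => mem_dc.2 ⟨1, one_mem _, by simp⟩, fun _ _ _ _ _ => rfl,
    fun _ ⟨a, ha, b, hb, e⟩ => ⟨(), Finset.mem_univ _, by
      simpa only [e, mul_assoc] using mul_mem (h a ha) hb⟩⟩

theorem hp_nor {B : Type} [CommMonoid B] {U : Subgroup G} {δ : G} (h : ∀ u ∈ U, δ⁻¹ * u * δ ∈ U)
    {f : G → B} (hf : Inv U f) : hp (dc U δ U) U f = rt δ f := funext fun x => by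
  rw [(rep_nor h).hp hf, Fintype.prod_unique, rt]

/-- **KUM** -/
theorem kum (w : T.Lc O K) : KUM w := by
  intro _ σ θ s c U hU mx d d' n hn tw a a₁ a₂ k k'
  obtain ⟨z, z₁, rfl, rfl, k⟩ := k
  obtain ⟨y, z₂, e, rfl, k'⟩ := k'
  obtain ⟨g, g₁, k, k₁, e₁⟩ := k (AddMonoidHom.id _)
  obtain ⟨u, u₂, l, l₂, r⟩ := k' (AddMonoidHom.id _)
  obtain ⟨ψ, hψ, e₂⟩ := (k₁.cob hn l).1 (Tw.mk_eq_mk.1 e.symm)
  have ψ0 : ∀ x, ψ x ≠ 0 := fun x e0 => k₁.pow_ne x (by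
    rw [e₂, Pi.mul_apply, Pi.pow_apply ψ, e0, zero_pow hn.ne', mul_zero])
  have k₂ := l₂.mul_RU hn (s.mem U hU ψ hψ) (s.em.ne hU hψ ψ0)
  have e₃ : θ (θ (g ^ n)) = (u₂ * θ ψ) ^ n := by
    rw [e₁, e₂, s.mul U hU _ (l.pow_mem hn) _ (pow_mem hψ n), r, s.em.pow hU hψ, mul_pow]
  obtain ⟨χ, h5, h6⟩ := tw _ (k.pow_mem hn) g k.1 rfl
  have nor : ∀ c : Oˣ, hp (dc U (w.ι (dO K c)) U) U g₁ = rt (w.ι (dO K c)) g₁ := fun c =>
    hp_nor (fun u hu => by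
      have := set_conj hU (fun v hv => Iw1_norm (dO_Iw0 c) hv) ((set_eq hU mx).ge hu)
      rwa [set_eq hU mx] at this) k₁.2.1
  have h7 := ((k₂.mul hn k).cob hn ((k₁.hp hn d).mul hn (k₁.hp hn d'))).2 ⟨χ, h5, by
    rw [mul_pow, ← e₃, h6, e₁, nor, nor, mul_pow]
    rfl⟩
  rw [sub_add_eq_add_sub, sub_eq_zero]
  exact Tw.mk_eq_mk (a := z₂ + z) (b := T.hZ _ d z₁ + T.hZ _ d' z₁) |>.2 h7

end Vale.Agent.P022K.FI.X1
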