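import Vale.Agent.P022K.FI.Hk2
import Vale.Agent.P022K.FI.Br1

/-!
# P022K FI, row X0, file L: smooth functions on a tower, interpolation

`SR` is the ring of the functions of some level.  `lag`: a property which is stable under sums,
products and division by units passes from level `U'` to level `U ≤ U'` as soon as it holds for one
function which separates `x` from its conjugates.
-/

set_option autoImplicit false
set_option linter.unusedSectionVars false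
set_option linter.style.haveILetI false

open UpperHalfPlane Polynomial
open scoped MatrixGroups

noncomputable section

namespace Vale.Agent.P022K.FI.X1

open Vale.Agent.P022K.Sh Vale.Agent.P022.H218.L3 Vale.Agent.P019P P025H746 Hk

section poly

variable {R R' I : Type} [CommRing R] [CommRing R'] [Fintype I] [DecidableEq I]

/-- the numerator of the interpolation polynomial -/
def lagP (a n : I → R) : R[X] := ∑ i, C (a i) * ∏ j ∈ Finset.univ.erase i, (X - C (n j))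

theorem lagP_map (f : R →+* R') (a n : I → R) :
    (lagP a n).map f = lagP (fun i => f (a i)) fun i => f (n i) := by
  simp [lagP, Polynomial.map_sum, Polynomial.map_prod]

theorem lagP_perm (e : I ≃ I) (a n : I → R) :
    lagP (fun i => a (e i)) (fun i => n (e i)) = lagP a n :=
  Fintype.sum_equiv e _ _ fun i => congrArg _ (Finset.prod_equiv e (by simp) (by simp))

theorem lagP_eval (a n : I → R) (i : I) :
    (lagP a n).eval (n i) = a i * ∏ j ∈ Finset.univ.erase i, (n i - n j) := by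
  rw [lagP, eval_finsetSum, Finset.sum_eq_single i]
  · simp [eval_prod]
  · intro k _ hk
    rw [eval_mul, eval_prod, Finset.prod_eq_zero (i := i) (by simp [hk.symm]) (by simp), mul_zero]
  · simp

/-- the characteristic polynomial -/
def chP (n : I → R) : R[X] := ∏ i, (X - C (n i))

theorem chP_map (f : R →+* R') (n : I → R) : (chP n).map f = chP fun i => f (n i) := by
  simp [chP, Polynomial.map_prod]

theorem chP_perm (e : I ≃ I) (n : I → R) : chP (fun i => n (e i)) = chP n :=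
  Fintype.prod_equiv e _ _ fun _ => rfl

end poly

section nv

variable {C F L : Type} [NontriviallyNormedField C] [IsUltrametricDist C] [Field F] [Algebra C F]
  [Field L]

theorem root_le (j : F →+* L) (w : NV C F) {Q : L[X]} (hQ : Q.Monic)
    (hc : ∀ n, ∃ a : F, j a = Q.coeff n ∧ w a ≤ 1) {y : F} (h : Q.eval (j y) = 0) : w y ≤ 1 := by
  obtain ⟨Q', e, -, hQ'⟩ := lifts_and_natDegree_eq_and_monic
    ((lifts_iff_coeff_lifts (f := j.comp (algebraMap w.ring F)) Q).2 fun n =>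
      (hc n).elim fun a ha => ⟨⟨a, ha.2⟩, ha.1⟩) hQ
  obtain ⟨z, hz⟩ := IsIntegrallyClosed.isIntegral_iff.1 (show IsIntegral w.ring y from ⟨Q', hQ',
    j.injective (by rw [hom_eval₂, ← eval_map, e, h, map_zero])⟩)
  exact hz ▸ z.2

theorem nv_scale (hn : ∀ r : ℝ, 0 ≤ r → ∃ x : C, ‖x‖ = r) {v w : NV C F} (h : w ≠ v) :
    ∃ y, 1 < v y ∧ w y < 1 := by
  have key : ∀ y, w y < v y → ∃ y, 1 < v y ∧ w y < 1 := fun y hy => by
    obtain ⟨r, h1, h2⟩ := exists_between hy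
    have r0 : 0 < r := (w.av.nonneg y).trans_lt h1
    obtain ⟨c, rfl⟩ := hn r r0.le
    refine ⟨y / algebraMap C F c, ?_, ?_⟩
    · rwa [map_div₀, v.ext', one_lt_div r0]
    · rwa [map_div₀, w.ext', div_lt_one r0]
  obtain ⟨y, hy⟩ : ∃ y, w y ≠ v y := by
    by_contra! h1
    exact h (NV.ext (AbsoluteValue.ext h1))
  rcases hy.lt_or_gt with h1 | h1
  · exact key y h1
  · have y0 : y ≠ 0 := by rintro rfl; simp at h1
    refine key y⁻¹ ?_
    rw [map_inv₀, map_inv₀]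
    exact inv_strictAnti₀ (v.av.pos y0) h1

theorem nv_big {v : NV C F} {x y : F} (hx : 1 < v x) (hy : v y ≤ 1) : 1 < v (x + y) := by
  by_contra! h
  exact hx.not_ge (by simpa using NV.sub_le h hy)

theorem two_nv (hn : ∀ r : ℝ, 0 ≤ r → ∃ x : C, ‖x‖ = r) {v v' w : NV C F}
    (h : ∀ y, v y ≤ 1 → v' y ≤ 1 → w y ≤ 1) : w = v ∨ w = v' := by
  by_contra! h1
  obtain ⟨y, a1, a2⟩ := nv_scale hn h1.1
  obtain ⟨y', b1, b2⟩ := nv_scale hn h1.2
  have key : ∀ z, 1 < v z → 1 < v' z → w z < 1 → False := fun z c1 c2 c3 => by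
    have z0 : z ≠ 0 := by rintro rfl; simp at c1; linarith
    have := h z⁻¹ (by rw [map_inv₀]; exact inv_le_one_of_one_le₀ c1.le)
      (by rw [map_inv₀]; exact inv_le_one_of_one_le₀ c2.le)
    rw [map_inv₀, inv_le_one₀ (w.av.pos z0)] at this
    exact c3.not_ge this
  by_cases c1 : 1 < v' y
  · exact key y a1 c1 a2
  by_cases c2 : 1 < v y'
  · exact key y' c2 b1 b2
  exact key (y + y') (nv_big a1 (not_lt.1 c2)) (add_comm y y' ▸ nv_big b1 (not_lt.1 c1))
    (NV.add_lt a2 b2)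

theorem ex_avoid [IsAlgClosed C] (v : NV C F) {I : Type} [Finite I] (f : I → F) :
    ∃ c : C, ‖c‖ ≤ 1 ∧ ∀ i, 1 ≤ v (f i - algebraMap C F c) ∧
      (v (f i) ≤ 1 → v (f i - algebraMap C F c) = 1) := by
  have h1 : (algebraMap (kC C) (kap v) ⁻¹' Set.range fun i => v.red (f i)).Finite :=
    (Set.finite_range _).preimage (algebraMap (kC C) (kap v)).injective.injOn
  obtain ⟨a, ha⟩ := h1.exists_notMem
  obtain ⟨c, hc, rfl⟩ := cred_surj a
  have h2 : v (algebraMap C F c) ≤ 1 := (v.ext' c).trans_le hc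
  have h3 : ∀ i, v (f i) ≤ 1 → v (f i - algebraMap C F c) = 1 := fun i hi =>
    (NV.sub_le hi h2).eq_of_not_lt fun h => ha ⟨i, by
      have := NV.red_of_lt h
      rwa [NV.red_sub hi h2, sub_eq_zero, NV.red_algebraMap hc] at this⟩
  refine ⟨c, hc, fun i => ⟨?_, h3 i⟩⟩
  by_cases hi : v (f i) ≤ 1
  · exact (h3 i hi).ge
  · rw [sub_eq_add_neg]
    exact (nv_big (not_le.1 hi) (by rwa [NV.map_neg'])).le

end nv

variable {G0 G : Type} [Group G0] [Group G] {T : Tw G0 G} (hT : T.Ok)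

/-- the functions of some level -/
def SR : Subalgebra ℂ (G → Mer) where
  carrier := {φ | ∃ U ∈ T.Lev, φ ∈ T.RU U}
  mul_mem' := by
    rintro φ ψ ⟨U, hU, h⟩ ⟨V, hV, h'⟩
    exact ⟨_, hT.inf U hU V hV, mul_mem (Tw.RU_mono inf_le_left h) (Tw.RU_mono inf_le_right h')⟩
  add_mem' := by
    rintro φ ψ ⟨U, hU, h⟩ ⟨V, hV, h'⟩
    exact ⟨_, hT.inf U hU V hV, add_mem (Tw.RU_mono inf_le_left h) (Tw.RU_mono inf_le_right h')⟩
  algebraMap_mem' c := by
    obtain ⟨U, hU, -⟩ := hT.neat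
    exact ⟨U, hU, algebraMap_mem _ _⟩

variable {hT} {U U' : Subgroup G} {σ : ℂ ≃+* ℂ} {θ : (G → Mer) → G → Mer}

theorem sr_mem (φ : SR hT) (h : Inv U φ.1) : φ.1 ∈ T.RU U := ⟨φ.2.choose_spec.2.1, h⟩

theorem SR.two (φ ψ : SR hT) : ∃ U ∈ T.Lev, φ.1 ∈ T.RU U ∧ ψ.1 ∈ T.RU U := by
  obtain ⟨U, hU, h⟩ := φ.2
  obtain ⟨V, hV, h'⟩ := ψ.2
  exact ⟨_, hT.inf U hU V hV, Tw.RU_mono inf_le_left h, Tw.RU_mono inf_le_right h'⟩

variable (hT) in
/-- a function of level `U` -/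
def mkS (hU : U ∈ T.Lev) (φ : T.RU U) : SR hT := ⟨φ.1, U, hU, φ.2⟩

/-- right translation -/
def Rt (g : G) : SR hT →+* SR hT where
  toFun φ := ⟨rt g φ.1, φ.2.elim fun U h => ⟨_, hT.conj U h.1 g, Tw.RU_rt h.2 g⟩⟩
  map_one' := rfl
  map_mul' _ _ := rfl
  map_zero' := rfl
  map_add' _ _ := rfl

/-- the value at `x` -/
def Ev (x : G) : SR hT →+* LW T where
  toFun φ := ⟨φ.1 x, φ.2.elim fun _ h => KX_le hT h.1 x (RU_mem h.2 x)⟩
  map_one' := rfl
  map_mul' _ _ := rfl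
  map_zero' := rfl
  map_add' _ _ := rfl

/-- the semilinear automorphism -/
def Th (s : T.Sl σ θ) : SR hT →+* SR hT where
  toFun φ := ⟨θ φ.1, φ.2.elim fun U h => ⟨U, h.1, s.mem U h.1 _ h.2⟩⟩
  map_one' := Subtype.ext s.em.one
  map_mul' φ ψ := Subtype.ext ((SR.two φ ψ).elim fun U h => s.mul U h.1 _ h.2.1 _ h.2.2)
  map_zero' := Subtype.ext s.em.zero
  map_add' φ ψ := Subtype.ext ((SR.two φ ψ).elim fun U h => s.add U h.1 _ h.2.1 _ h.2.2)

/-- the inverse where the function does not vanish -/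
def pinv (φ : SR hT) : SR hT := ⟨φ.1⁻¹, φ.2.elim fun U h => ⟨U, h.1, Tw.RU_inv h.2⟩⟩

theorem Ev_Rt (x g : G) (φ : SR hT) : Ev x (Rt g φ) = Ev (x * g) φ := rfl

theorem Rt_Rt (g g' : G) (φ : SR hT) : Rt g (Rt g' φ) = Rt (g * g') φ :=
  Subtype.ext (_root_.funext fun x => congrArg φ.1 (mul_assoc x g g'))

theorem Th_Rt (s : T.Sl σ θ) (g : G) (φ : SR hT) : Th s (Rt g φ) = Rt g (Th s φ) :=
  Subtype.ext (φ.2.elim fun U h => s.eqv U h.1 _ h.2 g)

theorem Th_inv (s : T.Sl σ θ) (hU : U ∈ T.Lev) {φ : SR hT} (h : Inv U φ.1) : Inv U (Th s φ).1 :=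
  (s.mem U hU _ (sr_mem φ h)).2

theorem Th_cst (s : T.Sl σ θ) (c : ℂ) :
    Th s (algebraMap ℂ (SR hT) c) = algebraMap ℂ (SR hT) (σ c) := Subtype.ext (s.cst c)

theorem Ev_inv (x : G) (φ : SR hT) : Ev x (pinv φ) = (Ev x φ)⁻¹ := rfl

theorem inv_Rt {φ : SR hT} : Inv U φ.1 ↔ ∀ u ∈ U, Rt u φ = φ :=
  ⟨fun h u hu => Subtype.ext (_root_.funext fun x => h x u hu),
    fun h x u hu => congrFun (congrArg Subtype.val (h u hu)) x⟩

theorem Rt_eq {φ : SR hT} (h : Inv U φ.1) {a b : G} (e : a⁻¹ * b ∈ U) : Rt a φ = Rt b φ :=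
  Subtype.ext (_root_.funext fun x => h.eq e x)

theorem Ev_eq {φ : SR hT} (h : Inv U φ.1) (x : G) {a b : G} (e : a⁻¹ * b ∈ U) :
    Ev (x * a) φ = Ev (x * b) φ := Subtype.ext (h.eq e x)

theorem Ev_mul {φ : SR hT} (h : Inv U φ.1) (x : G) {u : G} (hu : u ∈ U) :
    Ev (x * u) φ = Ev x φ := Subtype.ext (h x u hu)

theorem Rt_smul {a : SR hT} (ha : Inv U a.1) (u : U') (i : U' ⧸ U.subgroupOf U') :
    Rt (u : G) (Rt ((i.out : U') : G) a) = Rt (((u • i).out : U') : G) a := by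
  rw [Rt_Rt]
  refine Rt_eq ha (Subgroup.mem_subgroupOf.1 (QuotientGroup.eq.1
    (show ((u * i.out : U') : U' ⧸ U.subgroupOf U') = ((u • i).out : U') from ?_)))
  rw [QuotientGroup.out_eq', ← smul_eq_mul, ← MulAction.Quotient.smul_mk, QuotientGroup.out_eq']

theorem inv_coeff {Q : (SR hT)[X]} (h : ∀ u ∈ U, Q.map (Rt u) = Q) (n : ℕ) :
    Inv U (Q.coeff n).1 := inv_Rt.2 fun u hu => by rw [← coeff_map, h u hu]

variable {p : ℕ} [Fact p.Prime] {ι : ℂ ≃+* CS p} (v : NV (Cx ι) (LW T)) (x : G)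

theorem Ev_cst (c : ℂ) : Ev x (algebraMap ℂ (SR hT) c) = algebraMap (Cx ι) (LW T) (Cx.of ι c) := rfl

theorem v_cst (c : ℂ) : v (Ev x (algebraMap ℂ (SR hT) c)) = ‖ι c‖ := v.ext' (Cx.of ι c)

theorem intg (hU : U ∈ T.Lev) (hU' : U' ∈ T.Lev) {φ : SR hT} (hφ : Inv U φ.1)
    (h : ∀ k ∈ U', v (Ev (x * k) φ) ≤ 1) : ∃ Q : (SR hT)[X], Q.Monic ∧ Q.eval φ = 0 ∧
      ∀ n, Inv U' (Q.coeff n).1 ∧ v (Ev x (Q.coeff n)) ≤ 1 := by
  classical
  haveI : (U.subgroupOf U').FiniteIndex := ⟨hT.fi U hU U' hU'⟩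
  letI := Fintype.ofFinite (U' ⧸ U.subgroupOf U')
  refine ⟨chP fun i : U' ⧸ U.subgroupOf U' => Rt ((i.out : U') : G) φ,
    monic_prod_of_monic _ _ fun _ _ => monic_X_sub_C _, ?_, fun n => ⟨inv_coeff (fun u hu => ?_) n, ?_⟩⟩
  · rw [chP, eval_prod]
    refine Finset.prod_eq_zero (Finset.mem_univ ((1 : U') : U' ⧸ U.subgroupOf U')) ?_
    rw [eval_sub, eval_X, eval_C, inv_Rt.1 hφ _ (by
      simpa [Subgroup.mem_subgroupOf] using out_mk_mem (U.subgroupOf U') 1),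
      sub_self]
  · exact (chP_map _ _).trans ((congrArg chP (_root_.funext fun i => Rt_smul hφ ⟨u, hu⟩ i)).trans
      (chP_perm (MulAction.toPerm (⟨u, hu⟩ : U'))
        fun i : U' ⧸ U.subgroupOf U' => Rt ((i.out : U') : G) φ))
  · rw [← coeff_map, chP_map]
    have := chP_map (algebraMap v.ring (LW T)) fun i : U' ⧸ U.subgroupOf U' =>
      ⟨Ev x (Rt ((i.out : U') : G) φ), h _ i.out.2⟩
    exact (congrArg (fun Q => v (coeff Q n)) this).symm.trans_le (by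
      rw [coeff_map]; exact NV.mem_ring.1 (Subtype.property _))

theorem lag (hU : U ∈ T.Lev) (hU' : U' ∈ T.Lev) (P : SR hT → Prop)
    (add : ∀ a b, P a → P b → P (a + b)) (mul : ∀ a b, P a → P b → P (a * b))
    (div : ∀ a d, P d → P (a * d) → v (Ev x d) = 1 → P a)
    (base : ∀ a, Inv U' a.1 → v (Ev x a) ≤ 1 → P a) {N : SR hT} (hN : Inv U N.1) (pN : P N)
    (n1 : ∀ k ∈ U', v (Ev (x * k) N) ≤ 1)
    (n2 : ∀ k ∈ U', k ∉ U → v (Ev x N - Ev (x * k) N) = 1) {φ : SR hT} (hφ : Inv U φ.1)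
    (h1 : v (Ev x φ) ≤ 1) : P φ := by
  classical
  haveI : (U.subgroupOf U').FiniteIndex := ⟨hT.fi U hU U' hU'⟩
  letI := Fintype.ofFinite (U' ⧸ U.subgroupOf U')
  have m0 : (((1 : U') : U' ⧸ U.subgroupOf U').out : G) ∈ U := by
    simpa [Subgroup.mem_subgroupOf] using out_mk_mem (U.subgroupOf U') 1
  have p0 : P 0 := base 0 (fun _ _ _ => rfl) (by simp)
  have p1 : P 1 := base 1 (fun _ _ _ => rfl) (by simp)
  have pw : ∀ n, P (N ^ n) := fun n => by
    induction n with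
    | zero => exact pow_zero N ▸ p1
    | succ n ih => exact pow_succ N n ▸ mul _ _ ih pN
  have key : ∀ a : SR hT, Inv U a.1 → (∀ k ∈ U', v (Ev (x * k) a) ≤ 1) →
      P (a * ∏ j ∈ Finset.univ.erase ((1 : U') : U' ⧸ U.subgroupOf U'),
        (N - Rt ((j.out : U') : G) N)) := fun a ha h => by
    have e := lagP_eval (fun i : U' ⧸ U.subgroupOf U' => Rt ((i.out : U') : G) a)
      (fun i => Rt ((i.out : U') : G) N) (1 : U')
    simp only [inv_Rt.1 ha _ m0, inv_Rt.1 hN _ m0] at e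
    rw [← e, eval_eq_sum_range]
    refine Finset.sum_induction _ P add p0 fun n _ => mul _ _ (base _ (inv_coeff (fun u hu => ?_) n)
      ?_) (pw n)
    · exact (lagP_map _ _ _).trans ((congrArg₂ lagP (_root_.funext fun i => Rt_smul ha ⟨u, hu⟩ i)
        (_root_.funext fun i => Rt_smul hN ⟨u, hu⟩ i)).trans
        (lagP_perm (MulAction.toPerm (⟨u, hu⟩ : U'))
          (fun i : U' ⧸ U.subgroupOf U' => Rt ((i.out : U') : G) a)
          fun i : U' ⧸ U.subgroupOf U' => Rt ((i.out : U') : G) N))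
    · rw [← coeff_map, lagP_map]
      have := lagP_map (algebraMap v.ring (LW T)) (fun i : U' ⧸ U.subgroupOf U' =>
        ⟨Ev x (Rt ((i.out : U') : G) a), h _ i.out.2⟩) fun i => ⟨Ev x (Rt ((i.out : U') : G) N), n1 _ i.out.2⟩
      exact (congrArg (fun Q => v (coeff Q n)) this).symm.trans_le (by
        rw [coeff_map]; exact NV.mem_ring.1 (Subtype.property _))
  have step : ∀ a : SR hT, Inv U a.1 → (∀ k ∈ U', v (Ev (x * k) a) ≤ 1) → P a := fun a ha h => by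
    have k1 := key 1 (fun _ _ _ => rfl) (by simp)
    rw [one_mul] at k1
    refine div a _ k1 (key a ha h) ?_
    rw [map_prod, map_prod]
    refine Finset.prod_eq_one fun j hj => ?_
    rw [map_sub]
    refine n2 _ j.out.2 fun m => (Finset.mem_erase.1 hj).1 ?_
    rw [← QuotientGroup.out_eq' j, eq_comm, QuotientGroup.eq]
    simpa using Subgroup.mem_subgroupOf.2 m
  obtain ⟨c, hc, h2⟩ := ex_avoid v fun i : U' ⧸ U.subgroupOf U' => Ev (x * (i.out : U')) φ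
  obtain ⟨ψ, hψ⟩ : ∃ ψ, ψ = φ - algebraMap ℂ (SR hT) c := ⟨_, rfl⟩
  have h3 : ∀ y, Ev y ψ = Ev y φ - algebraMap (Cx ι) (LW T) c := fun y => by rw [hψ, map_sub]; rfl
  have h4 : P (pinv ψ) := step _ (fun y u hu => by
    change (ψ.1 _)⁻¹ = (ψ.1 _)⁻¹
    rw [hψ]
    exact congrArg (fun z => (z - algebraMap ℂ Mer c)⁻¹) (hφ y u hu)) fun k hk => by
    rw [Ev_inv, map_inv₀, h3, Ev_eq hφ x (b := (((⟨k, hk⟩ : U') : U' ⧸ U.subgroupOf U').out : U'))
      (out_mk_mem (U.subgroupOf U') ⟨k, hk⟩)]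
    exact inv_le_one_of_one_le₀ (h2 _).1
  have h5 : v (Ev x ψ) = 1 := by
    have := (h2 (1 : U')).2
    rw [Ev_mul hφ x m0] at this
    rw [h3, this h1]
  have h6 : ψ * (pinv ψ * pinv ψ) = pinv ψ := Subtype.ext (_root_.funext fun y => by
    change ψ.1 y * ((ψ.1 y)⁻¹ * (ψ.1 y)⁻¹) = (ψ.1 y)⁻¹
    by_cases h : ψ.1 y = 0
    · simp [h]
    · rw [mul_inv_cancel_left₀ h])
  have h7 := add _ _ (div ψ _ (mul _ _ h4 h4) (h6.symm ▸ h4) (by
    rw [map_mul, map_mul, Ev_inv, map_inv₀, h5, inv_one, mul_one]))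
    (base (algebraMap ℂ (SR hT) c) (fun _ _ _ => rfl) ((v_cst v x c).trans_le hc))
  rwa [hψ, sub_add_cancel] at h7

end Vale.Agent.P022K.FI.X1
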