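import Vale.Agent.P022K.FI.Lv
import Vale.Agent.P022K.FI.Gnn
import Vale.Agent.P022K.QT.If

/-!
# P022K FI, row X0, file M: the Iwahori levels
-/

set_option autoImplicit false
set_option linter.unusedSectionVars false

open scoped MatrixGroups

noncomputable section

namespace Vale.Agent.P022K.FI.X1

open Vale.Agent.P022K.Sh Lv IsLocalRing

variable {G0 G : Type} [Group G0] [Group G] {T : Tw G0 G}
  {O K : Type} [CommRing O] [IsDomain O] [IsDiscreteValuationRing O] [Field K] [Algebra O K]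

section mat

variable (O K) in
/-- the Weyl element -/
def ss : GL (Fin 2) K := gK K (sO (O := O))

/-- the unipotent element -/
def nn (K : Type) [Field K] [Algebra O K] (b : O) : GL (Fin 2) K := un (algebraMap O K b)

theorem ss_val : (ss O K : Matrix (Fin 2) (Fin 2) K) = !![0, 1; -1, 0] := by
  ext i j
  fin_cases i <;> fin_cases j <;> simp [ss, sO]

theorem ss_inv : ((ss O K)⁻¹ : GL (Fin 2) K) = ss O K * d2 (-1) (-1) :=
  inv_eq_of_mul_eq_one_right (by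
    ext i j
    fin_cases i <;> fin_cases j <;> simp [ss_val, d2_val, Matrix.mul_apply, Fin.sum_univ_two])

theorem ss_mem : ss O K ∈ KK O K := ⟨_, rfl⟩

theorem det_ss : (ss O K).det = 1 := by
  ext
  simp [ss_val, Matrix.det_fin_two]

theorem nn_eq (b : O) : nn K b = gK K (nO b) := by
  ext i j
  fin_cases i <;> fin_cases j <;> simp [nn, un_val, nO]

theorem dO_val (c : Oˣ) : (dO K c : Matrix (Fin 2) (Fin 2) K) = !![algebraMap O K c, 0; 0, 1] := rfl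

theorem dO_mul (c d : Oˣ) : dO K (c * d) = dO K c * dO K d := by rw [dO, map_mul, Gn.dg_mul]; rfl

theorem dO_one : dO K (1 : Oˣ) = 1 := by rw [dO, map_one, Gn.dg_one]

theorem dO_inv (c : Oˣ) : dO K c⁻¹ = (dO K c)⁻¹ := by rw [dO, map_inv, Gn.dg_inv]; rfl

theorem dO_nn (c : Oˣ) (b : O) : dO K c * nn K b = nn K (c * b) * dO K c := by
  rw [dO, nn, Gn.dg_un, nn, map_mul]; rfl

theorem dO_dg (c : Oˣ) (μ : Kˣ) : dO K c * dg μ = dg μ * dO K c := by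
  rw [dO, ← Gn.dg_mul, ← Gn.dg_mul, mul_comm]

theorem nn_add (a b : O) : nn K (a + b) = nn K a * nn K b := by rw [nn, map_add, un_add]; rfl

theorem nn_zero : nn K (0 : O) = 1 := by rw [nn, map_zero, un_zero]

theorem nn_one : nn K (1 : O) = un 1 := by rw [nn, map_one]

/-- `diag (c, 1)` over `O` -/
def eO (c : Oˣ) : GL (Fin 2) O :=
  ⟨!![(c : O), 0; 0, 1], !![((c⁻¹ : Oˣ) : O), 0; 0, 1], by simp [Matrix.one_fin_two],
    by simp [Matrix.one_fin_two]⟩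

theorem dO_eq (c : Oˣ) : dO K c = gK K (eO c) := by
  ext i j
  fin_cases i <;> fin_cases j <;> simp [dO_val, eO]

theorem gK_Iw0 {k : GL (Fin 2) O} (h : k 1 0 ∈ maximalIdeal O) : gK K k ∈ Iw0 O K :=
  ⟨k, (residue_eq_zero_iff _).2 h, rfl⟩

theorem gK_Iw1 {k : GL (Fin 2) O} (h : k 1 0 ∈ maximalIdeal O)
    (h' : k 0 0 - k 1 1 ∈ maximalIdeal O) : gK K k ∈ Iw1 O K :=
  ⟨k, ⟨(residue_eq_zero_iff _).2 h, sub_eq_zero.1 ((map_sub (residue O) _ _).symm.trans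
    ((residue_eq_zero_iff _).2 h'))⟩, rfl⟩

theorem Iw0_ex {g : GL (Fin 2) K} (h : g ∈ Iw0 O K) :
    ∃ k : GL (Fin 2) O, k 1 0 ∈ maximalIdeal O ∧ gK K k = g := by
  obtain ⟨k, hk, rfl⟩ := h
  exact ⟨k, (residue_eq_zero_iff _).1 hk, rfl⟩

theorem Iw1_ex {g : GL (Fin 2) K} (h : g ∈ Iw1 O K) : ∃ k : GL (Fin 2) O,
    k 1 0 ∈ maximalIdeal O ∧ k 0 0 - k 1 1 ∈ maximalIdeal O ∧ gK K k = g := by
  obtain ⟨k, hk, rfl⟩ := h
  exact ⟨k, (residue_eq_zero_iff _).1 hk.1, (residue_eq_zero_iff _).1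
    ((map_sub (residue O) _ _).trans (sub_eq_zero.2 hk.2)), rfl⟩

theorem Iw1_le : Iw1 O K ≤ Iw0 O K := fun _ h => by
  obtain ⟨k, h1, -, rfl⟩ := Iw1_ex h
  exact gK_Iw0 h1

theorem Iw0_le : Iw0 O K ≤ KK O K := fun _ h => by
  obtain ⟨k, -, rfl⟩ := Iw0_ex h
  exact ⟨k, rfl⟩

theorem dO_Iw0 (c : Oˣ) : dO K c ∈ Iw0 O K := dO_eq (K := K) c ▸ gK_Iw0 (by simp [eO])

theorem dO_Iw1 {c : Oˣ} (h : (c : O) - 1 ∈ maximalIdeal O) : dO K c ∈ Iw1 O K :=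
  dO_eq (K := K) c ▸ gK_Iw1 (by simp [eO]) (by simpa [eO] using h)

theorem nn_Iw1 (b : O) : nn K b ∈ Iw1 O K := nn_eq (K := K) b ▸ gK_Iw1 (by simp [nO]) (by simp [nO])

theorem diag_unit {k : GL (Fin 2) O} (h : k 1 0 ∈ maximalIdeal O) :
    IsUnit (k 0 0) ∧ IsUnit (k 1 1) := by
  have h1 := k.det.isUnit
  rw [Matrix.GeneralLinearGroup.val_det_apply, Matrix.det_fin_two] at h1
  rw [← IsUnit.mul_iff, ← notMem_maximalIdeal]
  rw [← notMem_maximalIdeal] at h1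
  exact fun h2 => h1 (sub_mem h2 (Ideal.mul_mem_left _ _ h))

theorem bruhat {g : GL (Fin 2) K} (h : g ∈ KK O K) :
    g ∈ Iw0 O K ∨ ∃ b : O, (nn K b * ss O K)⁻¹ * g ∈ Iw0 O K := by
  obtain ⟨k, rfl⟩ := h
  by_cases h : k 1 0 ∈ maximalIdeal O
  · exact Or.inl (gK_Iw0 h)
  · obtain ⟨c, hc⟩ := notMem_maximalIdeal.1 h
    refine Or.inr ⟨k 0 0 * (c⁻¹ : Oˣ), ?_⟩
    rw [nn_eq, ss, ← map_mul, ← map_inv, ← map_mul]
    refine gK_Iw0 ?_
    simp [nO, sO, Matrix.mul_apply, Fin.sum_univ_two, ← hc]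

theorem Iw1_norm {g v : GL (Fin 2) K} (hg : g ∈ Iw0 O K) (hv : v ∈ Iw1 O K) :
    g⁻¹ * v * g ∈ Iw1 O K := by
  obtain ⟨g, hg, rfl⟩ := hg
  obtain ⟨v, hv, rfl⟩ := hv
  refine ⟨g⁻¹ * v * g, ?_, by simp⟩
  simp only [SetLike.mem_coe, Subgroup.mem_comap, map_mul, map_inv] at *
  generalize Matrix.GeneralLinearGroup.map (residue O) g = a at *
  generalize Matrix.GeneralLinearGroup.map (residue O) v = b at *
  have h1 : a 1 0 = 0 := hg
  have h2 : b 1 0 = 0 ∧ b 0 0 = b 1 1 := hv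
  constructor <;> simp [Matrix.mul_apply, Fin.sum_univ_two, Matrix.inv_def, Matrix.adjugate_fin_two,
    Matrix.vecMul, dotProduct, h1, h2.1, h2.2]
  ring

variable (w : T.Lc O K)

/-- the element which exchanges the two vertices -/
def PP : GL (Fin 2) K := (ss O K)⁻¹ * dg w.ϖ

theorem ss_PP : ss O K * PP w = dg w.ϖ := mul_inv_cancel_left _ _

theorem PP_eq : PP w = tt w * (ss O K)⁻¹ := by
  rw [PP, eq_mul_inv_iff_mul_eq, mul_assoc, inv_mul_eq_iff_eq_mul]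
  ext i j
  fin_cases i <;> fin_cases j <;>
    simp [ss_val, tt, d2_val, Sh.dg_val, Matrix.mul_apply, Fin.sum_univ_two]

theorem PP_val : (PP w : Matrix (Fin 2) (Fin 2) K) = !![0, -1; (w.ϖ : K), 0] := by
  rw [PP, ss_inv]
  ext i j
  fin_cases i <;> fin_cases j <;>
    simp [ss_val, d2_val, Sh.dg_val, Matrix.mul_apply, Fin.sum_univ_two]

theorem PP_sq : PP w * PP w ∈ Zl K := mem_Zl.2 ⟨-w.ϖ, by
  ext i j
  fin_cases i <;> fin_cases j <;> simp [PP_val, d2_val, Matrix.mul_apply, Fin.sum_univ_two]⟩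

theorem PP_dO (c : Oˣ) : (dO K c⁻¹ * PP w)⁻¹ * (PP w * dO K c) ∈ Zl K :=
  mem_Zl.2 ⟨Units.map (algebraMap O K).toMonoidHom c, by
    rw [inv_mul_eq_iff_eq_mul]
    ext i j
    fin_cases i <;> fin_cases j <;>
      simp [PP_val, dO_val, d2_val, Matrix.mul_apply, Fin.sum_univ_two]
    exact (inv_mul_cancel₀ (c.isUnit.map (algebraMap O K)).ne_zero).symm⟩

theorem PP_conj (k : GL (Fin 2) O) (h : k 1 0 ∈ maximalIdeal O) : ∃ k' : GL (Fin 2) O,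
    k' 1 0 ∈ maximalIdeal O ∧ k' 0 0 = k 1 1 ∧ k' 1 1 = k 0 0 ∧
      (PP w)⁻¹ * gK K k * PP w = gK K k' := by
  obtain ⟨p, hp, e⟩ := w.irr
  rw [hp.maximalIdeal_eq] at h ⊢
  obtain ⟨c, hc⟩ := Ideal.mem_span_singleton'.1 h
  obtain ⟨k', hk'⟩ : IsUnit !![k 1 1, -c; -(k 0 1 * p), k 0 0] := by
    have h1 := k.det.isUnit
    rw [Matrix.GeneralLinearGroup.val_det_apply, Matrix.det_fin_two, ← hc] at h1
    rw [Matrix.isUnit_iff_isUnit_det]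
    convert h1 using 1
    rw [Matrix.det_fin_two_of]
    ring
  refine ⟨k', ?_, by simp [hk'], by simp [hk'], ?_⟩
  · rw [hk']
    exact neg_mem (Ideal.mul_mem_left _ _ (Ideal.mem_span_singleton_self p))
  · rw [mul_assoc, inv_mul_eq_iff_eq_mul]
    ext i j
    fin_cases i <;> fin_cases j <;>
      simp [PP_val, Matrix.mul_apply, Fin.sum_univ_two, hk', ← hc, ← e, mul_comm]

theorem PP_Iw0 {v : GL (Fin 2) K} (h : v ∈ Iw0 O K) : (PP w)⁻¹ * v * PP w ∈ Iw0 O K := by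
  obtain ⟨k, h1, rfl⟩ := Iw0_ex h
  obtain ⟨k', h2, -, -, e⟩ := PP_conj w k h1
  exact e ▸ gK_Iw0 h2

theorem PP_Iw1 {v : GL (Fin 2) K} (h : v ∈ Iw1 O K) : (PP w)⁻¹ * v * PP w ∈ Iw1 O K := by
  obtain ⟨k, h1, h0, rfl⟩ := Iw1_ex h
  obtain ⟨k', h2, h3, h4, e⟩ := PP_conj w k h1
  exact e ▸ gK_Iw1 h2 (by rw [h3, h4, ← neg_sub]; exact neg_mem h0)

/-- the affine action on the lower neighbours -/
theorem affine (k : GL (Fin 2) O) (h : k 1 0 ∈ maximalIdeal O) {b b' : O}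
    (e : b' * k 1 1 - (k 0 0 * b + k 0 1) ∈ maximalIdeal O) :
    (nn K b' * dg w.ϖ)⁻¹ * gK K k * (nn K b * dg w.ϖ) ∈ KK O K ⊔ Zl K := by
  obtain ⟨p, hp, e'⟩ := w.irr
  have := (conj_mem w.inj hp e' ((nO b')⁻¹ * k * nO b)).2 (by
    convert sub_mem (neg_mem e) (Ideal.mul_mem_left _ (b' * b) h) using 1
    simp [nO, Matrix.mul_apply, Fin.sum_univ_two, Matrix.vecMul, dotProduct]
    ring)
  simpa [nn_eq, mul_assoc] using this

end mat

section lev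

variable {w : T.Lc O K} {B : Subgroup G} {V V' : Subgroup (GL (Fin 2) K)} (hB : B ∈ T.Lev)

include hB

theorem split {k : G} (h : k ∈ w.set V B) : ∃ v ∈ V, ∀ (V' : Subgroup (GL (Fin 2) K)) g g',
    g'⁻¹ * v * g ∈ V' ⊔ Zl K → (w.ι g')⁻¹ * k * w.ι g ∈ w.set V' B := by
  obtain ⟨h1, h2⟩ := (mem_set hB).1 h
  obtain ⟨v, hv, h3⟩ := Gn.mem_sup_zl.1 h2
  refine ⟨v, hv, fun V' g g' h4 => (mem_set hB).2 ⟨by simpa [aw_iota] using h1, ?_⟩⟩
  have := mul_mem h4 (Subgroup.mem_sup_right (S := V') h3)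
  rw [mul_assoc _ g, Gn.zl_comm h3 g] at this
  simpa [w.πι, mul_assoc] using this

theorem set_mono (h : V ≤ V') : w.set V B ≤ w.set V' B := fun k hk => by
  obtain ⟨v, hv, h1⟩ := split hB hk
  simpa using h1 V' 1 1 (by simpa using Subgroup.mem_sup_left (h hv))

theorem iota_mem {g : GL (Fin 2) K} (h : g ∈ V ⊔ Zl K) : w.ι g ∈ w.set V B :=
  (mem_set hB).2 ⟨by rw [aw_iota]; exact one_mem _, by rwa [w.πι]⟩

theorem iota_mem' {g : GL (Fin 2) K} (h : g ∈ V) : w.ι g ∈ w.set V B :=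
  iota_mem hB (Subgroup.mem_sup_left h)

theorem set_eq (h : w.At V B) : w.set V B = B :=
  Subgroup.ext fun _ => (mem_set hB).trans (At_mem h hB).symm

theorem set_le {U : Subgroup G} (hU : U ∈ T.Lev) (h : w.At V U) (le : B ≤ U) : w.set V B ≤ U :=
  fun _ hk => (At_mem h hU).2 ⟨le ((mem_set hB).1 hk).1, ((mem_set hB).1 hk).2⟩

theorem set_conj {g : GL (Fin 2) K} (h : ∀ v ∈ V, g⁻¹ * v * g ∈ V') {k : G} (hk : k ∈ w.set V B) :
    (w.ι g)⁻¹ * k * w.ι g ∈ w.set V' B := by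
  obtain ⟨v, hv, h1⟩ := split hB hk
  exact h1 V' g g (Subgroup.mem_sup_left (h v hv))

theorem set_PP (h : ∀ v ∈ V, (PP w)⁻¹ * v * PP w ∈ V) {k : G} (hk : k ∈ w.set V B) :
    w.ι (PP w) * k * (w.ι (PP w))⁻¹ ∈ w.set V B := by
  obtain ⟨v, hv, h1⟩ := split hB hk
  have := h1 V (PP w)⁻¹ (PP w)⁻¹ (by
    have e := Gn.zl_conj (PP_sq w) ((PP w)⁻¹ * v * PP w)⁻¹
    have e1 : (PP w)⁻¹⁻¹ * v * (PP w)⁻¹ = (PP w)⁻¹ * v * PP w := by
      rw [inv_inv] at e ⊢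
      calc PP w * v * (PP w)⁻¹ = PP w * PP w * ((PP w)⁻¹ * v * PP w) * (PP w * PP w)⁻¹ := by group
        _ = _ := by rw [← Gn.zl_comm (PP_sq w), mul_inv_cancel_right]
    exact e1 ▸ Subgroup.mem_sup_left (h v hv))
  simpa using this

theorem lev_bruhat {k : G} (hk : k ∈ w.set (KK O K) B) : k ∈ w.set (Iw0 O K) B ∨
    ∃ b : O, (w.ι (nn K b * ss O K))⁻¹ * k ∈ w.set (Iw0 O K) B := by
  obtain ⟨v, hv, h1⟩ := split hB hk
  refine (bruhat hv).imp (fun h => ?_) fun ⟨b, h⟩ => ⟨b, ?_⟩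
  · simpa using h1 _ 1 1 (by simpa using Subgroup.mem_sup_left h)
  · simpa only [map_one, mul_one] using
      h1 _ 1 _ (by simpa only [mul_one] using Subgroup.mem_sup_left h)

theorem lev_dO {k : G} (hk : k ∈ w.set (Iw0 O K) B) :
    ∃ c : Oˣ, (w.ι (dO K c))⁻¹ * k ∈ w.set (Iw1 O K) B := by
  obtain ⟨v, hv, h1⟩ := split hB hk
  obtain ⟨k', h2, rfl⟩ := Iw0_ex hv
  obtain ⟨⟨a, ha⟩, ⟨d, hd⟩⟩ := diag_unit h2
  refine ⟨a * d⁻¹, ?_⟩
  have := h1 (Iw1 O K) 1 (dO K (a * d⁻¹)) (Subgroup.mem_sup_left (by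
    rw [mul_one, dO_eq, ← map_inv, ← map_mul]
    refine gK_Iw1 ?_ ?_
    · simpa [eO, Matrix.mul_apply, Fin.sum_univ_two] using h2
    · simp [eO, Matrix.mul_apply, Fin.sum_univ_two, ← ha, ← hd, mul_assoc]))
  simpa using this

theorem lev_shift {k : G} (hk : k ∈ w.set (Iw1 O K) B) : ∃ b₀ : O, ∀ b b' : O,
    b' - (b + b₀) ∈ maximalIdeal O →
      (w.ι (nn K b' * dg w.ϖ))⁻¹ * (k * w.ι (nn K b * dg w.ϖ)) ∈ w.set (KK O K) B := by
  obtain ⟨v, hv, h1⟩ := split hB hk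
  obtain ⟨k', h2, h3, rfl⟩ := Iw1_ex hv
  obtain ⟨-, ⟨d, hd⟩⟩ := diag_unit h2
  refine ⟨k' 0 1 * (d⁻¹ : Oˣ), fun b b' h => ?_⟩
  rw [← mul_assoc]
  refine h1 _ _ _ (affine w k' h2 ?_)
  convert sub_mem (Ideal.mul_mem_right (k' 1 1) _ h) (Ideal.mul_mem_right b _ h3) using 1
  have : ((d⁻¹ : Oˣ) : O) * k' 1 1 = 1 := by rw [← hd, Units.inv_mul]
  linear_combination (k' 0 1) * this

end lev

end Vale.Agent.P022K.FI.X1
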