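import Vale.Agent.P022K.FI.X1W
import Vale.Agent.P022K.FI.X1G
import Vale.Agent.P022K.FI.X1K
import Vale.Agent.P022K.FI.X0C

/-!
# P022K FI, row X0, file N: the nodal reduction at level `Iw0`; the row `TWL`
-/

set_option autoImplicit false
set_option linter.unusedSectionVars false
set_option linter.style.haveILetI false

open UpperHalfPlane IsLocalRing Polynomial
open scoped MatrixGroups

noncomputable section

namespace Vale.Agent.P022K.FI.X1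

open Vale.Agent.P022K.Sh Vale.Agent.P022.H218.L3 Vale.Agent.P019P P025H746 Hk Vale.Agent.P027M

variable {G0 G : Type} [Group G0] [Group G] {T : Tw G0 G}
  {O K : Type} [CommRing O] [IsDomain O] [IsDiscreteValuationRing O] [Field K] [Algebra O K]
  {w : T.Lc O K} {p : ℕ} [Fact p.Prime] {D : Emb w p} {U V : Subgroup G} {τ : ℍ} {x y : G}
  {v : NV (Cx D.ι) (LW T)}

/-- the value of a function of level `V` -/
def evF {hT : T.Ok} (x : G) (φ : SR hT) (hφ : Inv V φ.1) : Kf T V x := ⟨φ.1 x, RU_mem (sr_mem φ hφ) x⟩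

theorem inv_pow {hT : T.Ok} {φ : SR hT} (h : Inv V φ.1) (n : ℕ) : Inv V (φ ^ n).1 :=
  inv_Rt.2 fun u hu => by rw [map_pow, inv_Rt.1 h u hu]

variable [∀ x, CFF ℂ (KX T U x)] (h : Ctx D U)

/-- the valuation of good reduction -/
def nmF (x : G) : NV (Cx D.ι) (Kf T U x) := h.nm x

theorem nmF_eq {ψ : SR h.ok} (hψ : Inv U ψ.1) {f : Kf T U x} (e : Kf.val f = ψ.1 x) :
    nmF h x f = h.nv x (toR h ψ hψ) := congrArg (h.nm x) (Subtype.ext e)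

theorem inv_I {ψ : SR h.ok} (hψ : Inv U ψ.1) : Inv (w.set (Iw0 O K) U) ψ.1 :=
  fun z k hk => hψ z k (lev_of h Iw0_le hk)

theorem inv_PP {φ : SR h.ok} (hφ : Inv (w.set (Iw0 O K) U) φ.1) :
    Inv (w.set (Iw0 O K) U) (Rt (w.ι (PP w))⁻¹ φ).1 := inv_Rt.2 fun k hk => by
  rw [Rt_Rt]
  refine (Rt_eq hφ ?_).symm
  rw [inv_inv, ← mul_assoc]
  exact set_PP h.lev (fun _ hv => PP_Iw0 w hv) hk

theorem Ev_ss {ψ : SR h.ok} (hψ : Inv U ψ.1) (x : G) : Ev (x * w.ι (ss O K)) ψ = Ev x ψ :=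
  Ev_mul hψ x (h.mx.1 _ ss_mem)

theorem Ev_ssP {hT : T.Ok} (ψ : SR hT) (x : G) :
    Ev (x * w.ι (ss O K)) (Rt (w.ι (PP w)) ψ) = Ev (x * w.ι (Sh.dg w.ϖ)) ψ := by
  rw [Ev_Rt, mul_assoc, ← map_mul, ss_PP]

theorem Rt_PP {hT : T.Ok} (φ : SR hT) : Rt (w.ι (PP w)) (Rt (w.ι (PP w))⁻¹ φ) = φ := by
  rw [Rt_Rt, mul_inv_cancel, Rt_one]

include h in
theorem rel_st (x : G) : T.Rel U (x * st w) (x * w.ι (Sh.dg w.ϖ)) := by
  have := rel_sa h.sa h.lev (x * st w) (g := (tt w)⁻¹ * Sh.dg w.ϖ) (by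
    rw [map_mul, map_inv, Gn.dg_eq, tt, Lv.det_d2, Lv.det_d2, one_mul, mul_one, inv_mul_cancel])
  rwa [mul_assoc, ← map_mul, mul_inv_cancel_left] at this

/-- the second degeneracy map -/
def pS (x : G) : Kf T U (x * st w) →ₐ[Cx D.ι] K0 w U x :=
  { (IntermediateField.inclusion (show KX T U (x * st w) ≤ KX T (w.set (Iw0 O K) U) x from
      fun f hf => by
        obtain ⟨ψ, h1, h2⟩ := ex_SR (hT := h.ok) h.lev (⟨f, hf⟩ : Kf T U (x * st w))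
        rw [show f = _ from h2.trans (congrArg Subtype.val (Ev_PP h h1 x)).symm]
        exact RU_mem (sr_mem _ (PP_inv h h1)) x)).toRingHom with
    commutes' := fun _ => rfl }

theorem pS_val (f : Kf T U (x * st w)) : Kf.val (pS h x f) = Kf.val f := rfl

theorem pS_eq {ψ : SR h.ok} (hψ : Inv U ψ.1) {f : Kf T U (x * st w)}
    (e : Kf.val f = ψ.1 (x * st w)) : Kf.val (pS h x f) = (Rt (w.ι (PP w)) ψ).1 x :=
  e.trans (congrArg Subtype.val (Ev_PP h hψ x)).symm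

variable (l : Vl D U v τ)

include l

theorem pw (o : Ord w D.e τ y) {ψ : SR h.ok} (hψ : Inv U ψ.1) (h1 : v (Ev (y * st w) ψ) ≤ 1) :
    ∃ χ : SR h.ok, Inv U χ.1 ∧ v (Ev y χ) ≤ 1 ∧ v (Ev (y * st w) ψ - Ev y χ ^ qq O) < 1 := by
  obtain ⟨g, h2, h3⟩ := (l y o).pw1 _ (RU_mem (sr_mem ψ hψ) _) h1
  obtain ⟨χ, h4, h5⟩ := ex_SR (hT := h.ok) h.lev (⟨g, h2⟩ : Kf T U y)
  obtain rfl : g = Ev y χ := Subtype.ext h5
  have h6 := I.le_one_of_sub h1 h3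
  exact ⟨χ, h4, by rwa [map_pow, pow_le_one_iff_of_nonneg (v.av.nonneg _) (qq_ne w)] at h6, h3⟩

theorem all_of (o : Ord w D.e τ y) (A : SR h.ok →+* SR h.ok) {μ : NV (Cx D.ι) (K0 w U x)}
    (hA : ∀ ψ (hψ : Inv U ψ.1), ∃ f, Kf.val f = (A ψ).1 x ∧ μ f = h.nv y (toR h ψ hψ))
    {φ : SR h.ok} (hφ : Inv (w.set (Iw0 O K) U) φ.1) (h0 : v (Ev y φ) ≤ 1)
    (h1 : v (Ev (y * w.ι (ss O K)) φ) ≤ 1) {f : K0 w U x} (e : Kf.val f = (A φ).1 x) : μ f ≤ 1 := by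
  obtain ⟨Q, h2, h3, h4⟩ := intg v y (lev_set h.ok h.lev Iw1_le Iw0_le) h.lev hφ fun k hk => by
    rcases lev_bruhat h.lev ((set_eq h.lev h.mx).ge hk) with hk | ⟨b, hb⟩
    · rwa [Ev_mul hφ y hk]
    · rw [← Ev_eq hφ y hb, map_mul, ← mul_assoc]
      exact (unip h (l y o) (Rt _ φ) b h1).1
  let E := ((algebraMap (LW T) Mer).comp (Ev x)).comp A
  refine root_le Kf.val μ (h2.map E) (fun n => ?_) ?_
  · obtain ⟨a, h5, h6⟩ := hA _ (h4 n).1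
    exact ⟨a, h5.trans (coeff_map E n).symm, h6.trans_le (v_Ev h (l y o) (h4 n).1 ▸ (h4 n).2)⟩
  · rw [e]
    exact (eval_map_apply E φ).trans (by rw [h3, map_zero])

variable (o : Ord w D.e τ x) [CFF ℂ (KX T (w.set (Iw0 O K) U) x)]
  {η η' : NV (Cx D.ι) (K0 w U x)} (a : Nv h.ok v x η) (a' : Nv h.ok v (x * w.ι (ss O K)) η')

include o a a'

theorem sd0 [Fact (w.set (Iw0 O K) U ≤ U)] :
    X0.Sd (IsScalarTower.toAlgHom (Cx D.ι) (Kf T U x) (K0 w U x)) (nmF h x) η η' (qq O) := by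
  have hI := lev_set (w := w) h.ok h.lev Iw1_le Iw0_le
  refine ⟨h.gv x, fun y => ?_, fun y => ?_, fun μ hμ => two_nv (Cx.exists_norm_eq D.ι)
    fun y h0 h1 => ?_, fun y hy => ?_, fun y hy => ?_⟩
  · obtain ⟨ψ, h1, h2⟩ := ex_SR (hT := h.ok) h.lev y
    rw [IsScalarTower.toAlgHom_apply, a ψ _ (inv_I h h1) ((Kf.val_alg y).trans h2),
      nmF_eq h h1 h2, v_Ev h (l x o) h1]
  · obtain ⟨ψ, h1, h2⟩ := ex_SR (hT := h.ok) h.lev y
    rw [IsScalarTower.toAlgHom_apply, a' ψ _ (inv_I h h1) ((Kf.val_alg y).trans h2),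
      nmF_eq h h1 h2, Ev_ss h h1, v_Ev h (l x o) h1]
  · obtain ⟨φ, h2, h3⟩ := ex_SR (hT := h.ok) hI y
    exact all_of h l o (RingHom.id _) (fun ψ hψ => ⟨_, Kf.val_alg (evF x ψ hψ),
      (hμ _).trans (nmF_eq h hψ rfl)⟩) h2 (a φ y h2 h3 ▸ h0) (a' φ y h2 h3 ▸ h1) h3
  · obtain ⟨φ, h2, h3⟩ := ex_SR (hT := h.ok) hI y
    obtain ⟨ψ, h4, h5⟩ := den h l o hI h2 (a φ y h2 h3 ▸ hy)
    refine ⟨evF x ψ h4, (a _ _ (inv_sub h2 (inv_I h h4)) (by rw [map_sub, h3]; rfl)).trans_lt ?_⟩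
    rw [map_sub]
    exact h5.lt
  · obtain ⟨ψ, h1, h2⟩ := ex_SR (hT := h.ok) h.lev y
    obtain ⟨χ, h3, h4, h5⟩ := pw h l (o_dg o w.ϖ) h1 (by
      rwa [Ev_st h h1, v_Ev h (l x o) h1, ← nmF_eq h h1 h2])
    refine ⟨evF x _ (PP_inv h h3), (a' _ _ (PP_inv h h3) rfl).trans_le (by rwa [Ev_ssP]),
      (a' _ _ (inv_sub (inv_I h h1) (inv_pow (PP_inv h h3) (qq O))) (by
        rw [map_sub, map_pow]
        exact congrArg (· - _) ((Kf.val_alg y).trans h2))).trans_lt ?_⟩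
    rwa [map_sub, map_pow, Ev_ssP, Ev_ss h h1, ← Ev_st h h1]

theorem sd1 : X0.Sd (pS h x) (nmF h (x * st w)) η' η (qq O) := by
  have hI := lev_set (w := w) h.ok h.lev Iw1_le Iw0_le
  haveI : Fact (w.set (Iw0 O K) U ≤ U) := ⟨lev_of h Iw0_le⟩
  have e1 : ∀ y, η (pS h x y) = nmF h _ y := fun y => by
    obtain ⟨ψ, h1, h2⟩ := ex_SR (hT := h.ok) h.lev y
    rw [a _ _ (PP_inv h h1) (pS_eq h h1 h2), nmF_eq h h1 h2, Ev_PP h h1, v_Ev h (l _ o.step) h1]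
  have r : T.Rel (w.set (Iw0 O K) U) x
      (x * w.ι (Sh.dg w.ϖ) * w.ι (ss O K) * (w.ι (PP w))⁻¹) := by
    have := rel_sa h.sa hI x (g := Sh.dg w.ϖ * ss O K * (PP w)⁻¹) (by
      simp [PP, det_ss])
    simpa only [map_mul, map_inv, mul_assoc] using this
  obtain ⟨η₂, a₂⟩ := ex_nv (hT := h.ok) hI r v
  have all : ∀ μ : NV (Cx D.ι) (K0 w U x), (∀ y, μ (pS h x y) = nmF h _ y) → μ = η' ∨ μ = η₂ :=
    fun μ hμ => two_nv (Cx.exists_norm_eq D.ι) fun y h0 h1 => by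
      obtain ⟨φ, h2, h3⟩ := ex_SR (hT := h.ok) hI y
      refine all_of h l (o_dg o w.ϖ) (Rt (w.ι (PP w))) (fun ψ hψ => ⟨_,
        pS_eq h hψ (f := evF _ ψ hψ) rfl, ((hμ _).trans (nmF_eq h hψ rfl)).trans
          (h.nv_rel (rel_st h x) _).symm⟩) (inv_PP h h2) ?_ ((a₂ φ y h2 h3).symm.trans_le h1)
        (by rwa [Rt_PP])
      rwa [← Ev_ssP, Rt_PP, ← a' φ y h2 h3]
  obtain rfl : η₂ = η := by
    refine ((sd0 h l o a a').all η₂ fun y => ?_).elim id fun e =>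
      (all η e1).elim (fun e' => e.trans e'.symm) Eq.symm
    obtain ⟨ψ, h1, h2⟩ := ex_SR (hT := h.ok) h.lev y
    rw [IsScalarTower.toAlgHom_apply, a₂ ψ _ (inv_I h h1) ((Kf.val_alg y).trans h2), nmF_eq h h1 h2, PP_eq, map_mul, map_inv,
      mul_inv_rev, inv_inv, ← mul_assoc, mul_assoc _ _ (w.ι (ss O K)), ← map_mul,
      show ss O K * ss O K = d2 (-1) (-1) from by
        rw [← mul_left_inj (d2 (-1) (-1)), mul_assoc, ← ss_inv, mul_inv_cancel, d2_mul]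
        simp [d2_one]]
    have o' : Ord w D.e τ (x * w.ι (Sh.dg w.ϖ) * w.ι (d2 (-1) (-1)) * (st w)⁻¹) :=
      ord_back ((o_dg o w.ϖ).right (w.πι _))
    rw [v_Ev h (l _ o') h1]
    refine h.nv_rel ?_ _
    have := rel_sa h.sa h.lev x (g := Sh.dg w.ϖ * d2 (-1) (-1) * (tt w)⁻¹) (by
      simp [Gn.dg_eq, tt, Lv.det_d2])
    simpa only [map_mul, map_inv, mul_assoc] using this
  refine ⟨h.gv _, fun y => ?_, e1, all, fun y hy => ?_, fun y hy => ?_⟩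
  · obtain ⟨ψ, h1, h2⟩ := ex_SR (hT := h.ok) h.lev y
    rw [a' _ _ (PP_inv h h1) (pS_eq h h1 h2), nmF_eq h h1 h2, Ev_ssP,
      v_Ev h (l _ (o_dg o w.ϖ)) h1, h.nv_rel (rel_st h x)]
  · obtain ⟨φ, h2, h3⟩ := ex_SR (hT := h.ok) hI y
    obtain ⟨ψ, h4, h5⟩ := den h l (o_dg o w.ϖ) hI (inv_PP h h2) (by
      rwa [← Ev_ssP, Rt_PP, ← a' φ y h2 h3])
    refine ⟨evF _ ψ h4, (a' _ _ (inv_sub h2 (PP_inv h h4)) (by
      rw [map_sub, h3, pS_eq h h4 rfl]; rfl)).trans_lt ?_⟩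
    rw [← Ev_ssP, Rt_PP] at h5
    rw [map_sub, Ev_ssP]
    exact h5.lt
  · obtain ⟨ψ, h1, h2⟩ := ex_SR (hT := h.ok) h.lev y
    obtain ⟨χ, h3, h4, h5⟩ := pw h l o h1 (by
      rwa [v_Ev h (l _ o.step) h1, ← nmF_eq h h1 h2])
    refine ⟨evF x _ (inv_I h h3), (a _ _ (inv_I h h3) rfl).trans_le h4,
      (a _ _ (inv_sub (PP_inv h h1) (inv_pow (inv_I h h3) (qq O))) (by
        rw [map_sub, map_pow, pS_eq h h1 h2]; rfl)).trans_lt ?_⟩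
    rwa [map_sub, map_pow, Ev_PP h h1]

omit l o a a'

variable (D) in
/-- **NODT** -/
theorem nodt : NODT D := fun U _ h _ _ _ l o _ _ _ a a' =>
  haveI : Fact (w.set (Iw0 O K) U ≤ U) := ⟨lev_of h Iw0_le⟩
  X0.nod (Cx.sph D.ι) (Cx.exists_norm_eq D.ι) (sd0 h l o a a') (sd1 h l o a a') (one_lt_qq w)

variable (D) in
/-- **TWL** -/
theorem twl : TWL D := twl_of (kum w) (nodt D) (galk D)

end Vale.Agent.P022K.FI.X1
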