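import Vale.Agent.P022K.FI.X1S
import Vale.Agent.P022K.FI.X1L
import Vale.Agent.P022K.FI.X1M
import Vale.Agent.P022K.FI.X1B

/-!
# P022K FI, row X0, file R: the pieces of `TWL`
-/

set_option autoImplicit false
set_option linter.unusedSectionVars false

open IntermediateField Module
open scoped MatrixGroups

noncomputable section

namespace Vale.Agent.P022K.FI.X1

open Vale.Agent.P022K.Sh Vale.Agent.P022.H218.L3 Vale.Agent.P019P P025H746 P025H492 Hk
  Vale.Agent.P027M.I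

variable {G0 G : Type} [Group G0] [Group G] {T : Tw G0 G}
  {O K : Type} [CommRing O] [IsDomain O] [IsDiscreteValuationRing O] [Field K] [Algebra O K]
  {w : T.Lc O K} {p : ℕ} [Fact p.Prime]

variable (w) in
/-- the relation for the functions of level `U` which are `n`-th powers -/
def TwF (θ : (G → Mer) → G → Mer) (c : Oˣ) (U : Subgroup G) (n : ℕ) : Prop :=
  ∀ f ∈ T.RU U, ∀ g : G → Mer, (∀ x, g x ≠ 0) → f = g ^ n → ∃ ψ ∈ T.RU U,
    θ (θ f) * f = rt (w.ι (dO K c)) (θ f) * rt (w.ι (dO K c⁻¹)) (θ f) * ψ ^ n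

variable (w) in
/-- **KUM**: from functions to classes -/
def KUM : Prop := T.Ok → ∀ σ θ, T.Sl σ θ → ∀ c : Oˣ, ∀ U ∈ T.Lev, w.At (Iw1 O K) U →
  ∀ (d : Cor U (dc U (w.ι (dO K c)) U) U) (d' : Cor U (dc U (w.ι (dO K c⁻¹)) U) U) (n : ℕ),
    0 < n → TwF w θ c U n → ∀ a a₁ a₂ : T.Hn n U, T.Ga θ n U a a₁ → T.Ga θ n U a₁ a₂ →
      a₂ - (T.hN n d a₁ + T.hN n d' a₁) + a = 0

variable (T) in
/-- the function field of the component of `x`, as a type without further instances -/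
def Kf (U : Subgroup G) (x : G) : Type := KX T U x

section kf

variable {U U' : Subgroup G} {x : G} {ι : ℂ ≃+* CS p}

instance : Field (Kf T U x) := inferInstanceAs (Field (KX T U x))

instance : Algebra (Cx ι) (Kf T U x) := inferInstanceAs (Algebra (Cx ι) (KX T U x))

instance [h : CFF ℂ (KX T U x)] : CFF (Cx ι) (Kf T U x) := h

/-- the underlying meromorphic function -/
def Kf.val : Kf T U x →+* Mer := algebraMap (KX T U x) Mer

instance [h : Fact (U ≤ U')] : Algebra (Kf T U' x) (Kf T U x) :=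
  RingHom.toAlgebra (IntermediateField.inclusion (Br.KX_mono (T := T) h.out x)).toRingHom

instance [Fact (U ≤ U')] : IsScalarTower (Cx ι) (Kf T U' x) (Kf T U x) :=
  IsScalarTower.of_algebraMap_eq fun _ => rfl

theorem Kf.val_alg [Fact (U ≤ U')] (y : Kf T U' x) :
    Kf.val (algebraMap (Kf T U' x) (Kf T U x) y) = Kf.val y := rfl

theorem Kf.val_mem (y : Kf T U x) : Kf.val y ∈ KX T U x := y.2

theorem Kf.val_inj : Function.Injective (Kf.val : Kf T U x → Mer) := Subtype.val_injective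

instance {B : Subgroup G} : Fact (w.set (Iw1 O K) B ≤ w.set (Iw0 O K) B) :=
  ⟨sup_le_sup_left (Subgroup.map_mono Iw1_le) _⟩

/-- `η` is the valuation `v` at the point `y`, on the component of `x` -/
def Nv (hT : T.Ok) (v : NV (Cx ι) (LW T)) (y : G) (η : NV (Cx ι) (Kf T U x)) : Prop :=
  ∀ (φ : SR hT) (f : Kf T U x), Inv U φ.1 → Kf.val f = φ.1 x → η f = v (Ev y φ)

end kf

variable (w) in
/-- the function field of level `Iw0` -/
abbrev K0 (B : Subgroup G) (x : G) : Type := Kf T (w.set (Iw0 O K) B) x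

variable (w) in
/-- the function field of level `Iw1` -/
abbrev K1 (B : Subgroup G) (x : G) : Type := Kf T (w.set (Iw1 O K) B) x

variable (D : Emb w p)

/-- **NODT**: the curves of level `Iw0` have nodal reduction with two components -/
def NODT : Prop := ∀ (U : Subgroup G) [∀ x, CFF ℂ (KX T U x)] (h : Ctx D U) v τ x, Vl D U v τ →
  Ord w D.e τ x → ∀ [CFF ℂ (KX T (w.set (Iw0 O K) U) x)] (η η' : NV (Cx D.ι) (K0 w U x)),
    Nv h.ok v x η → Nv h.ok v (x * w.ι (ss O K)) η' →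
    ∃ (t : K0 w U x) (_ : FiniteDimensional (Cx D.ι)⟮t⟯ (K0 w U x))
      (u : Fin 2 → WW (Cx D.ι) t), (u 0).1 = η ∧ (u 1).1 = η' ∧ (∀ u', ∃ i, u' = u i) ∧
      Full (Cx D.ι) t ∧ (∀ b b' : Br (Cx D.ι) t, b.w = b'.w → Glue b b' → b = b') ∧
      ∃ S : Finset (Br (Cx D.ι) t), Nodal (Cx D.ι) t S

/-- **GALK**: level `Iw1` over level `Iw0` is cyclic, tame and unramified -/
def GALK : Prop := T.Ok → ∀ B ∈ T.Lev, w.set (Iw0 O K) B ∈ T.Lev → w.set (Iw1 O K) B ∈ T.Lev →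
  T.Neat (w.set (Iw0 O K) B) → ∀ (x : G) [CFF ℂ (KX T (w.set (Iw0 O K) B) x)]
    [CFF ℂ (KX T (w.set (Iw1 O K) B) x)],
    ∃ (_ : FiniteDimensional (K0 w B x) (K1 w B x)) (_ : IsGalois (K0 w B x) (K1 w B x)),
      IsCyclic (K1 w B x ≃ₐ[K0 w B x] K1 w B x) ∧
      ((finrank (K0 w B x) (K1 w B x) : ℕ) : kC (Cx D.ι)) ≠ 0 ∧
      IsUnr (Cx D.ι) (K0 w B x) (K1 w B x) ∧
      ∀ g : K1 w B x ≃ₐ[K0 w B x] K1 w B x, ∃ e : Oˣ, ∀ φ ∈ T.RU (w.set (Iw1 O K) B), ∀ f,
        Kf.val f = φ x → Kf.val (g f) = φ (x * w.ι (dO K e))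

end Vale.Agent.P022K.FI.X1
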