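import Vale.Agent.P022K.FI.St3
import Vale.Agent.P022K.FI.Hk3
import Vale.Agent.P022K.QT.If

/-!
# P022K FI, row X0, file S: the rows for inertia at level `Iw1`
-/

set_option autoImplicit false
set_option linter.unusedSectionVars false

open UpperHalfPlane NumberField
open scoped MatrixGroups LaurentSeries

noncomputable section

namespace Vale.Agent.P022K.FI.X1

open Vale.Agent.P022 Vale.Agent.P022K.Sh Vale.Agent.P022.H218.L3 Vale.Agent.P019P P025H746 Hk Br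

section abstract

variable {G0 G : Type} [Group G0] [Group G] {T : Tw G0 G}
  {O K : Type} [CommRing O] [IsDomain O] [IsDiscreteValuationRing O] [Field K] [Algebra O K]
  {w : T.Lc O K} {p : ℕ} [Fact p.Prime] (D : Emb w p)

/-- the translations by the points of order `ϖ`, seen by the valuation `v` at `x` -/
def Tam (U : Subgroup G) (v : NV (Cx D.ι) (LW T)) (x : G) : Prop :=
  ∃ ρ : ℝ, 0 < ρ ∧ ρ ^ (qq O - 1) = ‖D.ι (D.e w.ϖ)‖ ∧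
    (∀ ψ ∈ T.RU U, ∀ (c : Oˣ) (f f₁ g : LW T), (f : Mer) = ψ (x * w.ι (Sh.dg w.ϖ)) →
      (f₁ : Mer) = ψ (x * w.ι (un 1 * Sh.dg w.ϖ)) →
      (g : Mer) = ψ (x * w.ι (un (algebraMap O K c) * Sh.dg w.ϖ)) → v f ≤ 1 → v (g - f) ≤ ρ ∧
        v (g - f - algebraMap (Cx D.ι) (LW T) (Cx.of D.ι (D.e (algebraMap O K c))) * (f₁ - f)) < ρ) ∧
    ∃ ψ ∈ T.RU U, ∃ f f₁ : LW T, (f : Mer) = ψ (x * w.ι (Sh.dg w.ϖ)) ∧
      (f₁ : Mer) = ψ (x * w.ι (un 1 * Sh.dg w.ϖ)) ∧ v f ≤ 1 ∧ v (f₁ - f) = ρ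

/-- one valuation with `Loc` and `Tam` at all ordinary points over `τ` -/
def RDT (U : Subgroup G) [∀ x, CFF ℂ (KX T U x)] : Prop :=
  ∀ τ x₀, Ord w D.e τ x₀ → ∃ v, ∀ x, Ord w D.e τ x → Loc D U v τ x ∧ Tam D U v x

/-- **TAMX**: the ordinary norm of a point is tame -/
def TAMX (hT : T.Ok) [Algebra K (Cx D.ι)] (A : AT (Cx D.ι) (LW T) (Gm hT) O K) : Prop :=
  A.Ok → BRA (Cx D.ι) → Dic hT D A → (∀ c, algebraMap K (Cx D.ι) c = Cx.of D.ι (D.e c)) →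
  ∀ LD : LTD (Cx D.ι) O K, LD.Ok A.ϖ →
    LD.f = PowerSeries.C (algebraMap K (Cx D.ι) A.ϖ) * PowerSeries.X + PowerSeries.X ^ qq O →
    ∀ U ∈ T.Lev, T.Neat U → w.At (KK O K) U → ∀ τ x, Ord w D.e τ x → ∀ θ b ε ν,
      A.Bas LD (plL hT D.ι τ) θ (w.π x) b ε → A.Gv (w.π x) ε ν → Tam D U ν x

variable (w) in
/-- the relation `(θ - c) (θ - c⁻¹) = 0` at level `Iw1` -/
def Twi (θ : (G → Mer) → G → Mer) (c : Oˣ) : Prop :=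
  ∀ U₀ ∈ T.Lev, T.Neat U₀ → w.At (KK O K) U₀ → ∀ U ∈ T.Lev, U ≤ U₀ → w.At (Iw1 O K) U →
    ∀ (d : Cor U (dc U (w.ι (dO K c)) U) U) (d' : Cor U (dc U (w.ι (dO K c⁻¹)) U) U) (n : ℕ),
      0 < n → n.Coprime (qq O) → ∀ a a₁ a₂ : T.Hn n U, T.Ga θ n U a a₁ → T.Ga θ n U a₁ a₂ →
        a₂ - (T.hN n d a₁ + T.hN n d' a₁) + a = 0

/-- **TWL**: inertia at level `Iw1`, for a tower -/
def TWL : Prop := T.Ok → w.SA →
  (∀ U ∈ T.Lev, T.Neat U → w.At (KK O K) U → ∀ [∀ x, CFF ℂ (KX T U x)], RD D U ∧ RDT D U) →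
  ∀ σ θ (s : T.Sl σ θ), Dec D.ι D.e 1 σ →
    (∀ (U : Subgroup G) [∀ x, CFF ℂ (KX T U x)] (h : Ctx D U), h.Ine (thU s h.lev)) →
    ∀ (l : ℂ) (c : Oˣ), ‖D.ι l‖ ^ (qq O - 1) = ‖D.ι (D.e w.ϖ)‖ →
      ‖D.ι (l - D.e (algebraMap O K c) * σ l)‖ < ‖D.ι l‖ → Twi w θ c

end abstract

/-- **TCH**: the tame character is onto -/
def TCH : Prop := ∀ (F : Type) [Field F] [NumberField F] (j : F →+* Qb) (w : Pl F)
  (P : Ideal (𝓞 Qb)), P.IsPrime → below j P = w.asIdeal → ∀ π : 𝓞 F, π ∈ w.asIdeal →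
  π ∉ w.asIdeal ^ 2 → ∀ m : ℕ, (m : 𝓞 F) ∉ w.asIdeal → ∀ l ζ : Qb, l ^ m = j π → ζ ^ m = 1 →
  ∃ g ∈ GK j, (∀ x : 𝓞 Qb, g • x - x ∈ P) ∧ g l = ζ * l

section rows

variable {F : Type} [Field F] [NumberField F] (X : QD F)

/-- **RTX**: the reduction data with tame valuations -/
def RTX : Prop := X.tw.AllL fun {O K} _ _ _ _ _ L => ∀ w, X.IsPl w L → ∀ (p : ℕ) [Fact p.Prime]
  (D : Emb L p), IsE X L D.e → ∀ U ∈ X.tw.Lev, X.tw.Neat U → L.At (KK O K) U →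
    ∀ [∀ x, CFF ℂ (KX X.tw U x)], RDT D U

/-- **TWX**: inertia at level `Iw1` -/
def TWX : Prop := X.tw.AllL fun {O _} _ _ _ _ _ L => ∀ w, X.IsPl w L → ∀ j io, X.Emb j io →
  ∀ P : Ideal (𝓞 Qb), P.IsPrime → below j P = w.asIdeal → ∃ c : GQ → Oˣ,
    (∀ g ∈ GK j, (∀ x : 𝓞 Qb, g • x - x ∈ P) → ∀ σ θ, Tw.Ext io g σ → X.tw.Sl σ θ →
      Twi L θ (c g)) ∧
    ∀ d : Oˣ, ∃ g ∈ GK j, (∀ x : 𝓞 Qb, g • x - x ∈ P) ∧
      (c g : O) - d ∈ IsLocalRing.maximalIdeal O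

end rows

end Vale.Agent.P022K.FI.X1
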