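import Vale.Agent.P022K.FI.X1S

/-!
# P022K FI, row X0, file V: the tame character, the rows TCH and TWX
-/

set_option autoImplicit false
set_option linter.unusedSectionVars false
set_option linter.style.haveILetI false

open NumberField IsDedekindDomain Polynomial
open scoped MatrixGroups

noncomputable section

namespace Vale.Agent.P022K.FI.X1

open Vale.Agent.P022 Vale.Agent.P022K.Sh Vale.Agent.P022K.F0 Hk H916

/-- roots of unity of order prime to `P` are distinct modulo `P` -/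
theorem root_eq {R : Type} [CommRing R] [IsDomain R] {P : Ideal R} (hP : P.IsPrime) {m : ℕ}
    (hm : (m : R) ∉ P) {x y : R} (hx : x ^ m = 1) (hy : y ^ m = 1) (h : x - y ∈ P) : x = y := by
  by_contra hne
  have h1 := geom_sum₂_mul x y m
  rw [hx, hy, sub_self, mul_eq_zero, or_iff_left (sub_ne_zero.2 hne)] at h1
  have h2 := congrArg (Ideal.Quotient.mk P) h1
  simp only [map_sum, map_mul, map_pow, Ideal.Quotient.eq.2 h, geom_sum₂_self, map_zero] at h2
  rw [← map_natCast (Ideal.Quotient.mk P), ← map_pow, ← map_mul,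
    Ideal.Quotient.eq_zero_iff_mem] at h2
  have m0 : m ≠ 0 := fun e => hm (by rw [e, Nat.cast_zero]; exact zero_mem _)
  have h3 := P.mul_mem_right y ((hP.mem_or_mem h2).resolve_left hm)
  rw [pow_sub_one_mul m0, hy] at h3
  exact hP.ne_top ((Ideal.eq_top_iff_one P).2 h3)

theorem card_roots {k : Type} [Field k] (m : ℕ) : Nat.card (nthRootsFinset m (1 : k)) ≤ m := by
  classical
  rw [Nat.card_eq_finsetCard, nthRootsFinset_def]
  exact (Multiset.toFinset_card_le _).trans (card_nthRoots m 1)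

/-- **TCH** -/
theorem tch : TCH := by
  intro F _ _ j w P hP hb π h1 h2 m hm l ζ hl hζ
  have m0 : 0 < m := Nat.pos_of_ne_zero fun e => hm (by rw [e, Nat.cast_zero]; exact zero_mem _)
  have hmP : (m : 𝓞 Qb) ∉ P := fun h => hm (by
    rw [← hb, below, Ideal.mem_comap, map_natCast]; exact h)
  have π0 : (π : F) ≠ 0 := fun e => h2 (by
    rw [RingOfIntegers.coe_eq_zero_iff.1 e]; exact zero_mem _)
  have l0 : l ≠ 0 := fun e => π0 (j.injective (by rw [← hl, e, zero_pow m0.ne', map_zero]))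
  have fx : ∀ g : GQ, (∀ x : 𝓞 Qb, g • x - x ∈ P) → ∀ y : Qb, y ^ m = 1 → g y = y := by
    intro g hg y hy
    let x : 𝓞 Qb := ⟨y, IsIntegral.of_pow m0 (hy ▸ isIntegral_one)⟩
    have hx : x ^ m = 1 := RingOfIntegers.ext hy
    exact congrArg (fun z : 𝓞 Qb => (z : Qb))
      (root_eq hP hmP (by rw [← smul_pow', hx, smul_one]) hx (hg x))
  have rt : ∀ g ∈ GK j, (g l / l) ^ m = 1 := fun g hg => by
    rw [div_pow, ← map_pow, hl, hg, div_self ((map_ne_zero j).2 π0)]
  let U : Subgroup GQ := GK j ⊓ (MulAction.stabilizer GQ l ⊓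
    ⨅ y : nthRootsFinset m (1 : Qb), MulAction.stabilizer GQ (y : Qb))
  have mU : ∀ u, u ∈ U ↔ u ∈ GK j ∧ u l = l ∧ ∀ y : Qb, y ^ m = 1 → u y = y := fun u => by
    simp only [U, Subgroup.mem_inf, Subgroup.mem_iInf, Subtype.forall, mem_nthRootsFinset m0]
    rfl
  haveI := Tw.alg_Qb
  obtain ⟨L, _, _, _, _, jL, ρ, D, hL, hker⟩ := exists_fld j U (by
      rw [Subgroup.coe_inf, Subgroup.coe_inf, Subgroup.coe_iInf]
      exact (isOpen_GK j).inter ((stabilizer_isOpen_of_isIntegral l).inter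
        (isOpen_iInter_of_finite fun y => stabilizer_isOpen_of_isIntegral _))) inf_le_left
    fun g hg u hu => by
      obtain ⟨u1, u2, u3⟩ := (mU u).1 hu
      refine (mU _).2 ⟨mul_mem (mul_mem hg u1) (inv_mem hg), ?_, fun y hy => ?_⟩
      · rw [AlgEquiv.mul_apply, AlgEquiv.mul_apply, ← div_mul_cancel₀ (g⁻¹ l) l0, map_mul u, u2,
          u3 _ (rt _ (inv_mem hg)), div_mul_cancel₀ _ l0, ← AlgEquiv.mul_apply, mul_inv_cancel,
          AlgEquiv.one_apply]
      · rw [AlgEquiv.mul_apply, AlgEquiv.mul_apply, u3 _ (by rw [← map_pow, hy, map_one]),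
          ← AlgEquiv.mul_apply, mul_inv_cancel, AlgEquiv.one_apply]
  obtain ⟨y, rfl⟩ := fixed jL (x := l) fun g => ((mU g).1 (hL ▸ g.2)).2.1
  have hq : w.asIdeal = (below jL P).comap (algebraMap (𝓞 F) (𝓞 L)) :=
    ((D.below_comap P).trans hb).symm
  let v : HeightOneSpectrum (𝓞 L) := ⟨below jL P, Ideal.comap_isPrime _ _, fun e => w.ne_bot (by
    rw [hq, e]
    exact Ideal.comap_bot_of_injective _ (FaithfulSMul.algebraMap_injective _ _))⟩
  haveI : v.asIdeal.LiesOver w.asIdeal := ⟨hq⟩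
  haveI := v.isPrime
  haveI := w.isPrime
  have h3 := Ideal.card_inertia_eq_ramificationIdxIn (G := L ≃ₐ[F] L) w.asIdeal v.asIdeal
  rw [Ideal.ramificationIdxIn_eq_ramificationIdx w.asIdeal v.asIdeal (L ≃ₐ[F] L),
    ← Ideal.ramificationIdx'_eq_ramificationIdx _ _ w.ne_bot] at h3
  have h4 := HeightOneSpectrum.valuation_liesOver L w v (π : F)
  rw [← h3, show algebraMap F L π = y ^ m from jL.injective (by rw [D.comp, map_pow, hl]),
    map_pow] at h4
  have h5 : m ≤ Nat.card (v.asIdeal.inertia (L ≃ₐ[F] L)) := by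
    have e0 : 0 < Nat.card (v.asIdeal.inertia (L ≃ₐ[F] L)) := Nat.card_pos
    generalize Nat.card (v.asIdeal.inertia (L ≃ₐ[F] L)) = e at *
    have a0 : w.valuation F (π : F) ≠ 0 := (Valuation.ne_zero_iff _).2 π0
    have b0 : v.valuation L y ≠ 0 := (Valuation.ne_zero_iff _).2 ((map_ne_zero jL).1 l0)
    have a1 := (w.valuation_lt_one_iff_mem (K := F) π).2 h1
    have a2 := mt (w.intValuation_le_pow_iff_mem π 2).1 h2
    rw [← w.valuation_of_algebraMap (K := F)] at a2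
    change ¬ w.valuation F (π : F) ≤ _ at a2
    change w.valuation F (π : F) < _ at a1
    rw [← WithZero.exp_log a0] at a1 a2 h4
    rw [← WithZero.exp_log b0, ← WithZero.exp_nsmul, ← WithZero.exp_nsmul, WithZero.exp_inj,
      nsmul_eq_mul, nsmul_eq_mul] at h4
    rw [WithZero.exp_le_exp] at a2
    rw [← WithZero.exp_zero, WithZero.exp_lt_exp] at a1
    generalize WithZero.log (w.valuation F (π : F)) = a at *
    generalize WithZero.log (v.valuation L y) = b at *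
    obtain rfl : a = -1 := by omega
    have b1 : b ≤ -1 := by
      by_contra h
      nlinarith [mul_nonneg (Int.natCast_nonneg m) (show 0 ≤ b by omega)]
    have : (m : ℤ) ≤ e := by nlinarith
    exact_mod_cast this
  choose g g1 g2 using fun σ : v.asIdeal.inertia (L ≃ₐ[F] L) => D.inertia_lift hP (τ := σ.1) σ.2
  let φ : v.asIdeal.inertia (L ≃ₐ[F] L) → nthRootsFinset m (1 : Qb) := fun σ =>
    ⟨(g σ : GQ) (jL y) / jL y, (mem_nthRootsFinset m0 1).2 (rt _ (g σ).2)⟩
  have inj : Function.Injective φ := fun σ τ e => by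
    have e1 : (g σ : GQ) (jL y) = (g τ : GQ) (jL y) := (div_left_inj' l0).1 (congrArg Subtype.val e)
    have e2 : ρ ((g τ)⁻¹ * g σ) = 1 := (hker _).2 ((mU _).2 ⟨((g τ)⁻¹ * g σ).2, by
      rw [Subgroup.coe_mul, AlgEquiv.mul_apply, e1, ← AlgEquiv.mul_apply, Subgroup.coe_inv,
        inv_mul_cancel, AlgEquiv.one_apply], fun z hz => by
      rw [Subgroup.coe_mul, AlgEquiv.mul_apply, fx _ (g2 σ) z hz]
      conv_lhs => rw [← fx _ (g2 τ) z hz, ← AlgEquiv.mul_apply, Subgroup.coe_inv, inv_mul_cancel,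
        AlgEquiv.one_apply]⟩)
    rw [map_mul, map_inv, g1, g1, inv_mul_eq_one] at e2
    exact Subtype.ext e2.symm
  obtain ⟨σ, hσ⟩ := (inj.bijective_of_nat_card_le ((card_roots m).trans h5)).2
    ⟨ζ, (mem_nthRootsFinset m0 1).2 hζ⟩
  exact ⟨g σ, (g σ).2, g2 σ, (div_eq_iff l0).1 (congrArg Subtype.val hσ)⟩

section loc

variable {p : ℕ} [Fact p.Prime]

theorem sub_lt {a b c : CS p} (h : ‖a - b‖ < 1) (h' : ‖c - b‖ < 1) : ‖a - c‖ < 1 := by
  rw [show a - c = (a - b) + -(c - b) by ring]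
  exact (IsUltrametricDist.norm_add_le_max _ _).trans_lt (max_lt h (by rwa [norm_neg]))

/-- the nearest root of unity -/
theorem near_root (f : Qb →+* CS p) {n : ℕ} (hn : 0 < n) {z : CS p} (h : ‖z ^ n - 1‖ < 1) :
    ∃ ζ : Qb, ζ ^ n = 1 ∧ ‖z - f ζ‖ < 1 := by
  by_contra hcon
  push Not at hcon
  have : NeZero n := ⟨hn.ne'⟩
  obtain ⟨ζ, hζ⟩ := HasEnoughRootsOfUnity.exists_primitiveRoot Qb n
  have e := congrArg (eval₂RingHom f z) (X_pow_sub_one_eq_prod hn hζ)
  simp only [map_sub, map_pow, map_one, map_prod, coe_eval₂RingHom, eval₂_X, eval₂_C] at e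
  rw [e, norm_prod] at h
  exact h.not_ge (Finset.one_le_prod fun a ha => hcon a ((mem_nthRootsFinset hn 1).1 ha))

variable {O K : Type} [CommRing O] [IsDomain O] [IsDiscreteValuationRing O] [Field K] [Algebra O K]
  [IsFractionRing O K] {E : K →+* CS p} (hE : ∀ c, ‖E c‖ ≤ 1 ↔ ig O c)

include hE

theorem lt_iff {a : O} : ‖E (algebraMap O K a)‖ < 1 ↔ a ∈ IsLocalRing.maximalIdeal O := by
  rw [IsLocalRing.mem_maximalIdeal, mem_nonunits_iff]
  constructor
  · intro h hu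
    obtain ⟨u, e⟩ := hu.exists_right_inv
    have h2 := congrArg (fun x => ‖E (algebraMap O K x)‖) e
    simp only [map_mul, map_one, norm_mul, norm_one] at h2
    exact (mul_lt_one_of_nonneg_of_lt_one_left (norm_nonneg _) h ((hE _).2 ⟨u, rfl⟩)).ne h2
  · intro h
    refine ((hE _).2 ⟨a, rfl⟩).lt_of_ne fun e => h ?_
    obtain ⟨b, hb⟩ := (hE (algebraMap O K a)⁻¹).1 (by rw [map_inv₀, norm_inv, e, inv_one])
    refine IsUnit.of_mul_eq_one b (IsFractionRing.injective O K ?_)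
    rw [map_mul, hb, map_one, mul_inv_cancel₀ fun e0 => by simp [e0] at e]

variable [Finite (IsLocalRing.ResidueField O)] (f : Qb →+* CS p)

theorem ex_root (d : Oˣ) : ∃ ζ : Qb, ζ ^ (qq O - 1) = 1 ∧ ‖E (algebraMap O K d) - f ζ‖ < 1 := by
  refine near_root f (Nat.sub_pos_of_lt Finite.one_lt_card) ?_
  rw [← map_pow, ← map_pow, ← map_one E, ← map_sub, ← map_one (algebraMap O K), ← map_sub,
    lt_iff hE, ← IsLocalRing.residue_eq_zero_iff, map_sub, map_one, sub_eq_zero,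
    ← Nat.card_units]
  exact congrArg Units.val ((map_pow (Units.map (IsLocalRing.residue O).toMonoidHom) d _).trans
    pow_card_eq_one')

theorem ex_unit {ζ : Qb} (h : ζ ^ (qq O - 1) = 1) : ∃ d : Oˣ, ‖E (algebraMap O K d) - f ζ‖ < 1 := by
  have m0 : 0 < qq O - 1 := Nat.sub_pos_of_lt Finite.one_lt_card
  choose s hs using IsLocalRing.surjective_units_map_of_local_ringHom (IsLocalRing.residue O)
    IsLocalRing.residue_surjective inferInstance
  choose z z1 z2 using ex_root hE f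
  let φ : (IsLocalRing.ResidueField O)ˣ → nthRootsFinset (qq O - 1) (1 : Qb) := fun a =>
    ⟨z (s a), (mem_nthRootsFinset m0 1).2 (z1 _)⟩
  have inj : Function.Injective φ := fun a b e => by
    have h1 := z2 (s a)
    rw [show z (s a) = z (s b) from congrArg Subtype.val e] at h1
    have h2 := sub_lt h1 (z2 (s b))
    rw [← map_sub, ← map_sub, lt_iff hE, ← IsLocalRing.residue_eq_zero_iff, map_sub,
      sub_eq_zero] at h2
    rw [← hs a, ← hs b]
    exact Units.ext h2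
  obtain ⟨a, ha⟩ := (inj.bijective_of_nat_card_le ((card_roots _).trans
    (Nat.card_units _).ge)).2 ⟨ζ, (mem_nthRootsFinset m0 1).2 h⟩
  exact ⟨s a, (show z (s a) = ζ from congrArg Subtype.val ha) ▸ z2 _⟩

end loc

section rows

variable {F : Type} [Field F] [NumberField F] (X : QD F)
  {O K : Type} [CommRing O] [IsDomain O] [IsDiscreteValuationRing O] [Field K] [Algebra O K]
  {L : X.tw.Lc O K} {w : Pl F} {p : ℕ} [Fact p.Prime]

/-- a global uniformiser has the norm of the local one -/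
theorem ex_pi (h : X.IsPl w L) (D : Emb L p) (he : IsE X L D.e) : ∃ π : 𝓞 F, π ∈ w.asIdeal ∧
    π ∉ w.asIdeal ^ 2 ∧ ‖D.ι (X.tc π)‖ = ‖D.ι (D.e L.ϖ)‖ := by
  obtain ⟨f, s, hf, hs, hπ, -⟩ := h
  have := L.ch
  have := L.fr
  have hE : ∀ c, ‖(D.ι.toRingHom.comp D.e) c‖ ≤ 1 ↔ ig O c := D.int
  obtain ⟨π, h1⟩ := w.intValuation_exists_uniformizer
  have h2 : w.intValuation π < 1 := by
    rw [h1, ← WithZero.exp_zero, WithZero.exp_lt_exp]
    omega
  have h0 : (π : F) ≠ 0 := fun e => by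
    rw [RingOfIntegers.coe_eq_zero_iff.1 e, map_zero] at h1
    exact WithZero.exp_ne_zero h1.symm
  have k : D.e (f (algebraMap F (Fw w) π)) = X.tc π := by
    obtain ⟨x, hx⟩ := (isUnit_alg h0).map (algebraMap (AF F) X.DA)
    refine he π x (Units.mk0 _ (by simpa using h0)) hx (Units.ext ?_)
    rw [hπ, hx, QD.cw, qmap_alg, hs, ev_alg]
    ext i j
    fin_cases i <;> fin_cases j <;> simp [d2_val, Matrix.algebraMap_matrix_apply]
  have h3 : Valued.v (algebraMap F (Fw w) π) = WithZero.exp (-1 : ℤ) := by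
    rw [v_alg, ← h1]
    exact w.valuation_of_algebraMap π
  refine ⟨π, (w.intValuation_lt_one_iff_mem π).1 h2, fun h => ?_, ?_⟩
  · have := (w.intValuation_le_pow_iff_mem π 2).2 h
    rw [h1, WithZero.exp_le_exp] at this
    omega
  obtain ⟨q, q1, q2⟩ := L.irr
  have n0 : 0 < ‖D.ι (D.e L.ϖ)‖ := by simp
  have n1 : 0 < ‖D.ι (X.tc π)‖ := by simpa using h0
  refine le_antisymm ?_ ?_
  · obtain ⟨y, y1, y2⟩ := Qx.sm_of hf (c := f (algebraMap F (Fw w) π)) (by
      rw [f.symm_apply_apply, h3, ← h1]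
      exact h2)
    rw [q1.maximalIdeal_eq, Ideal.mem_span_singleton] at y1
    obtain ⟨z, rfl⟩ := y1
    rw [← k, ← y2, map_mul, q2, map_mul, map_mul, norm_mul]
    exact mul_le_of_le_one_right n0.le ((D.int _).2 ⟨z, rfl⟩)
  · rw [← div_le_one n1, ← norm_div, ← map_div₀, ← k, ← map_div₀, D.int]
    obtain ⟨c, hc⟩ := f.surjective L.ϖ
    have c0 : Valued.v c ≠ 0 := (Valuation.ne_zero_iff _).2 fun e =>
      L.ϖ.ne_zero (by rw [← hc, e, map_zero])
    have c1 : ¬ Valued.v c⁻¹ ≤ 1 := fun h => by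
      obtain ⟨y, hy⟩ := (hf _).1 (mem_Ow.2 h)
      refine q1.not_isUnit (IsUnit.of_mul_eq_one y (IsFractionRing.injective O K ?_))
      rw [map_mul, hy, q2, map_inv₀, hc, map_one, mul_inv_cancel₀ L.ϖ.ne_zero]
    rw [← hc, ← map_div₀]
    refine (hf _).1 (mem_Ow.2 ?_)
    rw [map_inv₀, ← WithZero.exp_log c0, ← WithZero.exp_neg, ← WithZero.exp_zero,
      WithZero.exp_le_exp] at c1
    rw [map_div₀, h3, ← WithZero.exp_log c0, ← WithZero.exp_sub, ← WithZero.exp_zero,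
      WithZero.exp_le_exp]
    omega

/-- **TWX** from the rows -/
theorem twx_of (twl : X.tw.AllL fun {_ _} _ _ _ _ _ L => ∀ (p : ℕ) [Fact p.Prime] (D : Emb L p),
    TWL D) (noa : NOA) (left : X.tw.LEFT) (can : X.CAN) (ari : ARIX X) (rdx : RDX X)
    (rtx : RTX X) : TWX X := by
  intro O K _ _ _ _ _ L w hw j io hj P hP hb
  obtain ⟨p, _, D, -, he, ⟨n, n0, hn⟩, hp, h1⟩ := emb X (cmpx X) L w hw j io hj P hP hb
  have := L.fr
  have := L.fin
  have hE : ∀ c, ‖(D.ι.toRingHom.comp D.e) c‖ ≤ 1 ↔ ig O c := D.int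
  have m0 : 0 < qq O - 1 := Nat.sub_pos_of_lt Finite.one_lt_card
  obtain ⟨π, p1, p2, p3⟩ := ex_pi X hw D he
  obtain ⟨l, hl⟩ := IsAlgClosed.exists_pow_nat_eq (j π) m0
  have l1 : ‖D.ι (io l)‖ ^ (qq O - 1) = ‖D.ι (D.e L.ϖ)‖ := by
    rw [← norm_pow, ← map_pow, ← map_pow, hl, ← p3, ← hj, RingHom.comp_apply]
  have l0 : l ≠ 0 := fun e => by
    rw [e, map_zero, map_zero, norm_zero, zero_pow m0.ne'] at l1
    simpa using l1.symm
  have key : ∀ g : GQ, ∃ c : Oˣ, g ∈ GK j →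
      ‖D.ι (D.e (algebraMap O K c)) - D.ι (io (l / g l))‖ < 1 := fun g => by
    by_cases hg : g ∈ GK j
    · exact (ex_unit hE (D.ι.toRingHom.comp io) (ζ := l / g l) (by
        rw [div_pow, ← map_pow, hl, hg, ← hl, div_self (pow_ne_zero _ l0)])).imp fun _ h _ => h
    · exact ⟨1, fun h => absurd h hg⟩
  choose c hc using key
  obtain ⟨sa, rd⟩ := rdx O K L w hw p D he
  have inst : ∀ U ∈ X.tw.Lev, ∀ x, P019P.CFF ℂ (KX X.tw U x) := fun U hU x =>
    (X.tw.cf _ (X.ok.fu U hU x)).1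
  refine ⟨c, fun g hg hi σ θ hσ s => ?_, fun d => ?_⟩
  · obtain ⟨σ₁, e, dec⟩ := h1 1 one_pos g hg (by simpa only [pow_one] using hi)
    obtain ⟨θ₁, s₁⟩ := can.ex σ₁ (by
      rintro _ ⟨c, rfl⟩
      rw [← hj, RingHom.comp_apply, e, hg])
    obtain ⟨k1, k2⟩ := noa _ _ X.tw X.ok (Tw.pts_of X.ok X.tw.cf) (mul_row X.ok) (Oc.ff X.ok left)
      (cenx X) (cjx X) O K L D.e D.cmp (ari (sa_of X rdx) O K L w hw D.e) σ₁ θ₁ s₁ dec.fix
    have h2 := twl O K L p D X.ok sa (fun U hU nU mU _ =>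
      ⟨rd U hU nU mU, rtx O K L w hw p D he U hU nU mU⟩) σ₁ θ₁ s₁ dec (fun U _ h => by
        obtain ⟨th, t⟩ := k1 U h.lev
        refine h.ine s₁ ⟨dec.iso, dec.pow⟩ t (k2 0 (fun V hV nV mV th t => ?_) U h.lev h.neat h.mx
          th t)
        haveI := inst V hV
        exact Ctx.rigb ⟨X.ok, X.tw.cf, X.tw.gen, hV, nV, mV, sa, rd V hV nV mV⟩ s₁
          ⟨dec.iso, dec.pow⟩ t) (io l) (c g) l1 (by
      have g0 : g l ≠ 0 := (map_ne_zero g).2 l0
      have e1 : io l - D.e (algebraMap O K (c g)) * σ₁ (io l) =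
          -(σ₁ (io l) * (D.e (algebraMap O K (c g)) - io (l / g l))) := by
        rw [e, map_div₀, mul_sub, mul_div_cancel₀ _ ((map_ne_zero io).2 g0)]
        ring
      rw [e1, map_neg, norm_neg, map_mul, norm_mul, dec.iso, map_sub]
      exact mul_lt_of_lt_one_right (by simpa using l0) (hc g hg))
    intro U₀ hU₀ n₀ m₀ U hU le mU d d' n hn hq a a₁ a₂ r₁ r₂
    have t := (chg X.ok io can.mod (fun σ e => can.ex σ (by
      rintro _ ⟨c, rfl⟩
      rw [← hj, RingHom.comp_apply, e])) hU (n₀.mono le) s s₁ fun a =>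
        (hσ a).trans (e a).symm).2 n hn
    exact h2 U₀ hU₀ n₀ m₀ U hU le mU d d' n hn hq a a₁ a₂ (t _ _ r₁) (t _ _ r₂)
  · obtain ⟨ζ, z1, z2⟩ := ex_root hE (D.ι.toRingHom.comp io) d
    have z0 : ζ ≠ 0 := fun e => by simp [e, m0.ne'] at z1
    obtain ⟨g, g1, g2, g3⟩ := tch F j w P hP hb π p1 p2 (qq O - 1) (fun h => by
      rw [← hb, below, Ideal.mem_comap, map_natCast, Nat.cast_sub (by omega), hn, Nat.cast_pow,
        Nat.cast_one] at h
      have h2 : (p : 𝓞 Qb) ∈ P := (hp _).1 (by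
        rw [show ((p : 𝓞 Qb) : Qb) = p from rfl, map_natCast, map_natCast]
        exact CS.norm_p_lt p)
      exact hP.ne_top ((Ideal.eq_top_iff_one P).2 (by
        simpa using sub_mem (P.pow_mem_of_mem h2 n n0) h))) l ζ⁻¹ hl (by rw [inv_pow, z1, inv_one])
    refine ⟨g, g1, g2, (lt_iff hE).1 ?_⟩
    have h2 := hc g g1
    rw [g3, mul_comm, ← div_div, div_self l0, div_inv_eq_mul, one_mul] at h2
    rw [map_sub, map_sub]
    exact sub_lt h2 z2

end rows

end Vale.Agent.P022K.FI.X1
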