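import Vale.Agent.P022K.FI.X1J

/-!
# P022K FI, row X0, file W: `TWL` from its pieces
-/

set_option autoImplicit false
set_option linter.unusedSectionVars false
set_option linter.style.haveILetI false

open UpperHalfPlane IsLocalRing
open scoped MatrixGroups

noncomputable section

namespace Vale.Agent.P022K.FI.X1

open Vale.Agent.P022K.Sh Vale.Agent.P022.H218.L3 Vale.Agent.P019P P025H746 Hk Vale.Agent.P027M

variable {G0 G : Type} [Group G0] [Group G] {T : Tw G0 G}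
  {O K : Type} [CommRing O] [IsDomain O] [IsDiscreteValuationRing O] [Field K] [Algebra O K]
  {w : T.Lc O K} {p : ℕ} [Fact p.Prime] {D : Emb w p} {U V : Subgroup G} {τ : ℍ} {x y : G}
  {v : NV (Cx D.ι) (LW T)} {σ : ℂ ≃+* ℂ} {θ : (G → Mer) → G → Mer} {hT : T.Ok}

theorem ex_SR (hV : V ∈ T.Lev) (f : Kf T V x) : ∃ φ : SR hT, Inv V φ.1 ∧ Kf.val f = φ.1 x := by
  obtain ⟨φ, h1, h2, -⟩ := Tw.ex_RU x f.val_mem
  exact ⟨mkS hT hV ⟨φ, h1⟩, h1.2, h2.symm⟩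

theorem ex_nv (hV : V ∈ T.Lev) (r : T.Rel V x y) (v : NV (Cx D.ι) (LW T)) :
    ∃ η : NV (Cx D.ι) (Kf T V x), Nv hT v y η := by
  obtain ⟨γ, u, hu, rfl⟩ := r
  exact ⟨I.pullNV (((T.act γ : Mer →+* Mer).comp Kf.val).codRestrict (LW T) fun f =>
    Br.act_LW hT (KX_le hT hV x f.val_mem) γ) (s := RingEquiv.refl _)
    (fun c => Subtype.ext ((T.act γ).commutes c)) (fun _ => rfl) v,
    fun φ f hφ e => congrArg v (Subtype.ext ((congrArg (T.act γ) e).trans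
      (Tw.RU_val (sr_mem φ hφ) γ x hu).symm))⟩

variable (x) in
/-- `g` is induced by `Θ` -/
def Ac (g : Kf T V x → Kf T V x) (Θ : SR hT → SR hT) : Prop :=
  ∀ φ f, Inv V φ.1 → Kf.val f = φ.1 x → Kf.val (g f) = (Θ φ).1 x

theorem ex_ac (hV : V ∈ T.Lev) (Θ : SR hT →+* SR hT) (h1 : ∀ φ, Inv V φ.1 → Inv V (Θ φ).1)
    (h2 : ∀ ψ, Inv V ψ.1 → ∃ φ, Inv V φ.1 ∧ Θ φ = ψ)
    (k : ∀ φ, Inv V φ.1 → φ.1 x = 0 → (Θ φ).1 x = 0) : ∃ g : Kf T V x ≃+* Kf T V x, Ac x g Θ := by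
  choose r r1 r2 using ex_SR (hT := hT) (x := x) hV
  let g : Kf T V x → Kf T V x := fun f => ⟨(Θ (r f)).1 x, RU_mem (sr_mem _ (h1 _ (r1 f))) x⟩
  have a : Ac x g Θ := fun φ f hφ e => sub_eq_zero.1 (by
    have := k _ (inv_sub (r1 f) hφ) (sub_eq_zero.2 ((r2 f).symm.trans e))
    rwa [map_sub] at this)
  let s : Kf T V x →+* Kf T V x :=
    { toFun := g
      map_one' := Kf.val_inj ((a 1 1 (fun _ _ _ => rfl) rfl).trans (by rw [map_one]; rfl))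
      map_zero' := Kf.val_inj ((a 0 0 (fun _ _ _ => rfl) rfl).trans (by rw [map_zero]; rfl))
      map_mul' := fun f f' => Kf.val_inj ((a (r f * r f') _ (inv_mul (r1 f) (r1 f'))
        (by rw [map_mul, r2, r2]; rfl)).trans (by rw [map_mul]; rfl))
      map_add' := fun f f' => Kf.val_inj ((a (r f + r f') _ (add_mem (sr_mem _ (r1 f))
        (sr_mem _ (r1 f'))).2 (by rw [map_add, r2, r2]; rfl)).trans (by rw [map_add]; rfl)) }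
  refine ⟨RingEquiv.ofBijective s ⟨s.injective, fun f => ?_⟩, a⟩
  obtain ⟨φ, h3, h4⟩ := h2 _ (r1 f)
  exact ⟨⟨φ.1 x, RU_mem (sr_mem _ h3) x⟩, Kf.val_inj ((a φ _ h3 rfl).trans (h4 ▸ (r2 f).symm))⟩

theorem Rt_one (φ : SR hT) : Rt 1 φ = φ :=
  Subtype.ext (_root_.funext fun x => congrArg φ.1 (mul_one x))

theorem inv_dO (hU : U ∈ T.Lev) (e : Oˣ) {φ : SR hT} (h : Inv (w.set (Iw1 O K) U) φ.1) :
    Inv (w.set (Iw1 O K) U) (Rt (w.ι (dO K e)) φ).1 := inv_Rt.2 fun k hk => by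
  rw [Rt_Rt]
  refine (Rt_eq h ?_).symm
  rw [← mul_assoc]
  exact set_conj hU (fun _ hv => Iw1_norm (dO_Iw0 e) hv) hk

theorem Rt_dO (e e' : Oˣ) (φ : SR hT) :
    Rt (w.ι (dO K e)) (Rt (w.ι (dO K e')) φ) = Rt (w.ι (dO K (e * e'))) φ := by
  rw [Rt_Rt, dO_mul, map_mul]

theorem Rt_dO' {e e' : Oˣ} (h : e * e' = 1) (φ : SR hT) :
    Rt (w.ι (dO K e)) (Rt (w.ι (dO K e')) φ) = φ := by
  rw [Rt_dO, h, dO_one, map_one, Rt_one]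

theorem set_set (hV : V ∈ T.Lev) {W : Subgroup (GL (Fin 2) K)} (h : w.At W V) :
    w.set W (w.set (KK O K) V) = V := Subgroup.ext fun g => by
  rw [Lv.mem_set (Lv.set_KK hV), Lv.mem_set hV, Lv.At_mem h hV (g := g), Lv.pi_aw,
    Lv.aw_of w (Lv.pi_aw w g)]
  simp only [one_mem, and_true]

variable (w) in
/-- the corrected automorphism -/
def Tc (s : T.Sl σ θ) (c : Oˣ) : SR hT →+* SR hT := (Rt (w.ι (dO K c⁻¹))).comp (Th s)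

theorem Tc_eq (s : T.Sl σ θ) (c : Oˣ) (φ : SR hT) :
    Tc w s c φ = Rt (w.ι (dO K c⁻¹)) (Th s φ) := rfl

theorem Tc_inv (s : T.Sl σ θ) {c : Oˣ} (hU : U ∈ T.Lev) (hV : w.set (Iw1 O K) U ∈ T.Lev)
    {φ : SR hT} (h : Inv (w.set (Iw1 O K) U) φ.1) : Inv (w.set (Iw1 O K) U) (Tc w s c φ).1 :=
  inv_dO hU _ (Th_inv s hV h)

theorem v_Th (s : T.Sl σ θ) (hσ : ∀ c, ‖D.ι (σ c)‖ = ‖D.ι c‖) (y : G) (a : ℂ) :
    v (Ev y (Th s (algebraMap ℂ (SR hT) a))) = ‖D.ι a‖ := by rw [Th_cst, v_cst, hσ]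

theorem Nv.down [le : Fact (V ≤ U)] (hU : U ∈ T.Lev) {η : NV (Cx D.ι) (Kf T U x)}
    {μ : NV (Cx D.ι) (Kf T V x)} (a : Nv hT v y η) (b : Nv hT v y μ) (f : Kf T U x) :
    μ (algebraMap _ _ f) = η f := by
  obtain ⟨ψ, h1, h2⟩ := ex_SR (hT := hT) hU f
  exact (b ψ _ (fun z k hk => h1 z k (le.out hk)) h2).trans (a ψ f h1 h2).symm

theorem dvd_ord (hT : T.Ok) (hV : V ∈ T.Lev) (ne : T.Neat V) [CFF ℂ (KX T V x)] {f : Kf T V x}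
    (f0 : f ≠ 0) {g : Mer} {n : ℕ} (e : Kf.val f = g ^ n) (P : Plk (Cx D.ι) (Kf T V x)) :
    (n : ℤ) ∣ ord P f := by
  obtain ⟨_, pt, hp⟩ := T.cf _ (hT.fu _ hV x)
  obtain ⟨τ, rfl⟩ := hp.onto P
  exact MOrd.dvd_pow (τ := τ) (f := g) (e ▸ hp.ord (ne x) τ f f0)

variable [∀ x, CFF ℂ (KX T U x)] (h : Ctx D U)

include h in
theorem ordx {W : Subgroup (GL (Fin 2) K)} (hV : w.set W U ∈ T.Lev) (x : G) :
    ∃ τ y, Ord w D.e τ y ∧ T.Rel (w.set W U) x y := by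
  obtain ⟨τ, x₀, o, r⟩ := h.ex_ord x
  obtain ⟨γ, u, hu, rfl⟩ := r.symm
  obtain ⟨k, -, hk⟩ := split h.lev ((set_eq h.lev h.mx).ge hu)
  refine ⟨τ, _, o_dg o k.det, Tw.Rel.symm ((rel_sa h.sa hV _ (g := (Sh.dg k.det)⁻¹ * k) (by
    rw [map_mul, map_inv, Gn.dg_eq, Lv.det_d2, mul_one, inv_mul_cancel])).trans
      ⟨γ, _, hk W 1 k (by simp), by simp [mul_assoc]⟩)⟩

include h in
theorem rel_sq (hV : V ∈ T.Lev) (e : Oˣ) (x : G) : T.Rel V x (x * w.ι (dO K (e * e))) := by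
  let a : Kˣ := Units.map (algebraMap O K).toMonoidHom e
  refine (rel_sa h.sa hV x (g := d2 a a⁻¹) (by rw [Lv.det_d2, mul_inv_cancel])).trans
    ⟨1, w.ι (d2 a a), Br.Z_le hV (w.cen _ (mem_Zl.2 ⟨a, rfl⟩)), ?_⟩
  rw [map_one, one_mul, mul_assoc, ← map_mul, d2_mul, inv_mul_cancel, dO, Gn.dg_eq, map_mul]

theorem ex_deck (e : Oˣ) (x : G) : ∃ g : K1 w U x ≃ₐ[K0 w U x] K1 w U x,
    Ac x g (Rt (hT := h.ok) (w.ι (dO K (e * e)))) := by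
  have hI := lev_set (w := w) h.ok h.lev Iw1_le Iw0_le
  have hV := lev_set (w := w) h.ok h.lev le_rfl (Iw1_le.trans Iw0_le)
  obtain ⟨g, hg⟩ := ex_ac (hT := h.ok) (x := x) hV (Rt (w.ι (dO K (e * e))))
    (fun φ => inv_dO h.lev _) (fun ψ hψ => ⟨_, inv_dO h.lev (e * e)⁻¹ hψ,
      Rt_dO' (mul_inv_cancel _) ψ⟩) fun φ hφ => (Tw.RU_zero (sr_mem φ hφ) (rel_sq h hV e x)).2
  refine ⟨AlgEquiv.ofRingEquiv (f := g) fun y => Kf.val_inj ?_, fun φ f a b => hg φ f a b⟩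
  obtain ⟨ψ, h1, h2⟩ := ex_SR (hT := h.ok) hI y
  rw [hg ψ _ (fun z k hk => h1 z k (set_mono h.lev Iw1_le hk)) ((Kf.val_alg y).trans h2),
    Kf.val_alg, h2]
  exact h1 x _ (iota_mem' h.lev (dO_Iw0 _))

variable (l : ∀ x, Ord w D.e τ x → Loc D U v τ x ∧ Tam D U v x) (o : Ord w D.e τ x)
  (s : T.Sl σ θ) (i : h.Ine (thU s h.lev)) (hσ : ∀ c, ‖D.ι (σ c)‖ = ‖D.ι c‖) {a : ℂ} {c : Oˣ}
  (ha : ‖D.ι a‖ ^ (qq O - 1) = ‖D.ι (D.e w.ϖ)‖)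
  (hc : ‖D.ι (a - D.e (algebraMap O K c) * σ a)‖ < ‖D.ι a‖)

include l o i hσ ha hc

theorem ine3 {φ : SR h.ok} (hφ : Inv (w.set (Iw1 O K) U) φ.1)
    (h1 : v (Ev (x * w.ι (ss O K)) φ) ≤ 1) :
    Cg v (Ev (x * w.ι (ss O K) * w.ι (dO K c)) (Th s φ)) (Ev (x * w.ι (ss O K)) φ) := by
  have hV := lev_set (w := w) h.ok h.lev le_rfl (Iw1_le.trans Iw0_le)
  have e : x * w.ι (Sh.dg w.ϖ) = x * w.ι (ss O K) * w.ι (PP w) := by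
    rw [mul_assoc, ← map_mul, ss_PP]
  have := ine2 h (fun y o => (l y o).1) (o_dg o w.ϖ) (l _ (o_dg o w.ϖ)).2 s i hσ ha hc
    (φ := Rt (w.ι (PP w))⁻¹ φ) (inv_Rt.2 fun k hk => by
      rw [Rt_Rt]
      refine (Rt_eq hφ ?_).symm
      rw [inv_inv, ← mul_assoc]
      exact set_PP h.lev (fun _ hv => PP_Iw1 w hv) hk) (by rwa [Ev_Rt, e, mul_inv_cancel_right])
  rw [Th_Rt, Ev_Rt, Ev_Rt, e, mul_inv_cancel_right, mul_assoc _ (w.ι (PP w)),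
    mul_assoc (x * _)] at this
  rwa [Ev_eq (Th_inv s hV hφ) _ (b := w.ι (PP w) * w.ι (dO K c⁻¹) * (w.ι (PP w))⁻¹) (by
    have h2 := PP_dO w c⁻¹
    rw [← Gn.zl_conj' h2 (PP w), inv_inv] at h2
    simpa [mul_assoc] using iota_mem (V := Iw1 O K) h.lev (Subgroup.mem_sup_right h2))]

theorem n0 {φ : SR h.ok} (hφ : Inv (w.set (Iw1 O K) U) φ.1) :
    v (Ev x (Tc w s c φ)) = v (Ev x φ) :=
  nrm ((Ev x).comp (Tc w s c)) (v_Th s hσ _)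
    (fun _ hφ => ine2 h (fun y o => (l y o).1) o (l x o).2 s i hσ ha hc hφ) hφ

theorem ex_sig : ∃ g : K1 w U x ≃+* K1 w U x, Ac x g (Tc (hT := h.ok) w s c) := by
  have hV := lev_set (w := w) h.ok h.lev le_rfl (Iw1_le.trans Iw0_le)
  refine ex_ac hV _ (fun φ => Tc_inv s h.lev hV) (fun ψ hψ => ?_) fun φ hφ e => ?_
  · obtain ⟨χ, h1, h2⟩ := (s.bij _ hV).surjOn (sr_mem _ (inv_dO h.lev c hψ))
    refine ⟨mkS h.ok hV ⟨χ, h1⟩, h1.2, ?_⟩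
    rw [Tc_eq, show Th s (mkS h.ok hV ⟨χ, h1⟩) = _ from Subtype.ext h2,
      Rt_dO' (inv_mul_cancel c)]
  · have := n0 h l o s i hσ ha hc hφ
    rw [show Ev x φ = 0 from Subtype.ext e, map_zero, map_eq_zero] at this
    exact congrArg Subtype.val this

theorem inr [CFF ℂ (KX T (w.set (Iw0 O K) U) x)] [CFF ℂ (KX T (w.set (Iw1 O K) U) x)]
    {μ₀ μ₁ : NV (Cx D.ι) (K1 w U x)} (b0 : Nv h.ok v x μ₀) (b1 : Nv h.ok v (x * w.ι (ss O K)) μ₁)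
    {σ' : K1 w U x ≃+* K1 w U x} (hσ' : Ac x σ' (Tc (hT := h.ok) w s c))
    {s₁ : K1 w U x ≃ₐ[K0 w U x] K1 w U x}
    (hs : Ac x s₁ (Rt (hT := h.ok) (w.ι (dO K (c⁻¹ * c⁻¹)))))
    (hG : ∀ g : K1 w U x ≃ₐ[K0 w U x] K1 w U x, ∃ e : Oˣ, ∀ φ ∈ T.RU (w.set (Iw1 O K) U), ∀ f,
      Kf.val f = φ x → Kf.val (g f) = φ (x * w.ι (dO K e))) :
    Inr (Cx D.ι) ![μ₀, μ₁] σ' s₁ := by
  have hV := lev_set (w := w) h.ok h.lev le_rfl (Iw1_le.trans Iw0_le)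
  have e1 : ∀ φ : SR h.ok, Ev (x * w.ι (ss O K)) (Tc w s c φ) =
      Ev (x * w.ι (ss O K) * w.ι (dO K c)) (Th s (Rt (w.ι (dO K (c⁻¹ * c⁻¹))) φ)) := fun φ => by
    rw [← Ev_Rt _ (w.ι (dO K c)), Th_Rt, Rt_dO, mul_inv_cancel_left, Tc_eq]
  refine ⟨⟨au D.ι σ, fun b => Kf.val_inj ((hσ' (algebraMap ℂ _ b) _ (fun _ _ _ => rfl) rfl).trans
    (congrFun (s.cst b) _)), hσ⟩, fun g y => Kf.val_inj ?_, fun y => ?_, fun y hy => ?_,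
    fun y => ?_, fun y hy => ?_⟩ <;> obtain ⟨ψ, h1, h2⟩ := ex_SR (hT := h.ok) hV y <;>
    have h3 := Tc_inv (c := c) s h.lev hV h1
  · obtain ⟨e, he⟩ := hG g
    rw [hσ' _ _ (inv_dO h.lev e h1) (he _ (sr_mem ψ h1) y h2), he _ (sr_mem _ h3) _ (hσ' ψ y h1 h2),
      Tc_eq, Th_Rt, Rt_dO, mul_comm, ← Rt_dO]
    rfl
  · exact (b0 _ _ h3 (hσ' ψ y h1 h2)).trans ((n0 h l o s i hσ ha hc h1).trans (b0 ψ y h1 h2).symm)
  · refine (b0 _ _ (inv_sub h3 h1) (by rw [map_sub, hσ' ψ y h1 h2, h2]; rfl)).trans_lt ?_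
    rw [map_sub]
    exact (ine2 h (fun y o => (l y o).1) o (l x o).2 s i hσ ha hc h1
      ((b0 ψ y h1 h2).symm.trans_le hy)).lt
  · refine (b1 _ _ h3 (hσ' ψ y h1 h2)).trans (Eq.trans ?_
      (b1 _ _ (inv_dO h.lev _ h1) (hs ψ y h1 h2)).symm)
    rw [e1]
    exact nrm ((Ev _).comp (Th s)) (v_Th s hσ _) (fun φ hφ => ine3 h l o s i hσ ha hc hφ)
      (inv_dO h.lev _ h1)
  · have h4 := inv_dO h.lev (c⁻¹ * c⁻¹) h1
    refine (b1 _ _ (inv_sub h3 h4) (by rw [map_sub, hσ' ψ y h1 h2, hs ψ y h1 h2]; rfl)).trans_lt ?_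
    rw [map_sub, e1]
    exact (ine3 h l o s i hσ ha hc h4 ((b1 _ _ h4 (hs ψ y h1 h2)).symm.trans_le hy)).lt

theorem twf_pt (nodt : NODT D) (galk : GALK D) {n : ℕ} (hn : n.Coprime (qq O)) {φ : SR h.ok}
    (hφ : Inv (w.set (Iw1 O K) U) φ.1) {g : Mer} (g0 : g ≠ 0) (hg : φ.1 x = g ^ n) :
    ∃ z ∈ KX T (w.set (Iw1 O K) U) x,
      (Rt (w.ι (dO K (c⁻¹ * c⁻¹))) (Th s (Th s φ) * φ)).1 x = (Rt (w.ι (dO K (c⁻¹ * c⁻¹)))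
        (Rt (w.ι (dO K c)) (Th s φ) * Rt (w.ι (dO K c⁻¹)) (Th s φ))).1 x * z ^ n := by
  have hI := lev_set (w := w) h.ok h.lev Iw1_le Iw0_le
  have hV := lev_set (w := w) h.ok h.lev le_rfl (Iw1_le.trans Iw0_le)
  haveI := (h.cf _ (h.ok.fu _ hI x)).1
  haveI := (h.cf _ (h.ok.fu _ hV x)).1
  have nI := Lv.neat_le h.neat (lev_of h Iw0_le)
  obtain ⟨η₀, a0⟩ := ex_nv (hT := h.ok) hI (Tw.Rel.refl x) v
  obtain ⟨η₁, a1⟩ := ex_nv (hT := h.ok) hI (rel_sa h.sa hI x (det_ss (O := O))) v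
  obtain ⟨μ₀, b0⟩ := ex_nv (hT := h.ok) hV (Tw.Rel.refl x) v
  obtain ⟨μ₁, b1⟩ := ex_nv (hT := h.ok) hV (rel_sa h.sa hV x (det_ss (O := O))) v
  obtain ⟨t, _, u, u0, u1, hall, hF, hsep, S, hS⟩ :=
    nodt U h v τ x (fun y o => (l y o).1) o η₀ η₁ a0 a1
  obtain ⟨_, _, hcy, hd, hu, hG⟩ := galk h.ok U h.lev hI hV nI x
  obtain ⟨σ', hσ'⟩ := ex_sig h l o s i hσ ha hc
  obtain ⟨s₁, hs⟩ := ex_deck h c⁻¹ x
  obtain ⟨f, hf⟩ : ∃ f : K1 w U x, Kf.val f = φ.1 x := ⟨⟨_, RU_mem (sr_mem φ hφ) x⟩, rfl⟩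
  have f0 : f ≠ 0 := fun e => pow_ne_zero n g0 (by rw [← hg, ← hf, e, map_zero])
  obtain ⟨z, -, hz⟩ := twi hd hu hcy hF hS hall hsep
    (Fin.forall_fin_two.2 ⟨u0 ▸ a0.down hI b0, u1 ▸ a1.down hI b1⟩)
    (inr h l o s i hσ ha hc b0 b1 hσ' hs hG) (D.cast_ne _ hn) f0
    (dvd_ord h.ok hV (Lv.neat_le nI Fact.out) f0 (hf.trans hg))
  refine ⟨Kf.val z, z.val_mem, ?_⟩
  have h1 := hσ' φ f hφ hf
  have h2 := congrArg Kf.val hz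
  have h3 := Tc_inv (c := c) s h.lev hV hφ
  rw [map_mul, map_mul, map_mul, map_pow, hσ' _ _ h3 h1, h1, hs φ _ hφ hf, hs _ _ h3 h1, Tc_eq,
    Tc_eq, Th_Rt, Rt_dO] at h2
  rw [map_mul, map_mul, Rt_dO, inv_mul_cancel_right]
  exact h2

omit l o in
theorem twf (nodt : NODT D) (galk : GALK D) (r : RDT D U) {n : ℕ} (hn : n.Coprime (qq O)) :
    TwF w θ c (w.set (Iw1 O K) U) n := fun f hf g g0 e => by
  have hV := lev_set (w := w) h.ok h.lev le_rfl (Iw1_le.trans Iw0_le)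
  have h1 := Th_inv s hV (φ := mkS h.ok hV ⟨f, hf⟩) hf.2
  have hA := sr_mem _ (inv_dO h.lev (c⁻¹ * c⁻¹) (inv_mul (Th_inv s hV h1) (φ := Th s (Th s _))
    (ψ := mkS h.ok hV ⟨f, hf⟩) hf.2))
  have hB := sr_mem _ (inv_dO h.lev (c⁻¹ * c⁻¹) (inv_mul (inv_dO h.lev c h1) (inv_dO h.lev c⁻¹ h1)))
  have key : ∀ x, ∃ z ∈ KX T (w.set (Iw1 O K) U) x, _ = _ * z ^ n := fun x => by
    obtain ⟨τ, y, o, r'⟩ := ordx h hV x
    obtain ⟨v, l⟩ := r τ y o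
    obtain ⟨z, h2, h3⟩ := twf_pt h l o s i hσ ha hc nodt galk hn (φ := mkS h.ok hV ⟨f, hf⟩) hf.2
      (g0 y) (congrFun e y)
    obtain ⟨ψ, h4, rfl, -⟩ := Tw.ex_RU y h2
    exact ⟨ψ x, RU_mem h4 x, Tw.RU_ext hA (mul_mem hB (pow_mem h4 n)) h3 r'.symm⟩
  choose z h2 h3 using key
  obtain ⟨ψ, h4, h5⟩ := Tw.ex_RU_all h2
  have h6 : _ = _ * mkS h.ok hV ⟨ψ, h4⟩ ^ n := Subtype.ext
    (Tw.RU_ext_rp hA (mul_mem hB (pow_mem h4 n)) fun x => (h3 _).trans (by rw [← h5]; rfl))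
  have h7 := congrArg (Rt (w.ι (dO K (c⁻¹ * c⁻¹)⁻¹))) h6
  rw [Rt_dO' (inv_mul_cancel _), map_mul, Rt_dO' (inv_mul_cancel _), map_pow] at h7
  exact ⟨_, sr_mem _ (inv_dO h.lev _ (φ := mkS h.ok hV ⟨ψ, h4⟩) h4.2), congrArg Subtype.val h7⟩

omit l o i hσ ha hc in
/-- **TWL** from its pieces -/
theorem twl_of (kum : KUM w) (nodt : NODT D) (galk : GALK D) : TWL D := by
  intro ok sa rd σ θ s dec ine a c ha hc U₀ h0 n0 m0 V hV le hm d d' n hn hq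
  have hU := Lv.set_KK (w := w) hV
  have ne := Lv.neat_le n0 (set_le hV h0 m0 le)
  haveI : ∀ x, CFF ℂ (KX T (w.set (KK O K) V) x) := fun x => (T.cf _ (ok.fu _ hU x)).1
  obtain ⟨r1, r2⟩ := rd _ hU ne (Lv.At_set hV)
  have h : Ctx D (w.set (KK O K) V) := ⟨ok, T.cf, T.gen, hU, ne, Lv.At_set hV, sa, r1⟩
  exact kum ok σ θ s c V hV hm d d' n hn
    (set_set hV hm ▸ twf h s (ine _ h) dec.iso ha hc nodt galk r2 hq)

end Vale.Agent.P022K.FI.X1
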