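import Vale.Agent.P022K.FI.X1V

/-!
# P022K FI, row X0, file Y: inertia, Frobenius and the tame character at a fixed embedding
-/

set_option autoImplicit false
set_option linter.unusedSectionVars false
set_option linter.style.haveILetI false

open NumberField IsDedekindDomain
open scoped MatrixGroups

noncomputable section

namespace Vale.Agent.P022K.FI.X1

open Vale.Agent.P022 Vale.Agent.P022K.Sh Vale.Agent.P022K.F0 Hk H916 Vale.Agent.P019P

variable {F : Type} [Field F] [NumberField F] {X : QD F}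
  {O K : Type} [CommRing O] [IsDomain O] [IsDiscreteValuationRing O] [Field K] [Algebra O K]
  {L : X.tw.Lc O K} {w : Pl F} {p : ℕ} [Fact p.Prime]

/-- inertia and Frobenius on the reduction, at every good level -/
theorem ine_fro (noa : NOA) (left : X.tw.LEFT) (ari : ARIX X) (rdx : RDX X) (hw : X.IsPl w L)
    (D : Emb L p) (he : IsE X L D.e) {σ : ℂ ≃+* ℂ} {θ} (s : X.tw.Sl σ θ) (U)
    [∀ x, CFF ℂ (KX X.tw U x)] (h : Ctx D U) :
    (Dec D.ι D.e 1 σ → h.Ine (thU s h.lev)) ∧ (Dec D.ι D.e (qq O) σ → h.Fro (thU s h.lev)) := by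
  obtain ⟨sa, rd⟩ := rdx O K L w hw p D he
  have inst : ∀ U ∈ X.tw.Lev, ∀ x, CFF ℂ (KX X.tw U x) := fun U hU x =>
    (X.tw.cf _ (X.ok.fu U hU x)).1
  have main : ∀ d, Dec D.ι D.e (qq O ^ d) σ → ∃ th, IsTh L D.e σ θ U th ∧
      ∀ y, th y = (fw L D.e U)^[d] y := fun d dec => by
    obtain ⟨h1, h2⟩ := noa _ _ X.tw X.ok (Tw.pts_of X.ok X.tw.cf) (mul_row X.ok)
      (Oc.ff X.ok left) (cenx X) (cjx X) O K L D.e D.cmp (ari (sa_of X rdx) O K L w hw D.e) σ θ s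
      dec.fix
    obtain ⟨th, t⟩ := h1 U h.lev
    refine ⟨th, t, h2 d (fun V hV nV mV th t => ?_) U h.lev h.neat h.mx th t⟩
    haveI := inst V hV
    exact Ctx.rigb ⟨X.ok, X.tw.cf, X.tw.gen, hV, nV, mV, sa, rd V hV nV mV⟩ s
      ⟨dec.iso, dec.pow⟩ t
  refine ⟨fun dec => ?_, fun dec => ?_⟩
  · obtain ⟨th, t, e⟩ := main 0 (by rwa [pow_zero])
    exact h.ine s ⟨dec.iso, dec.pow⟩ t e
  · obtain ⟨th, t, e⟩ := main 1 (by rwa [pow_one])
    exact h.fro s ⟨dec.iso, dec.pow⟩ t e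

/-- a slice over every extension of an element fixing the field -/
theorem ex_sl (can : X.CAN) {j : F →+* Qb} {io : Qb →+* ℂ} (hj : X.Emb j io) {g : GQ}
    (hg : g ∈ GK j) {σ : ℂ ≃+* ℂ} (e : Tw.Ext io g σ) : ∃ θ, X.tw.Sl σ θ := can.ex σ (by
  rintro _ ⟨c, rfl⟩
  rw [← hj, RingHom.comp_apply, e, hg])

/-- the tame character at a fixed embedding -/
theorem tame (hw : X.IsPl w L) {j : F →+* Qb} {io : Qb →+* ℂ} (hj : X.Emb j io)
    {P : Ideal (𝓞 Qb)} (hP : P.IsPrime) (hb : below j P = w.asIdeal) (D : Emb L p)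
    (he : IsE X L D.e) (hq : ∃ f, 0 < f ∧ qq O = p ^ f)
    (hp : ∀ x : 𝓞 Qb, ‖D.ι (io x)‖ < 1 ↔ x ∈ P) : ∃ (l : ℂ) (c : GQ → Oˣ),
    ‖D.ι l‖ ^ (qq O - 1) = ‖D.ι (D.e L.ϖ)‖ ∧
    (∀ g ∈ GK j, ∀ σ, Tw.Ext io g σ → (∀ a, ‖D.ι (σ a)‖ = ‖D.ι a‖) →
      ‖D.ι (l - D.e (algebraMap O K (c g)) * σ l)‖ < ‖D.ι l‖) ∧
    ∀ d : Oˣ, ∃ g ∈ GK j, (∀ x : 𝓞 Qb, g • x - x ∈ P) ∧
      (c g : O) - d ∈ IsLocalRing.maximalIdeal O := by
  obtain ⟨n, n0, hn⟩ := hq
  have := L.fr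
  have := L.fin
  have hE : ∀ c, ‖(D.ι.toRingHom.comp D.e) c‖ ≤ 1 ↔ ig O c := D.int
  have m0 : 0 < qq O - 1 := Nat.sub_pos_of_lt Finite.one_lt_card
  obtain ⟨π, p1, p2, p3⟩ := ex_pi X hw D he
  obtain ⟨l, hl⟩ := IsAlgClosed.exists_pow_nat_eq (j π) m0
  have l1 : ‖D.ι (io l)‖ ^ (qq O - 1) = ‖D.ι (D.e L.ϖ)‖ := by
    rw [← norm_pow, ← map_pow, ← map_pow, hl, ← p3, ← hj, RingHom.comp_apply]
  have l0 : l ≠ 0 := fun e => by
    rw [e, map_zero, map_zero, norm_zero, zero_pow m0.ne'] at l1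
    simpa using l1.symm
  have key : ∀ g : GQ, ∃ c : Oˣ, g ∈ GK j →
      ‖D.ι (D.e (algebraMap O K c)) - D.ι (io (l / g l))‖ < 1 := fun g => by
    by_cases hg : g ∈ GK j
    · exact (ex_unit hE (D.ι.toRingHom.comp io) (ζ := l / g l) (by
        rw [div_pow, ← map_pow, hl, hg, ← hl, div_self (pow_ne_zero _ l0)])).imp fun _ h _ => h
    · exact ⟨1, fun h => absurd h hg⟩
  choose c hc using key
  refine ⟨io l, c, l1, fun g hg σ e iso => ?_, fun d => ?_⟩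
  · have g0 : g l ≠ 0 := (map_ne_zero g).2 l0
    have e1 : io l - D.e (algebraMap O K (c g)) * σ (io l) =
        -(σ (io l) * (D.e (algebraMap O K (c g)) - io (l / g l))) := by
      rw [e, map_div₀, mul_sub, mul_div_cancel₀ _ ((map_ne_zero io).2 g0)]
      ring
    rw [e1, map_neg, norm_neg, map_mul, norm_mul, iso, map_sub]
    exact mul_lt_of_lt_one_right (by simpa using l0) (hc g hg)
  · obtain ⟨ζ, z1, z2⟩ := ex_root hE (D.ι.toRingHom.comp io) d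
    have z0 : ζ ≠ 0 := fun e => by simp [e, m0.ne'] at z1
    obtain ⟨g, g1, g2, g3⟩ := tch F j w P hP hb π p1 p2 (qq O - 1) (fun h => by
      rw [← hb, below, Ideal.mem_comap, map_natCast, Nat.cast_sub (by omega), hn, Nat.cast_pow,
        Nat.cast_one] at h
      have h2 : (p : 𝓞 Qb) ∈ P := (hp _).1 (by
        rw [show ((p : 𝓞 Qb) : Qb) = p from rfl, map_natCast, map_natCast]
        exact CS.norm_p_lt p)
      exact hP.ne_top ((Ideal.eq_top_iff_one P).2 (by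
        simpa using sub_mem (P.pow_mem_of_mem h2 n n0) h))) l ζ⁻¹ hl (by rw [inv_pow, z1, inv_one])
    refine ⟨g, g1, g2, (lt_iff hE).1 ?_⟩
    have h2 := hc g g1
    rw [g3, mul_comm, ← div_div, div_self l0, div_inv_eq_mul, one_mul] at h2
    rw [map_sub, map_sub]
    exact sub_lt h2 z2

end Vale.Agent.P022K.FI.X1
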