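import Vale.Agent.P022K.FI.As2
import Vale.Agent.P022K.FI.X1N
import Vale.Agent.P022K.FI.X1V

/-!
# P022K FI, row X0, file Z: inertia at level `Iw1` on Shimura curves
-/

set_option autoImplicit false

namespace Vale.Agent.P022K.FI.X1

open Vale.Agent.P022K.Sh

/-- **TWX** -/
theorem twx {F : Type} [Field F] [NumberField F] (X : QD F) : TWX X :=
  twx_of X (fun _ _ _ _ _ _ _ _ _ _ D => twl D) noa (left _ _ _ X.ok) (can F X) (arix X) (rdx X)
    (rtx X)

end Vale.Agent.P022K.FI.X1
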